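import Vale.Agent.P127.U.Lam.Exc
import Vale.Agent.P127.U.ExcB
import Vale.Agent.P127.U.ExcA

/-!
# P127 / U / Lam : the penalised excess, inequalities (helper624, after helper379)
-/

set_option autoImplicit false

namespace Vale.Agent.P127.U.Lam

open Filter Topology Vale.Agent.P127 Vale.Agent.P127.Stk Vale.Agent.P127.U Sys ExcB

variable {lam : ℝ}

section finite

variable {Ω : Type} [Fintype Ω] {γ : Type*}

/-- coarsening by `m` digits costs a bounded amount -/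
theorem exV_crs (hl : 0 ≤ lam ∧ lam ≤ 1) (P : Law Ω) (B W : Bx Ω) (C : Ω → γ) (m : ℕ)
    (hW : ∀ ω, 0 < P.w ω → W.k ω ≤ W.j ω) :
    exVl lam P B W C ≤ exVl lam P B (crs m W) C + (Real.log (((2 * 4 + 1) ^ 4 : ℕ) : ℝ) +
      Real.log 2 * (2 * m)) := by
  have h1 : Stk.hc P (crs m W).lab (fun ω => (W.lab ω, C ω)) ≤
      Real.log (((2 * 4 + 1) ^ 4 : ℕ) : ℝ) := by
    refine hc_labCl' P _ _ 4 fun ω ω' hω hω' e => ?_
    have e1 : W.lab ω' = W.lab ω := congrArg Prod.fst e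
    have ek : W.k ω' = W.k ω := congrArg (fun q => q.1) e1
    have ej : W.j ω' = W.j ω := congrArg (fun q => q.2.1) e1
    have hkj := hW ω hω
    show LabCl 4 (lab (W.θ ω') (min (W.k ω') (W.j ω' - m)) (W.j ω' - m) (W.l ω'))
      (lab (W.θ ω) (min (W.k ω) (W.j ω - m)) (W.j ω - m) (W.l ω))
    rw [ek, ej]
    refine lab_coarse (k := W.k ω) (j := W.j ω) hkj (min_le_right _ _) (min_le_left _ _)
      (Nat.sub_le _ _) ?_ ?_
    · rcases le_total (W.k ω) (W.j ω - m) with h2 | h2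
      · rw [min_eq_left h2]
        omega
      · rw [min_eq_right h2]
        omega
    · have e2 : lab (W.θ ω') (W.k ω') (W.j ω') (W.l ω') = lab (W.θ ω) (W.k ω) (W.j ω) (W.l ω) := e1
      rw [ek, ej] at e2
      exact e2
  have h2 := Stk.hc_le_add' P B.lab (crs m W).lab (fun ω => (W.lab ω, C ω))
  -- `H(B | W, C) ≤ H(B | W', W, C) + H(W' | W, C)`
  have h3 : Stk.hc P B.lab (fun ω => (W.lab ω, C ω)) ≤
      Stk.hc P B.lab (fun ω => ((crs m W).lab ω, W.lab ω, C ω)) +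
        Stk.hc P (crs m W).lab (fun ω => (W.lab ω, C ω)) := h2
  have h4 : Stk.hc P B.lab (fun ω => ((crs m W).lab ω, W.lab ω, C ω)) ≤
      Stk.hc P B.lab (fun ω => ((crs m W).lab ω, C ω)) := by
    refine Stk.hc_mono_right P B.lab fun ω ω' _ _ e => ?_
    simp only [Prod.mk.injEq] at e ⊢
    exact ⟨e.1, e.2.2⟩
  have h5 : (P.ex fun ω => B.szl lam ω - (crs m W).szl lam ω) ≤ (P.ex fun ω => B.szl lam ω - W.szl lam ω) + 2 * m := by
    have e1 : (P.ex fun ω => (B.szl lam ω - W.szl lam ω) + 2 * (m : ℝ)) =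
        (P.ex fun ω => B.szl lam ω - W.szl lam ω) + 2 * m := by
      rw [P.ex_add, P.ex_const]
    rw [← e1]
    refine P.ex_mono fun ω hω => ?_
    have hkj := hW ω hω
    have k1 : (W.j ω : ℝ) ≤ ((W.j ω - m : ℕ) : ℝ) + m := by
      have : W.j ω ≤ (W.j ω - m) + m := by omega
      exact_mod_cast this
    have k2 : (W.k ω : ℝ) ≤ ((min (W.k ω) (W.j ω - m) : ℕ) : ℝ) + m := by
      have : W.k ω ≤ min (W.k ω) (W.j ω - m) + m := by
        rcases le_total (W.k ω) (W.j ω - m) with h2 | h2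
        · rw [min_eq_left h2]
          omega
        · rw [min_eq_right h2]
          omega
      exact_mod_cast this
    show B.szl lam ω - ((1 + lam) * ((min (W.k ω) (W.j ω - m) : ℕ) : ℝ) +
      (1 - lam) * ((W.j ω - m : ℕ) : ℝ)) ≤
      B.szl lam ω - ((1 + lam) * (W.k ω : ℝ) + (1 - lam) * W.j ω) + 2 * m
    have k3 := mul_le_mul_of_nonneg_left k2 (show 0 ≤ 1 + lam by linarith [hl.1])
    have k4 := mul_le_mul_of_nonneg_left k1 (show 0 ≤ 1 - lam by linarith [hl.2])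
    linarith
  have h6 : Real.log 2 * (P.ex fun ω => B.szl lam ω - (crs m W).szl lam ω) ≤
      Real.log 2 * ((P.ex fun ω => B.szl lam ω - W.szl lam ω) + 2 * m) :=
    mul_le_mul_of_nonneg_left h5 (Real.log_nonneg (by norm_num))
  unfold exVl
  rw [mul_add] at h6
  linarith

/-- finite form of `pExcLe` -/
theorem exV_le_excF' (hl : 0 ≤ lam ∧ lam ≤ 1) {P : Law Ω} {B : Bx Ω} {C : Ω → γ} {Ω' : Type} [Fintype Ω'] {P' : Law Ω'}
    {π : Ω' → Ω} {W : Bx Ω'} {c : ℝ} {m : ℕ} (hm : c ≤ 2 ^ m) (h1 : ∀ ω, P'.pr π ω = P.w ω)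
    (h2 : ∀ ω, 0 < P'.w ω → Sub c (B.comp π) W ω) :
    exVl lam P' (B.comp π) W (fun ω => C (π ω)) ≤ excFl lam P B C +
      (Real.log (((2 * 4 + 1) ^ 4 : ℕ) : ℝ) + Real.log 2 * (2 * m)) := by
  have h3 := exV_crs hl P' (B.comp π) W (fun ω => C (π ω)) m fun ω hω => (h2 ω hω).2.2.1
  have h4 := exV_le_excF hl (C := C) h1 fun ω hω => crs_sub hm (h2 ω hω)
  linarith

/-- finite form of `pExcCongr` -/
theorem excF_le_add (hl : 0 ≤ lam ∧ lam ≤ 1) {δ : Type*} {P : Law Ω} {B : Bx Ω} (C : Ω → γ) (C' : Ω → δ)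
    (h : ∀ ω, 0 < P.w ω → BxOk B ω) : excFl lam P B C ≤ excFl lam P B C' + Stk.hc P C' C := by
  refine csSup_le ⟨0, zero_mem_exSet h⟩ ?_
  rintro v ⟨Ω', _, P', π, W, h1, h2, rfl⟩
  have h3 := exV_le_excF hl (C := C') h1 h2
  have h4 : Stk.hc P' (B.comp π).lab (fun ω => (W.lab ω, C (π ω))) ≤
      Stk.hc P' (B.comp π).lab (fun ω => (C' (π ω), W.lab ω, C (π ω))) +
        Stk.hc P' (fun ω => C' (π ω)) (fun ω => (W.lab ω, C (π ω))) :=
    Stk.hc_le_add' P' (B.comp π).lab (fun ω => C' (π ω)) (fun ω => (W.lab ω, C (π ω)))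
  have h5 : Stk.hc P' (B.comp π).lab (fun ω => (C' (π ω), W.lab ω, C (π ω))) ≤
      Stk.hc P' (B.comp π).lab (fun ω => (W.lab ω, C' (π ω))) := by
    refine Stk.hc_mono_right P' _ fun ω ω' _ _ e => ?_
    simp only [Prod.mk.injEq] at e ⊢
    exact ⟨e.2.1, e.1⟩
  have h6 : Stk.hc P' (fun ω => C' (π ω)) (fun ω => (W.lab ω, C (π ω))) ≤
      Stk.hc P' (fun ω => C' (π ω)) (fun ω => C (π ω)) :=
    Stk.hc_mono_right P' _ fun ω ω' _ _ e => congrArg Prod.snd e
  have h7 : Stk.hc P' (fun ω => C' (π ω)) (fun ω => C (π ω)) = Stk.hc P C' C :=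
    Stk.hc_of_law P' P π h1 C' C
  unfold exVl at h3 ⊢
  linarith

end finite

theorem excl_ext {S S' : Sys} (e : Ext S' S) {γ : Type} (C : S.RV γ) (B : S.BX) :
    S'.excl lam (e.pullB B) (e.pull C) = S.excl lam B C := by
  unfold Sys.excl
  refine ulim_congr (Eventually.of_forall fun i => ?_)
  have h1 : excFl lam (S'.P i) ((B i).comp (e.π i)) (fun ω => C i (e.π i ω)) =
      excFl lam (S.P i) (B i) (C i) := excF_ext (S'.P i) (S.P i) (e.π i) (e.law i) (B i) (C i)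
  show excFl lam (S'.P i) ((B i).comp (e.π i)) (fun ω => C i (e.π i ω)) / S'.nm i = _
  rw [h1, e.nm]

theorem excl_cond (hl : 0 ≤ lam ∧ lam ≤ 1) {S : Sys} {γ δ : Type} (C : S.RV γ) (C' : S.RV δ)
    {B : S.BX} (hB : BxA B) : S.excl lam B (Sys.pr C' C) ≤ S.excl lam B C := by
  unfold Sys.excl
  refine ulim_le (ub_exc hl hB _) (ub_exc hl hB _) ?_
  filter_upwards [S.nm_pos, hB.1] with i hi h1
  exact div_le_div_of_nonneg_right (excF_cond hl (C i) (C' i) h1) hi.le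

/-- nearly optimal boxes form a system -/
theorem exists_opt (hl : 0 ≤ lam ∧ lam ≤ 1) (S : Sys) {γ : Type} (C : S.RV γ) (B : S.BX) (hB : BxA B) :
    ∃ (S' : Sys) (e : Ext S' S) (W : S'.BX), BxA W ∧
      (S'.Ae fun i ω => Sub 1 ((e.pullB B) i) (W i) ω) ∧
      S'.vall lam (e.pullB B) W (e.pull C) = S.excl lam B C := by
  classical
  have key : ∀ i, ∃ (Ω' : Type) (_ : Fintype Ω') (P' : Law Ω') (π : Ω' → S.Ω i) (W : Bx Ω'),
      (∀ ω, P'.pr π ω = (S.P i).w ω) ∧ ((∀ ω, 0 < (S.P i).w ω → BxOk (B i) ω) →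
        (∀ ω, 0 < P'.w ω → Sub 1 ((B i).comp π) W ω) ∧
        excFl lam (S.P i) (B i) (C i) - 1 ≤ exVl lam P' ((B i).comp π) W fun ω => C i (π ω)) := by
    intro i
    by_cases h : ∀ ω, 0 < (S.P i).w ω → BxOk (B i) ω
    · obtain ⟨Ω', j, P', π, W, h1, h2, h3⟩ := exists_near (lam := lam) (C := C i) h
      exact ⟨Ω', j, P', π, W, h1, fun _ => ⟨h2, h3⟩⟩
    · exact ⟨S.Ω i, inferInstance, S.P i, id, B i, Stk.pr_id _, fun h' => absurd h' h⟩
  choose Ω' hf P' π W h1 h2 using key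
  let S' : Sys := ⟨Ω', hf, P', S.L, S.Ltop⟩
  let e : Ext S' S := ⟨π, rfl, h1⟩
  let W' : S'.BX := W
  have hsub : S'.Ae fun i ω => Sub 1 ((e.pullB B) i) (W' i) ω := by
    filter_upwards [hB.1] with i hi ω hω
    exact (h2 i hi).1 ω hω
  have hBe : BxA (e.pullB B) := e.bxA hB
  have hW : BxA W' := bxA_of_sub hBe ⟨1, hsub⟩
  refine ⟨S', e, W', hW, hsub, ?_⟩
  rw [vall_eq hl hBe hW]
  have hub := ub_exc hl hB C
  have hubV := ub_exV hl hBe hW (e.pull C)
  unfold Sys.excl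
  refine ulim_squeeze (c := fun i => 1 / S.nm i) hubV hub (S.const_div_nm 1) ?_
  filter_upwards [hB.1, S.nm_pos] with i hi hn
  have h3 := (h2 i hi).2
  have h4 : exVl lam (P' i) ((B i).comp (π i)) (W i) (fun ω => C i (π i ω)) ≤
      excFl lam (S.P i) (B i) (C i) := exV_le_excF hl (h1 i) (h2 i hi).1
  show |exVl lam (P' i) ((B i).comp (π i)) (W i) (fun ω => C i (π i ω)) / S.nm i -
    excFl lam (S.P i) (B i) (C i) / S.nm i| ≤ 1 / S.nm i
  rw [← sub_div, abs_div, abs_of_pos hn]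
  apply div_le_div_of_nonneg_right _ hn.le
  rw [abs_le]
  constructor <;> linarith

/-- the penalised excess is attained by a soft label -/
theorem excl_att (hl : 0 ≤ lam ∧ lam ≤ 1) {S : Sys} {γ : Type} (C : S.RV γ) {B : S.BX} (hB : BxA B) :
    ∃ (S' : Sys) (e : Ext S' S) (W : S'.BX), BxA W ∧ SubA (e.pullB B) W ∧
      S'.vall lam (e.pullB B) W (e.pull C) = S.excl lam B C ∧
      ∀ (δ : Type) (R : S.RV δ),
        S'.hc W.lab (Sys.pr (e.pull R) (Sys.pr (e.pullB B).lab (e.pull C))) =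
          S'.hc W.lab (Sys.pr (e.pullB B).lab (e.pull C)) := by
  classical
  obtain ⟨S₁, e₁, W₁, hW₁, hs₁, hv₁⟩ := exists_opt hl S C B hB
  -- independent copy of the line, given the label of `B` and `C`
  let V : S.RV (Lab × γ) := Sys.pr (BX.lab B) C
  obtain ⟨S', f₁, f₂, g1, g2⟩ := exists_glue e₁ (Ext.refl S) V
  have hV : ∀ i ω, (B i).lab (e₁.π i (f₁.π i ω)) = (B i).lab (f₂.π i ω) ∧
      C i (e₁.π i (f₁.π i ω)) = C i (f₂.π i ω) := by
    intro i ω
    have := g1 i ω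
    exact Prod.mk.injEq _ _ _ _ ▸ this
  let W : S'.BX := fun i => ⟨fun ω => (B i).l (f₂.π i ω), fun ω => (W₁ i).θ (f₁.π i ω),
    fun ω => (W₁ i).k (f₁.π i ω), fun ω => (W₁ i).j (f₁.π i ω)⟩
  have hBe : BxA (f₂.pullB B) := f₂.bxA hB
  -- the label of `W` is close to the label of `W₁`
  have key : S'.Ae fun i ω => Sub 2 ((f₂.pullB B) i) (W i) ω ∧
      LabCl 5 ((W i).lab ω) ((W₁ i).lab (f₁.π i ω)) := by
    have k1 := f₁.ae hs₁
    have k2 := f₁.ae (e₁.bxA hB).1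
    filter_upwards [hBe.1, k1, k2] with i r1 r2 r3 ω hω
    exact sub_change (B₁ := (e₁.pullB B) i) (B := (f₂.pullB B) i) (W₁ := W₁ i) (ω₁ := f₁.π i ω)
      (ω := ω) (W := W i) (r1 ω hω) (r3 ω hω) ((hV i ω).1).symm (r2 ω hω) rfl rfl rfl rfl
  have hsub : SubA (f₂.pullB B) W := ⟨2, by filter_upwards [key] with i hi ω hω using (hi ω hω).1⟩
  have hW : BxA W := bxA_of_sub hBe hsub
  have hcl : S'.Ae fun i ω => LabCl 5 (BX.lab W i ω) ((f₁.pull (BX.lab W₁)) i ω) := by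
    filter_upwards [key] with i hi ω hω using (hi ω hω).2
  have hcl' : S'.Ae fun i ω => LabCl 5 ((f₁.pull (BX.lab W₁)) i ω) (BX.lab W i ω) := by
    filter_upwards [hcl] with i hi ω hω using (hi ω hω).symm
  have tW : Tame (BX.lab W) := hW.tame
  have tW₁ : Tame (f₁.pull (BX.lab W₁)) := f₁.tame hW₁.tame
  -- equality of the labels of `B`, and of `C`
  have eB : (f₂.pullB B).lab = f₁.pull (e₁.pull (BX.lab B)) := by
    funext i ω
    exact ((hV i ω).1).symm
  have eC : f₂.pull C = f₁.pull (e₁.pull C) := by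
    funext i ω
    exact ((hV i ω).2).symm
  refine ⟨S', f₂, W, hW, hsub, ?_, ?_⟩
  · -- the value
    rw [← hv₁]
    unfold Sys.vall
    congr 1
    · -- the entropy
      rw [eB, eC]
      have h1 : S'.hc (f₁.pull (e₁.pull (BX.lab B))) (Sys.pr (BX.lab W) (f₁.pull (e₁.pull C))) =
          S'.hc (f₁.pull (e₁.pull (BX.lab B)))
            (Sys.pr (f₁.pull (BX.lab W₁)) (f₁.pull (e₁.pull C))) := by
        have tB : Tame (f₁.pull (e₁.pull (BX.lab B))) := f₁.tame (e₁.tame hB.tame)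
        have z1 : S'.hc (BX.lab W) (Sys.pr (f₁.pull (BX.lab W₁)) (f₁.pull (e₁.pull C))) = 0 :=
          hc_of_labCl 5 hcl _
        have z2 : S'.hc (f₁.pull (BX.lab W₁)) (Sys.pr (BX.lab W) (f₁.pull (e₁.pull C))) = 0 :=
          hc_of_labCl 5 hcl' _
        have s1 := hc_cond_zero tB tW z1
        have s2 := hc_cond_zero tB tW₁ z2
        rw [← s1, ← s2]
        exact hc_congr (Eventually.of_forall fun _ _ _ _ _ e => congrArg Prod.fst e)
          (Eventually.of_forall fun _ _ _ _ _ e => congrArg Prod.fst e)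
          (Eventually.of_forall fun _ _ _ _ _ e => by
            simp only [Sys.pr_apply, Prod.mk.injEq] at e ⊢
            exact ⟨e.2.1, e.1, e.2.2⟩)
          (Eventually.of_forall fun _ _ _ _ _ e => by
            simp only [Sys.pr_apply, Prod.mk.injEq] at e ⊢
            exact ⟨e.2.1, e.1, e.2.2⟩)
      rw [h1]
      exact f₁.hc (e₁.pull (BX.lab B)) (Sys.pr (BX.lab W₁) (e₁.pull C))
    · -- the sizes
      have h2 := f₁.av (fun i ω => BX.szl lam (e₁.pullB B) i ω - BX.szl lam W₁ i ω)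
      rw [← h2]
      congr 1
      funext i ω
      have h3 := lab_shape (B := (B i).comp (e₁.π i)) (B' := (B i).comp (f₂.π i))
        (ω := f₁.π i ω) (ω' := ω) (hV i ω).1
      show (1 + lam) * ((B i).k (f₂.π i ω) : ℝ) + (1 - lam) * ((B i).j (f₂.π i ω) : ℝ) -
          ((1 + lam) * ((W₁ i).k (f₁.π i ω) : ℝ) + (1 - lam) * ((W₁ i).j (f₁.π i ω) : ℝ)) =
        (1 + lam) * ((B i).k (e₁.π i (f₁.π i ω)) : ℝ) + (1 - lam) * ((B i).j (e₁.π i (f₁.π i ω)) : ℝ) -
          ((1 + lam) * ((W₁ i).k (f₁.π i ω) : ℝ) + (1 - lam) * ((W₁ i).j (f₁.π i ω) : ℝ))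
      have h4 : (B i).k (e₁.π i (f₁.π i ω)) = (B i).k (f₂.π i ω) := h3.1
      have h5 : (B i).j (e₁.π i (f₁.π i ω)) = (B i).j (f₂.π i ω) := h3.2
      rw [h4, h5]
  · -- the independence
    intro δ R
    have eV : Sys.pr (f₂.pullB B).lab (f₂.pull C) = f₁.pull (e₁.pull V) := by
      funext i ω
      exact (g1 i ω).symm
    rw [eV]
    -- replace `W` by `W₁`
    have rep : ∀ {T : Type} (Y : S'.RV T), S'.hc (BX.lab W) Y = S'.hc (f₁.pull (BX.lab W₁)) Y := by
      intro T Y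
      refine le_antisymm ?_ ?_
      · exact hc_le_of_zero tW tW₁ (hc_of_labCl 5 hcl _)
      · exact hc_le_of_zero tW₁ tW (hc_of_labCl 5 hcl' _)
    show S'.hc (BX.lab W) _ = S'.hc (BX.lab W) _
    rw [rep, rep]
    have i1 := (g2 (BX.lab W₁) R).1
    rw [i1]
    exact (f₁.hc (BX.lab W₁) (e₁.pull V)).symm


/-- the excess is nonnegative -/
theorem excl_nonneg (hl : 0 ≤ lam ∧ lam ≤ 1) {S : Sys} {γ : Type} (C : S.RV γ) {B : S.BX} (hB : BxA B) :
    0 ≤ S.excl lam B C := by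
  refine const_le_ulim (ub_exc hl hB C) ?_
  filter_upwards [S.nm_pos, hB.ok] with i h1 h2
  exact div_nonneg (excF_nonneg hl h2) h1.le

/-- every box gives a lower bound for the excess -/
theorem excl_ge (hl : 0 ≤ lam ∧ lam ≤ 1) {S S' : Sys} (e : Ext S' S) {γ : Type} (C : S.RV γ)
    {B : S.BX} {W : S'.BX} (hB : BxA B) (hW : BxA W) (hs : SubA (e.pullB B) W) :
    S'.vall lam (e.pullB B) W (e.pull C) ≤ S.excl lam B C := by
  have hB' := e.bxA hB
  rw [vall_eq hl hB' hW]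
  obtain ⟨c, hc⟩ := hs
  obtain ⟨m, hm⟩ : ∃ m : ℕ, c ≤ 2 ^ m := by
    obtain ⟨m, hm⟩ := pow_unbounded_of_one_lt c (one_lt_two (α := ℝ))
    exact ⟨m, hm.le⟩
  refine ulim_le_of_sub (ub_exV hl hB' hW _) (ub_exc hl hB C)
    (S.const_div_nm (Real.log (((2 * 4 + 1) ^ 4 : ℕ) : ℝ) + Real.log 2 * (2 * m))) ?_
  filter_upwards [hc, S.nm_pos] with i h1 h2
  rw [e.nm, ← add_div]
  refine div_le_div_of_nonneg_right ?_ h2.le
  exact exV_le_excF' hl (C := C i) hm (e.law i) h1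

/-- comparison of the excess for two conditions -/
theorem excl_le_add (hl : 0 ≤ lam ∧ lam ≤ 1) {S : Sys} {γ δ : Type} {C : S.RV γ} {C' : S.RV δ} {B : S.BX}
    (hB : BxA B) (hC' : Tame C') : S.excl lam B C ≤ S.excl lam B C' + S.hc C' C := by
  unfold Sys.excl Sys.hc
  rw [← ulim_add (ub_exc hl hB C') (UB.hc hC' C)]
  refine ulim_le (ub_exc hl hB C) ((ub_exc hl hB C').add (UB.hc hC' C)) ?_
  filter_upwards [S.nm_pos, hB.ok] with i h1 h2
  rw [← add_div]
  exact div_le_div_of_nonneg_right (excF_le_add hl _ _ h2) h1.le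

/-- equivalent conditions -/
theorem excl_congr (hl : 0 ≤ lam ∧ lam ≤ 1) {S : Sys} {γ δ : Type} {C : S.RV γ} {C' : S.RV δ}
    {B : S.BX} (hB : BxA B) (hC : Tame C) (hC' : Tame C') (h : S.hc C C' = 0) (h' : S.hc C' C = 0) :
    S.excl lam B C = S.excl lam B C' := by
  have h1 := excl_le_add hl (C := C) (C' := C') hB hC'
  have h2 := excl_le_add hl (C := C') (C' := C) hB hC
  linarith

/-- excess of a coarser box `U` -/
theorem excl_coarse (hl : 0 ≤ lam ∧ lam ≤ 1) {S : Sys} {γ : Type} (C : S.RV γ) {B U : S.BX}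
    (hB : BxA B) (hU : BxA U) (hs : SubA B U) :
    S.excl lam U C ≤ S.excl lam B C + S.av (fun i ω => B.szl lam i ω - U.szl lam i ω) -
      S.hc B.lab (Sys.pr U.lab C) + S.hc U.lab (Sys.pr B.lab C) := by
  obtain ⟨S', e, W, hW, hsW, hv, hind⟩ := excl_att hl C hU
  have hB' := e.bxA hB
  have hU' := e.bxA hU
  have tB := hB'.tame
  have tU := hU'.tame
  have tW := hW.tame
  -- the value of `W` for `B`
  have h1 := excl_ge hl e C hB hW (subA_trans (subA_pull e hs) hsW)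
  rw [← hv]
  unfold Sys.vall at h1 ⊢
  -- averages
  have oB := ol_szl hl hB'
  have oU := ol_szl hl hU'
  have oW := ol_szl hl hW
  have a1 : S'.av (fun i ω => (e.pullB B).szl lam i ω - W.szl lam i ω) =
      S'.av (BX.szl lam (e.pullB B)) - S'.av (BX.szl lam W) := av_sub oB oW
  have a2 : S'.av (fun i ω => (e.pullB U).szl lam i ω - W.szl lam i ω) =
      S'.av (BX.szl lam (e.pullB U)) - S'.av (BX.szl lam W) := av_sub oU oW
  have a3 : S.av (fun i ω => B.szl lam i ω - U.szl lam i ω) =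
      S.av (BX.szl lam B) - S.av (BX.szl lam U) := av_sub (ol_szl hl hB) (ol_szl hl hU)
  have a4 : S'.av (BX.szl lam (e.pullB B)) = S.av (BX.szl lam B) := e.av (BX.szl lam B)
  have a5 : S'.av (BX.szl lam (e.pullB U)) = S.av (BX.szl lam U) := e.av (BX.szl lam U)
  -- entropies
  have b1 : S.hc (BX.lab B) (Sys.pr (BX.lab U) C) =
      S'.hc (BX.lab (e.pullB B)) (Sys.pr (BX.lab (e.pullB U)) (e.pull C)) :=
    (e.hc (BX.lab B) (Sys.pr (BX.lab U) C)).symm
  have b2 : S.hc (BX.lab U) (Sys.pr (BX.lab B) C) =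
      S'.hc (BX.lab (e.pullB U)) (Sys.pr (BX.lab (e.pullB B)) (e.pull C)) :=
    (e.hc (BX.lab U) (Sys.pr (BX.lab B) C)).symm
  -- independence of `W` and `B` given `(U, C)`
  have c1 : S'.mi (BX.lab (e.pullB B)) (BX.lab W)
      (Sys.pr (BX.lab (e.pullB U)) (e.pull C)) = 0 := by
    rw [mi_comm tB tW]
    unfold Sys.mi
    have := hind Lab (BX.lab B)
    have e1 : e.pull (BX.lab B) = BX.lab (e.pullB B) := rfl
    rw [e1] at this
    linarith
  unfold Sys.mi at c1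
  have c2 : S'.hc (BX.lab (e.pullB B)) (Sys.pr (BX.lab W)
      (Sys.pr (BX.lab (e.pullB U)) (e.pull C))) =
      S'.hc (BX.lab (e.pullB B)) (Sys.pr (BX.lab (e.pullB U)) (Sys.pr (BX.lab W) (e.pull C))) :=
    hc_congr (Eventually.of_forall fun _ _ _ _ _ q => congrArg Prod.fst q)
      (Eventually.of_forall fun _ _ _ _ _ q => congrArg Prod.fst q)
      (Eventually.of_forall fun _ _ _ _ _ q => by
        simp only [pr_apply, Prod.mk.injEq] at q ⊢
        exact ⟨q.2.1, q.1, q.2.2⟩)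
      (Eventually.of_forall fun _ _ _ _ _ q => by
        simp only [pr_apply, Prod.mk.injEq] at q ⊢
        exact ⟨q.2.1, q.1, q.2.2⟩)
  have d1 := hc_pair tU tB (Sys.pr (BX.lab W) (e.pull C))
  have d2 := hc_pair tB tU (Sys.pr (BX.lab W) (e.pull C))
  have d3 : S'.hc (Sys.pr (BX.lab (e.pullB U)) (BX.lab (e.pullB B)))
      (Sys.pr (BX.lab W) (e.pull C)) =
      S'.hc (Sys.pr (BX.lab (e.pullB B)) (BX.lab (e.pullB U)))
      (Sys.pr (BX.lab W) (e.pull C)) :=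
    hc_congr (Eventually.of_forall fun _ _ _ _ _ q => by
        simp only [pr_apply, Prod.mk.injEq] at q ⊢
        exact ⟨q.1.2, q.1.1⟩)
      (Eventually.of_forall fun _ _ _ _ _ q => by
        simp only [pr_apply, Prod.mk.injEq] at q ⊢
        exact ⟨q.1.2, q.1.1⟩)
      (Eventually.of_forall fun _ _ _ _ _ q => q) (Eventually.of_forall fun _ _ _ _ _ q => q)
  have d4 : S'.hc (BX.lab (e.pullB U))
      (Sys.pr (BX.lab (e.pullB B)) (Sys.pr (BX.lab W) (e.pull C))) ≤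
      S'.hc (BX.lab (e.pullB U)) (Sys.pr (BX.lab (e.pullB B)) (e.pull C)) :=
    hc_mono_right tU (Eventually.of_forall fun _ _ _ _ _ q => by
      simp only [pr_apply, Prod.mk.injEq] at q ⊢
      exact ⟨q.1, q.2.2⟩)
  have k1 : S'.hc (BX.lab (e.pullB B)) (Sys.pr (BX.lab W) (e.pull C)) -
      S'.av (fun i ω => (e.pullB B).szl lam i ω - W.szl lam i ω) ≤ S.excl lam B C := h1
  have k2 : S'.hc (BX.lab (e.pullB U)) (Sys.pr (BX.lab W) (e.pull C)) -
      S'.av (fun i ω => (e.pullB U).szl lam i ω - W.szl lam i ω) ≤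
      S.excl lam B C + S.av (fun i ω => B.szl lam i ω - U.szl lam i ω) -
        S.hc (BX.lab B) (Sys.pr (BX.lab U) C) + S.hc (BX.lab U) (Sys.pr (BX.lab B) C) := by
    linarith
  exact k2

end Vale.Agent.P127.U.Lam
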