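import Vale.Agent.P127.U.LocB
import Vale.Agent.P127.U.Lam.ExcB

/-!
# P127 / U / Lam : balls inside balls, finite form (helper465)

`s ≤ s' ≤ n`.  The line seen in the ball of radius `2^-s` and the fractional time form a
configuration of precision `n - s`; its ball of radius `2^-(s' - s)` is the ball of radius `2^-s'`
of the original configuration.
-/

set_option autoImplicit false

namespace Vale.Agent.P127.U.Lam.Ball

open Filter Topology Vale.Agent.P127 Vale.Agent.P127.Stk Vale.Agent.P127.U.Apx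

/-- the line in the ball of radius `2^-s` -/
noncomputable def bl1 (s : ℕ) (l : Ln) (t : ℝ) : Ln :=
  (fun j => Int.fract ((2 : ℝ) ^ s * pos l (qa s t) j), l.2)

/-- the time in the ball -/
noncomputable def tfr (s : ℕ) (t : ℝ) : ℝ := Int.fract ((2 : ℝ) ^ s * t)

/-- the tubelet -/
noncomputable def tl1 (s n : ℕ) (l : Ln) (t : ℝ) : ℤ × (Fin 2 → ℤ) × (Fin 2 → ℤ) :=
  (fl1 s t, fl n (pos l (qa s t)), fl (n - s) l.2)

theorem fl1_tfr {s s' : ℕ} (h : s ≤ s') (t : ℝ) :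
    fl1 (s' - s) (tfr s t) = fl1 s' t - 2 ^ (s' - s) * fl1 s t := by
  have := fl_fract s (s' - s) (fun _ : Unit => t) ()
  rw [Nat.add_sub_cancel' h] at this
  exact this

theorem qa_tfr {s s' : ℕ} (h : s ≤ s') (t : ℝ) :
    qa (s' - s) (tfr s t) = (2 : ℝ) ^ s * (qa s' t - qa s t) := by
  unfold qa
  rw [fl1_tfr h]
  have e : (2 : ℝ) ^ s' = 2 ^ s * 2 ^ (s' - s) := by rw [← pow_add, Nat.add_sub_cancel' h]
  rw [e]
  push_cast
  field_simp

theorem pos_bl1 (s : ℕ) (l : Ln) (t u : ℝ) (j : Fin 2) :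
    pos (bl1 s l t) ((2 : ℝ) ^ s * (u - qa s t)) j =
      (2 : ℝ) ^ s * pos l u j - fl s (pos l (qa s t)) j := by
  show Int.fract ((2 : ℝ) ^ s * pos l (qa s t) j) + (2 : ℝ) ^ s * (u - qa s t) * l.2 j = _
  rw [Int.fract]
  show (2 : ℝ) ^ s * pos l (qa s t) j - (⌊(2 : ℝ) ^ s * pos l (qa s t) j⌋ : ℝ) +
    (2 : ℝ) ^ s * (u - qa s t) * l.2 j =
    (2 : ℝ) ^ s * pos l u j - (⌊(2 : ℝ) ^ s * pos l (qa s t) j⌋ : ℝ)
  have h3 : pos l u j = pos l (qa s t) j + (u - qa s t) * l.2 j := by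
    have := pos_sub l u (qa s t) j
    linarith
  rw [h3]
  ring

theorem tfr_eq (s : ℕ) (t : ℝ) : tfr s t = (2 : ℝ) ^ s * (t - qa s t) := by
  unfold tfr
  rw [mul_sub, qa_mul, Int.fract]

/-- the ball inside the ball -/
theorem bl1_bl1 {s s' : ℕ} (h : s ≤ s') (l : Ln) (t : ℝ) :
    bl1 (s' - s) (bl1 s l t) (tfr s t) = bl1 s' l t := by
  refine Prod.ext ?_ rfl
  funext j
  show Int.fract ((2 : ℝ) ^ (s' - s) * pos (bl1 s l t) (qa (s' - s) (tfr s t)) j) =
    Int.fract ((2 : ℝ) ^ s' * pos l (qa s' t) j)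
  rw [qa_tfr h, pos_bl1]
  have e : (2 : ℝ) ^ s' = 2 ^ (s' - s) * 2 ^ s := by rw [← pow_add, Nat.sub_add_cancel h]
  have e2 : (2 : ℝ) ^ (s' - s) * ((2 : ℝ) ^ s * pos l (qa s' t) j - fl s (pos l (qa s t)) j) =
      (2 : ℝ) ^ s' * pos l (qa s' t) j - ((2 ^ (s' - s) * fl s (pos l (qa s t)) j : ℤ) : ℝ) := by
    rw [e]
    push_cast
    ring
  rw [e2, Int.fract_sub_intCast]

/-- digits of a shifted position -/
theorem fl_shift {s n : ℕ} (h : s ≤ n) (x : Fin 2 → ℝ) (k : Fin 2 → ℤ) :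
    fl (n - s) (fun j => (2 : ℝ) ^ s * x j - k j) = fun j => fl n x j - 2 ^ (n - s) * k j := by
  funext j
  show ⌊(2 : ℝ) ^ (n - s) * ((2 : ℝ) ^ s * x j - k j)⌋ = ⌊(2 : ℝ) ^ n * x j⌋ - 2 ^ (n - s) * k j
  have e : (2 : ℝ) ^ n = 2 ^ (n - s) * 2 ^ s := by rw [← pow_add, Nat.sub_add_cancel h]
  have e2 : (2 : ℝ) ^ (n - s) * ((2 : ℝ) ^ s * x j - k j) =
      (2 : ℝ) ^ n * x j - ((2 ^ (n - s) * k j : ℤ) : ℝ) := by
    rw [e]
    push_cast
    ring
  rw [e2, Int.floor_sub_intCast]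

section finite

variable {Ω : Type} [Fintype Ω] {γ δ : Type*} (P : Law Ω)

/-- the coarse position at the time `t_s` from a near fine position -/
theorem cell_near (s : ℕ) (l : Ω → Ln) (t u : Ω → ℝ) (hl : ∀ ω, 0 < P.w ω → LnOk (l ω))
    (hu : ∀ ω, 0 < P.w ω → |u ω - t ω| ≤ 2 * (1 / 2 : ℝ) ^ s) (Z : Ω → γ)
    (hZ : ∀ ω ω', 0 < P.w ω → 0 < P.w ω' → Z ω = Z ω' → ∀ j,
      |pos (l ω) (u ω) j - pos (l ω') (u ω') j| ≤ (1 / 2 : ℝ) ^ s) :
    Stk.hc P (fun ω => fl s (pos (l ω) (t ω))) Z ≤ 2 * Real.log 13 := by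
  have h := hc_fl_apx P (ι := Fin 2) s 5 (fun ω => pos (l ω) (t ω)) Z (by
    intro ω ω' p p' e j
    have a1 := hZ ω ω' p p' e j
    have a2 : ∀ ω, 0 < P.w ω → |pos (l ω) (t ω) j - pos (l ω) (u ω) j| ≤ 2 * (1 / 2 : ℝ) ^ s := by
      intro ω hω
      rw [pos_sub, abs_mul]
      have b1 := hu ω hω
      have b2 := (hl ω hω).2 j
      rw [abs_sub_comm] at b1
      calc |t ω - u ω| * |(l ω).2 j| ≤ (2 * (1 / 2 : ℝ) ^ s) * 1 := by gcongr
        _ = _ := mul_one _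
    have a3 := a2 ω p
    have a4 := a2 ω' p'
    rw [abs_le] at a1 a3 a4 ⊢
    push_cast
    constructor <;> linarith [a1.1, a1.2, a3.1, a3.2, a4.1, a4.2])
  refine h.trans (le_of_eq ?_)
  rw [Fintype.card_fin]
  norm_num

theorem half_le {a b : ℕ} (h : a ≤ b) : (1 / 2 : ℝ) ^ b ≤ (1 / 2) ^ a :=
  pow_le_pow_of_le_one (by norm_num) (by norm_num) h

/-- `|qa s' t - t| ≤ 2^-s` -/
theorem qa_near {s s' : ℕ} (h : s ≤ s') (t : ℝ) : |qa s' t - t| ≤ (1 / 2 : ℝ) ^ s := by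
  rw [abs_sub_comm]
  exact (abs_sub_qa s' t).trans (half_le h)

theorem qa_qa_near {s s' : ℕ} (h : s ≤ s') (t : ℝ) : |qa s' t - qa s t| ≤ 2 * (1 / 2 : ℝ) ^ s := by
  have h1 := qa_near h t
  have h2 := abs_sub_qa s t
  calc |qa s' t - qa s t| = |(qa s' t - t) + (t - qa s t)| := by congr 1; ring
    _ ≤ |qa s' t - t| + |t - qa s t| := abs_add_le _ _
    _ ≤ _ := by linarith

variable (lam : ℝ)

/-! the variables of the inner ball given those of the outer configuration -/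

/-- the two conditions of the excess are equivalent: inner from outer -/
theorem cond_le (s s' : ℕ) (h : s ≤ s') (l : Ω → Ln) (t : Ω → ℝ)
    (hl : ∀ ω, 0 < P.w ω → LnOk (l ω)) (C : Ω → δ) :
    Stk.hc P (fun ω => (pq (s' - s) (tfr s (t ω), pos (bl1 s (l ω) (t ω)) (tfr s (t ω))),
        (pq s (t ω, pos (l ω) (t ω)), C ω)))
      (fun ω => (pq s' (t ω, pos (l ω) (t ω)), C ω)) ≤ 4 * Real.log 13 + 4 * Real.log 13 := by
  set Z := fun ω => (pq s' (t ω, pos (l ω) (t ω)), C ω) with hZ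
  have h1 := LocB.point_le P s s' h l t hl Z (by
    intro ω ω' _ _ e
    have e1 : pq s' (t ω, pos (l ω) (t ω)) = pq s' (t ω', pos (l ω') (t ω')) := congrArg Prod.fst e
    exact ⟨congrArg Prod.fst e1, congrArg Prod.snd e1⟩)
  have h2 := hc_pair_le P (fun ω => pq (s' - s) (tfr s (t ω), pos (bl1 s (l ω) (t ω)) (tfr s (t ω))))
    (fun ω => (pq s (t ω, pos (l ω) (t ω)), C ω)) Z
  have h3 : Stk.hc P (fun ω => (pq s (t ω, pos (l ω) (t ω)), C ω)) Z = 0 := by
    apply Stk.hc_zero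
    intro ω ω' _ _ e
    have e1 : pq s' (t ω, pos (l ω) (t ω)) = pq s' (t ω', pos (l ω') (t ω')) := congrArg Prod.fst e
    have e2 : C ω = C ω' := congrArg Prod.snd e
    exact Prod.ext (Prod.ext (fl1_of_fl1 h (congrArg Prod.fst e1))
      (fl_of_fl h _ _ (congrArg Prod.snd e1))) e2
  have h4 : Stk.hc P (fun ω => pq (s' - s) (tfr s (t ω), pos (bl1 s (l ω) (t ω)) (tfr s (t ω)))) Z ≤
      2 * Real.log 9 + (Real.log 5 + 2 * Real.log 5) := h1
  have l9 : Real.log 9 ≤ Real.log 13 := Real.log_le_log (by norm_num) (by norm_num)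
  have l5 : Real.log 5 ≤ Real.log 13 := Real.log_le_log (by norm_num) (by norm_num)
  have l0 : 0 ≤ Real.log 13 := Real.log_nonneg (by norm_num)
  linarith

/-- outer from inner -/
theorem cond_ge (s s' : ℕ) (h : s ≤ s') (l : Ω → Ln) (t : Ω → ℝ)
    (hl : ∀ ω, 0 < P.w ω → LnOk (l ω)) (C : Ω → δ) :
    Stk.hc P (fun ω => (pq s' (t ω, pos (l ω) (t ω)), C ω))
      (fun ω => (pq (s' - s) (tfr s (t ω), pos (bl1 s (l ω) (t ω)) (tfr s (t ω))),
        (pq s (t ω, pos (l ω) (t ω)), C ω))) ≤ 4 * Real.log 13 := by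
  set Z := fun ω => (pq (s' - s) (tfr s (t ω), pos (bl1 s (l ω) (t ω)) (tfr s (t ω))),
        (pq s (t ω, pos (l ω) (t ω)), C ω)) with hZ
  -- the integer part of the position
  have h1 : Stk.hc P (fun ω => fl s (pos (l ω) (qa s (t ω)))) Z ≤ 2 * Real.log 13 := by
    have := hc_fl_apx P (ι := Fin 2) s 3 (fun ω => pos (l ω) (qa s (t ω))) Z (by
      intro ω ω' p p' e j
      have e1 : pq s (t ω, pos (l ω) (t ω)) = pq s (t ω', pos (l ω') (t ω')) :=
        congrArg (fun q => q.2.1) e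
      have a1 := fl_close (congrArg Prod.snd e1) j
      have a2 : ∀ ω, 0 < P.w ω → |pos (l ω) (qa s (t ω)) j - pos (l ω) (t ω) j| ≤ (1 / 2 : ℝ) ^ s := by
        intro ω hω
        rw [pos_sub, abs_mul]
        have b1 := abs_sub_qa s (t ω)
        have b2 := (hl ω hω).2 j
        rw [abs_sub_comm] at b1
        calc |qa s (t ω) - t ω| * |(l ω).2 j| ≤ (1 / 2 : ℝ) ^ s * 1 := by gcongr
          _ = _ := mul_one _
      have a3 := a2 ω p
      have a4 := a2 ω' p'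
      rw [abs_le] at a1 a3 a4 ⊢
      push_cast
      constructor <;> linarith [a1.1, a1.2, a3.1, a3.2, a4.1, a4.2])
    refine this.trans ?_
    rw [Fintype.card_fin]
    have : Real.log (2 * ((3 : ℕ) : ℝ) + 3) ≤ Real.log 13 :=
      Real.log_le_log (by norm_num) (by norm_num)
    push_cast at this ⊢
    linarith
  have h2 := hc_via P (fun ω => (pq s' (t ω, pos (l ω) (t ω)), C ω))
    (fun ω => fl s (pos (l ω) (qa s (t ω)))) Z
  have h3 : Stk.hc P (fun ω => (pq s' (t ω, pos (l ω) (t ω)), C ω))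
      (fun ω => (fl s (pos (l ω) (qa s (t ω))), Z ω)) = 0 := by
    apply Stk.hc_zero
    intro ω ω' _ _ e
    have e0 : fl s (pos (l ω) (qa s (t ω))) = fl s (pos (l ω') (qa s (t ω'))) := congrArg Prod.fst e
    have e1 : pq (s' - s) (tfr s (t ω), pos (bl1 s (l ω) (t ω)) (tfr s (t ω))) =
      pq (s' - s) (tfr s (t ω'), pos (bl1 s (l ω') (t ω')) (tfr s (t ω'))) :=
      congrArg (fun q => q.2.1) e
    have e2 : pq s (t ω, pos (l ω) (t ω)) = pq s (t ω', pos (l ω') (t ω')) :=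
      congrArg (fun q => q.2.2.1) e
    have e3 : C ω = C ω' := congrArg (fun q => q.2.2.2) e
    have e4 : fl1 (s' - s) (tfr s (t ω)) = fl1 (s' - s) (tfr s (t ω')) := congrArg Prod.fst e1
    have e5 : fl1 s (t ω) = fl1 s (t ω') := congrArg Prod.fst e2
    have e6 : fl1 s' (t ω) = fl1 s' (t ω') := by
      rw [fl1_tfr h, fl1_tfr h, e5] at e4
      linarith
    have e7 : fl (s' - s) (pos (bl1 s (l ω) (t ω)) (tfr s (t ω))) =
      fl (s' - s) (pos (bl1 s (l ω') (t ω')) (tfr s (t ω'))) := congrArg Prod.snd e1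
    have e8 : ∀ ω, pos (bl1 s (l ω) (t ω)) (tfr s (t ω)) = fun j =>
        (2 : ℝ) ^ s * pos (l ω) (t ω) j - fl s (pos (l ω) (qa s (t ω))) j := by
      intro ω
      funext j
      rw [tfr_eq, pos_bl1]
    rw [e8, e8, fl_shift h, fl_shift h, e0] at e7
    have e9 : fl s' (pos (l ω) (t ω)) = fl s' (pos (l ω') (t ω')) := by
      funext j
      have := congrFun e7 j
      linarith
    exact Prod.ext (Prod.ext e6 e9) e3
  have l0 : 0 ≤ Real.log 13 := Real.log_nonneg (by norm_num)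
  linarith

/-- the tubelet of length `2^-s` from the tube in the ball and the shorter tubelet -/
theorem tubelet_le (s s' n : ℕ) (h : s ≤ s') (h' : s' ≤ n) (l : Ω → Ln) (t : Ω → ℝ)
    (hl : ∀ ω, 0 < P.w ω → LnOk (l ω)) (C : Ω → δ) :
    Stk.hc P (fun ω => tl1 s n (l ω) (t ω))
      (fun ω => (tb (n - s) (bl1 s (l ω) (t ω)), (tl1 s' n (l ω) (t ω), C ω))) ≤
        2 * Real.log 13 := by
  set Z := fun ω => (tb (n - s) (bl1 s (l ω) (t ω)), (tl1 s' n (l ω) (t ω), C ω)) with hZ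
  have h1 : Stk.hc P (fun ω => fl s (pos (l ω) (qa s (t ω)))) Z ≤ 2 * Real.log 13 := by
    refine cell_near P s l (fun ω => qa s (t ω)) (fun ω => qa s' (t ω)) hl
      (fun ω _ => qa_qa_near h (t ω)) Z ?_
    intro ω ω' _ _ e j
    have e1 : fl n (pos (l ω) (qa s' (t ω))) = fl n (pos (l ω') (qa s' (t ω'))) :=
      congrArg (fun q => q.2.1.2.1) e
    exact fl_close (fl_of_fl (h.trans h') _ _ e1) j
  have h2 := hc_via P (fun ω => tl1 s n (l ω) (t ω)) (fun ω => fl s (pos (l ω) (qa s (t ω)))) Z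
  have h3 : Stk.hc P (fun ω => tl1 s n (l ω) (t ω))
      (fun ω => (fl s (pos (l ω) (qa s (t ω))), Z ω)) = 0 := by
    apply Stk.hc_zero
    intro ω ω' _ _ e
    have e0 : fl s (pos (l ω) (qa s (t ω))) = fl s (pos (l ω') (qa s (t ω'))) := congrArg Prod.fst e
    have e1 : tb (n - s) (bl1 s (l ω) (t ω)) = tb (n - s) (bl1 s (l ω') (t ω')) :=
      congrArg (fun q => q.2.1) e
    have e2 : fl1 s' (t ω) = fl1 s' (t ω') := congrArg (fun q => q.2.2.1.1) e
    have e3 : fl (n - s) (bl1 s (l ω) (t ω)).1 = fl (n - s) (bl1 s (l ω') (t ω')).1 :=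
      congrArg Prod.fst e1
    have e4 : fl (n - s) (l ω).2 = fl (n - s) (l ω').2 := congrArg Prod.snd e1
    have e5 : fl n (pos (l ω) (qa s (t ω))) = fl n (pos (l ω') (qa s (t ω'))) := by
      funext j
      have f1 := fl_fract s (n - s) (pos (l ω) (qa s (t ω))) j
      have f2 := fl_fract s (n - s) (pos (l ω') (qa s (t ω'))) j
      rw [Nat.add_sub_cancel' (h.trans h')] at f1 f2
      have f3 : fl (n - s) (fun i => Int.fract ((2 : ℝ) ^ s * pos (l ω) (qa s (t ω)) i)) j =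
        fl (n - s) (fun i => Int.fract ((2 : ℝ) ^ s * pos (l ω') (qa s (t ω')) i)) j := congrFun e3 j
      have f4 := congrFun e0 j
      rw [f1, f2, f4] at f3
      linarith
    exact Prod.ext (fl1_of_fl1 h e2) (Prod.ext e5 e4)
  have l0 : 0 ≤ Real.log 13 := Real.log_nonneg (by norm_num)
  linarith

/-- inner tubelet and outer point from the short tubelet -/
theorem inner_le (s s' n : ℕ) (h : s ≤ s') (h' : s' ≤ n) (l : Ω → Ln) (t : Ω → ℝ)
    (hl : ∀ ω, 0 < P.w ω → LnOk (l ω)) (C : Ω → δ) :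
    Stk.hc P (fun ω => (tl1 (s' - s) (n - s) (bl1 s (l ω) (t ω)) (tfr s (t ω)),
        (pq s (t ω, pos (l ω) (t ω)), C ω)))
      (fun ω => (tl1 s' n (l ω) (t ω), C ω)) ≤ 4 * Real.log 13 := by
  set Z := fun ω => (tl1 s' n (l ω) (t ω), C ω) with hZ
  have hpos : ∀ ω ω', Z ω = Z ω' → ∀ j,
      |pos (l ω) (qa s' (t ω)) j - pos (l ω') (qa s' (t ω')) j| ≤ (1 / 2 : ℝ) ^ s := by
    intro ω ω' e j
    have e1 : fl n (pos (l ω) (qa s' (t ω))) = fl n (pos (l ω') (qa s' (t ω'))) :=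
      congrArg (fun q => q.1.2.1) e
    exact fl_close (fl_of_fl (h.trans h') _ _ e1) j
  have h1 : Stk.hc P (fun ω => fl s (pos (l ω) (qa s (t ω)))) Z ≤ 2 * Real.log 13 :=
    cell_near P s l (fun ω => qa s (t ω)) (fun ω => qa s' (t ω)) hl
      (fun ω _ => qa_qa_near h (t ω)) Z fun ω ω' _ _ e j => hpos ω ω' e j
  have h2 : Stk.hc P (fun ω => fl s (pos (l ω) (t ω)))
      (fun ω => (fl s (pos (l ω) (qa s (t ω))), Z ω)) ≤ 2 * Real.log 13 :=
    cell_near P s l t (fun ω => qa s' (t ω)) hl (fun ω _ => by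
      have := qa_near h (t ω)
      have := (half_le h).trans (le_refl ((1 / 2 : ℝ) ^ s))
      have h0 : (0:ℝ) < (1 / 2) ^ s := by positivity
      linarith) _ fun ω ω' _ _ e j => hpos ω ω' (congrArg Prod.snd e) j
  have h3 := hc_via P (fun ω => (tl1 (s' - s) (n - s) (bl1 s (l ω) (t ω)) (tfr s (t ω)),
        (pq s (t ω, pos (l ω) (t ω)), C ω))) (fun ω => fl s (pos (l ω) (qa s (t ω)))) Z
  have h4 := hc_via P (fun ω => (tl1 (s' - s) (n - s) (bl1 s (l ω) (t ω)) (tfr s (t ω)),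
        (pq s (t ω, pos (l ω) (t ω)), C ω))) (fun ω => fl s (pos (l ω) (t ω)))
        (fun ω => (fl s (pos (l ω) (qa s (t ω))), Z ω))
  have h5 : Stk.hc P (fun ω => (tl1 (s' - s) (n - s) (bl1 s (l ω) (t ω)) (tfr s (t ω)),
        (pq s (t ω, pos (l ω) (t ω)), C ω)))
      (fun ω => (fl s (pos (l ω) (t ω)), (fl s (pos (l ω) (qa s (t ω))), Z ω))) = 0 := by
    apply Stk.hc_zero
    intro ω ω' _ _ e
    have e0 : fl s (pos (l ω) (t ω)) = fl s (pos (l ω') (t ω')) := congrArg Prod.fst e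
    have e1 : fl s (pos (l ω) (qa s (t ω))) = fl s (pos (l ω') (qa s (t ω'))) :=
      congrArg (fun q => q.2.1) e
    have e2 : fl1 s' (t ω) = fl1 s' (t ω') := congrArg (fun q => q.2.2.1.1) e
    have e3 : fl n (pos (l ω) (qa s' (t ω))) = fl n (pos (l ω') (qa s' (t ω'))) :=
      congrArg (fun q => q.2.2.1.2.1) e
    have e4 : fl (n - s') (l ω).2 = fl (n - s') (l ω').2 := congrArg (fun q => q.2.2.1.2.2) e
    have e5 : C ω = C ω' := congrArg (fun q => q.2.2.2) e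
    have e6 : fl1 s (t ω) = fl1 s (t ω') := fl1_of_fl1 h e2
    have hn : n - s - (s' - s) = n - s' := by omega
    refine Prod.ext (Prod.ext ?_ (Prod.ext ?_ ?_)) (Prod.ext (Prod.ext e6 e0) e5)
    · show fl1 (s' - s) (tfr s (t ω)) = fl1 (s' - s) (tfr s (t ω'))
      rw [fl1_tfr h, fl1_tfr h, e2, e6]
    · show fl (n - s) (pos (bl1 s (l ω) (t ω)) (qa (s' - s) (tfr s (t ω)))) =
        fl (n - s) (pos (bl1 s (l ω') (t ω')) (qa (s' - s) (tfr s (t ω'))))
      have e8 : ∀ ω, pos (bl1 s (l ω) (t ω)) (qa (s' - s) (tfr s (t ω))) = fun j =>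
          (2 : ℝ) ^ s * pos (l ω) (qa s' (t ω)) j - fl s (pos (l ω) (qa s (t ω))) j := by
        intro ω
        funext j
        rw [qa_tfr h, pos_bl1]
      rw [e8, e8, fl_shift (h.trans h'), fl_shift (h.trans h'), e1, e3]
    · show fl (n - s - (s' - s)) (l ω).2 = fl (n - s - (s' - s)) (l ω').2
      rw [hn]
      exact e4
  linarith

/-- the tube in the ball and the outer point from the tube and the time -/
theorem ball_of_tube (s n : ℕ) (h : s ≤ n) (l : Ω → Ln) (t : Ω → ℝ)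
    (hl : ∀ ω, 0 < P.w ω → LnOk (l ω)) (ht : ∀ ω, 0 < P.w ω → 0 ≤ t ω ∧ t ω ≤ 1) (C : Ω → δ) :
    Stk.hc P (fun ω => (tb (n - s) (bl1 s (l ω) (t ω)), (pq s (t ω, pos (l ω) (t ω)), C ω)))
      (fun ω => (fl1 s (t ω), (tb n (l ω), C ω))) ≤ 6 * Real.log 13 := by
  set Z := fun ω => (fl1 s (t ω), (tb n (l ω), C ω)) with hZ
  have hn0 : ∀ {k : ℕ}, k ≤ n → (1 / 2 : ℝ) ^ n ≤ (1 / 2) ^ k := fun hk => half_le hk
  -- fine position at the time `t_s`
  have near : ∀ ω ω', 0 < P.w ω → 0 < P.w ω' → Z ω = Z ω' → ∀ j,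
      |pos (l ω) (qa s (t ω)) j - pos (l ω') (qa s (t ω')) j| ≤ 2 * (1 / 2 : ℝ) ^ n := by
    intro ω ω' p p' e j
    have e1 : fl1 s (t ω) = fl1 s (t ω') := congrArg Prod.fst e
    have e2 : tb n (l ω) = tb n (l ω') := congrArg (fun q => q.2.1) e
    have a1 := fl_close (congrArg Prod.fst e2) j
    have a2 := fl_close (congrArg Prod.snd e2) j
    rw [qa_congr e1]
    have q0 : 0 ≤ qa s (t ω') := by
      unfold qa fl1
      have : (0:ℤ) ≤ ⌊(2:ℝ) ^ s * t ω'⌋ :=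
        Int.floor_nonneg.2 (mul_nonneg (by positivity) (ht ω' p').1)
      have h2 : (0:ℝ) ≤ (⌊(2:ℝ) ^ s * t ω'⌋ : ℝ) := by exact_mod_cast this
      positivity
    have q1 : qa s (t ω') ≤ 1 := (qa_le s (t ω')).trans (ht ω' p').2
    have e3 : pos (l ω) (qa s (t ω')) j - pos (l ω') (qa s (t ω')) j =
        ((l ω).1 j - (l ω').1 j) + qa s (t ω') * ((l ω).2 j - (l ω').2 j) := by
      unfold pos; ring
    rw [e3]
    calc |((l ω).1 j - (l ω').1 j) + qa s (t ω') * ((l ω).2 j - (l ω').2 j)|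
        ≤ |(l ω).1 j - (l ω').1 j| + |qa s (t ω') * ((l ω).2 j - (l ω').2 j)| := abs_add_le _ _
      _ ≤ (1 / 2) ^ n + 1 * (1 / 2) ^ n := by
          rw [abs_mul, abs_of_nonneg q0]
          gcongr
      _ = _ := by ring
  have h1 : Stk.hc P (fun ω => fl n (pos (l ω) (qa s (t ω)))) Z ≤ 2 * Real.log 13 := by
    have := hc_fl_apx P (ι := Fin 2) n 2 (fun ω => pos (l ω) (qa s (t ω))) Z
      (fun ω ω' p p' e j => by push_cast; exact near ω ω' p p' e j)
    refine this.trans ?_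
    rw [Fintype.card_fin]
    have : Real.log (2 * ((2 : ℕ) : ℝ) + 3) ≤ Real.log 13 :=
      Real.log_le_log (by norm_num) (by norm_num)
    push_cast at this ⊢
    linarith
  have h2 : Stk.hc P (fun ω => fl s (pos (l ω) (t ω)))
      (fun ω => (fl n (pos (l ω) (qa s (t ω))), Z ω)) ≤ 2 * Real.log 13 :=
    cell_near P s l t (fun ω => qa s (t ω)) hl (fun ω _ => by
      have := qa_near (le_refl s) (t ω)
      have h0 : (0:ℝ) < (1 / 2) ^ s := by positivity
      linarith) _ fun ω ω' _ _ e j =>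
        fl_close (fl_of_fl h _ _ (congrArg Prod.fst e)) j
  set X := fun ω => (tb (n - s) (bl1 s (l ω) (t ω)), (pq s (t ω, pos (l ω) (t ω)), C ω)) with hX
  have h3 := hc_via P X (fun ω => fl n (pos (l ω) (qa s (t ω)))) Z
  have h4 := hc_via P X (fun ω => fl s (pos (l ω) (t ω)))
        (fun ω => (fl n (pos (l ω) (qa s (t ω))), Z ω))
  have h5 : Stk.hc P X
      (fun ω => (fl s (pos (l ω) (t ω)), (fl n (pos (l ω) (qa s (t ω))), Z ω))) = 0 := by
    apply Stk.hc_zero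
    intro ω ω' _ _ e
    have e0 : fl s (pos (l ω) (t ω)) = fl s (pos (l ω') (t ω')) := congrArg Prod.fst e
    have e1 : fl n (pos (l ω) (qa s (t ω))) = fl n (pos (l ω') (qa s (t ω'))) :=
      congrArg (fun q => q.2.1) e
    have e2 : fl1 s (t ω) = fl1 s (t ω') := congrArg (fun q => q.2.2.1) e
    have e3 : tb n (l ω) = tb n (l ω') := congrArg (fun q => q.2.2.2.1) e
    have e4 : C ω = C ω' := congrArg (fun q => q.2.2.2.2) e
    have e5 : fl s (pos (l ω) (qa s (t ω))) = fl s (pos (l ω') (qa s (t ω'))) := fl_of_fl h _ _ e1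
    refine Prod.ext (Prod.ext ?_ ?_) (Prod.ext (Prod.ext e2 e0) e4)
    · show fl (n - s) (fun j => Int.fract ((2 : ℝ) ^ s * pos (l ω) (qa s (t ω)) j)) =
        fl (n - s) (fun j => Int.fract ((2 : ℝ) ^ s * pos (l ω') (qa s (t ω')) j))
      funext j
      rw [fl_fract, fl_fract, Nat.add_sub_cancel' h, e1, e5]
    · show fl (n - s) (l ω).2 = fl (n - s) (l ω').2
      exact fl_of_fl (Nat.sub_le _ _) _ _ (congrArg Prod.snd e3)
  have l0 : 0 ≤ Real.log 13 := Real.log_nonneg (by norm_num)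
  linarith

end finite

end Vale.Agent.P127.U.Lam.Ball
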