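import Vale.Agent.P127.U.Lam.FinDefs
import Vale.Agent.P127.U.Lam.ExcB
import Vale.Agent.P127.U.Lam.BallA
import Vale.Agent.P127.U.LocT

/-!
# P127 / U / Lam : BASIC, the value of a label as an entropy of the line (helper480)

* `valX` : `H(l | W, p_s, C) - log 2 (2 (n - s) - E szl W)` value of the box `W` of the ball system of
  the level `s` (any extension);
* `valX_le` : `valX ≤ XF + K`; `XF_le` : `XF ≤ valX + K` for a soft, nearly optimal box.
* `basic_fin` : the basic inequality of helper683 (5) in the form of helper652 (A).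
-/

set_option autoImplicit false

namespace Vale.Agent.P127.U

open Filter Topology Vale.Agent.P127 Vale.Agent.P127.Stk Sys

namespace Lam

variable {lam : ℝ}

section finite

variable {Ω Ω' : Type} [Fintype Ω] [Fintype Ω'] {γ : Type*}

/-- value of the box `W` of the level `s` -/
noncomputable def valX (lam : ℝ) (P : Law Ω) (s n : ℕ) (l : Ω → Ln) (t : Ω → ℝ) (W : Bx Ω)
    (C : Ω → γ) : ℝ :=
  Stk.hc P (fun ω => tb n (l ω)) (fun ω => (W.lab ω, (pq s (ptF l t ω), C ω))) -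
    Real.log 2 * (2 * ((n : ℝ) - s) - P.ex (W.szl lam))

/-- the tubelet is determined by the tube of the ball and the cell of the point -/
theorem tlF_le (P : Law Ω) {s n : ℕ} (h : s ≤ n) {l : Ω → Ln} {t : Ω → ℝ}
    (hg : ∀ ω, 0 < P.w ω → LnOk (l ω)) (C : Ω → γ) :
    Stk.hc P (fun ω => (tlF s n l t ω, C ω))
      (fun ω => ((tbx (n - s) (blF s l t)).lab ω, (pq s (ptF l t ω), C ω))) ≤ 2 * Real.log 9 := by
  set Z := fun ω => ((tbx (n - s) (blF s l t)).lab ω, (pq s (ptF l t ω), C ω)) with hZ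
  have h1 : Stk.hc P (fun ω => fl s (pos (l ω) (qa s (t ω)))) Z ≤ 2 * Real.log 9 :=
    LocB.cell_le P s s le_rfl l t hg Z (fun ω ω' _ _ e =>
      congrArg Prod.snd (congrArg (fun q => q.2.1) e : pq s (ptF l t ω) = pq s (ptF l t ω')))
  have h2 := Apx.hc_via P (fun ω => (tlF s n l t ω, C ω)) (fun ω => fl s (pos (l ω) (qa s (t ω)))) Z
  have h3 : Stk.hc P (fun ω => (tlF s n l t ω, C ω))
      (fun ω => (fl s (pos (l ω) (qa s (t ω))), Z ω)) = 0 := by
    apply Stk.hc_zero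
    intro ω ω' _ _ e
    have e0 : fl s (pos (l ω) (qa s (t ω))) = fl s (pos (l ω') (qa s (t ω'))) := congrArg Prod.fst e
    have e1 : (tbx (n - s) (blF s l t)).lab ω = (tbx (n - s) (blF s l t)).lab ω' :=
      congrArg (fun q => q.2.1) e
    have e2 : pq s (ptF l t ω) = pq s (ptF l t ω') := congrArg (fun q => q.2.2.1) e
    have e3 : C ω = C ω' := congrArg (fun q => q.2.2.2) e
    rw [LocT.tbx_lab] at e1
    have e4 : fl (n - s) (fun j => Int.fract ((2 : ℝ) ^ s * pos (l ω) (qa s (t ω)) j)) =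
        fl (n - s) (fun j => Int.fract ((2 : ℝ) ^ s * pos (l ω') (qa s (t ω')) j)) :=
      congrArg Prod.fst e1
    have e5 : fl (n - s) (l ω).2 = fl (n - s) (l ω').2 := congrArg Prod.snd e1
    have e6 : fl n (pos (l ω) (qa s (t ω))) = fl n (pos (l ω') (qa s (t ω'))) := by
      funext j
      have f1 := congrFun e4 j
      rw [fl_fract, fl_fract, Nat.add_sub_cancel' h, e0] at f1
      linarith
    have e7 : fl1 s (t ω) = fl1 s (t ω') := congrArg Prod.fst e2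
    show (tlF s n l t ω, C ω) = (tlF s n l t ω', C ω')
    unfold tlF
    rw [e7, e6, e5, e3]
  linarith

/-- **a box gives a lower bound for `XF`** -/
theorem valX_le (hl : 0 ≤ lam ∧ lam ≤ 1) (P : Law Ω) {s n : ℕ} (h : s ≤ n) {l : Ω → Ln} {t : Ω → ℝ}
    (hg : GoodF P l t) (C : Ω → γ) {P' : Law Ω'} {π : Ω' → Ω} {W : Bx Ω'} {c : ℝ} {m : ℕ}
    (hm : c ≤ 2 ^ m) (h1 : ∀ ω, P'.pr π ω = P.w ω)
    (h2 : ∀ ω, 0 < P'.w ω → Sub c ((tbx (n - s) (blF s l t)).comp π) W ω) :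
    valX lam P' s n (fun ω => l (π ω)) (fun ω => t (π ω)) W (fun ω => C (π ω)) ≤
      XF lam P s n l t C +
        (Real.log (((2 * 4 + 1) ^ 4 : ℕ) : ℝ) + Real.log 2 * (2 * m) + 2 * Real.log 9) := by
  have hl0 : ∀ ω, 0 < P.w ω → LnOk (l ω) := fun ω hω => (hg ω hω).1
  have k1 := exV_le_excF' hl (P := P) (B := tbx (n - s) (blF s l t))
    (C := fun ω => (pq s (ptF l t ω), C ω)) hm h1 h2
  set B : Bx Ω' := (tbx (n - s) (blF s l t)).comp π with hB
  set T : Ω' → _ := fun ω => tb n (l (π ω)) with hT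
  set Q : Ω' → _ := fun ω => (pq s (ptF l t (π ω)), C (π ω)) with hQ
  have k2 : Stk.hc P' T (fun ω => (W.lab ω, Q ω)) ≤
      Stk.hc P' B.lab (fun ω => (W.lab ω, Q ω)) + Stk.hc P' T (fun ω => (B.lab ω, Q ω)) := by
    have a1 := Stk.hc_le_add' P' T B.lab (fun ω => (W.lab ω, Q ω))
    have a2 : Stk.hc P' T (fun ω => (B.lab ω, (W.lab ω, Q ω))) ≤ Stk.hc P' T (fun ω => (B.lab ω, Q ω)) :=
      Stk.hc_mono_right P' T fun ω ω' _ _ e => by
        simp only [Prod.mk.injEq] at e ⊢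
        exact ⟨e.1, e.2.2⟩
    linarith
  have k3 : Stk.hc P' T (fun ω => (B.lab ω, Q ω)) =
      Stk.hc P (fun ω => tb n (l ω)) (fun ω => ((tbx (n - s) (blF s l t)).lab ω,
        (pq s (ptF l t ω), C ω))) :=
    Stk.hc_of_law P' P π h1 (fun ω => tb n (l ω)) (fun ω => ((tbx (n - s) (blF s l t)).lab ω,
        (pq s (ptF l t ω), C ω)))
  have k4 := Apx.hc_cmp P (fun ω => tb n (l ω)) (fun ω => tb n (l ω))
    (fun ω => ((tbx (n - s) (blF s l t)).lab ω, (pq s (ptF l t ω), C ω)))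
    (fun ω => (tlF s n l t ω, C ω))
  have k5 : Stk.hc P (fun ω => tb n (l ω)) (fun ω => (tb n (l ω),
      ((tbx (n - s) (blF s l t)).lab ω, (pq s (ptF l t ω), C ω)))) = 0 :=
    Stk.hc_zero P fun _ _ _ _ e => congrArg Prod.fst e
  have k6 := tlF_le P h (t := t) hl0 C
  have k7 : P'.ex (fun ω => B.szl lam ω - W.szl lam ω) =
      2 * ((n : ℝ) - s) - P'.ex (W.szl lam) := by
    have : (fun ω => B.szl lam ω - W.szl lam ω) =
        fun ω => (2 * ((n : ℝ) - s)) - W.szl lam ω := by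
      funext ω
      have : B.szl lam ω = 2 * ((n : ℝ) - s) := by
        show (1 + lam) * ((n - s : ℕ) : ℝ) + (1 - lam) * ((n - s : ℕ) : ℝ) = _
        rw [Nat.cast_sub h]
        ring
      rw [this]
    rw [this, P'.ex_sub, P'.ex_const]
  have k8 : exVl lam P' B W (fun ω => Q ω) = Stk.hc P' B.lab (fun ω => (W.lab ω, Q ω)) -
      Real.log 2 * (2 * ((n : ℝ) - s) - P'.ex (W.szl lam)) := by
    unfold exVl
    rw [k7]
  have k9 : exVl lam P' B W (fun ω => Q ω) ≤ excFl lam P (tbx (n - s) (blF s l t))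
      (fun ω => (pq s (ptF l t ω), C ω)) +
      (Real.log (((2 * 4 + 1) ^ 4 : ℕ) : ℝ) + Real.log 2 * (2 * m)) := k1
  show Stk.hc P' T (fun ω => (W.lab ω, Q ω)) -
    Real.log 2 * (2 * ((n : ℝ) - s) - P'.ex (W.szl lam)) ≤ _
  unfold XF
  linarith

/-- **a soft, nearly optimal box gives `XF`** -/
theorem XF_le (P : Law Ω) {s n : ℕ} (h : s ≤ n) {l : Ω → Ln} {t : Ω → ℝ}
    (hg : GoodF P l t) (C : Ω → γ) {P' : Law Ω'} {π : Ω' → Ω} {W : Bx Ω'} {eta eta' : ℝ}
    (h1 : ∀ ω, P'.pr π ω = P.w ω)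
    (hopt : excFl lam P (tbx (n - s) (blF s l t)) (fun ω => (pq s (ptF l t ω), C ω)) ≤
      exVl lam P' ((tbx (n - s) (blF s l t)).comp π) W
        (fun ω => (pq s (ptF l t (π ω)), C (π ω))) + eta)
    (hsoft : Stk.hc P' W.lab (fun ω => (((tbx (n - s) (blF s l t)).comp π).lab ω,
        (pq s (ptF l t (π ω)), C (π ω)))) ≤
      Stk.hc P' W.lab (fun ω => (tb n (l (π ω)), (((tbx (n - s) (blF s l t)).comp π).lab ω,
        (pq s (ptF l t (π ω)), C (π ω))))) + eta') :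
    XF lam P s n l t C ≤
      valX lam P' s n (fun ω => l (π ω)) (fun ω => t (π ω)) W (fun ω => C (π ω)) +
        (eta + eta' + (2 * Real.log 9 + 6 * Real.log 13)) := by
  have hl0 : ∀ ω, 0 < P.w ω → LnOk (l ω) := fun ω hω => (hg ω hω).1
  set B : Bx Ω' := (tbx (n - s) (blF s l t)).comp π with hB
  set T : Ω' → _ := fun ω => tb n (l (π ω)) with hT
  set Q : Ω' → _ := fun ω => (pq s (ptF l t (π ω)), C (π ω)) with hQ
  have k7 : P'.ex (fun ω => B.szl lam ω - W.szl lam ω) =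
      2 * ((n : ℝ) - s) - P'.ex (W.szl lam) := by
    have : (fun ω => B.szl lam ω - W.szl lam ω) =
        fun ω => (2 * ((n : ℝ) - s)) - W.szl lam ω := by
      funext ω
      have : B.szl lam ω = 2 * ((n : ℝ) - s) := by
        show (1 + lam) * ((n - s : ℕ) : ℝ) + (1 - lam) * ((n - s : ℕ) : ℝ) = _
        rw [Nat.cast_sub h]
        ring
      rw [this]
    rw [this, P'.ex_sub, P'.ex_const]
  have k8 : exVl lam P' B W (fun ω => Q ω) = Stk.hc P' B.lab (fun ω => (W.lab ω, Q ω)) -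
      Real.log 2 * (2 * ((n : ℝ) - s) - P'.ex (W.szl lam)) := by
    unfold exVl
    rw [k7]
  -- `H(l | tubelet) ≤ H(l | B, Q) + c`
  have k1 : Stk.hc P (fun ω => tb n (l ω)) (fun ω => (tlF s n l t ω, C ω)) ≤
      Stk.hc P' T (fun ω => (B.lab ω, Q ω)) + 2 * Real.log 9 := by
    have a1 := Apx.hc_cmp P (fun ω => tb n (l ω)) (fun ω => tb n (l ω))
      (fun ω => (tlF s n l t ω, C ω))
      (fun ω => (tb (n - s) (blF s l t ω), (pq s (ptF l t ω), C ω)))
    have a2 : Stk.hc P (fun ω => tb n (l ω)) (fun ω => (tb n (l ω), (tlF s n l t ω, C ω))) = 0 :=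
      Stk.hc_zero P fun _ _ _ _ e => congrArg Prod.fst e
    have a3 : Stk.hc P (fun ω => (tb (n - s) (blF s l t ω), (pq s (ptF l t ω), C ω)))
      (fun ω => (tlF s n l t ω, C ω)) ≤ 2 * Real.log 9 := LocB.tube_le P s n h l t hl0 C
    have a4 : Stk.hc P' T (fun ω => (B.lab ω, Q ω)) =
        Stk.hc P (fun ω => tb n (l ω)) (fun ω => ((tbx (n - s) (blF s l t)).lab ω,
          (pq s (ptF l t ω), C ω))) :=
      Stk.hc_of_law P' P π h1 (fun ω => tb n (l ω)) (fun ω => ((tbx (n - s) (blF s l t)).lab ω,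
        (pq s (ptF l t ω), C ω)))
    have a5 : Stk.hc P (fun ω => tb n (l ω)) (fun ω => ((tbx (n - s) (blF s l t)).lab ω,
          (pq s (ptF l t ω), C ω))) = Stk.hc P (fun ω => tb n (l ω))
        (fun ω => (tb (n - s) (blF s l t ω), (pq s (ptF l t ω), C ω))) := by
      refine Stk.hc_congr P (fun _ _ _ _ e => congrArg Prod.fst e) (fun _ _ _ _ e => congrArg Prod.fst e) ?_ ?_
      · intro ω ω' _ _ e
        simp only [Prod.mk.injEq] at e ⊢
        exact ⟨LocT.tbx_lab.2 e.1, e.2⟩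
      · intro ω ω' _ _ e
        simp only [Prod.mk.injEq] at e ⊢
        exact ⟨LocT.tbx_lab.1 e.1, e.2⟩
    linarith
  -- softness
  have k2 : Stk.hc P' T (fun ω => (B.lab ω, Q ω)) ≤
      Stk.hc P' T (fun ω => (B.lab ω, (W.lab ω, Q ω))) + eta' := by
    have a1 := Stk.hc_pair P' T W.lab (fun ω => (B.lab ω, Q ω))
    have a2 := Stk.hc_pair P' W.lab T (fun ω => (B.lab ω, Q ω))
    have a3 : Stk.hc P' (fun ω => (T ω, W.lab ω)) (fun ω => (B.lab ω, Q ω)) =
        Stk.hc P' (fun ω => (W.lab ω, T ω)) (fun ω => (B.lab ω, Q ω)) :=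
      Stk.hc_congr P' (fun _ _ _ _ e => by simp only [Prod.mk.injEq] at e ⊢; exact ⟨e.1.2, e.1.1⟩)
        (fun _ _ _ _ e => by simp only [Prod.mk.injEq] at e ⊢; exact ⟨e.1.2, e.1.1⟩)
        (fun _ _ _ _ e => e) (fun _ _ _ _ e => e)
    have a4 : Stk.hc P' T (fun ω => (W.lab ω, (B.lab ω, Q ω))) ≤
        Stk.hc P' T (fun ω => (B.lab ω, (W.lab ω, Q ω))) :=
      Stk.hc_mono_right P' T fun ω ω' _ _ e => by
        simp only [Prod.mk.injEq] at e ⊢
        exact ⟨e.2.1, e.1, e.2.2⟩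
    have a5 : Stk.hc P' W.lab (fun ω => (B.lab ω, Q ω)) ≤
        Stk.hc P' W.lab (fun ω => (T ω, (B.lab ω, Q ω))) + eta' := hsoft
    linarith
  have k3 : Stk.hc P' B.lab (fun ω => (W.lab ω, Q ω)) +
      Stk.hc P' T (fun ω => (B.lab ω, (W.lab ω, Q ω))) ≤
      Stk.hc P' T (fun ω => (W.lab ω, Q ω)) + 6 * Real.log 13 := by
    have a1 := Stk.hc_pair P' B.lab T (fun ω => (W.lab ω, Q ω))
    have a2 := Stk.hc_pair P' T B.lab (fun ω => (W.lab ω, Q ω))
    have a3 : Stk.hc P' (fun ω => (T ω, B.lab ω)) (fun ω => (W.lab ω, Q ω)) =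
        Stk.hc P' (fun ω => (B.lab ω, T ω)) (fun ω => (W.lab ω, Q ω)) :=
      Stk.hc_congr P' (fun _ _ _ _ e => by simp only [Prod.mk.injEq] at e ⊢; exact ⟨e.1.2, e.1.1⟩)
        (fun _ _ _ _ e => by simp only [Prod.mk.injEq] at e ⊢; exact ⟨e.1.2, e.1.1⟩)
        (fun _ _ _ _ e => e) (fun _ _ _ _ e => e)
    have a4 : Stk.hc P' B.lab (fun ω => (T ω, (W.lab ω, Q ω))) ≤
        Stk.hc P' B.lab (fun ω => (T ω, Q ω)) :=
      Stk.hc_mono_right P' B.lab fun ω ω' _ _ e => by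
        simp only [Prod.mk.injEq] at e ⊢
        exact ⟨e.1, e.2.2⟩
    have a5 : Stk.hc P' B.lab (fun ω => (T ω, Q ω)) =
        Stk.hc P (tbx (n - s) (blF s l t)).lab (fun ω => (tb n (l ω), (pq s (ptF l t ω), C ω))) :=
      Stk.hc_of_law P' P π h1 (tbx (n - s) (blF s l t)).lab
        (fun ω => (tb n (l ω), (pq s (ptF l t ω), C ω)))
    have a6 := Ball.ball_of_tube P s n h l t hl0 (fun ω hω => (hg ω hω).2) C
    have a7 : Stk.hc P (tbx (n - s) (blF s l t)).lab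
        (fun ω => (tb n (l ω), (pq s (ptF l t ω), C ω))) ≤
        Stk.hc P (fun ω => (tb (n - s) (Ball.bl1 s (l ω) (t ω)), (pq s (t ω, pos (l ω) (t ω)), C ω)))
          (fun ω => (fl1 s (t ω), (tb n (l ω), C ω))) := by
      have b1 : Stk.hc P (tbx (n - s) (blF s l t)).lab
          (fun ω => (tb n (l ω), (pq s (ptF l t ω), C ω))) ≤
          Stk.hc P (tbx (n - s) (blF s l t)).lab (fun ω => (fl1 s (t ω), (tb n (l ω), C ω))) :=
        Stk.hc_mono_right P _ fun ω ω' _ _ e => by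
          simp only [Prod.mk.injEq] at e ⊢
          exact ⟨congrArg Prod.fst e.2.1, e.1, e.2.2⟩
      refine b1.trans ?_
      refine Stk.hc_mono_left P fun ω ω' _ _ e => ?_
      simp only [Prod.mk.injEq] at e
      exact LocT.tbx_lab.2 e.1.1
    linarith
  unfold XF
  have k9 : excFl lam P (tbx (n - s) (blF s l t)) (fun ω => (pq s (ptF l t ω), C ω)) ≤
      exVl lam P' B W (fun ω => Q ω) + eta := hopt
  rw [k8] at k9
  show _ ≤ Stk.hc P' T (fun ω => (W.lab ω, Q ω)) -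
    Real.log 2 * (2 * ((n : ℝ) - s) - P'.ex (W.szl lam)) + _
  linarith

/-- **BASIC, finite form**: `W` soft and nearly optimal at the level `h`, `S` any box at the level
`a`; laws on a common extension are not needed -/
theorem basic_fin (hl : 0 ≤ lam ∧ lam ≤ 1) (P : Law Ω) {a h n : ℕ} (ha : a ≤ n) (hh : h ≤ n)
    {l : Ω → Ln} {t : Ω → ℝ} (hg : GoodF P l t) (C : Ω → γ) {P' : Law Ω'} {π : Ω' → Ω}
    {W S : Bx Ω'} {eta eta' c : ℝ} {m : ℕ} (hm : c ≤ 2 ^ m) (h1 : ∀ ω, P'.pr π ω = P.w ω)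
    (hS : ∀ ω, 0 < P'.w ω → Sub c ((tbx (n - a) (blF a l t)).comp π) S ω)
    (hopt : excFl lam P (tbx (n - h) (blF h l t)) (fun ω => (pq h (ptF l t ω), C ω)) ≤
      exVl lam P' ((tbx (n - h) (blF h l t)).comp π) W
        (fun ω => (pq h (ptF l t (π ω)), C (π ω))) + eta)
    (hsoft : Stk.hc P' W.lab (fun ω => (((tbx (n - h) (blF h l t)).comp π).lab ω,
        (pq h (ptF l t (π ω)), C (π ω)))) ≤
      Stk.hc P' W.lab (fun ω => (tb n (l (π ω)), (((tbx (n - h) (blF h l t)).comp π).lab ω,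
        (pq h (ptF l t (π ω)), C (π ω))))) + eta') :
    XF lam P h n l t C + (Stk.hc P' (fun ω => tb n (l (π ω)))
        (fun ω => (S.lab ω, (pq a (ptF l t (π ω)), C (π ω)))) -
      Stk.hc P' (fun ω => tb n (l (π ω))) (fun ω => (W.lab ω, (pq h (ptF l t (π ω)), C (π ω))))) -
      Real.log 2 * (2 * ((h : ℝ) - a) + P'.ex (fun ω => W.szl lam ω - S.szl lam ω)) ≤
      XF lam P a n l t C + (eta + eta' + (2 * Real.log 9 + 6 * Real.log 13) +
        (Real.log (((2 * 4 + 1) ^ 4 : ℕ) : ℝ) + Real.log 2 * (2 * m) + 2 * Real.log 9)) := by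
  have k1 := valX_le hl P ha hg C hm h1 hS
  have k2 := XF_le (lam := lam) P hh hg C h1 hopt hsoft
  have k3 : P'.ex (fun ω => W.szl lam ω - S.szl lam ω) = P'.ex (W.szl lam) - P'.ex (S.szl lam) :=
    P'.ex_sub _ _
  unfold valX at k1 k2
  rw [k3]
  have e1 : (fun ω => (S.lab ω, (pq a (ptF (fun ω => l (π ω)) (fun ω => t (π ω)) ω), C (π ω)))) =
      (fun ω => (S.lab ω, (pq a (ptF l t (π ω)), C (π ω)))) := rfl
  have e2 : (fun ω => (W.lab ω, (pq h (ptF (fun ω => l (π ω)) (fun ω => t (π ω)) ω), C (π ω)))) =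
      (fun ω => (W.lab ω, (pq h (ptF l t (π ω)), C (π ω)))) := rfl
  rw [e1] at k1
  rw [e2] at k2
  linarith

end finite

end Lam

end Vale.Agent.P127.U
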