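import Vale.Agent.P127.U.Lam.FSat
import Vale.Agent.P127.U.Lam.Basic

/-!
# P127 / U / Lam : selection of a value of the pattern, near-extremal laws (helper723)

* `selAll` : for an event `A` on the values of `Pt` of probability `≥ g`, and finitely many nonnegative
  functions `F j` of the values with averages `≤ c j`, there is a value in `A` with
  `log (1 / P(Pt = e)) ≤ (#s + 2) H / g` and `F j e ≤ (#s + 2) c j / g` for all `j`.
* `Phi` : value of the label `Bo` minus the price of the law; `Phi_le` (upper bound from `JFG`),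
  `Phi_avg` (average over the values of `Pt`).
* `phi_sel` : selection with `Phi` of the conditioned law.
* `NEx.sel` : the same for `NEx`.  `NEx.sel_card`, `NEx.sel_pt` : special cases.
-/

set_option autoImplicit false

namespace Vale.Agent.P127.U

open Filter Topology Vale.Agent.P127 Vale.Agent.P127.Stk Sys

namespace Lam

open JSB

/-! ### selection -/

section sel

variable {Ω : Type} [Fintype Ω] {S ι : Type*}

theorem ex_nonneg' (P : Law Ω) {f : Ω → ℝ} (h : ∀ ω, 0 < P.w ω → 0 ≤ f ω) : 0 ≤ P.ex f := by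
  have h1 := P.ex_mono (f := fun _ => (0 : ℝ)) (g := f) h
  rwa [P.ex_const] at h1

theorem prE_eq_ex (P : Law Ω) (E : Ω → Prop) : prE P E = P.ex fun ω => Law.ind (E ω) := by
  classical
  unfold prE Law.ex
  rw [Finset.sum_filter]
  refine Finset.sum_congr rfl fun ω _ => ?_
  show (if E ω then P.w ω else 0) = P.w ω * Law.ind (E ω)
  by_cases h : E ω
  · rw [if_pos h, Law.ind_of h, mul_one]
  · rw [if_neg h, Law.ind_not h, mul_zero]

theorem ex_sum' (P : Law Ω) (s : Finset ι) (f : ι → Ω → ℝ) :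
    P.ex (fun ω => ∑ j ∈ s, f j ω) = ∑ j ∈ s, P.ex (f j) := by
  unfold Law.ex
  rw [Finset.sum_comm]
  exact Finset.sum_congr rfl fun ω _ => Finset.mul_sum _ _ _

/-- surprisal of the value of `Pt` -/
theorem surp_nonneg (P : Law Ω) (Pt : Ω → S) {ω : Ω} (h : 0 < P.w ω) :
    0 ≤ Real.log (1 / P.pr Pt (Pt ω)) :=
  Real.log_nonneg ((one_le_div (P.pr_pos Pt h)).2 (P.pr_le_one _ _))

theorem ex_surp (P : Law Ω) (Pt : Ω → S) :
    P.ex (fun ω => Real.log (1 / P.pr Pt (Pt ω))) = P.H Pt := by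
  unfold Law.H
  refine P.ex_congr fun ω _ => ?_
  rw [one_div, Real.log_inv]

/-- **selection of a value of `Pt`**, event and averages -/
theorem selAll (P : Law Ω) (Pt : Ω → S) (A : S → Prop) (s : Finset ι) (F : ι → S → ℝ) (c : ι → ℝ)
    {g H : ℝ} (hg : 0 < g) (hH0 : 0 < H) (hH : P.H Pt ≤ H)
    (hF0 : ∀ j ∈ s, ∀ ω, 0 < P.w ω → 0 ≤ F j (Pt ω)) (hc : ∀ j ∈ s, 0 < c j)
    (hF : ∀ j ∈ s, P.ex (fun ω => F j (Pt ω)) ≤ c j) (hA : g ≤ prE P (fun ω => A (Pt ω))) :
    ∃ ω, 0 < P.w ω ∧ A (Pt ω) ∧ Real.log (1 / P.pr Pt (Pt ω)) ≤ (s.card + 2) * H / g ∧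
      ∀ j ∈ s, F j (Pt ω) ≤ (s.card + 2) * c j / g := by
  classical
  by_contra hcon
  push Not at hcon
  set G : Ω → ℝ := fun ω => Real.log (1 / P.pr Pt (Pt ω)) / H + ∑ j ∈ s, F j (Pt ω) / c j with hG
  have hG1 : ∀ ω, 0 < P.w ω → 0 ≤ Real.log (1 / P.pr Pt (Pt ω)) / H := fun ω hω =>
    div_nonneg (surp_nonneg P Pt hω) hH0.le
  have hG2 : ∀ ω, 0 < P.w ω → ∀ j ∈ s, 0 ≤ F j (Pt ω) / c j := fun ω hω j hj =>
    div_nonneg (hF0 j hj ω hω) (hc j hj).le
  have hG0 : ∀ ω, 0 < P.w ω → 0 ≤ G ω := fun ω hω =>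
    add_nonneg (hG1 ω hω) (Finset.sum_nonneg (hG2 ω hω))
  have e1 : P.ex G ≤ s.card + 1 := by
    rw [hG, P.ex_add, ex_sum' P s (fun j ω => F j (Pt ω) / c j)]
    have a1 : P.ex (fun ω => Real.log (1 / P.pr Pt (Pt ω)) / H) ≤ 1 := by
      have : P.ex (fun ω => Real.log (1 / P.pr Pt (Pt ω)) / H) = P.H Pt / H := by
        rw [← ex_surp P Pt]
        unfold Law.ex
        rw [Finset.sum_div]
        exact Finset.sum_congr rfl fun ω _ => by ring
      rw [this]
      exact (div_le_one hH0).2 hH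
    have a2 : ∑ j ∈ s, P.ex (fun ω => F j (Pt ω) / c j) ≤ s.card := by
      have b1 : ∑ j ∈ s, P.ex (fun ω => F j (Pt ω) / c j) ≤ ∑ _j ∈ s, (1 : ℝ) := by
        refine Finset.sum_le_sum fun j hj => ?_
        have : P.ex (fun ω => F j (Pt ω) / c j) = P.ex (fun ω => F j (Pt ω)) / c j := by
          unfold Law.ex
          rw [Finset.sum_div]
          exact Finset.sum_congr rfl fun ω _ => by ring
        rw [this]
        exact (div_le_one (hc j hj)).2 (hF j hj)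
      refine b1.trans (le_of_eq ?_)
      rw [Finset.sum_const, nsmul_eq_mul, mul_one]
    linarith
  have e2 : ∀ ω, 0 < P.w ω → ((s.card : ℝ) + 2) / g * Law.ind (A (Pt ω)) ≤ G ω := by
    intro ω hω
    by_cases hAω : A (Pt ω)
    · rw [Law.ind_of hAω, mul_one]
      by_cases hL : Real.log (1 / P.pr Pt (Pt ω)) ≤ (s.card + 2) * H / g
      · obtain ⟨j, hj, hj2⟩ := hcon ω hω hAω hL
        have a1 : ((s.card : ℝ) + 2) / g ≤ F j (Pt ω) / c j := by
          rw [le_div_iff₀ (hc j hj)]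
          refine le_trans (le_of_eq ?_) hj2.le
          ring
        have a2 := Finset.single_le_sum (f := fun j => F j (Pt ω) / c j) (hG2 ω hω) hj
        have a3 := hG1 ω hω
        have a4 : F j (Pt ω) / c j ≤ ∑ j ∈ s, F j (Pt ω) / c j := a2
        show _ ≤ Real.log (1 / P.pr Pt (Pt ω)) / H + ∑ j ∈ s, F j (Pt ω) / c j
        linarith
      · rw [not_le] at hL
        have a1 : ((s.card : ℝ) + 2) / g ≤ Real.log (1 / P.pr Pt (Pt ω)) / H := by
          rw [le_div_iff₀ hH0]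
          refine le_trans (le_of_eq ?_) hL.le
          ring
        have a3 := Finset.sum_nonneg (hG2 ω hω)
        show _ ≤ Real.log (1 / P.pr Pt (Pt ω)) / H + ∑ j ∈ s, F j (Pt ω) / c j
        linarith
    · rw [Law.ind_not hAω, mul_zero]
      exact hG0 ω hω
  have e3 := P.ex_mono e2
  have e4 : P.ex (fun ω => ((s.card : ℝ) + 2) / g * Law.ind (A (Pt ω))) =
      ((s.card : ℝ) + 2) / g * prE P (fun ω => A (Pt ω)) := by
    rw [prE_eq_ex]
    unfold Law.ex
    rw [Finset.mul_sum]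
    exact Finset.sum_congr rfl fun ω _ => by ring
  have e5 : (s.card : ℝ) + 2 ≤ ((s.card : ℝ) + 2) / g * prE P (fun ω => A (Pt ω)) := by
    have h1 : (0 : ℝ) ≤ s.card := Nat.cast_nonneg _
    calc (s.card : ℝ) + 2 = ((s.card : ℝ) + 2) / g * g := by field_simp
      _ ≤ _ := mul_le_mul_of_nonneg_left hA (by positivity)
  rw [e4] at e3
  linarith

/-- entropy of a variable with at most `M` values -/
theorem H_le_card (P : Law Ω) (Pt : Ω → S) {M : ℕ} (hM : (img Pt).card ≤ M) :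
    P.H Pt ≤ Real.log M := by
  classical
  have hMpos : 0 < M := by
    have hne : (img Pt).Nonempty := by
      by_contra h0
      rw [Finset.not_nonempty_iff_eq_empty] at h0
      have := P.sum_pr_image Pt
      rw [h0, Finset.sum_empty] at this
      exact absurd this (by norm_num)
    exact (Finset.card_pos.2 hne).trans_le hM
  have hM' : (0 : ℝ) < M := by exact_mod_cast hMpos
  have h1 := P.gibbs Pt (fun _ => 1 / (M : ℝ)) (fun _ => by positivity) (by
    rw [Finset.sum_const, nsmul_eq_mul, mul_one_div]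
    exact div_le_one_of_le₀ (by exact_mod_cast hM) hM'.le) (fun _ _ => by positivity)
  rw [P.ex_const, one_div, Real.log_inv, neg_neg] at h1
  exact h1

/-- lower bound for the probability from the surprisal -/
theorem pr_ge (P : Law Ω) (Pt : Ω → S) {ω : Ω} (h : 0 < P.w ω) {x : ℝ}
    (hx : Real.log (1 / P.pr Pt (Pt ω)) ≤ x) : Real.exp (-x) ≤ P.pr Pt (Pt ω) := by
  have h1 := P.pr_pos Pt h
  rw [one_div, Real.log_inv] at hx
  rw [← Real.log_le_log_iff (Real.exp_pos _) h1, Real.log_exp]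
  linarith

end sel

/-! ### the functional -/

section phi

variable {Ω : Type} [Fintype Ω] {B : Type*}

/-- value of the label `Bo` minus the price of the law -/
noncomputable def Phi (N lam V0 : ℝ) (P : Law Ω) (h n : ℕ) (l : Ω → Ln) (t : Ω → ℝ) (Bo : Ω → B) :
    ℝ :=
  Stk.hc P (fun ω => tb n (l ω)) Bo - V0 - excFl lam P (tbx n l) (fun _ => ()) -
    N * DF P h n l t (fun _ => ())

/-- upper bound of the functional -/
theorem Phi_le {N lam β : ℝ} (hG : JFG N lam β) {ε : ℝ} (hε : 0 < ε) :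
    ∃ c : ℝ, 0 ≤ c ∧ ∀ (Ω : Type) [Fintype Ω] (Q : Law Ω) (h n : ℕ) (l : Ω → Ln) (t : Ω → ℝ)
      (B : Type) (Bo : Ω → B) (V0 K : ℝ), GoodF Q l t → h ≤ n →
      Stk.hc Q (fun ω => tb n (l ω)) Bo - V0 ≤ XF lam Q h n l t (fun _ => ()) + K →
      Phi N lam V0 Q h n l t Bo ≤
        (β + ε) * h * Real.log 2 + c * (1 + Real.log (n + 1)) + K := by
  obtain ⟨c, hc⟩ := hG ε hε
  refine ⟨max c 0, le_max_right _ _, ?_⟩
  intro Ω _ Q h n l t B Bo V0 K hgood hn hV
  have h1 := hc Ω Q l t h n hgood hn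
  have h6 : 0 ≤ Real.log ((n : ℝ) + 1) := Real.log_nonneg (by
    have : (0 : ℝ) ≤ n := Nat.cast_nonneg _
    linarith)
  have h2 : c * (1 + Real.log ((n : ℝ) + 1)) ≤ max c 0 * (1 + Real.log ((n : ℝ) + 1)) :=
    mul_le_mul_of_nonneg_right (le_max_left _ _) (by linarith)
  unfold Phi
  linarith

/-- average of the functional over the values of `Pt` -/
theorem Phi_avg {N lam V0 : ℝ} (hl : 0 ≤ lam ∧ lam ≤ 1) (hN : 0 ≤ N) (P : Law Ω) {h n : ℕ}
    {l : Ω → Ln} {t : Ω → ℝ} (hg : GoodF P l t) (Bo : Ω → B) {S : Type} (Pt : Ω → S) :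
    Phi N lam V0 P h n l t Bo - ((N + 1) * P.H Pt + 1) ≤
      P.ex (fun ω => Phi N lam V0 (P.cond Pt (Pt ω)) h n l t Bo) := by
  rw [P.ex_comp Pt (fun e => Phi N lam V0 (P.cond Pt e) h n l t Bo)]
  have hok : ∀ ω, 0 < P.w ω → BxOk (tbx n l) ω := fun ω hω => tbx_ok (hg ω hω).1
  -- the entropy of the line
  have h1 : Stk.hc P (fun ω => tb n (l ω)) Bo ≤
      (∑ e ∈ img Pt, P.pr Pt e * Stk.hc (P.cond Pt e) (fun ω => tb n (l ω)) Bo) + P.H Pt := by
    rw [← hc_cond_sum]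
    have a1 := Stk.hc_le_add' P (fun ω => tb n (l ω)) Pt Bo
    have a2 := Stk.hc_le_H P Pt Bo
    have a3 : Stk.hc P (fun ω => tb n (l ω)) (fun ω => (Pt ω, Bo ω)) ≤
        Stk.hc P (fun ω => tb n (l ω)) (fun ω => (Bo ω, Pt ω)) :=
      Stk.hc_mono_right P _ fun ω ω' _ _ e => by
        simp only [Prod.mk.injEq] at e ⊢
        exact ⟨e.2, e.1⟩
    linarith
  -- the excess
  have h2 : ∑ e ∈ img Pt, P.pr Pt e * excFl lam (P.cond Pt e) (tbx n l) (fun _ => ()) ≤
      excFl lam P (tbx n l) (fun _ => ()) + 1 := by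
    have a1 := excFl_cond_sum hl P (tbx n l) (fun _ => ()) Pt hok
    have a2 : excFl lam P (tbx n l) (fun ω => ((), Pt ω)) ≤ excFl lam P (tbx n l) (fun _ => ()) := by
      have b1 := excF_cond hl (P := P) (B := tbx n l) (fun _ => ()) Pt hok
      refine le_trans (le_of_eq ?_) b1
      refine excFl_congr hl _ _ hok fun ω ω' => ?_
      simp only [Prod.mk.injEq]
      tauto
    linarith
  -- the deficit
  have h3 : ∑ e ∈ img Pt, P.pr Pt e * DF (P.cond Pt e) h n l t (fun _ => ()) ≤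
      DF P h n l t (fun _ => ()) + P.H Pt := by
    rw [← DF_cond_sum P h n l t Pt]
    have a1 := Stk.hc_le_add' P (fun ω => fl1 h (t ω)) Pt (fun ω => (tb n (l ω), ()))
    have a2 := Stk.hc_le_H P Pt (fun ω => (tb n (l ω), ()))
    have a3 : Stk.hc P (fun ω => fl1 h (t ω)) (fun ω => (Pt ω, (tb n (l ω), ()))) ≤
        Stk.hc P (fun ω => fl1 h (t ω)) (fun ω => (tb n (l ω), Pt ω)) :=
      Stk.hc_mono_right P _ fun ω ω' _ _ e => by
        simp only [Prod.mk.injEq] at e ⊢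
        exact ⟨e.2.1, e.1⟩
    unfold DF
    linarith
  have h4 : ∑ e ∈ img Pt, P.pr Pt e * V0 = V0 := by
    rw [← Finset.sum_mul, P.sum_pr_image Pt, one_mul]
  have h5 : ∑ e ∈ img Pt, P.pr Pt e * Phi N lam V0 (P.cond Pt e) h n l t Bo =
      (∑ e ∈ img Pt, P.pr Pt e * Stk.hc (P.cond Pt e) (fun ω => tb n (l ω)) Bo) -
      (∑ e ∈ img Pt, P.pr Pt e * V0) -
      (∑ e ∈ img Pt, P.pr Pt e * excFl lam (P.cond Pt e) (tbx n l) (fun _ => ())) -
      N * ∑ e ∈ img Pt, P.pr Pt e * DF (P.cond Pt e) h n l t (fun _ => ()) := by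
    rw [Finset.mul_sum, ← Finset.sum_sub_distrib, ← Finset.sum_sub_distrib, ← Finset.sum_sub_distrib]
    refine Finset.sum_congr rfl fun e _ => ?_
    unfold Phi
    ring
  rw [h5, h4]
  have h6 := mul_le_mul_of_nonneg_left h3 hN
  unfold Phi
  nlinarith

end phi

/-- **selection with the functional** -/
theorem phi_sel {N lam β : ℝ} (hl : 0 ≤ lam ∧ lam ≤ 1) (hN : 0 ≤ N) (hG : JFG N lam β) {ε : ℝ}
    (hε : 0 < ε) :
    ∃ c : ℝ, 0 ≤ c ∧ ∀ (Ω : Type) [Fintype Ω] (P : Law Ω) (h n : ℕ) (l : Ω → Ln) (t : Ω → ℝ)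
      (B : Type) (Bo : Ω → B) (V0 K : ℝ), GoodF P l t → h ≤ n → 0 ≤ K →
      (∀ Q : Law Ω, (∀ ω, 0 < Q.w ω → 0 < P.w ω) →
        Stk.hc Q (fun ω => tb n (l ω)) Bo - V0 ≤ XF lam Q h n l t (fun _ => ()) + K) →
      ∀ (d : ℝ), 0 ≤ d → (β - d) * h * Real.log 2 ≤ Phi N lam V0 P h n l t Bo →
      ∀ (S ι : Type) (Pt : Ω → S) (A : S → Prop) (s : Finset ι) (F : ι → S → ℝ) (cs : ι → ℝ)
        (g H : ℝ), 0 < g → 0 < H → P.H Pt ≤ H →
        (∀ j ∈ s, ∀ ω, 0 < P.w ω → 0 ≤ F j (Pt ω)) → (∀ j ∈ s, 0 < cs j) →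
        (∀ j ∈ s, P.ex (fun ω => F j (Pt ω)) ≤ cs j) → g ≤ prE P (fun ω => A (Pt ω)) →
        ∃ ω, 0 < P.w ω ∧ A (Pt ω) ∧
          Real.log (1 / P.pr Pt (Pt ω)) ≤ (s.card + 3) * H / g ∧
          (∀ j ∈ s, F j (Pt ω) ≤ (s.card + 3) * cs j / g) ∧
          β * h * Real.log 2 - (s.card + 3) * ((d + ε) * h * Real.log 2 +
            c * (1 + Real.log (n + 1)) + K + (N + 1) * H + 1) / g ≤
            Phi N lam V0 (P.cond Pt (Pt ω)) h n l t Bo := by
  classical
  obtain ⟨c, hc0, hc⟩ := Phi_le (N := N) hG hε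
  refine ⟨c, hc0, ?_⟩
  intro Ω _ P h n l t B Bo V0 K hgood hn hK hV d hd hP S ι Pt A s F cs g H hg hH0 hH hF0 hcs hF hA
  have hlog : 0 < Real.log 2 := Real.log_pos (by norm_num)
  have hlogn : 0 ≤ Real.log ((n : ℝ) + 1) := Real.log_nonneg (by
    have : (0 : ℝ) ≤ n := Nat.cast_nonneg _
    linarith)
  set F₁ : ℝ := (β + ε) * h * Real.log 2 + c * (1 + Real.log (n + 1)) + K with hF₁
  set D : ℝ := (d + ε) * h * Real.log 2 + c * (1 + Real.log (n + 1)) + K + (N + 1) * H + 1 with hD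
  have hh : (0 : ℝ) ≤ h := Nat.cast_nonneg _
  have q1 : 0 ≤ (d + ε) * h * Real.log 2 := by positivity
  have q2 : 0 ≤ c * (1 + Real.log ((n : ℝ) + 1)) := mul_nonneg hc0 (by linarith)
  have q3 : 0 ≤ (N + 1) * H := by positivity
  have hD0 : 0 < D := by linarith
  have hup : ∀ ω, 0 < P.w ω → Phi N lam V0 (P.cond Pt (Pt ω)) h n l t Bo ≤ F₁ := by
    intro ω _
    exact hc Ω (P.cond Pt (Pt ω)) h n l t B Bo V0 K (fun ω' hω' => hgood ω' (cond_supp P Pt _ hω')) hn
      (hV _ fun ω' hω' => cond_supp P Pt _ hω')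
  have hav : P.ex (fun ω => F₁ - Phi N lam V0 (P.cond Pt (Pt ω)) h n l t Bo) ≤ D := by
    rw [P.ex_sub, P.ex_const]
    have a1 := Phi_avg (V0 := V0) hl hN P (h := h) (n := n) hgood Bo Pt
    have a2 : (N + 1) * P.H Pt ≤ (N + 1) * H := mul_le_mul_of_nonneg_left hH (by linarith)
    have a3 : (β + ε) * h * Real.log 2 - (β - d) * h * Real.log 2 = (d + ε) * h * Real.log 2 := by
      ring
    rw [hF₁, hD]
    linarith
  obtain ⟨ω, w1, w2, w3, w4⟩ := selAll P Pt A (Finset.insertNone s)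
    (fun o e => o.elim (F₁ - Phi N lam V0 (P.cond Pt e) h n l t Bo) (fun j => F j e))
    (fun o => o.elim D cs) hg hH0 hH (by
      intro o ho ω hω
      cases o with
      | none => exact sub_nonneg.2 (hup ω hω)
      | some j => exact hF0 j (Finset.some_mem_insertNone.1 ho) ω hω) (by
      intro o ho
      cases o with
      | none => exact hD0
      | some j => exact hcs j (Finset.some_mem_insertNone.1 ho)) (by
      intro o ho
      cases o with
      | none => exact hav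
      | some j => exact hF j (Finset.some_mem_insertNone.1 ho)) hA
  have hcard : (((Finset.insertNone s).card : ℕ) : ℝ) + 2 = s.card + 3 := by
    rw [Finset.card_insertNone]
    push_cast
    ring
  rw [hcard] at w3 w4
  refine ⟨ω, w1, w2, w3, fun j hj => w4 (some j) (Finset.some_mem_insertNone.2 hj), ?_⟩
  have w5 := w4 none Finset.none_mem_insertNone
  have w6 : F₁ - Phi N lam V0 (P.cond Pt (Pt ω)) h n l t Bo ≤ (s.card + 3) * D / g := w5
  have w7 : β * h * Real.log 2 ≤ F₁ := by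
    have : 0 ≤ ε * h * Real.log 2 := by positivity
    rw [hF₁]
    linarith [show (β + ε) * h * Real.log 2 = β * h * Real.log 2 + ε * h * Real.log 2 by ring]
  linarith

/-! ### near-extremal laws -/

theorem pr_id' {Ω : Type} [Fintype Ω] (P : Law Ω) (ω : Ω) : P.pr id ω = P.w ω := by
  classical
  unfold Law.pr
  rw [Finset.sum_filter]
  simp

/-- the value of the end label is at most `X(L)` -/
theorem nex_val {lam : ℝ} (hl : 0 ≤ lam ∧ lam ≤ 1) {Ω : Type} [Fintype Ω] (Q : Law Ω) {l : Ω → Ln}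
    {t : Ω → ℝ} {W : Bx Ω} {L q n : ℕ} (hn : n = L + q) (hgood : GoodF Q l t)
    (hlab : ∀ ω, 0 < Q.w ω → W.l ω = blF L l t ω ∧ |W.θ ω| ≤ Real.pi / 4 ∧ W.k ω = 0 ∧ W.j ω = q) :
    Stk.hc Q (fun ω => tb n (l ω)) (fun ω => (W.lab ω, pq L (ptF l t ω))) -
      (2 * ((n : ℝ) - L) - (1 - lam) * q) * Real.log 2 ≤
      XF lam Q L n l t (fun _ => ()) + (Real.log (((2 * 4 + 1) ^ 4 : ℕ) : ℝ) + 2 * Real.log 9) := by
  have hLn : L ≤ n := by omega
  have hpi : Real.pi / 4 ≤ 4 := by linarith [Real.pi_le_four]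
  have k1 := valX_le hl Q hLn hgood (fun _ => ()) (P' := Q) (π := id) (W := W) (c := 1) (m := 0)
    (by norm_num) (pr_id' Q) (by
      intro ω hω
      obtain ⟨a1, a2, a3, a4⟩ := hlab ω hω
      have e : n - L = q := by omega
      refine ⟨a1, a2.trans hpi, ?_, ?_, ?_, ?_⟩
      · rw [a3]
        exact Nat.zero_le _
      · rw [a3]
        exact Nat.zero_le _
      · rw [a4]
        exact e.ge
      · show |Real.sin (0 - W.θ ω)| * (1 / 2 : ℝ) ^ (n - L) ≤ 1 * (1 / 2 : ℝ) ^ W.j ω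
        rw [a4, e]
        exact mul_le_mul_of_nonneg_right (Real.abs_sin_le_one _) (by positivity))
  have k2 : Q.ex (W.szl lam) = (1 - lam) * q := by
    have : Q.ex (W.szl lam) = Q.ex fun _ => (1 - lam) * (q : ℝ) := by
      refine Q.ex_congr fun ω hω => ?_
      obtain ⟨a1, a2, a3, a4⟩ := hlab ω hω
      show (1 + lam) * (W.k ω : ℝ) + (1 - lam) * (W.j ω : ℝ) = _
      rw [a3, a4]
      push_cast
      ring
    rw [this, Q.ex_const]
  have k3 : Stk.hc Q (fun ω => tb n (l ω)) (fun ω => (W.lab ω, pq L (ptF l t ω))) ≤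
      Stk.hc Q (fun ω => tb n (l ω)) (fun ω => (W.lab ω, (pq L (ptF l t ω), ()))) :=
    Stk.hc_mono_right Q _ fun ω ω' _ _ e => by
      simp only [Prod.mk.injEq] at e ⊢
      exact ⟨e.1, e.2, trivial⟩
  unfold valX at k1
  rw [k2] at k1
  have k4 : Stk.hc Q (fun ω => tb n (l (id ω)))
      (fun ω => (W.lab ω, (pq L (ptF (fun ω => l (id ω)) (fun ω => t (id ω)) ω), ()))) =
      Stk.hc Q (fun ω => tb n (l ω)) (fun ω => (W.lab ω, (pq L (ptF l t ω), ()))) := rfl
  rw [k4] at k1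
  have k5 : Real.log 2 * (2 * ((0 : ℕ) : ℝ)) = 0 := by
    rw [Nat.cast_zero]
    ring
  rw [k5] at k1
  have k6 : Real.log 2 * (2 * ((n : ℝ) - L) - (1 - lam) * q) =
    (2 * ((n : ℝ) - L) - (1 - lam) * q) * Real.log 2 := mul_comm _ _
  have k8 : XF lam Q L n l t (fun _ => ()) = XF lam Q L n l t (fun _ => ()) := rfl
  linarith

end Lam

open Lam in
/-- **selection for near-extremal laws** : event `A` of probability `≥ g` on the values of `Pt`,
finitely many nonnegative functions `F j` of the values with averages `≤ cs j` -/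
theorem nex_sel {N lam β : ℝ} (hN : 0 ≤ N) (h0 : 0 < lam) (h1 : lam ≤ 1) (hG : JFG N lam β) {ε : ℝ}
    (hε : 0 < ε) :
    ∃ c : ℝ, 0 ≤ c ∧ ∀ (Ω : Type) [Fintype Ω] (P : Law Ω) (l : Ω → Ln) (t : Ω → ℝ) (W : Bx Ω)
      (L q n : ℕ) (d : ℝ), NEx N lam β d P l t W L q n → 0 ≤ d → 0 < L →
      ∀ (S ι : Type) (Pt : Ω → S) (A : S → Prop) (s : Finset ι) (F : ι → S → ℝ) (cs : ι → ℝ)
        (g H : ℝ), 0 < g → 0 < H → P.H Pt ≤ H →
        (∀ j ∈ s, ∀ ω, 0 < P.w ω → 0 ≤ F j (Pt ω)) → (∀ j ∈ s, 0 < cs j) →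
        (∀ j ∈ s, P.ex (fun ω => F j (Pt ω)) ≤ cs j) → g ≤ prE P (fun ω => A (Pt ω)) →
        ∃ ω, 0 < P.w ω ∧ A (Pt ω) ∧
          Real.log (1 / P.pr Pt (Pt ω)) ≤ (s.card + 3) * H / g ∧
          (∀ j ∈ s, F j (Pt ω) ≤ (s.card + 3) * cs j / g) ∧
          NEx N lam β ((s.card + 3) / g * (d + ε + (c * (1 + Real.log (n + 1)) +
            (N + 1) * H / Real.log 2) / L)) (P.cond Pt (Pt ω)) l t W L q n := by
  have hl : 0 ≤ lam ∧ lam ≤ 1 := ⟨h0.le, h1⟩
  have hlog : 0 < Real.log 2 := Real.log_pos (by norm_num)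
  obtain ⟨c, hc0, hc⟩ := phi_sel hl hN hG hε
  set K : ℝ := Real.log (((2 * 4 + 1) ^ 4 : ℕ) : ℝ) + 2 * Real.log 9 with hK
  have hK0 : 0 ≤ K := by
    have a1 : 0 ≤ Real.log (((2 * 4 + 1) ^ 4 : ℕ) : ℝ) := Real.log_nonneg (by norm_num)
    have a2 : 0 ≤ Real.log (9 : ℝ) := Real.log_nonneg (by norm_num)
    linarith
  refine ⟨(c + K + 1) / Real.log 2, by positivity, ?_⟩
  intro Ω _ P l t W L q n d hP hd hL S ι Pt A s F cs g H hg hH0 hH hF0 hcs hF hA
  have hLr : (0 : ℝ) < L := by exact_mod_cast hL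
  have hlogn : 0 ≤ Real.log ((n : ℝ) + 1) := Real.log_nonneg (by
    have : (0 : ℝ) ≤ n := Nat.cast_nonneg _
    linarith)
  have hge := hP.ge
  obtain ⟨ω, w1, w2, w3, w4, w5⟩ := hc Ω P L n l t _ (fun ω => (W.lab ω, pq L (ptF l t ω)))
    ((2 * ((n : ℝ) - L) - (1 - lam) * q) * Real.log 2) K hP.good (by have := hP.nq; omega) hK0
    (fun Q hQ => nex_val hl Q hP.nq (fun ω hω => hP.good ω (hQ ω hω))
      (fun ω hω => hP.lab ω (hQ ω hω))) d hd (by
      unfold Phi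
      linarith) S ι Pt A s F cs g H hg hH0 hH hF0 hcs hF hA
  refine ⟨ω, w1, w2, w3, w4, hP.of_ac (fun ω' hω' => JSB.cond_supp P Pt _ hω') ?_⟩
  unfold Phi at w5
  set X : ℝ := (d + ε) * L * Real.log 2 + c * (1 + Real.log (n + 1)) + K + (N + 1) * H + 1 with hX
  have e1 : X ≤ (d + ε + ((c + K + 1) / Real.log 2 * (1 + Real.log (n + 1)) +
      (N + 1) * H / Real.log 2) / L) * L * Real.log 2 := by
    have e2 : (d + ε + ((c + K + 1) / Real.log 2 * (1 + Real.log (n + 1)) +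
      (N + 1) * H / Real.log 2) / L) * L * Real.log 2 = (d + ε) * L * Real.log 2 +
      (c + K + 1) * (1 + Real.log (n + 1)) + (N + 1) * H := by
      field_simp
      ring
    rw [e2, hX]
    nlinarith
  have e3 : (s.card + 3) * X / g ≤ (s.card + 3) / g *
      (d + ε + ((c + K + 1) / Real.log 2 * (1 + Real.log (n + 1)) +
      (N + 1) * H / Real.log 2) / L) * L * Real.log 2 := by
    have e4 := mul_le_mul_of_nonneg_left e1 (show 0 ≤ ((s.card : ℝ) + 3) / g by positivity)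
    refine le_trans (le_of_eq ?_) (e4.trans (le_of_eq ?_))
    · ring
    · ring
  have e5 : (β - (s.card + 3) / g * (d + ε + ((c + K + 1) / Real.log 2 * (1 + Real.log (n + 1)) +
      (N + 1) * H / Real.log 2) / L)) * L * Real.log 2 = β * L * Real.log 2 - (s.card + 3) / g *
      (d + ε + ((c + K + 1) / Real.log 2 * (1 + Real.log (n + 1)) +
      (N + 1) * H / Real.log 2) / L) * L * Real.log 2 := by ring
  rw [e5]
  linarith

/-- special case : an event on the values of a variable with at most `2 ^ k` values -/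
theorem nex_sel_card {N lam β : ℝ} (hN : 0 ≤ N) (h0 : 0 < lam) (h1 : lam ≤ 1) (hG : JFG N lam β)
    {ε : ℝ} (hε : 0 < ε) :
    ∃ c : ℝ, 0 ≤ c ∧ ∀ (Ω : Type) [Fintype Ω] (P : Law Ω) (l : Ω → Ln) (t : Ω → ℝ) (W : Bx Ω)
      (L q n : ℕ) (d : ℝ), NEx N lam β d P l t W L q n → 0 ≤ d → 0 < L →
      ∀ (S : Type) (Pt : Ω → S) (A : S → Prop) (k : ℕ) (g : ℝ), 0 < g → 1 ≤ k →
        (img Pt).card ≤ 2 ^ k → g ≤ prE P (fun ω => A (Pt ω)) →
        ∃ ω, 0 < P.w ω ∧ A (Pt ω) ∧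
          Real.log (1 / P.pr Pt (Pt ω)) ≤ 3 * (k * Real.log 2) / g ∧
          NEx N lam β (3 / g * (d + ε + (c * (1 + Real.log (n + 1)) + (N + 1) * k) / L))
            (P.cond Pt (Pt ω)) l t W L q n := by
  have hlog : 0 < Real.log 2 := Real.log_pos (by norm_num)
  obtain ⟨c, hc0, hc⟩ := nex_sel hN h0 h1 hG hε
  refine ⟨c, hc0, ?_⟩
  intro Ω _ P l t W L q n d hP hd hL S Pt A k g hg hk hcard hA
  have hk' : (1 : ℝ) ≤ k := by exact_mod_cast hk
  have hH : P.H Pt ≤ k * Real.log 2 := by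
    have := Lam.H_le_card P Pt hcard
    push_cast at this
    rwa [Real.log_pow] at this
  obtain ⟨ω, w1, w2, w3, -, w5⟩ := hc Ω P l t W L q n d hP hd hL S Unit Pt A ∅ (fun _ _ => 0)
    (fun _ => 1) g (k * Real.log 2) hg (by positivity) hH (by simp) (by simp) (by simp) hA
  refine ⟨ω, w1, w2, ?_, ?_⟩
  · simpa using w3
  · have e : (N + 1) * (k * Real.log 2) / Real.log 2 = (N + 1) * k := by field_simp
    rw [e] at w5
    simpa using w5

end Vale.Agent.P127.U
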