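import Vale.Agent.P127.U.Lam.FinDefs
import Vale.Agent.P127.U.Lam.ExcB
import Vale.Agent.P127.U.JS

/-!
# P127 / U / Lam : block PJL (helper122)

The finite inequality `JFG` with the penalised excess implies the conditional inequality `JL` for
systems.

* `excFl_cond_sum`, `excFl_le_cond_sum` : the penalised excess given `(D, C)` is the average over the
  values of `C` of the penalised excesses given `D` (up to `1`);
* `XF_le_cond_sum`, `DF_cond_sum`, `jfg_cond` : finite form with side information;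
* `JFG.jl`, `pJL : PJL`.
-/

set_option autoImplicit false

namespace Vale.Agent.P127.U

open Filter Topology Vale.Agent.P127 Vale.Agent.P127.Stk Sys

namespace Lam

open JSB

variable {lam : ℝ}

section fin

variable {Ω : Type} [Fintype Ω] {A T V : Type*}

/-- expectation as average over the values of `C` -/
theorem ex_cond_sum (P : Law Ω) (f : Ω → ℝ) (C : Ω → V) :
    ∑ z ∈ img C, P.pr C z * (P.cond C z).ex f = P.ex f := by
  unfold Law.ex
  simp only [Finset.mul_sum]
  rw [Finset.sum_comm]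
  refine Finset.sum_congr rfl fun ω _ => ?_
  rw [← cond_avg P C ω, Finset.sum_mul]
  exact Finset.sum_congr rfl fun z _ => by ring

/-- equivalent conditions -/
theorem excFl_congr (hl : 0 ≤ lam ∧ lam ≤ 1) {P : Law Ω} {B : Bx Ω} (C : Ω → A) (C' : Ω → T)
    (h : ∀ ω, 0 < P.w ω → BxOk B ω) (h1 : ∀ ω ω', C ω = C ω' ↔ C' ω = C' ω') :
    excFl lam P B C = excFl lam P B C' := by
  have e1 := excF_le_add hl C C' h
  have e2 := excF_le_add hl C' C h
  rw [Stk.hc_zero P fun ω ω' _ _ e => (h1 ω ω').1 e] at e1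
  rw [Stk.hc_zero P fun ω ω' _ _ e => (h1 ω ω').2 e] at e2
  linarith

/-- the excess given `(D, C)` is at least the average of the excesses given `D` for the values of
`C` -/
theorem excFl_cond_sum (hl : 0 ≤ lam ∧ lam ≤ 1) {δ : Type*} {γ : Type} (P : Law Ω) (B : Bx Ω)
    (D : Ω → δ) (C : Ω → γ) (h : ∀ ω, 0 < P.w ω → BxOk B ω) :
    ∑ z ∈ img C, P.pr C z * excFl lam (P.cond C z) B D ≤
      excFl lam P B (fun ω => (D ω, C ω)) + 1 := by
  classical
  have hnear := fun z : {z // z ∈ img C} => exists_near (lam := lam) (P := P.cond C z.1) (B := B)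
    (C := D) (fun ω hω => h ω (cond_supp P C z.1 hω))
  choose Ω' iF Q π W g1 g2 g3 using hnear
  have a0 : ∀ z : {z // z ∈ img C}, 0 ≤ P.pr C z.1 := fun z => P.pr_nonneg _ _
  have a1 : ∑ z : {z // z ∈ img C}, P.pr C z.1 = 1 := by
    rw [Finset.sum_coe_sort (img C) (fun z => P.pr C z)]
    exact P.sum_pr_image C
  set M : Law (Σ z, Ω' z) := sumL (fun z : {z // z ∈ img C} => P.pr C z.1) a0 a1 Q with hM
  have hMw : ∀ p : (Σ z, Ω' z), M.w p = P.pr C p.1.1 * (Q p.1).w p.2 := fun p => rfl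
  set ρ : (Σ z, Ω' z) → Ω := fun p => π p.1 p.2 with hρ
  set W' : Bx (Σ z, Ω' z) := ⟨fun p => (W p.1).l p.2, fun p => (W p.1).θ p.2,
    fun p => (W p.1).k p.2, fun p => (W p.1).j p.2⟩ with hW'
  have hpos : ∀ p : (Σ z, Ω' z), 0 < M.w p → 0 < P.pr C p.1.1 ∧ 0 < (Q p.1).w p.2 := by
    intro p hp
    rw [hMw] at hp
    have b1 := P.pr_nonneg C p.1.1
    have b2 := (Q p.1).nn p.2
    constructor
    · rcases b1.eq_or_lt with h2 | h2
      · rw [← h2, zero_mul] at hp
        exact absurd hp (lt_irrefl 0)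
      · exact h2
    · rcases b2.eq_or_lt with h2 | h2
      · rw [← h2, mul_zero] at hp
        exact absurd hp (lt_irrefl 0)
      · exact h2
  have hC : ∀ p : (Σ z, Ω' z), 0 < M.w p → C (ρ p) = p.1.1 := by
    intro p hp
    obtain ⟨b1, b2⟩ := hpos p hp
    refine cond_supp' P C p.1.1 b1 ?_
    rw [← g1 p.1 (ρ p)]
    exact (Q p.1).pr_pos (π p.1) b2
  have hpr : ∀ ω, M.pr ρ ω = P.w ω := by
    intro ω
    rw [hM, sumL_pr]
    have e : ∀ z : {z // z ∈ img C}, (Q z).pr (fun ω' => ρ ⟨z, ω'⟩) ω = (P.cond C z.1).w ω :=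
      fun z => g1 z ω
    simp only [e]
    rw [Finset.sum_coe_sort (img C) (fun z => P.pr C z * (P.cond C z).w ω)]
    exact cond_avg P C ω
  have hsub : ∀ p, 0 < M.w p → Sub 1 (B.comp ρ) W' p := fun p hp => g2 p.1 p.2 (hpos p hp).2
  have hle : exVl lam M (B.comp ρ) W' (fun p => (D (ρ p), C (ρ p))) ≤
      excFl lam P B (fun ω => (D ω, C ω)) :=
    exV_le_excF hl (C := fun ω => (D ω, C ω)) hpr hsub
  have hge : ∑ z : {z // z ∈ img C}, P.pr C z.1 *
      exVl lam (Q z) (B.comp (π z)) (W z) (fun ω => D (π z ω)) ≤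
      exVl lam M (B.comp ρ) W' (fun p => (D (ρ p), C (ρ p))) := by
    have e1 : Stk.hc M (B.comp ρ).lab (fun p => ((W'.lab p, D (ρ p)), p.1)) ≤
        Stk.hc M (B.comp ρ).lab (fun p => (W'.lab p, (D (ρ p), C (ρ p)))) := by
      refine hc_mono_right M _ ?_
      intro p p' hp hp' e
      simp only [Prod.mk.injEq] at e
      show (W'.lab p, (D (ρ p), C (ρ p))) = (W'.lab p', (D (ρ p'), C (ρ p')))
      rw [hC p hp, hC p' hp', e.1.1, e.1.2, e.2]
    have e2 := sumL_hc (a := fun z : {z // z ∈ img C} => P.pr C z.1) (h0 := a0) (h1 := a1)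
      (Q := Q) (B.comp ρ).lab (fun p => (W'.lab p, D (ρ p)))
    have e3 := sumL_ex (a := fun z : {z // z ∈ img C} => P.pr C z.1) (h0 := a0) (h1 := a1)
      (Q := Q) (fun p => (B.comp ρ).szl lam p - W'.szl lam p)
    rw [← hM] at e2 e3
    rw [e2] at e1
    have e4 : ∑ z : {z // z ∈ img C}, P.pr C z.1 *
        exVl lam (Q z) (B.comp (π z)) (W z) (fun ω => D (π z ω)) =
        ∑ z : {z // z ∈ img C}, P.pr C z.1 * Stk.hc (Q z) (fun ω => (B.comp ρ).lab ⟨z, ω⟩)
          (fun ω => (W'.lab ⟨z, ω⟩, D (ρ ⟨z, ω⟩))) -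
        Real.log 2 * ∑ z : {z // z ∈ img C}, P.pr C z.1 *
          (Q z).ex (fun ω => (B.comp ρ).szl lam ⟨z, ω⟩ - W'.szl lam ⟨z, ω⟩) := by
      rw [Finset.mul_sum, ← Finset.sum_sub_distrib]
      refine Finset.sum_congr rfl fun z _ => ?_
      unfold exVl
      have f1 : (B.comp (π z)).lab = fun ω => (B.comp ρ).lab ⟨z, ω⟩ := rfl
      have f2 : (W z).lab = fun ω => W'.lab ⟨z, ω⟩ := rfl
      have f3 : (fun ω => (B.comp (π z)).szl lam ω - (W z).szl lam ω) =
        fun ω => (B.comp ρ).szl lam ⟨z, ω⟩ - W'.szl lam ⟨z, ω⟩ := rfl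
      rw [f1, f2, f3]
      ring
    rw [e4]
    unfold exVl
    rw [e3]
    linarith
  have hav : ∑ z ∈ img C, P.pr C z * excFl lam (P.cond C z) B D - 1 ≤
      ∑ z : {z // z ∈ img C}, P.pr C z.1 *
        exVl lam (Q z) (B.comp (π z)) (W z) (fun ω => D (π z ω)) := by
    have e : ∑ z ∈ img C, P.pr C z * excFl lam (P.cond C z) B D - 1 =
        ∑ z : {z // z ∈ img C}, P.pr C z.1 * (excFl lam (P.cond C z.1) B D - 1) := by
      simp only [mul_sub, mul_one, Finset.sum_sub_distrib]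
      rw [a1, Finset.sum_coe_sort (img C)
        (fun z => P.pr C z * excFl lam (P.cond C z) B D)]
    rw [e]
    exact Finset.sum_le_sum fun z _ => mul_le_mul_of_nonneg_left (g3 z) (a0 z)
  linarith

/-- the conditioned law of an extension is an extension of the conditioned law -/
theorem cond_ext {Ω' : Type} [Fintype Ω'] {P' : Law Ω'} {P : Law Ω} {π : Ω' → Ω}
    (h : ∀ ω, P'.pr π ω = P.w ω) (C : Ω → V) {z : V} (hz : 0 < P.pr C z) (ω : Ω) :
    (P'.cond (fun ω => C (π ω)) z).pr π ω = (P.cond C z).w ω := by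
  classical
  have hz' : P'.pr (fun ω => C (π ω)) z = P.pr C z := Stk.pr_law_aux P' P π h C z
  have hz0 : 0 < P'.pr (fun ω => C (π ω)) z := by rw [hz']; exact hz
  unfold Law.pr
  by_cases hC : C ω = z
  · rw [P.cond_w C z hz, if_pos hC, ← h ω]
    unfold Law.pr
    rw [Finset.sum_div]
    refine Finset.sum_congr rfl fun ω' hω' => ?_
    have e : π ω' = ω := by simpa using hω'
    rw [P'.cond_w _ z hz0, if_pos (by rw [e]; exact hC), hz']
    rfl
  · rw [P.cond_w C z hz, if_neg hC]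
    refine Finset.sum_eq_zero fun ω' hω' => ?_
    have e : π ω' = ω := by simpa using hω'
    rw [P'.cond_w _ z hz0, if_neg (by rw [e]; exact hC)]

/-- the excess given `(D, C)` is at most the average of the excesses given `D` for the values of
`C` -/
theorem excFl_le_cond_sum (hl : 0 ≤ lam ∧ lam ≤ 1) {δ γ : Type*} (P : Law Ω) (B : Bx Ω)
    (D : Ω → δ) (C : Ω → γ) (h : ∀ ω, 0 < P.w ω → BxOk B ω) :
    excFl lam P B (fun ω => (D ω, C ω)) ≤
      ∑ z ∈ img C, P.pr C z * excFl lam (P.cond C z) B D := by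
  classical
  refine csSup_le ⟨0, zero_mem_exSet h⟩ ?_
  rintro v ⟨Ω', _, P', π, W, h1, h2, rfl⟩
  set C' : Ω' → γ := fun ω => C (π ω) with hC'
  have e1 : exVl lam P' (B.comp π) W (fun ω => (D (π ω), C (π ω))) =
      ∑ z ∈ img C', P'.pr C' z * exVl lam (P'.cond C' z) (B.comp π) W (fun ω => D (π ω)) := by
    have a1 : Stk.hc P' (B.comp π).lab (fun ω => (W.lab ω, (D (π ω), C (π ω)))) =
        Stk.hc P' (B.comp π).lab (fun ω => ((W.lab ω, D (π ω)), C' ω)) := by
      refine le_antisymm ?_ ?_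
      · refine Stk.hc_mono_right P' _ fun ω ω' _ _ e => ?_
        simp only [Prod.mk.injEq, hC'] at e ⊢
        exact ⟨⟨e.1, e.2.1⟩, e.2.2⟩
      · refine Stk.hc_mono_right P' _ fun ω ω' _ _ e => ?_
        simp only [Prod.mk.injEq, hC'] at e ⊢
        exact ⟨e.1.1, e.1.2, e.2⟩
    have a2 := hc_cond_sum P' (B.comp π).lab (fun ω => (W.lab ω, D (π ω))) C'
    have a3 := ex_cond_sum P' (fun ω => (B.comp π).szl lam ω - W.szl lam ω) C'
    unfold exVl
    rw [a1, a2, ← a3, Finset.mul_sum, ← Finset.sum_sub_distrib]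
    exact Finset.sum_congr rfl fun z _ => by ring
  rw [e1]
  have hsub : img C' ⊆ img C := by
    intro z hz
    obtain ⟨ω, rfl⟩ := mem_img.1 hz
    exact mem_img.2 ⟨π ω, rfl⟩
  have hprz : ∀ z, P'.pr C' z = P.pr C z := fun z => Stk.pr_law_aux P' P π h1 C z
  have e2 : ∑ z ∈ img C', P.pr C z * excFl lam (P.cond C z) B D =
      ∑ z ∈ img C, P.pr C z * excFl lam (P.cond C z) B D := by
    refine Finset.sum_subset hsub fun z _ hz => ?_
    have : P.pr C z = 0 := by
      rw [← hprz z]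
      unfold Law.pr
      refine Finset.sum_eq_zero fun ω hω => ?_
      have e : C' ω = z := by simpa using hω
      exact absurd (mem_img.2 ⟨ω, e⟩) hz
    rw [this, zero_mul]
  rw [← e2]
  refine Finset.sum_le_sum fun z _ => ?_
  rw [hprz z]
  rcases (P.pr_nonneg C z).eq_or_lt with h0 | h0
  · rw [← h0, zero_mul, zero_mul]
  · refine mul_le_mul_of_nonneg_left ?_ h0.le
    refine exV_le_excF hl (C := D) (cond_ext h1 C h0) fun ω hω => h2 ω (cond_supp P' C' z hω)

omit [Fintype Ω] in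
/-- the balls of a tube are normalised -/
theorem blF_ok {s n : ℕ} {l : Ω → Ln} {t : Ω → ℝ} {ω : Ω} (h : LnOk (l ω)) :
    BxOk (tbx (n - s) (blF s l t)) ω := by
  refine ⟨⟨fun j => ?_, h.2⟩, ?_, le_rfl⟩
  · show |Int.fract _| ≤ 1
    rw [abs_of_nonneg (Int.fract_nonneg _)]
    exact (Int.fract_lt_one _).le
  · show |(0 : ℝ)| ≤ 4
    rw [abs_zero]
    norm_num

omit [Fintype Ω] in
theorem tbx_ok {n : ℕ} {l : Ω → Ln} {ω : Ω} (h : LnOk (l ω)) : BxOk (tbx n l) ω := by
  refine ⟨h, ?_, le_rfl⟩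
  show |(0 : ℝ)| ≤ 4
  rw [abs_zero]
  norm_num

/-- `X(s)` with side information is at most the average over the values -/
theorem XF_le_cond_sum (hl : 0 ≤ lam ∧ lam ≤ 1) {γ : Type*} (P : Law Ω) (s n : ℕ) (l : Ω → Ln)
    (t : Ω → ℝ) (C : Ω → γ) (h : GoodF P l t) :
    XF lam P s n l t C ≤ ∑ z ∈ img C, P.pr C z * XF lam (P.cond C z) s n l t (fun _ => ()) := by
  have hok : ∀ ω, 0 < P.w ω → BxOk (tbx (n - s) (blF s l t)) ω := fun ω hω => blF_ok (h ω hω).1
  have h1 : excFl lam P (tbx (n - s) (blF s l t)) (fun ω => (pq s (ptF l t ω), C ω)) ≤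
      ∑ z ∈ img C, P.pr C z * excFl lam (P.cond C z) (tbx (n - s) (blF s l t))
        (fun ω => (pq s (ptF l t ω), ())) := by
    refine le_trans (le_of_eq ?_) (excFl_le_cond_sum hl P _ (fun ω => (pq s (ptF l t ω), ())) C hok)
    refine excFl_congr hl _ _ hok fun ω ω' => ?_
    simp only [Prod.mk.injEq]
    tauto
  have h2 : Stk.hc P (fun ω => tb n (l ω)) (fun ω => (tlF s n l t ω, C ω)) =
      ∑ z ∈ img C, P.pr C z * Stk.hc (P.cond C z) (fun ω => tb n (l ω))
        (fun ω => (tlF s n l t ω, ())) := by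
    rw [← hc_cond_sum]
    refine le_antisymm ?_ ?_
    · refine Stk.hc_mono_right P _ fun ω ω' _ _ e => ?_
      simp only [Prod.mk.injEq] at e ⊢
      exact ⟨⟨e.1, trivial⟩, e.2⟩
    · refine Stk.hc_mono_right P _ fun ω ω' _ _ e => ?_
      simp only [Prod.mk.injEq] at e ⊢
      exact ⟨e.1.1, e.2⟩
  unfold XF
  rw [h2]
  simp only [mul_add, Finset.sum_add_distrib]
  linarith

/-- the time deficit with side information is the average over the values -/
theorem DF_cond_sum {γ : Type*} (P : Law Ω) (s n : ℕ) (l : Ω → Ln) (t : Ω → ℝ) (C : Ω → γ) :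
    DF P s n l t C = ∑ z ∈ img C, P.pr C z * DF (P.cond C z) s n l t (fun _ => ()) := by
  have h2 : Stk.hc P (fun ω => fl1 s (t ω)) (fun ω => (tb n (l ω), C ω)) =
      ∑ z ∈ img C, P.pr C z * Stk.hc (P.cond C z) (fun ω => fl1 s (t ω))
        (fun ω => (tb n (l ω), ())) := by
    rw [← hc_cond_sum]
    refine le_antisymm ?_ ?_
    · refine Stk.hc_mono_right P _ fun ω ω' _ _ e => ?_
      simp only [Prod.mk.injEq] at e ⊢
      exact ⟨⟨e.1, trivial⟩, e.2⟩
    · refine Stk.hc_mono_right P _ fun ω ω' _ _ e => ?_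
      simp only [Prod.mk.injEq] at e ⊢
      exact ⟨e.1.1, e.2⟩
  unfold DF
  rw [h2]
  simp only [mul_sub, Finset.sum_sub_distrib]
  rw [← Finset.sum_mul, P.sum_pr_image C, one_mul]

/-- **finite form with side information** -/
theorem jfg_cond {N β : ℝ} (hl : 0 ≤ lam ∧ lam ≤ 1) (hJ : JFG N lam β) {ε : ℝ} (hε : 0 < ε) :
    ∃ c : ℝ, ∀ (Ω : Type) [Fintype Ω] (γ : Type) (P : Law Ω) (l : Ω → Ln) (t : Ω → ℝ) (s n : ℕ)
      (C : Ω → γ), GoodF P l t → s ≤ n →
      XF lam P s n l t C ≤ (β + ε) * s * Real.log 2 + c * (1 + Real.log (n + 1)) +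
        excFl lam P (tbx n l) C + N * DF P s n l t C := by
  obtain ⟨c, hc⟩ := hJ ε hε
  refine ⟨c + 1, ?_⟩
  intro Ω _ γ P l t s n C h hsn
  have h1 : ∀ z ∈ img C, P.pr C z * XF lam (P.cond C z) s n l t (fun _ => ()) ≤
      P.pr C z * ((β + ε) * s * Real.log 2 + c * (1 + Real.log (n + 1))) +
      P.pr C z * excFl lam (P.cond C z) (tbx n l) (fun _ => ()) +
      N * (P.pr C z * DF (P.cond C z) s n l t (fun _ => ())) := by
    intro z _
    have h2 := hc Ω (P.cond C z) l t s n (fun ω hω => h ω (cond_supp P C z hω)) hsn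
    have h3 := mul_le_mul_of_nonneg_left h2 (P.pr_nonneg C z)
    refine h3.trans (le_of_eq ?_)
    ring
  have h2 := Finset.sum_le_sum h1
  rw [Finset.sum_add_distrib, Finset.sum_add_distrib, ← Finset.sum_mul, ← Finset.mul_sum,
    P.sum_pr_image C, one_mul, ← DF_cond_sum P s n l t C] at h2
  have hok : ∀ ω, 0 < P.w ω → BxOk (tbx n l) ω := fun ω hω => tbx_ok (h ω hω).1
  have h3 := excFl_cond_sum hl P (tbx n l) (fun _ => ()) C hok
  have h4 : excFl lam P (tbx n l) (fun ω => ((), C ω)) = excFl lam P (tbx n l) C :=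
    excFl_congr hl _ _ hok fun ω ω' => by
      simp only [Prod.mk.injEq]
      tauto
  rw [h4] at h3
  have h5 := XF_le_cond_sum hl P s n l t C h
  have h6 : 0 ≤ Real.log ((n : ℝ) + 1) := Real.log_nonneg (by
    have : (0 : ℝ) ≤ n := Nat.cast_nonneg _
    linarith)
  have h7 : (c + 1) * (1 + Real.log ((n : ℝ) + 1)) =
    c * (1 + Real.log ((n : ℝ) + 1)) + 1 + Real.log ((n : ℝ) + 1) := by ring
  rw [h7]
  linarith

end fin

/-! ### systems -/

/-- `log n = o(L)` -/
theorem log_o {S : Sys} {n : ℕ → ℕ} (hn : S.Bd n) :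
    Tendsto (fun i => Real.log (n i + 1) / S.nm i) (uf : Filter ℕ) (𝓝 0) := by
  obtain ⟨c, hc⟩ := hn
  set c' : ℝ := max c 0 with hc'
  have hc0 : 0 ≤ c' := le_max_right _ _
  have hl : 0 < Real.log 2 := Real.log_pos (by norm_num)
  have hL : Tendsto (fun i => (S.L i : ℝ)) (uf : Filter ℕ) atTop :=
    tendsto_natCast_atTop_atTop.comp S.Ltop
  have h1 : Tendsto (fun i => Real.log (S.L i) / (S.L i : ℝ)) (uf : Filter ℕ) (𝓝 0) :=
    Real.isLittleO_log_id_atTop.tendsto_div_nhds_zero.comp hL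
  have h2 : Tendsto (fun i => Real.log (c' + 1) / S.nm i +
      (Real.log (S.L i) / (S.L i : ℝ)) / Real.log 2) (uf : Filter ℕ) (𝓝 0) := by
    have := (S.const_div_nm (Real.log (c' + 1))).add (h1.div_const (Real.log 2))
    simpa using this
  refine squeeze_zero' ?_ ?_ h2
  · filter_upwards [S.nm_pos] with i hi
    exact div_nonneg (Real.log_nonneg (by
      have : (0:ℝ) ≤ n i := Nat.cast_nonneg _
      linarith)) hi.le
  · filter_upwards [S.nm_pos, hc, S.L_pos] with i hi g1 g2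
    have g3 : (1 : ℝ) ≤ S.L i := by exact_mod_cast g2
    have e : (Real.log (S.L i) / (S.L i : ℝ)) / Real.log 2 = Real.log (S.L i) / S.nm i := by
      unfold Sys.nm
      rw [div_div]
    rw [e, ← add_div, ← Real.log_mul (by positivity) (by positivity)]
    apply div_le_div_of_nonneg_right _ hi.le
    have hn0 : (0:ℝ) ≤ n i := Nat.cast_nonneg _
    apply Real.log_le_log (by positivity)
    have : c * (S.L i : ℝ) ≤ c' * S.L i :=
      mul_le_mul_of_nonneg_right (le_max_left _ _) (by positivity)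
    nlinarith

/-- the balls are normalised -/
theorem bl_lnA {S : Sys} {l : S.RV Ln} (hl : LnA l) (s : ℕ → ℕ) (t : S.RV ℝ) : LnA (bl s l t) := by
  filter_upwards [hl] with i hi ω hω
  refine ⟨fun j => ?_, (hi ω hω).2⟩
  show |Int.fract _| ≤ 1
  rw [abs_of_nonneg (Int.fract_nonneg _)]
  exact (Int.fract_lt_one _).le

theorem bd_of_le {S : Sys} {n s : ℕ → ℕ} (hn : S.Bd n) (h : ∀ i, s i ≤ n i) : S.Bd s := by
  obtain ⟨c, hc⟩ := hn
  refine ⟨c, ?_⟩
  filter_upwards [hc] with i hi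
  have : (s i : ℝ) ≤ n i := by exact_mod_cast h i
  linarith

end Lam

open Lam

/-- the finite inequality implies the conditional inequality for systems -/
theorem JFG.jl {N lam β : ℝ} (h0 : 0 ≤ lam) (h1 : lam ≤ 1) (hJ : JFG N lam β) : JL N lam β := by
  intro S γ C l t s n hn hl ht hsn
  have hlam : 0 ≤ lam ∧ lam ≤ 1 := ⟨h0, h1⟩
  have hs : S.Bd s := bd_of_le hn hsn
  have hns : S.Bd (fun i => n i - s i) := bd_of_le hn fun i => Nat.sub_le _ _
  have Ttb := tame_tbs hn hl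
  have Tdg := tame_dg_t hs ht
  have hnu : 0 ≤ S.nu s := const_le_ulim hs.ub (Eventually.of_forall fun i => by positivity)
  have U1 := ub_exc hlam (tubes_ok hns (bl_lnA hl s t)) (Sys.pr (pqs s (pt l t)) C)
  have U2 := UB.hc Ttb (Sys.pr (tl s n l t) C)
  have U3 := ub_exc hlam (tubes_ok hn hl) C
  have U4 := UB.hc Tdg (Sys.pr (tbs n l) C)
  have U5 := hs.ub
  refine le_of_forall_pos_le_add fun ε hε => ?_
  have hε' : 0 < ε / (S.nu s + 1) := div_pos hε (by linarith)
  obtain ⟨c, hc⟩ := jfg_cond hlam hJ hε'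
  have V : UB fun i => (β + ε / (S.nu s + 1)) * ((s i : ℝ) / S.L i) +
      excFl lam (S.P i) (tubes n l i) (C i) / S.nm i +
      N * ((s i : ℝ) / S.L i - Stk.hc (S.P i) (dg s t i) (Sys.pr (tbs n l) C i) / S.nm i) :=
    ((UB.const_mul _ U5).add U3).add (UB.const_mul N (U5.sub U4))
  have lim : Tendsto (fun i => c / S.nm i + c * (Real.log (n i + 1) / S.nm i))
      (uf : Filter ℕ) (𝓝 0) := by
    have := (S.const_div_nm c).add ((log_o hn).const_mul c)
    simpa using this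
  have key := ulim_le_of_sub (U1.add U2) V lim (by
    filter_upwards [S.nm_pos, S.L_pos, hl, ht] with i hi hLi hli hti
    have hLr : (0 : ℝ) < S.L i := by exact_mod_cast hLi
    have hlog : 0 < Real.log 2 := Real.log_pos (by norm_num)
    have h2 := hc (S.Ω i) γ (S.P i) (l i) (t i) (s i) (n i) (C i)
      (fun ω hω => ⟨hli ω hω, hti ω hω⟩) (hsn i)
    have h3 := div_le_div_of_nonneg_right h2 hi.le
    have e : (s i : ℝ) * Real.log 2 / S.nm i = (s i : ℝ) / S.L i := by
      unfold Sys.nm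
      field_simp
    rw [← e, ← add_div]
    refine le_trans h3 (le_of_eq ?_)
    show _ = (β + ε / (S.nu s + 1)) * ((s i : ℝ) * Real.log 2 / S.nm i) +
      excFl lam (S.P i) (tbx (n i) (l i)) (C i) / S.nm i +
      N * ((s i : ℝ) * Real.log 2 / S.nm i -
        Stk.hc (S.P i) (fun ω => fl1 (s i) (t i ω)) (fun ω => (tb (n i) (l i ω), C i ω)) /
          S.nm i) + (c / S.nm i + c * (Real.log (n i + 1) / S.nm i))
    unfold DF
    ring)
  have e0 : ulim (fun i => excFl lam (S.P i) (tubes (fun i => n i - s i) (bl s l t) i)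
      (Sys.pr (pqs s (pt l t)) C i) / S.nm i +
      Stk.hc (S.P i) (tbs n l i) (Sys.pr (tl s n l t) C i) / S.nm i) = Xl lam s n l t C := by
    rw [ulim_add U1 U2]
    rfl
  have e1 : ulim (fun i => (β + ε / (S.nu s + 1)) * ((s i : ℝ) / S.L i) +
      excFl lam (S.P i) (tubes n l i) (C i) / S.nm i +
      N * ((s i : ℝ) / S.L i - Stk.hc (S.P i) (dg s t i) (Sys.pr (tbs n l) C i) / S.nm i)) =
      (β + ε / (S.nu s + 1)) * S.nu s + S.excl lam (tubes n l) C + N * Dl s n l t C := by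
    rw [ulim_add ((UB.const_mul _ U5).add U3) (UB.const_mul N (U5.sub U4)),
      ulim_add (UB.const_mul _ U5) U3, ulim_const_mul _ U5, ulim_const_mul N (U5.sub U4),
      ulim_sub U5 U4]
    rfl
  rw [e0, e1] at key
  refine key.trans ?_
  have e2 : ε / (S.nu s + 1) * S.nu s ≤ ε := by
    rw [div_mul_eq_mul_div, div_le_iff₀ (by linarith)]
    nlinarith
  linarith

/-- **block PJL** -/
theorem pJL : PJL := fun _ _ _ _ h0 h1 _ hJ => hJ.jl h0.le h1

end Vale.Agent.P127.U
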