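import Vale.Agent.P127.Stk.LibEnt

/-!
# P127 / U / Lam : entropy of a natural number variable against its mean (helper864)

* `hc_nat_le` : `H(Z | Y) ≤ (log 2 / M) E Z + log M + 2` for `Z : Ω → ℕ`, `1 ≤ M`.
* `hc_diff_le`, `hc_diff_le₂` : `H(e' | e) ≤ (log 2 / M) E (e' - e) + log M + 2` if `e ≤ e'` on the
  support, and the same for pairs, one coordinate increasing and one decreasing.
-/

set_option autoImplicit false

namespace Vale.Agent.P127.U.HEnt

open Finset Vale.Agent.P127 Vale.Agent.P127.Stk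

section ent

variable {Ω : Type} [Fintype Ω] {T : Type*} (P : Law Ω)

theorem geo_sum (ρ : ℝ) (h0 : 0 ≤ ρ) (h1 : ρ < 1) (F : Finset ℕ) :
    ∑ z ∈ F, (1 - ρ) * ρ ^ z ≤ 1 := by
  have h2 : ∑ z ∈ F, ρ ^ z ≤ (1 - ρ)⁻¹ := by
    rw [← tsum_geometric_of_lt_one h0 h1]
    exact (summable_geometric_of_lt_one h0 h1).sum_le_tsum F fun i _ => pow_nonneg h0 i
  rw [← Finset.mul_sum]
  calc (1 - ρ) * ∑ z ∈ F, ρ ^ z ≤ (1 - ρ) * (1 - ρ)⁻¹ :=
        mul_le_mul_of_nonneg_left h2 (by linarith)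
    _ = 1 := mul_inv_cancel₀ (by linarith)

/-- entropy of a natural number variable against its mean -/
theorem hc_nat_le {M : ℝ} (hM : 1 ≤ M) (Z : Ω → ℕ) (Y : Ω → T) :
    hc P Z Y ≤ Real.log 2 / M * P.ex (fun ω => (Z ω : ℝ)) + Real.log M + 2 := by
  have hM0 : 0 < M := by linarith
  have hlog : 0.69 < Real.log 2 := by
    have := Real.log_two_gt_d9
    linarith
  have hlog1 : Real.log 2 < 1 := by
    have := Real.log_two_lt_d9
    linarith
  set x : ℝ := Real.log 2 / M with hx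
  have hx0 : 0 < x := div_pos (by linarith) hM0
  have hx1 : x ≤ 1 := by
    rw [hx, div_le_one hM0]
    linarith
  set ρ : ℝ := Real.exp (-x) with hρ
  have hρ0 : 0 < ρ := Real.exp_pos _
  have hρ1 : ρ < 1 := by
    rw [hρ, Real.exp_lt_one_iff]
    linarith
  have h1ρ : x / 2 ≤ 1 - ρ := by
    have h1 : 1 + x ≤ Real.exp x := by linarith [Real.add_one_le_exp x]
    have h2 : ρ ≤ (1 + x)⁻¹ := by
      rw [hρ, Real.exp_neg]
      exact inv_anti₀ (by linarith) h1
    have h3 : (1 + x)⁻¹ ≤ 1 - x / 2 := by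
      rw [inv_le_iff_one_le_mul₀ (by linarith)]
      nlinarith
    linarith
  have hpos : 0 < 1 - ρ := by linarith
  have h := P.gibbs_cond Z Y (fun z _ => (1 - ρ) * ρ ^ z)
    (fun z _ => mul_nonneg hpos.le (pow_nonneg hρ0.le _))
    (fun _ F => geo_sum ρ hρ0.le hρ1 F) (fun ω _ => mul_pos hpos (pow_pos hρ0 _))
  have e1 : P.ex (fun ω => - Real.log ((1 - ρ) * ρ ^ Z ω)) =
      - Real.log (1 - ρ) + x * P.ex (fun ω => (Z ω : ℝ)) := by
    rw [← P.ex_const_mul]
    have e0 : - Real.log (1 - ρ) = P.ex (fun _ => - Real.log (1 - ρ)) := by rw [P.ex_const]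
    rw [e0, ← P.ex_add]
    refine P.ex_congr fun ω _ => ?_
    rw [Real.log_mul hpos.ne' (pow_pos hρ0 _).ne', Real.log_pow, hρ, Real.log_exp]
    ring
  rw [e1] at h
  have h4 : - Real.log (1 - ρ) ≤ Real.log M + 2 := by
    have h5 : Real.log (x / 2) ≤ Real.log (1 - ρ) := Real.log_le_log (by positivity) h1ρ
    have h6 : Real.log (x / 2) = Real.log (Real.log 2 / 2) - Real.log M := by
      rw [hx, div_div, mul_comm M 2, ← div_div, Real.log_div (by positivity) hM0.ne']
    have h7 : -2 ≤ Real.log (Real.log 2 / 2) := by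
      have h8 := Real.log_le_sub_one_of_pos (x := (Real.log 2 / 2)⁻¹) (by positivity)
      rw [Real.log_inv] at h8
      have h9 : (Real.log 2 / 2)⁻¹ ≤ 3 := by
        rw [inv_le_iff_one_le_mul₀ (by positivity)]
        linarith
      linarith
    linarith
  unfold hc
  linarith

/-- one increment of a natural number variable -/
theorem hc_diff_le {M : ℝ} (hM : 1 ≤ M) (e e' : Ω → ℕ) (h : ∀ ω, 0 < P.w ω → e ω ≤ e' ω) :
    hc P e' e ≤ Real.log 2 / M * P.ex (fun ω => (e' ω : ℝ) - e ω) + Real.log M + 2 := by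
  have h1 : hc P e' e ≤ hc P (fun ω => e' ω - e ω) e := by
    refine hc_mono_left P ?_
    intro ω ω' p p' q
    simp only [Prod.mk.injEq] at q
    have := h ω p
    have := h ω' p'
    omega
  have h2 := hc_nat_le P hM (fun ω => e' ω - e ω) e
  have h3 : P.ex (fun ω => ((e' ω - e ω : ℕ) : ℝ)) = P.ex (fun ω => (e' ω : ℝ) - e ω) := by
    refine P.ex_congr fun ω hω => ?_
    push_cast [h ω hω]
    ring
  rw [h3] at h2
  exact h1.trans h2

/-- decreasing version -/
theorem hc_diff_le' {M : ℝ} (hM : 1 ≤ M) (e e' : Ω → ℕ) (h : ∀ ω, 0 < P.w ω → e' ω ≤ e ω) :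
    hc P e' e ≤ Real.log 2 / M * P.ex (fun ω => (e ω : ℝ) - e' ω) + Real.log M + 2 := by
  have h1 : hc P e' e ≤ hc P (fun ω => e ω - e' ω) e := by
    refine hc_mono_left P ?_
    intro ω ω' p p' q
    simp only [Prod.mk.injEq] at q
    have := h ω p
    have := h ω' p'
    omega
  have h2 := hc_nat_le P hM (fun ω => e ω - e' ω) e
  have h3 : P.ex (fun ω => ((e ω - e' ω : ℕ) : ℝ)) = P.ex (fun ω => (e ω : ℝ) - e' ω) := by
    refine P.ex_congr fun ω hω => ?_
    push_cast [h ω hω]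
    ring
  rw [h3] at h2
  exact h1.trans h2

/-- the entropy of a shape `(k', j')` given a shape `(k, j)` with `k' ≤ k`, `j ≤ j' + s`, and some
side information `Y` which determines nothing else -/
theorem hc_shape_le {M : ℝ} (hM : 1 ≤ M) (k j k' j' : Ω → ℕ) (s : ℕ) (Y : Ω → T)
    (h : ∀ ω, 0 < P.w ω → k' ω ≤ k ω ∧ j ω ≤ j' ω + s) :
    hc P (fun ω => (k' ω, j' ω)) (fun ω => ((k ω, j ω), Y ω)) ≤
      Real.log 2 / M * P.ex (fun ω => ((k ω : ℝ) - k' ω) + ((j' ω : ℝ) + s - j ω)) +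
        2 * Real.log M + 4 := by
  have h1 := hc_pair P k' j' (fun ω => ((k ω, j ω), Y ω))
  have h2 : hc P k' (fun ω => ((k ω, j ω), Y ω)) ≤ hc P k' k :=
    hc_mono_right P _ fun ω ω' _ _ q => by
      simp only [Prod.mk.injEq] at q
      exact q.1.1
  have h3 : hc P j' (fun ω => (k' ω, (k ω, j ω), Y ω)) ≤ hc P (fun ω => j' ω + s) j := by
    refine (hc_mono_left P (X' := fun ω => j' ω + s) ?_).trans (hc_mono_right P _ ?_)
    · intro ω ω' _ _ q
      simp only [Prod.mk.injEq] at q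
      omega
    · intro ω ω' _ _ q
      simp only [Prod.mk.injEq] at q
      exact q.2.1.2
  have h4 := hc_diff_le' P hM k k' fun ω hω => (h ω hω).1
  have h5 := hc_diff_le P hM j (fun ω => j' ω + s) fun ω hω => (h ω hω).2
  have h6 : P.ex (fun ω => ((k ω : ℝ) - k' ω) + ((j' ω : ℝ) + s - j ω)) =
      P.ex (fun ω => (k ω : ℝ) - k' ω) + P.ex (fun ω => ((j' ω + s : ℕ) : ℝ) - j ω) := by
    rw [← P.ex_add]
    refine P.ex_congr fun ω _ => ?_
    push_cast
    ring
  rw [h6, mul_add]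
  linarith

end ent

end Vale.Agent.P127.U.HEnt
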