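import Vale.Agent.P127.U.H560.LipW0
import Vale.Agent.P127.U.Mic.Colp

/-!
# P127 / U / Lam : the field `lip` from the windows (helper513)

* `pLipH_of : LipWin → Inc.PLipH`
-/

set_option autoImplicit false

namespace Vale.Agent.P127.U.LipS

open Vale.Agent.P127 Vale.Agent.P127.Stk Vale.Agent.P127.U Pf Inc Mic

theorem mi_encode {Ω : Type} [Fintype Ω] {P : Law Ω} {α β : Type*} (X : Ω → α) (Y : Ω → β)
    (E : Ω → ℕ × ℕ × ℕ × ℕ) :
    Stk.mi P X (fun ω => Encodable.encode (E ω)) Y = Stk.mi P X E Y := by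
  refine le_antisymm (Stk.mi_mono_right P X ?_) (Stk.mi_mono_right P X ?_)
  · intro ω ω' _ _ e
    have := congrArg Prod.fst e
    simp only at this ⊢
    rw [this]
  · intro ω ω' _ _ e
    exact Encodable.encode_injective (congrArg Prod.fst e)

theorem colp_encode {Ω : Type} [Fintype Ω] {P : Law Ω} {α β : Type*} (X : Ω → ℤ) (Y : Ω → α)
    (Z : Ω → β) (E : Ω → ℕ × ℕ × ℕ × ℕ) :
    colp P X (fun ω => (Y ω, Z ω, Encodable.encode (E ω))) =
      colp P X (fun ω => ((Y ω, Z ω), E ω)) := by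
  refine le_antisymm (colp_mono_cond P X ?_) (colp_mono_cond P X ?_)
  · intro ω ω' _ _ e
    have e1 : Y ω = Y ω' := congrArg (fun q => q.1.1) e
    have e2 : Z ω = Z ω' := congrArg (fun q => q.1.2) e
    have e3 : E ω = E ω' := congrArg (fun q => q.2) e
    show (Y ω, Z ω, Encodable.encode (E ω)) = (Y ω', Z ω', Encodable.encode (E ω'))
    rw [e1, e2, e3]
  · intro ω ω' _ _ e
    have e1 : Y ω = Y ω' := congrArg (fun q => q.1) e
    have e2 : Z ω = Z ω' := congrArg (fun q => q.2.1) e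
    have e3 : Encodable.encode (E ω) = Encodable.encode (E ω') := congrArg (fun q => q.2.2) e
    have e4 : E ω = E ω' := Encodable.encode_injective e3
    show ((Y ω, Z ω), E ω) = ((Y ω', Z ω'), E ω')
    rw [e1, e2, e4]

theorem pLipH_of (h : LipWin) : Inc.PLipH := by
  obtain ⟨cT, hcT, h⟩ := h
  intro lam κ Λ ε hl hκ hlk hΛ hε
  have hlog : 0 < Real.log 2 := Real.log_pos (by norm_num)
  obtain ⟨c, hc0, hc⟩ := log_absorb (Λ := Λ + 2) (κ := ε) (by linarith) hε
  set K : ℝ := max 1 (2 * Λ / (κ * Real.log 2)) with hK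
  have hK1 : 1 ≤ K := le_max_left _ _
  have hK2 : 2 * Λ ≤ κ * Real.log 2 * K := by
    have k1 : 2 * Λ / (κ * Real.log 2) ≤ K := le_max_right _ _
    rw [div_le_iff₀ (by positivity)] at k1
    linarith
  refine ⟨cT + 2 * Real.log 2 + 4 * κ * Real.log 2 +
    Λ * (2 * Real.log K + 2 * Real.log 4 + Real.log 81) + c, fun Ω _ Q l t v n hg hv hR
    a a' r r' ρ ha hr hn hρ => ?_⟩
  have e1 : a + (a' - a) = a' := by omega
  have e2 : r + (r' - r) = r' := by omega
  obtain ⟨Ω', i1, Q', π, σ, hQ, hmain⟩ := h lam κ Λ K hl hκ hlk hΛ hK1 hK2 Ω Q l t v n hg hv hR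
    a (a' - a) r (r' - r) ρ (by omega) hρ
  refine ⟨Ω', i1, Q', π, fun ω => Encodable.encode (σ ω), hQ, ?_⟩
  rw [e1, e2] at hmain
  have e3 : Stk.mi Q' (fun ω => st t v a' r' (π ω)) (fun ω => Encodable.encode (σ ω))
      (fun ω => (tb n (l (π ω)), st t v a r (π ω))) =
    Stk.mi Q' (fun ω => st t v a' r' (π ω)) σ
      (fun ω => (tb n (l (π ω)), st t v a r (π ω))) := mi_encode _ _ _
  have e4 : colp Q' (fun ω => fl1 (r + ρ) (v (π ω)))
      (fun ω => (tb n (l (π ω)), st t v a r (π ω), Encodable.encode (σ ω))) =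
    colp Q' (fun ω => fl1 (r + ρ) (v (π ω)))
      (fun ω => ((tb n (l (π ω)), st t v a r (π ω)), σ ω)) :=
    colp_encode _ _ _ _
  rw [e3, e4]
  rw [Nat.cast_sub ha, Nat.cast_sub hr] at hmain
  have ha' : (a : ℝ) ≤ a' := by exact_mod_cast ha
  have hr' : (r : ℝ) ≤ r' := by exact_mod_cast hr
  have hρ' : (ρ : ℝ) ≤ r' - r := by
    have : (ρ : ℝ) ≤ ((r' - r : ℕ) : ℝ) := by exact_mod_cast hρ
    rwa [Nat.cast_sub hr] at this
  have hρ0 : (0 : ℝ) ≤ ρ := Nat.cast_nonneg ρ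
  have k1 := hc (r' - r)
  rw [Nat.cast_sub hr] at k1
  have k2 : Real.log ((ρ : ℝ) + 7) ≤ Real.log 2 + Real.log ((r' : ℝ) - r + 5) := by
    rw [← Real.log_mul (by norm_num) (by linarith)]
    exact Real.log_le_log (by linarith) (by linarith)
  have k3 : 0 ≤ ε * ((a' : ℝ) - a) * Real.log 2 :=
    mul_nonneg (mul_nonneg hε.le (by linarith)) hlog.le
  have k4 : 0 ≤ κ * (((a' : ℝ) - a) + ((r' : ℝ) - r)) * Real.log 2 :=
    mul_nonneg (mul_nonneg hκ.le (by linarith)) hlog.le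
  unfold er
  linarith

end Vale.Agent.P127.U.LipS
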