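import Vale.Agent.P127.U.Lam.FinDefs
import Vale.Agent.P127.U.Mic.Props
import Vale.Agent.P127.U.Mic.Colp

/-!
# P127 / U / Inc : the increments of the functional of the path (helper565)

Interface between the functional part (shape-rewarded functional along the slabs: helper102, 864,
465, 499, 513, or the S-layer of helper101) and the path part (ACT, RISE, TAIL, selection).

* `mkP l t v a r` : 23's deterministic path data.
* `st t v a r` : the state `T = (t_a, v_r)`.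
* `cel l t v s q` = 652's `box` : label of level `s`, shape `(s, s + q)`, slope `v`.
* `valE` : penalised value of the end label.
* `Nd` : normalised data.  `Vc d` : near-extremality in cell form.
* `Inc E` : one function `E a r` with all the increments.  `PInc` : it exists, with errors
  `ε ((a' - a) + (r' - r)) log 2 + B`, for every price `Λ ≥ N` of the entropy of the shape.
-/

set_option autoImplicit false

namespace Vale.Agent.P127.U.Inc

open Vale.Agent.P127 Vale.Agent.P127.Stk Vale.Agent.P127.U Vale.Agent.P127.U.CellD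
  Vale.Agent.P127.U.Mic

section defs

variable {Ω : Type}

/-- path data with the levels `a i`, `r i` -/
noncomputable def mkP (l : Ω → Ln) (t v : Ω → ℝ) (a r : ℕ → ℕ) (ha : Monotone a) (hr : Monotone r) :
    Pth Ω where
  a := a
  r := r
  ha := ha
  hr := hr
  κ := 0
  x1 := fun ω => (l ω).1 0
  x2 := fun ω => (l ω).1 1
  y1 := fun ω => (l ω).2 0
  y2 := fun ω => (l ω).2 1
  t := t
  v := v

/-- the state at the levels `(a, r)` -/
noncomputable def st (t v : Ω → ℝ) (a r : ℕ) : Ω → ℤ × ℤ := fun ω => (fl1 a (t ω), fl1 r (v ω))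

/-- label of level `s` and shape `(s, s + q)` (= `Mic.box`) -/
noncomputable def cel (l : Ω → Ln) (t v : Ω → ℝ) (s q : ℕ) (ω : Ω) : ℤ × ℤ × ℤ × ℤ × ℤ × ℤ :=
  (fl1 s (t ω), fl1 q (v ω), fl1 0 ((l ω).2 0), fl1 q ((l ω).2 1 - rd q (v ω) * (l ω).2 0),
    fl1 s ((l ω).1 0 + rd s (t ω) * (l ω).2 0),
    fl1 (s + q) ((l ω).1 1 + rd s (t ω) * (l ω).2 1 -
      rd q (v ω) * ((l ω).1 0 + rd s (t ω) * (l ω).2 0)))

theorem box_mkP (l : Ω → Ln) (t v : Ω → ℝ) (a r : ℕ → ℕ) (ha : Monotone a) (hr : Monotone r)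
    (s q : ℕ) : Mic.box (mkP l t v a r ha hr) s q = cel l t v s q := rfl

theorem T_mkP (l : Ω → Ln) (t v : Ω → ℝ) (a r : ℕ → ℕ) (ha : Monotone a) (hr : Monotone r)
    (i : ℕ) : (mkP l t v a r ha hr).T i = st t v (a i) (r i) := rfl

variable [Fintype Ω]

/-- penalised value of the end label of shape `(h, h + q)` -/
noncomputable def valE (lam : ℝ) (Q : Law Ω) (l : Ω → Ln) (t v : Ω → ℝ) (n h q : ℕ) : ℝ :=
  Stk.hc Q (fun ω => tb n (l ω)) (cel l t v h q) -
    (2 * ((n : ℝ) - h) - (1 - lam) * q) * Real.log 2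

/-- normalised data -/
structure Nd (K : ℝ) (Q : Law Ω) (l : Ω → Ln) (t v : Ω → ℝ) (n h q : ℕ) : Prop where
  good : GoodF Q l t
  sl : ∀ ω, 0 < Q.w ω → |v ω| ≤ 1
  rnd : ∀ ω ω', 0 < Q.w ω → 0 < Q.w ω' → tb n (l ω) = tb n (l ω') → l ω = l ω'
  nq : n = h + q
  nK : (n : ℝ) ≤ K * h

/-- near-extremality in cell form, error `d h log 2` -/
def Vc (N lam β d : ℝ) (Q : Law Ω) (l : Ω → Ln) (t v : Ω → ℝ) (n h q : ℕ) : Prop :=
  (β - d) * h * Real.log 2 + excFl lam Q (tbx n l) (fun _ => ()) +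
    N * DF Q h n l t (fun _ => ()) ≤ valE lam Q l t v n h q

/-- size of a window -/
noncomputable def er (ε B : ℝ) (a a' r r' : ℕ) : ℝ :=
  ε * (((a' : ℝ) - a) + ((r' : ℝ) - r)) * Real.log 2 + B

/-- **the increments** of a functional `E a r` along the states `(a, r)` -/
structure Incr (N lam β δ ε Λ B : ℝ) (Q : Law Ω) (l : Ω → Ln) (t v : Ω → ℝ) (n h q : ℕ)
    (E : ℕ → ℕ → ℝ) : Prop where
  /-- START : the labels of level `0` -/
  start : ∀ r ≤ q, E 0 r ≤ excFl lam Q (tbx n l) (fun _ => ()) + ε * h * Real.log 2 +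
    B * (1 + Real.log (n + 1))
  /-- END : the label `cel h q` is a competitor -/
  fin : valE lam Q l t v n h q ≤ E h q + ε * h * Real.log 2 + B
  /-- WIN -/
  win : ∀ a a' r r' : ℕ, a ≤ a' → a' ≤ h → r ≤ r' → r' ≤ q →
    E a' r' ≤ E a r + β * ((a' : ℝ) - a) * Real.log 2 +
      N * (((a' : ℝ) - a) * Real.log 2 -
        Stk.hc Q (fun ω => fl1 a' (t ω)) (fun ω => (tb n (l ω), st t v a r ω))) + er ε B a a' r r'
  /-- EXT -/
  ext : ∀ a a' r r' : ℕ, a ≤ a' → a' ≤ h → r ≤ r' → r' ≤ q →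
    E a' r' ≤ E a r + 2 * ((a' : ℝ) - a) * Real.log 2 + er ε B a a' r r'
  /-- WIN on the event `G`, EXT off `G`; `G` a function of the line and of the state `(a', r')` -/
  event : ∀ (a a' r r' : ℕ) (G : Ω → Bool), a ≤ a' → a' ≤ h → r ≤ r' → r' ≤ q →
    (∀ ω ω', 0 < Q.w ω → 0 < Q.w ω' → tb n (l ω) = tb n (l ω') →
      st t v a' r' ω = st t v a' r' ω' → G ω = G ω') →
    E a' r' ≤ E a r + Q.pr G true * (β * ((a' : ℝ) - a) * Real.log 2) +
      (1 - Q.pr G true) * (2 * ((a' : ℝ) - a) * Real.log 2) +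
      N * (Q.pr G true * (((a' : ℝ) - a) * Real.log 2 -
        Stk.hc (Q.cond G true) (fun ω => fl1 a' (t ω)) (fun ω => (tb n (l ω), st t v a r ω)))) +
      er ε B a a' r r'
  /-- LIP : copies of the slope given the line, the state `(a, r)` and the shape `σ` of the label;
  the entropy of `σ` revealed on the window is refunded with the price `Λ` -/
  lip : ∀ a a' r r' ρ : ℕ, a ≤ a' → a' ≤ h → r ≤ r' → r' ≤ q → ρ ≤ r' - r →
    ∃ (Ω' : Type) (_ : Fintype Ω') (Q' : Law Ω') (π : Ω' → Ω) (σ : Ω' → ℕ),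
      (∀ ω, Q'.pr π ω = Q.w ω) ∧
      E a' r' ≤ E a r + 2 * ((a' : ℝ) - a) * Real.log 2 -
        lam * ((r' : ℝ) - r - ρ) * Real.log 2 *
          max 0 (1 - 3 * colp Q' (fun ω => fl1 (r + ρ) (v (π ω)))
            (fun ω => (tb n (l (π ω)), st t v a r (π ω), σ ω))) -
        Λ * mi Q' (fun ω => st t v a' r' (π ω)) σ
          (fun ω => (tb n (l (π ω)), st t v a r (π ω))) + er ε B a a' r r'
  /-- TAIL : the last window, if the slab has almost the thickness of the end label -/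
  tail : ∀ a r : ℕ, a ≤ h → r ≤ q → ((q : ℝ) - r) ≤ δ * ((h : ℝ) - a) →
    valE lam Q l t v n h q ≤ E a r + (β - δ) * ((h : ℝ) - a) * Real.log 2 +
      N * (((h : ℝ) - a) * Real.log 2 -
        Stk.hc Q (fun ω => fl1 h (t ω)) (fun ω => (tb n (l ω), st t v a r ω))) +
      ε * h * Real.log 2 + B

end defs

/-- **INC** : the functional with all its increments exists -/
def PInc : Prop :=
  ∀ N lam β : ℝ, 2 ≤ N → 0 < lam → lam < 1 → lam < β → β ≤ 2 → JFG N lam β → JL N lam β →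
    ∃ δ : ℝ, 0 < δ ∧ ∀ K Λ ε : ℝ, N ≤ Λ → 0 < ε → ∃ B : ℝ, 0 ≤ B ∧
      ∀ (Ω : Type) [Fintype Ω] (Q : Law Ω) (l : Ω → Ln) (t v : Ω → ℝ) (n h q : ℕ),
        Nd K Q l t v n h q → ∃ E : ℕ → ℕ → ℝ, Incr N lam β δ ε Λ B Q l t v n h q E

end Vale.Agent.P127.U.Inc
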