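import Vale.Agent.P127.U.H824.IncPath
import Vale.Agent.P127.U.H824.PathCut
import Vale.Agent.P127.U.H205.ActI
import Vale.Agent.P127.U.PathD

/-!
# P127 / U / Lam : the core of the macro part, statement (helper565)

* `expl` : exploration by blocks of `m` digits, threshold `2^(-c m)`.
* `CoreD` : one law `Q` conditioned by the word `E` of the path, with the increments and the
  near-extremality, and the base levels.
* `CoreN` : plain numerical inequalities.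
* `PCore` : `CoreD`, `CoreN` give the hypotheses of the micro part and the tail.
-/

set_option autoImplicit false

namespace Vale.Agent.P127.U.Core

open Finset Vale.Agent.P127 Vale.Agent.P127.Stk Vale.Agent.P127.U Vale.Agent.P127.U.Inc
  Vale.Agent.P127.U.PathS

section defs

variable {Ω : Type}

/-- exploration by blocks of `m` digits, threshold `th c m = 2^(-c m)` (helper823) -/
noncomputable abbrev expl (n m A R J : ℕ) (c : ℝ) (l : Ω → Ln) (t v : Ω → ℝ) :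
    Expl Ω ((Fin 2 → ℤ) × (Fin 2 → ℤ)) ℤ ℤ := PathD.dgx l t v n m A R J c

variable [Fintype Ω]

/-- the law and the path -/
structure CoreD (N lam β δ ε Λ B K d c lam' ε₁ Lp : ℝ) (P Q : Law Ω) (l : Ω → Ln) (t v : Ω → ℝ)
    (n h q m A R J b1 b2 : ℕ) (G : Finset ℕ) (Ef : ℕ → ℕ → ℝ) (E : List Lt) (p : ℝ) : Prop where
  inc : Incr N lam β δ ε Λ B Q l t v n h q Ef
  nd : Nd K Q l t v n h q
  vc : Vc N lam β d Q l t v n h q
  cnd : Cnd (expl n m A R J c l t v) P Q E p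
  lp : Real.log (1 / p) ≤ Lp
  /-- number of blocks of the time and of the slope -/
  hA : m * A + b2 + m ≤ h
  hA' : h ≤ m * A + b2 + 2 * m
  hR : m * R + b2 + m ≤ q
  hR' : q ≤ m * R + b2 + 2 * m
  /-- base levels -/
  hB : ∀ k ∈ G, b1 ≤ m * k ∧ m * k ≤ b2
  cardB : lam' * b2 ≤ m * G.card
  cy : ∀ k ∈ G, Mic.colp Q (fun ω => fl1 (m * k + m) ((l ω).2 0))
    (fun ω => (cel l t v h q ω, fl1 (m * k) ((l ω).2 0))) ≤ ε₁

end defs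

/-- the numerical inequalities -/
structure CoreN (N lam β δ ε Λ B d c ε₁ θ Lp Del : ℝ) (n h q m J b2 M : ℕ) : Prop where
  N2 : 2 ≤ N
  lam0 : 0 < lam
  lam1 : lam < 1
  lamβ : lam < β
  β2 : β ≤ 2
  δ0 : 0 < δ
  δ1 : δ ≤ 1
  ε0 : 0 ≤ ε
  B0 : 0 ≤ B
  NΛ : N ≤ Λ
  c0 : 0 < c
  ε₁0 : 0 < ε₁
  m1 : 1 ≤ m
  J1 : 1 ≤ J
  M2 : 2 ≤ M
  Lp0 : 0 ≤ Lp
  θ0 : 0 < θ
  θ1 : θ ≤ 1 / 2
  /-- total budget -/
  del : (d + ε) * h * Real.log 2 + B * (1 + Real.log (n + 1)) +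
      N * (c * q * Real.log 2 + (h : ℝ) / J * Real.log 2 + Real.log 6) +
      4 * (ε * (h + q) * Real.log 2) + (2 * ((n : ℝ) / m) + 8) * B ≤ Del
  /-- tail -/
  t1 : Del ≤ δ * (θ * h) * Real.log 2
  t2 : (b2 : ℝ) + 3 * m ≤ δ * (θ * h)
  t3 : Del + 2 * ((b2 : ℝ) + 4 * m) * Real.log 2 ≤ lam / 8 * (θ * h) * Real.log 2
  t4 : 2 * ((12 * (Lp + (Del + 2 * ((b2 : ℝ) + 4 * m) * Real.log 2) / Λ) + 15) /
      (c * Real.log 2)) + b2 + 8 * m ≤ θ * h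
  /-- activity -/
  a1 : ε ≤ ε₁ * β / 16
  a2 : Del ≤ ε₁ * β / 32 * (h * Real.log 2)
  a3 : N * Real.log 2 + B ≤ ε₁ * β / 16 * (m * Real.log 2)
  a4 : Real.exp (-(β / (2 * N) * (m * Real.log 2))) ≤ ε₁ / 2
  /-- collisions of the slope -/
  v1 : ∃ e : ℝ, PathD.th c m < e ∧ (n : ℝ) / m * e +
    ((J + 1) * Lp + (n : ℝ) / m) / Real.log (e / PathD.th c m) ≤ ε₁ * ((h : ℝ) / (2 * m))
  /-- long runs -/
  r1 : 128 ≤ lam * M
  r2 : 4000 ≤ c * Λ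
  r3 : 4000 ≤ c * (m * Real.log 2)
  r4 : M + (32 / (lam * (m * Real.log 2)) * Del + 96 / (c * (m * Real.log 2)) * (Lp + Del / Λ)) ≤
    ε₁ * ((h : ℝ) / (2 * m))
  r5 : ε ≤ lam / 16
  r6 : B ≤ m * Real.log 2

/-- **the core of the macro part** -/
def PCore : Prop :=
  ∀ (Ω : Type) [Fintype Ω] (N lam β δ ε Λ B K d c lam' ε₁ θ Lp Del : ℝ) (P Q : Law Ω) (l : Ω → Ln)
    (t v : Ω → ℝ) (n h q m A R J b1 b2 M : ℕ) (G : Finset ℕ) (Ef : ℕ → ℕ → ℝ) (E : List Lt) (p : ℝ),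
    CoreD N lam β δ ε Λ B K d c lam' ε₁ Lp P Q l t v n h q m A R J b1 b2 G Ef E p →
    CoreN N lam β δ ε Λ B d c ε₁ θ Lp Del n h q m J b2 M →
    ∃ (C : CellD.Pth Ω) (k : ℕ),
      (∀ ω, C.x1 ω = (l ω).1 0 ∧ C.x2 ω = (l ω).1 1 ∧ C.y1 ω = (l ω).2 0 ∧ C.y2 ω = (l ω).2 1 ∧
        C.t ω = t ω ∧ C.v ω = v ω) ∧
      C.a 0 = 0 ∧ C.r 0 ≤ q ∧ Mic.Hyp Q C m k h q M (J + 1) b1 b2 lam' ε₁ G ∧
      (h : ℝ) - C.a k ≤ θ * h ∧ (q : ℝ) - C.r k ≤ θ * h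

end Vale.Agent.P127.U.Core
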