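import Vale.Agent.P127.U.Lam.CoreR

/-!
# P127 / U / Lam : the core of the macro part (helper565)
-/

set_option autoImplicit false

namespace Vale.Agent.P127.U.Core

open Finset Vale.Agent.P127 Vale.Agent.P127.Stk Vale.Agent.P127.U Vale.Agent.P127.U.Inc
  Vale.Agent.P127.U.PathS Vale.Agent.P127.U.Bud

/-- **the core of the macro part** -/
theorem pCore : PCore := by
  intro Ω _ N lam β δ ε Λ B K d c lam' ε₁ θ Lp Del P Q l t v n h q m A R J b1 b2 M G Ef E p D Nn
  set e := expl n m A R J c l t v with he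
  have hcd : Cnd e P Q E p := D.cnd
  have hh0 : (0 : ℝ) ≤ h := Nat.cast_nonneg _
  have hθh : δ * (θ * (h : ℝ)) ≤ 1 * (θ * h) :=
    mul_le_mul_of_nonneg_right Nn.δ1 (mul_nonneg Nn.θ0.le hh0)
  have hθh2 : θ * (h : ℝ) ≤ 1 / 2 * h := mul_le_mul_of_nonneg_right Nn.θ1 hh0
  -- there is a block of the time
  have hA : 0 < e.A := by
    show 0 < A
    rcases Nat.eq_zero_or_pos A with h1 | h1
    · exfalso
      have h2 := D.hA'
      rw [h1] at h2
      have h3 : (h : ℝ) ≤ m * ((0 : ℕ) : ℝ) + b2 + 2 * m := by exact_mod_cast h2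
      have h4 := Nn.t2
      have hm1 : (1 : ℝ) ≤ m := by exact_mod_cast Nn.m1
      have hb0 : (0 : ℝ) ≤ b2 := Nat.cast_nonneg _
      push_cast at h3
      linarith
    · exact h1
  rcases exists_sp hcd hA m with ⟨i₀, k, α, ρ, hs⟩ | ⟨h1, h2⟩
  · have hcost := cost_sp D Nn hs
    obtain ⟨hta, htr⟩ := SP.tail D Nn hs hcost
    have hct := ct_core D Nn hs hta
    have hkm : (h : ℝ) / (2 * m) ≤ k := by
      have hm0 : (0 : ℝ) < m := by exact_mod_cast Nn.m1
      have e1 := hs.add hcd (i := k) le_rfl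
      have e2 : ρ 0 ≤ ρ k := hs.mr (Nat.zero_le k)
      have e3 : α k ≤ m * k := by omega
      have e4 : (α k : ℝ) ≤ m * k := by exact_mod_cast e3
      rw [div_le_iff₀ (by positivity)]
      linarith
    have hruns : (((range k).filter fun i => α (i + M) = α i).card : ℝ) ≤ ε₁ * k :=
      runs_cor D Nn hs hkm
    refine ⟨mkP l t v α ρ hs.ma hs.mr, k, fun ω => ⟨rfl, rfl, rfl, rfl, rfl, rfl⟩, hs.a0, ?_,
      hyp_of D Nn hs hta hct hruns, hta, htr⟩
    show ρ 0 ≤ q
    have h3 := hs.mr (Nat.zero_le k)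
    have h4 := hs.rk hcd
    have h5 := D.hR
    have h6 : e.R = R := rfl
    rw [h6] at h4
    omega
  · exfalso
    refine no_case D Nn (cost_core D Nn (k := R) (Nat.le_add_left _ _) ?_) h1 h2
    intro j hj
    have h3 : e.ai E j ≤ e.ai E e.R := hcd.ai_mono' (show j ≤ e.R from hj.le)
    show e.ai E j < e.A
    omega

end Vale.Agent.P127.U.Core
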