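import Vale.Agent.P127.U.Lam.Ext0
import Vale.Agent.P127.U.ExistB

/-!
# P127 / U / Lam : best constant and extremal system for the penalised inequality (helper404)
-/

set_option autoImplicit false

namespace Vale.Agent.P127.U.LamEx

open Finset Filter Topology Vale.Agent.P127 Vale.Agent.P127.Stk Vale.Agent.P127.U Sys Lam

/-! ### trivial bounds -/

section finite

variable {Ω : Type} [Fintype Ω] {lam : ℝ}

omit [Fintype Ω] in
theorem blF_ok {s : ℕ} {l : Ω → Ln} {t : Ω → ℝ} {ω : Ω} (h : LnOk (l ω)) : LnOk (blF s l t ω) := by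
  refine ⟨fun j => ?_, h.2⟩
  show |Int.fract _| ≤ 1
  rw [abs_of_nonneg (Int.fract_nonneg _)]
  exact (Int.fract_lt_one _).le

/-- trivial upper bound for `X(s)` -/
theorem XF_triv (hl : 0 ≤ lam ∧ lam ≤ 1) (P : Law Ω) (s n : ℕ) (l : Ω → Ln) (t : Ω → ℝ)
    (h : GoodF P l t) : XF lam P s n l t (fun _ => ()) ≤ 11 * (n * Real.log 2) + 20 := by
  have h2 := Real.log_two_lt_d9
  have h2' : 0 < Real.log 2 := Real.log_pos (by norm_num)
  have h3 : Real.log 3 ≤ 2 * Real.log 2 := by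
    have : Real.log 3 ≤ Real.log (2 ^ 2) := Real.log_le_log (by norm_num) (by norm_num)
    rw [Real.log_pow] at this
    exact_mod_cast this
  have ok : ∀ ω, 0 < P.w ω → BxOk (tbx (n - s) (blF s l t)) ω := fun ω hω =>
    Ex.tbx_ok (blF_ok (h ω hω).1)
  have k1 := Lam.excF_le_H hl (C := fun ω => (pq s (ptF l t ω), ())) ok
  have k2 := H_lab_le P (tbx (n - s) (blF s l t)) (n - s) (fun ω hω => ⟨ok ω hω, le_rfl⟩)
  have k3 : ((n - s : ℕ) : ℝ) ≤ n := by exact_mod_cast Nat.sub_le n s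
  have k4 : Stk.hc P (fun ω => tb n (l ω)) (fun ω => (tlF s n l t ω, ())) ≤
      4 * (n * Real.log 2) + 4 * Real.log 3 := by
    have a1 := Ex.hc_fl_abs P n (fun ω => (l ω).1) (fun ω => (tlF s n l t ω, ()))
      (fun ω hω => (h ω hω).1.1)
    have a2 := Ex.hc_fl_abs P n (fun ω => (l ω).2) (fun ω => (tlF s n l t ω, ()))
      (fun ω hω => (h ω hω).1.2)
    have a3 := Apx.hc_pair_le P (fun ω => fl n (l ω).1) (fun ω => fl n (l ω).2)
      (fun ω => (tlF s n l t ω, ()))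
    have a4 : Stk.hc P (fun ω => tb n (l ω)) (fun ω => (tlF s n l t ω, ())) =
        Stk.hc P (fun ω => (fl n (l ω).1, fl n (l ω).2)) (fun ω => (tlF s n l t ω, ())) := rfl
    rw [a4]
    linarith
  have k5 : (7 * ((n - s : ℕ) : ℝ) + 16) * Real.log 2 ≤ (7 * n + 16) * Real.log 2 := by
    apply mul_le_mul_of_nonneg_right _ h2'.le
    linarith
  unfold XF
  linarith

theorem exc_nn (hl : 0 ≤ lam ∧ lam ≤ 1) (P : Law Ω) (n : ℕ) (l : Ω → Ln) (t : Ω → ℝ)
    (h : GoodF P l t) : 0 ≤ excFl lam P (tbx n l) (fun _ => ()) :=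
  Lam.excF_nonneg hl fun ω hω => Ex.tbx_ok (h ω hω).1

theorem DF_ge (P : Law Ω) (s n : ℕ) (l : Ω → Ln) (t : Ω → ℝ) (h : GoodF P l t) :
    - Real.log 3 ≤ DF P s n l t (fun _ => ()) :=
  Ex.def_ge P s l t h (fun ω => (tb n (l ω), ()))

end finite

/-! ### systems -/

section sys

variable {lam N K : ℝ}

/-- numbers of the system -/
theorem ub_all (hl : 0 ≤ lam ∧ lam ≤ 1) {S : Sys} {n : ℕ → ℕ} {l : S.RV Ln} {t : S.RV ℝ}
    (hn : S.Bd n) (hsn : ∀ i, S.L i ≤ n i) (hln : LnA l) (ht : T01 t) :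
    (UB fun i => excFl lam (S.P i) (tubes (fun i => n i - S.L i) (bl S.L l t) i)
      (Sys.pr (pqs S.L (pt l t)) (one (S := S)) i) / S.nm i) ∧
    (UB fun i => Stk.hc (S.P i) (tbs n l i) (Sys.pr (tl S.L n l t) (one (S := S)) i) / S.nm i) ∧
    (UB fun i => excFl lam (S.P i) (tubes n l i) (one (S := S) i) / S.nm i) ∧
    (UB fun i => Stk.hc (S.P i) (dg S.L t i) (Sys.pr (tbs n l) (one (S := S)) i) / S.nm i) := by
  have hpar : Fi.Par S n S.L (fun i => n i - S.L i) :=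
    ⟨fun i => Nat.add_sub_cancel' (hsn i), hn⟩
  refine ⟨Lam.ub_exc hl (Fi.tubes_bxA hpar.bdm (Fi.bl_ok hln)) _, Sys.UB.hc (Fi.tame_tbs hn hln) _,
    Lam.ub_exc hl (Fi.tubes_bxA hn hln) _, Sys.UB.hc (Fi.t01_tame ht hpar.bds) _⟩

/-- `X` as a limit -/
theorem Xl_eq (hl : 0 ≤ lam ∧ lam ≤ 1) {S : Sys} {n : ℕ → ℕ} {l : S.RV Ln} {t : S.RV ℝ}
    (hn : S.Bd n) (hsn : ∀ i, S.L i ≤ n i) (hln : LnA l) (ht : T01 t) :
    Xl lam S.L n l t (one (S := S)) =
      ulim fun i => XF lam (S.P i) (S.L i) (n i) (l i) (t i) (fun _ => ()) / S.nm i := by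
  obtain ⟨u1, u2, -, -⟩ := ub_all (lam := lam) hl hn hsn hln ht
  unfold Xl Sys.excl Sys.hc
  rw [← ulim_add u1 u2]
  refine ulim_congr (Eventually.of_forall fun i => ?_)
  show _ = (excFl lam (S.P i) (tbx (n i - S.L i) (blF (S.L i) (l i) (t i)))
      (fun ω => (pq (S.L i) (ptF (l i) (t i) ω), ())) +
    Stk.hc (S.P i) (fun ω => tb (n i) (l i ω)) (fun ω => (tlF (S.L i) (n i) (l i) (t i) ω, ()))) /
      S.nm i
  rw [add_div]
  rfl

/-- the right hand side as a limit -/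
theorem rhs_eq (hl : 0 ≤ lam ∧ lam ≤ 1) {S : Sys} {n : ℕ → ℕ} {l : S.RV Ln} {t : S.RV ℝ}
    (hn : S.Bd n) (hsn : ∀ i, S.L i ≤ n i) (hln : LnA l) (ht : T01 t) {b : ℕ → ℝ} {β : ℝ}
    (hb : Tendsto b (uf : Filter ℕ) (𝓝 β)) :
    β + S.excl lam (tubes n l) (one (S := S)) + N * Dl S.L n l t (one (S := S)) =
      (ulim fun i => (b i * S.nm i + excFl lam (S.P i) (tbx (n i) (l i)) (fun _ => ()) +
        N * DF (S.P i) (S.L i) (n i) (l i) (t i) (fun _ => ())) / S.nm i) ∧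
    (UB fun i => (b i * S.nm i + excFl lam (S.P i) (tbx (n i) (l i)) (fun _ => ()) +
        N * DF (S.P i) (S.L i) (n i) (l i) (t i) (fun _ => ())) / S.nm i) := by
  obtain ⟨-, -, u3, u4⟩ := ub_all (lam := lam) hl hn hsn hln ht
  have ub : UB b := UB.of_tendsto hb
  have uD' := (UB.const 1).sub u4
  have eD : Dl S.L n l t (one (S := S)) = ulim fun i =>
      1 - Stk.hc (S.P i) (dg S.L t i) (Sys.pr (tbs n l) (one (S := S)) i) / S.nm i := by
    rw [ulim_sub (UB.const 1) u4, ulim_const]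
    unfold Dl
    rw [Fi.nu_L]
    rfl
  have key : ∀ᶠ i in (uf : Filter ℕ), (b i + excFl lam (S.P i) (tubes n l i) (one (S := S) i) / S.nm i) +
      N * (1 - Stk.hc (S.P i) (dg S.L t i) (Sys.pr (tbs n l) (one (S := S)) i) / S.nm i) =
      (b i * S.nm i + excFl lam (S.P i) (tbx (n i) (l i)) (fun _ => ()) +
        N * DF (S.P i) (S.L i) (n i) (l i) (t i) (fun _ => ())) / S.nm i := by
    filter_upwards [S.nm_pos] with i hi
    have e1 : excFl lam (S.P i) (tubes n l i) (one (S := S) i) =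
        excFl lam (S.P i) (tbx (n i) (l i)) (fun _ => ()) := rfl
    have e2 : DF (S.P i) (S.L i) (n i) (l i) (t i) (fun _ => ()) = S.nm i -
        Stk.hc (S.P i) (dg S.L t i) (Sys.pr (tbs n l) (one (S := S)) i) := rfl
    rw [e1, e2]
    field_simp
  have uall := (ub.add u3).add (UB.const_mul N uD')
  refine ⟨?_, ?_⟩
  · rw [← ulim_congr key, ulim_add (ub.add u3) (UB.const_mul N uD'), ulim_add ub u3, ulim_eq hb,
      ulim_const_mul N uD', eD]
    unfold Sys.excl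
    ring
  · obtain ⟨c, hc⟩ := uall
    refine ⟨c, ?_⟩
    filter_upwards [hc, key] with i h1 h2
    rw [← h2]
    exact h1

/-- upper bound for systems from `JFK` -/
theorem sys_leK {β : ℝ} (hl : 0 ≤ lam ∧ lam ≤ 1) (hJ : JFK N lam K β) {S : Sys} {n : ℕ → ℕ}
    {l : S.RV Ln} {t : S.RV ℝ} (hnK : ∀ᶠ i in (uf : Filter ℕ), (n i : ℝ) ≤ K * S.L i)
    (hsn : ∀ i, S.L i ≤ n i) (hln : LnA l) (ht : T01 t) :
    Xl lam S.L n l t (one (S := S)) ≤
      β + S.excl lam (tubes n l) (one (S := S)) + N * Dl S.L n l t (one (S := S)) := by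
  have hn : S.Bd n := ⟨K, hnK⟩
  refine le_of_forall_pos_le_add fun ε hε => ?_
  obtain ⟨c, hc⟩ := hJ ε hε
  obtain ⟨e1, u1⟩ := rhs_eq (N := N) (lam := lam) hl hn hsn hln ht
    (b := fun _ => β + ε) (β := β + ε) tendsto_const_nhds
  obtain ⟨ua, ub', -, -⟩ := ub_all (lam := lam) hl hn hsn hln ht
  have e2 : β + S.excl lam (tubes n l) (one (S := S)) + N * Dl S.L n l t (one (S := S)) + ε =
      β + ε + S.excl lam (tubes n l) (one (S := S)) + N * Dl S.L n l t (one (S := S)) := by ring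
  rw [e2, e1, Xl_eq hl hn hsn hln ht]
  have uX : UB fun i => XF lam (S.P i) (S.L i) (n i) (l i) (t i) (fun _ => ()) / S.nm i := by
    obtain ⟨c', hc'⟩ := ua.add ub'
    refine ⟨c', ?_⟩
    filter_upwards [hc'] with i h1
    refine le_trans (le_of_eq ?_) h1
    rw [← add_div]
    rfl
  refine ulim_le_of_sub uX u1 (S.const_div_nm c) ?_
  filter_upwards [S.nm_pos, hln, ht, hnK] with i hi h1 h2 h3
  have h4 := hc (S.Ω i) (S.P i) (l i) (t i) (S.L i) (n i) (fun ω hω => ⟨h1 ω hω, h2 ω hω⟩)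
    (hsn i) h3
  rw [← add_div]
  refine div_le_div_of_nonneg_right ?_ hi.le
  have enm : S.nm i = (S.L i : ℝ) * Real.log 2 := rfl
  rw [enm]
  linarith

/-- a violating sequence gives a system -/
theorem seq_sys (hl : 0 ≤ lam ∧ lam ≤ 1) (hN : 0 ≤ N) (hK : 1 ≤ K) {b : ℕ → ℝ} {β : ℝ}
    (hb0 : ∀ m, 0 ≤ b m) (hb : Tendsto b (uf : Filter ℕ) (𝓝 β))
    (h : ∀ m : ℕ, ∃ (Ω : Type) (_ : Fintype Ω) (P : Law Ω) (l : Ω → Ln) (t : Ω → ℝ) (s n : ℕ),
      GoodF P l t ∧ s ≤ n ∧ (n : ℝ) ≤ K * s ∧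
      b m * (s * Real.log 2) + m + excFl lam P (tbx n l) (fun _ => ()) +
        N * DF P s n l t (fun _ => ()) < XF lam P s n l t (fun _ => ())) :
    ∃ (S : Sys) (n : ℕ → ℕ) (l : S.RV Ln) (t : S.RV ℝ),
      (∀ᶠ i in (uf : Filter ℕ), (n i : ℝ) ≤ K * S.L i) ∧ (∀ i, S.L i ≤ n i) ∧ LnA l ∧ T01 t ∧
      β + S.excl lam (tubes n l) (one (S := S)) + N * Dl S.L n l t (one (S := S)) ≤
        Xl lam S.L n l t (one (S := S)) := by
  choose Ω hf P l t s n hg hsn hnK hlt using h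
  have hlog : 0 < Real.log 2 := Real.log_pos (by norm_num)
  have hlog3 : 0 ≤ Real.log 3 := Real.log_nonneg (by norm_num)
  have hK0 : (0 : ℝ) < K := by linarith
  -- the scales tend to infinity
  set c : ℝ := 20 + N * Real.log 3 with hc
  have hn : ∀ m : ℕ, (m : ℝ) - c ≤ 11 * K * (s m * Real.log 2) := by
    intro m
    have h1 := XF_triv hl (P m) (s m) (n m) (l m) (t m) (hg m)
    have h2 := exc_nn hl (P m) (n m) (l m) (t m) (hg m)
    have h3 := DF_ge (P m) (s m) (n m) (l m) (t m) (hg m)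
    have h5 := mul_le_mul_of_nonneg_left h3 hN
    have h6 := hlt m
    have h7 : 0 ≤ b m * ((s m : ℝ) * Real.log 2) :=
      mul_nonneg (hb0 m) (mul_nonneg (Nat.cast_nonneg _) hlog.le)
    have h8 : (n m : ℝ) * Real.log 2 ≤ K * s m * Real.log 2 :=
      mul_le_mul_of_nonneg_right (hnK m) hlog.le
    rw [hc]
    nlinarith
  have htop : Tendsto s (uf : Filter ℕ) atTop := by
    refine Tendsto.mono_left ?_ uf_le
    rw [tendsto_atTop]
    intro k
    filter_upwards [eventually_ge_atTop ⌈c + 11 * K * (k * Real.log 2)⌉₊] with m hm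
    have h1 : c + 11 * K * (k * Real.log 2) ≤ m := (Nat.le_ceil _).trans (by exact_mod_cast hm)
    have h2 := hn m
    have h3 : (k : ℝ) ≤ s m := by
      have h4 : 11 * K * ((k : ℝ) * Real.log 2) ≤ 11 * K * (s m * Real.log 2) := by linarith
      have h5 : (k : ℝ) * Real.log 2 ≤ s m * Real.log 2 :=
        le_of_mul_le_mul_left h4 (by positivity)
      exact le_of_mul_le_mul_right h5 hlog
    exact_mod_cast h3
  let S : Sys := ⟨Ω, hf, P, s, htop⟩
  have hln : Sys.LnA (S := S) l := Eventually.of_forall fun m ω hω => (hg m ω hω).1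
  have ht : Sys.T01 (S := S) t := Eventually.of_forall fun m ω hω => (hg m ω hω).2
  have hBd : S.Bd n := ⟨K, Eventually.of_forall hnK⟩
  refine ⟨S, n, l, t, Eventually.of_forall hnK, hsn, hln, ht, ?_⟩
  obtain ⟨e1, u1⟩ := rhs_eq (N := N) (lam := lam) hl hBd hsn hln ht hb
  obtain ⟨ua, ub', -, -⟩ := ub_all (lam := lam) hl hBd hsn hln ht
  have uX : UB fun i => XF lam (S.P i) (S.L i) (n i) (l i) (t i) (fun _ => ()) / S.nm i := by
    obtain ⟨c', hc'⟩ := ua.add ub'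
    refine ⟨c', ?_⟩
    filter_upwards [hc'] with i h1
    refine le_trans (le_of_eq ?_) h1
    rw [← add_div]
    rfl
  rw [e1, Xl_eq hl hBd hsn hln ht]
  refine ulim_le u1 uX ?_
  filter_upwards [S.nm_pos] with i hi
  refine div_le_div_of_nonneg_right ?_ hi.le
  have h1 := (hlt i).le
  have h0 : (0 : ℝ) ≤ i := Nat.cast_nonneg _
  refine le_trans ?_ h1
  show b i * ((s i : ℝ) * Real.log 2) + excFl lam (P i) (tbx (n i) (l i)) (fun _ => ()) +
    N * DF (P i) (s i) (n i) (l i) (t i) (fun _ => ()) ≤ _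
  linarith

/-- `Dl ≥ 0` -/
theorem Dl_nonneg {S : Sys} {n : ℕ → ℕ} {l : S.RV Ln} {t : S.RV ℝ} (ht : T01 t) :
    0 ≤ Dl S.L n l t (one (S := S)) := by
  have hB : S.Bd S.L := ⟨1, Eventually.of_forall fun i => by rw [one_mul]⟩
  have u4 : UB fun i => Stk.hc (S.P i) (dg S.L t i) (Sys.pr (tbs n l) (one (S := S)) i) / S.nm i :=
    Sys.UB.hc (Fi.t01_tame ht hB) _
  unfold Dl
  rw [Fi.nu_L]
  have h1 : S.hc (dg S.L t) (Sys.pr (tbs n l) (one (S := S))) ≤ 1 := by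
    rw [← ulim_const 1]
    refine ulim_le_of_sub u4 (UB.const 1) (S.const_div_nm (Real.log 3)) ?_
    filter_upwards [S.nm_pos, ht] with i hi h2
    have h3 := Ex.hc_fl1_abs (S.P i) (S.L i) (t i) (Sys.pr (tbs n l) (one (S := S)) i)
      (fun ω hω => by
        rw [abs_le]
        constructor <;> linarith [(h2 ω hω).1, (h2 ω hω).2])
    have enm : S.nm i = (S.L i : ℝ) * Real.log 2 := rfl
    rw [← div_self hi.ne', ← add_div]
    refine div_le_div_of_nonneg_right ?_ hi.le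
    rw [enm]
    exact h3
  linarith

/-- a violating configuration -/
theorem jfk_not {b : ℝ} (h : ¬ JFK N lam K b) : ∃ ε : ℝ, 0 < ε ∧ ∀ m : ℕ,
    ∃ (Ω : Type) (_ : Fintype Ω) (P : Law Ω) (l : Ω → Ln) (t : Ω → ℝ) (s n : ℕ),
      GoodF P l t ∧ s ≤ n ∧ (n : ℝ) ≤ K * s ∧
      (b + ε) * (s * Real.log 2) + m + excFl lam P (tbx n l) (fun _ => ()) +
        N * DF P s n l t (fun _ => ()) < XF lam P s n l t (fun _ => ()) := by
  unfold JFK at h
  push Not at h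
  obtain ⟨ε, hε, h⟩ := h
  refine ⟨ε, hε, fun m => ?_⟩
  obtain ⟨Ω, hf, P, l, t, s, n, hg, h1, h2, hlt⟩ := h (m : ℝ)
  refine ⟨Ω, hf, P, l, t, s, n, hg, h1, h2, ?_⟩
  rw [← mul_assoc]
  exact hlt

theorem jfk_two (hl : 0 ≤ lam ∧ lam ≤ 1) (hN : 0 ≤ N) (hK : 1 ≤ K) : JFK N lam K 2 := by
  by_contra h
  obtain ⟨ε, hε, h1⟩ := jfk_not h
  obtain ⟨S, n, l, t, g1, g2, g3, g4, g5⟩ := seq_sys (b := fun _ => 2 + ε) (β := 2 + ε) hl hN hK
    (fun _ => by linarith) tendsto_const_nhds h1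
  have k1 := ext0 hl (one (S := S)) ⟨K, g1⟩ g3 g4 g2
  have k2 := mul_nonneg hN (Dl_nonneg (S := S) (n := n) (l := l) (t := t) g4)
  rw [Fi.nu_L] at k1
  linarith

theorem jfk_closed {β : ℝ} (h : ∀ ε : ℝ, 0 < ε → ∃ b : ℝ, b < β + ε ∧ JFK N lam K b) :
    JFK N lam K β := by
  intro ε hε
  obtain ⟨b, hb, hJ⟩ := h (ε / 2) (by linarith)
  obtain ⟨c, hc⟩ := hJ (ε / 2) (by linarith)
  refine ⟨c, fun Ω _ P l t s n hg h1 h2 => (hc Ω P l t s n hg h1 h2).trans ?_⟩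
  have h0 : 0 ≤ (s : ℝ) * Real.log 2 := mul_nonneg (Nat.cast_nonneg _) (Real.log_nonneg (by norm_num))
  have h3 : (b + ε / 2) * s * Real.log 2 ≤ (β + ε) * s * Real.log 2 := by
    rw [mul_assoc, mul_assoc]
    exact mul_le_mul_of_nonneg_right (by linarith) h0
  linarith

/-- best constant for the class `s ≤ n ≤ K s` and extremal system -/
theorem exist_K (hl : 0 ≤ lam ∧ lam ≤ 1) (hN : 0 ≤ N) (hK : 1 ≤ K) :
    ∃ β : ℝ, 0 ≤ β ∧ β ≤ 2 ∧ JFK N lam K β ∧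
      (0 < β → ∃ (S : Sys) (n : ℕ → ℕ) (l : S.RV Ln) (t : S.RV ℝ), XtrL N lam β S n l t ∧
        ∀ᶠ i in (uf : Filter ℕ), (n i : ℝ) ≤ K * S.L i) := by
  set A : Set ℝ := {b | 0 ≤ b ∧ JFK N lam K b} with hA
  have hne : A.Nonempty := ⟨2, by norm_num, jfk_two hl hN hK⟩
  have hbd : BddBelow A := ⟨0, fun b hb => hb.1⟩
  set β := sInf A with hβ
  have hβ0 : 0 ≤ β := le_csInf hne fun b hb => hb.1
  have hβ2 : β ≤ 2 := csInf_le hbd ⟨by norm_num, jfk_two hl hN hK⟩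
  have hJ : JFK N lam K β := jfk_closed fun ε hε => by
    obtain ⟨b, hb, hb2⟩ := exists_lt_of_csInf_lt hne (show sInf A < β + ε by linarith)
    exact ⟨b, hb2, hb.2⟩
  refine ⟨β, hβ0, hβ2, hJ, fun hpos => ?_⟩
  set b : ℕ → ℝ := fun m => β * (1 - 1 / ((m : ℝ) + 1)) with hb
  have hb0 : ∀ m, 0 ≤ b m := by
    intro m
    have h2 : 1 / ((m : ℝ) + 1) ≤ 1 := by
      rw [div_le_one (by positivity)]
      linarith [(Nat.cast_nonneg m : (0 : ℝ) ≤ m)]
    exact mul_nonneg hβ0 (by linarith)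
  have hbn : ∀ m, ¬ JFK N lam K (b m) := by
    intro m hm
    have h1 : 0 < 1 / ((m : ℝ) + 1) := by positivity
    have h4 : β ≤ b m := csInf_le hbd ⟨hb0 m, hm⟩
    have h5 : b m < β := by
      show β * (1 - 1 / ((m : ℝ) + 1)) < β
      nlinarith
    linarith
  have hlim : Tendsto b (uf : Filter ℕ) (𝓝 β) := by
    refine Tendsto.mono_left ?_ uf_le
    have h1 : Tendsto (fun m : ℕ => 1 / ((m : ℝ) + 1)) atTop (𝓝 0) :=
      tendsto_one_div_add_atTop_nhds_zero_nat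
    have h2 := (tendsto_const_nhds (x := (1 : ℝ))).sub h1
    have h3 := h2.const_mul β
    rw [sub_zero, mul_one] at h3
    exact h3
  obtain ⟨S, n, l, t, g1, g2, g3, g4, g5⟩ := seq_sys hl hN hK hb0 hlim (fun m => by
    obtain ⟨ε, hε, h1⟩ := jfk_not (hbn m)
    obtain ⟨Ω, hf, P, l, t, s, n, hg, k1, k2, hlt⟩ := h1 m
    refine ⟨Ω, hf, P, l, t, s, n, hg, k1, k2, lt_of_le_of_lt ?_ hlt⟩
    have h0 : 0 ≤ (s : ℝ) * Real.log 2 :=
      mul_nonneg (Nat.cast_nonneg _) (Real.log_nonneg (by norm_num))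
    have : b m * (s * Real.log 2) ≤ (b m + ε) * (s * Real.log 2) :=
      mul_le_mul_of_nonneg_right (by linarith) h0
    linarith)
  exact ⟨S, n, l, t, ⟨⟨K, g1⟩, g2, g3, g4, le_antisymm (sys_leK hl hJ g1 g2 g3 g4) g5⟩, g1⟩

end sys

end Vale.Agent.P127.U.LamEx

namespace Vale.Agent.P127.U

/-- **best constant and extremal system** for the penalised inequality -/
theorem pXtrL (h : PRed) : PXtrL := by
  intro N lam hN h0 h1
  obtain ⟨K, hK, hr⟩ := h lam h0 h1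
  obtain ⟨β, hβ0, hβ2, hJ, hx⟩ := LamEx.exist_K (lam := lam) (N := N) (K := K) ⟨h0.le, h1⟩ hN hK
  refine ⟨β, hβ0, hβ2, hr N β hN hβ0 hJ, fun hpos => ?_⟩
  obtain ⟨S, n, l, t, hX, -⟩ := hx hpos
  exact ⟨S, n, l, t, hX⟩

end Vale.Agent.P127.U
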