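import Vale.Agent.P127.U.Lam.FinDefs
import Vale.Agent.P127.U.ApxS

/-!
# P127 / U / Lam : from the penalised inequality to the inequality with price `N` (helper336)

* `excFl_le_excF` : for tubes the penalised excess is at most the excess;
* `jf_of_jfg` : `JFG N lam β` implies `JF N β`;
* `PNoXtr` : there is no extremal system with `lam < β`;
* `top_of` : the inequality with price `2` and any positive rate from `PXtrL`, `PJL`, `PNoXtr`.
-/

set_option autoImplicit false

namespace Vale.Agent.P127.U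

open Filter Topology Vale.Agent.P127 Vale.Agent.P127.Stk Sys

namespace Lam

variable {Ω : Type} [Fintype Ω] {γ : Type*} {lam : ℝ}

/-- for tubes the penalised excess is at most the excess -/
theorem excFl_le_excF (h0 : 0 ≤ lam) (P : Law Ω) (n : ℕ) (l : Ω → Ln) (C : Ω → γ)
    (hl : ∀ ω, 0 < P.w ω → LnOk (l ω)) : excFl lam P (tbx n l) C ≤ excF P (tbx n l) C := by
  have hne : (exSetl lam P (tbx n l) C).Nonempty :=
    ⟨0, zero_mem_exSet fun ω hω => ⟨hl ω hω, by simp [tbx], le_rfl⟩⟩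
  refine csSup_le hne ?_
  rintro v ⟨Ω', _, P', π, W, h2, h3, rfl⟩
  have h4 : exV P' ((tbx n l).comp π) W (fun ω => C (π ω)) ≤ excF P (tbx n l) C :=
    le_csSup (U.exSet_bddAbove P (tbx n l) C) ⟨Ω', inferInstance, P', π, W, h2, h3, rfl⟩
  refine le_trans ?_ h4
  unfold exVl exV
  have h5 : P'.ex (fun ω => ((tbx n l).comp π).sz ω - W.sz ω) ≤
      P'.ex fun ω => ((tbx n l).comp π).szl lam ω - W.szl lam ω := by
    refine P'.ex_mono fun ω hω => ?_
    obtain ⟨-, -, h6, -⟩ := h3 ω hω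
    have h6' : (W.k ω : ℝ) ≤ W.j ω := by exact_mod_cast h6
    have e1 : ((tbx n l).comp π).szl lam ω = ((tbx n l).comp π).sz ω := by
      unfold Bx.szl Bx.sz Bx.comp tbx
      ring
    have e2 : W.szl lam ω = W.sz ω - lam * ((W.j ω : ℝ) - W.k ω) := by
      unfold Bx.szl Bx.sz
      ring
    rw [e1, e2]
    have : 0 ≤ lam * ((W.j ω : ℝ) - W.k ω) := mul_nonneg h0 (by linarith)
    linarith
  have hlog : 0 ≤ Real.log 2 := Real.log_nonneg (by norm_num)
  have := mul_le_mul_of_nonneg_left h5 hlog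
  linarith

/-- the point determines the tubelet of length `2^-n` and precision `n` up to few values -/
theorem hc_tlF_le (P : Law Ω) (n : ℕ) {l : Ω → Ln} {t : Ω → ℝ} (h : GoodF P l t) :
    Stk.hc P (tlF n n l t) (fun ω => pq n (t ω, pos (l ω) (t ω))) ≤
      2 * Real.log (2 * (3 : ℕ) + 3) + 2 * Real.log (2 * (2 : ℕ) + 3) := by
  have a1 : Stk.hc P (tlF n n l t) (fun ω => pq n (t ω, pos (l ω) (t ω))) ≤
      Stk.hc P (fun ω => fl1 n (t ω)) (fun ω => pq n (t ω, pos (l ω) (t ω))) +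
      Stk.hc P (fun ω => (fl n (pos (l ω) (qa n (t ω))), fl (n - n) (l ω).2))
        (fun ω => pq n (t ω, pos (l ω) (t ω))) := Apx.hc_pair_le P _ _ _
  have a2 := Apx.hc_pair_le P (fun ω => fl n (pos (l ω) (qa n (t ω)))) (fun ω => fl (n - n) (l ω).2)
    (fun ω => pq n (t ω, pos (l ω) (t ω)))
  have a3 : Stk.hc P (fun ω => fl1 n (t ω)) (fun ω => pq n (t ω, pos (l ω) (t ω))) = 0 :=
    Stk.hc_zero P fun _ _ _ _ e => congrArg Prod.fst e
  have a4 : Stk.hc P (fun ω => fl n (pos (l ω) (qa n (t ω)))) (fun ω => pq n (t ω, pos (l ω) (t ω))) ≤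
      Fintype.card (Fin 2) * Real.log (2 * (3 : ℕ) + 3) := by
    refine Apx.hc_fl_apx P n 3 _ _ fun ω ω' hω hω' e i => ?_
    have e1 : fl n (pos (l ω) (t ω)) = fl n (pos (l ω') (t ω')) := congrArg Prod.snd e
    have e2 := Apx.fl_close e1 i
    have b1 : ∀ ω, 0 < P.w ω → |pos (l ω) (qa n (t ω)) i - pos (l ω) (t ω) i| ≤ (1 / 2 : ℝ) ^ n := by
      intro ω hω
      rw [Apx.pos_sub, abs_mul]
      have c1 := Apx.abs_sub_qa n (t ω)
      rw [abs_sub_comm] at c1
      have c2 := (h ω hω).1.2 i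
      calc |qa n (t ω) - t ω| * |(l ω).2 i| ≤ (1 / 2 : ℝ) ^ n * 1 :=
            mul_le_mul c1 c2 (abs_nonneg _) (by positivity)
        _ = _ := mul_one _
    have d1 := b1 ω hω
    have d2 := b1 ω' hω'
    have e3 : pos (l ω) (qa n (t ω)) i - pos (l ω') (qa n (t ω')) i =
        (pos (l ω) (qa n (t ω)) i - pos (l ω) (t ω) i) +
        (pos (l ω) (t ω) i - pos (l ω') (t ω') i) -
        (pos (l ω') (qa n (t ω')) i - pos (l ω') (t ω') i) := by ring
    rw [e3]
    have f1 := abs_le.1 d1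
    have f2 := abs_le.1 d2
    have f3 := abs_le.1 e2
    rw [abs_le]
    push_cast
    constructor <;> linarith [f1.1, f1.2, f2.1, f2.2, f3.1, f3.2]
  have a5 : Stk.hc P (fun ω => fl (n - n) (l ω).2) (fun ω => pq n (t ω, pos (l ω) (t ω))) ≤
      Fintype.card (Fin 2) * Real.log (2 * (2 : ℕ) + 3) := by
    refine Apx.hc_fl_apx P (n - n) 2 _ _ fun ω ω' hω hω' _ i => ?_
    have c1 := abs_le.1 ((h ω hω).1.2 i)
    have c2 := abs_le.1 ((h ω' hω').1.2 i)
    rw [Nat.sub_self, pow_zero, abs_le]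
    push_cast
    constructor <;> linarith [c1.1, c1.2, c2.1, c2.2]
  rw [Fintype.card_fin] at a4 a5
  push_cast at a4 a5 ⊢
  linarith

/-- **the penalised inequality implies the inequality with price `N`** -/
theorem jf_of_jfg {N β : ℝ} (h0 : 0 ≤ lam) (h1 : lam ≤ 1) (h : JFG N lam β) : JF N β := by
  intro ε hε
  obtain ⟨c, hc⟩ := h (ε / 2) (by positivity)
  have hlog : 0 < Real.log 2 := Real.log_pos (by norm_num)
  -- the logarithm is absorbed
  obtain ⟨K, hK⟩ : ∃ K : ℝ, ∀ n : ℕ, c * (1 + Real.log (n + 1)) ≤ ε / 2 * n * Real.log 2 + K := by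
    have h2 : Tendsto (fun n : ℕ => Real.log ((n : ℝ) + 1) / ((n : ℝ) + 1)) atTop (𝓝 0) := by
      have h3 : Tendsto (fun x : ℝ => Real.log x / x) atTop (𝓝 0) := by
        have := Real.isLittleO_log_id_atTop.tendsto_div_nhds_zero
        simpa using this
      exact h3.comp (tendsto_atTop_add_const_right _ _ tendsto_natCast_atTop_atTop)
    have h4 : 0 < ε / 2 * Real.log 2 / (|c| + 1) := by positivity
    obtain ⟨n₀, hn₀⟩ := Filter.eventually_atTop.1 (h2.eventually_lt_const h4)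
    refine ⟨|c| * (1 + Real.log (n₀ + 1)) + |c| + ε / 2 * Real.log 2, fun n => ?_⟩
    have hc' : c ≤ |c| := le_abs_self c
    have hc0 : 0 ≤ |c| := abs_nonneg c
    have hln : 0 ≤ Real.log ((n : ℝ) + 1) := Real.log_nonneg (by linarith [Nat.cast_nonneg (α := ℝ) n])
    have hln0 : 0 ≤ Real.log ((n₀ : ℝ) + 1) :=
      Real.log_nonneg (by linarith [Nat.cast_nonneg (α := ℝ) n₀])
    have h5 : c * (1 + Real.log (n + 1)) ≤ |c| * (1 + Real.log (n + 1)) :=
      mul_le_mul_of_nonneg_right hc' (by linarith)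
    have h6 : 0 ≤ ε / 2 * n * Real.log 2 := by positivity
    have h7 : 0 ≤ ε / 2 * Real.log 2 := by positivity
    by_cases hn : n₀ ≤ n
    · have h8 := hn₀ n hn
      have hn1 : (0 : ℝ) < (n : ℝ) + 1 := by positivity
      rw [div_lt_iff₀ hn1, div_mul_eq_mul_div, lt_div_iff₀ (by positivity)] at h8
      have h9 : |c| * Real.log ((n : ℝ) + 1) ≤ ε / 2 * Real.log 2 * ((n : ℝ) + 1) := by
        nlinarith
      nlinarith
    · have h8 : Real.log ((n : ℝ) + 1) ≤ Real.log ((n₀ : ℝ) + 1) := by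
        refine Real.log_le_log (by positivity) ?_
        have : (n : ℝ) ≤ n₀ := by exact_mod_cast (not_le.1 hn).le
        linarith
      have h9 := mul_le_mul_of_nonneg_left h8 hc0
      nlinarith
  refine ⟨K + (2 * Real.log (2 * (3 : ℕ) + 3) + 2 * Real.log (2 * (2 : ℕ) + 3)),
    fun Ω _ P l t n hg => ?_⟩
  have hg' : GoodF P l t := hg
  have g1 := hc Ω P l t n n hg' le_rfl
  -- the value at the last level
  have g2 : Stk.hc P (fun ω => tb n (l ω)) (fun ω => pq n (t ω, pos (l ω) (t ω))) ≤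
      Stk.hc P (fun ω => tb n (l ω)) (tlF n n l t) +
        (2 * Real.log (2 * (3 : ℕ) + 3) + 2 * Real.log (2 * (2 : ℕ) + 3)) := by
    have b1 := Stk.hc_le_add' P (fun ω => tb n (l ω)) (tlF n n l t)
      (fun ω => pq n (t ω, pos (l ω) (t ω)))
    have b2 : Stk.hc P (fun ω => tb n (l ω))
        (fun ω => (tlF n n l t ω, pq n (t ω, pos (l ω) (t ω)))) ≤
        Stk.hc P (fun ω => tb n (l ω)) (tlF n n l t) :=
      Stk.hc_mono_right P _ (fun ω ω' _ _ e => congrArg Prod.fst e)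
    have b3 := hc_tlF_le P n hg'
    linarith
  have g3 : Stk.hc P (fun ω => tb n (l ω)) (fun ω => (tlF n n l t ω, ())) =
      Stk.hc P (fun ω => tb n (l ω)) (tlF n n l t) :=
    Stk.hc_congr P (fun _ _ _ _ e => congrArg Prod.fst e) (fun _ _ _ _ e => congrArg Prod.fst e)
      (fun _ _ _ _ e => by simp [e]) (fun _ _ _ _ e => congrArg Prod.fst e)
  have g4 : 0 ≤ excFl lam P (tbx (n - n) (blF n l t)) (fun ω => (pq n (ptF l t ω), ())) := by
    refine excF_nonneg ⟨h0, h1⟩ fun ω hω => ⟨⟨fun i => ?_, (hg ω hω).1.2⟩, by simp [tbx], le_rfl⟩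
    rw [abs_of_nonneg (Int.fract_nonneg _)]
    exact (Int.fract_lt_one _).le
  have g5 := excFl_le_excF h0 P n l (fun _ => ()) fun ω hω => (hg ω hω).1
  have g6 : DF P n n l t (fun _ => ()) =
      n * Real.log 2 - Stk.hc P (fun ω => fl1 n (t ω)) (fun ω => tb n (l ω)) := by
    unfold DF
    congr 1
    exact Stk.hc_congr P (fun _ _ _ _ e => congrArg Prod.fst e) (fun _ _ _ _ e => congrArg Prod.fst e)
      (fun _ _ _ _ e => by simp [e]) (fun _ _ _ _ e => congrArg Prod.fst e)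
  unfold XF at g1
  rw [g3, g6] at g1
  have g7 := hK n
  have e1 : (β + ε) * n * Real.log 2 = (β + ε / 2) * n * Real.log 2 + ε / 2 * n * Real.log 2 := by
    ring
  rw [e1]
  have g1' := (add_le_add_left g4 _).trans g1
  rw [zero_add] at g1'
  have g8 := g2.trans (add_le_add_left g1' _)
  refine g8.trans ?_
  linarith [g5, g7]

end Lam

/-- no extremal system with `lam < β` -/
def PNoXtr : Prop :=
  ∀ N lam β : ℝ, 2 ≤ N → 0 < lam → lam < 1 → lam < β → β ≤ 2 → JFG N lam β → JL N lam β →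
    ∀ (S : Sys) (n : ℕ → ℕ) (l : S.RV Ln) (t : S.RV ℝ), XtrL N lam β S n l t → False

/-- the rate of `JF` may be increased -/
theorem JF.mono {N β β' : ℝ} (h : JF N β) (hb : β ≤ β') : JF N β' := by
  intro ε hε
  obtain ⟨K, hK⟩ := h ε hε
  refine ⟨K, fun Ω _ P l t n hg => (hK Ω P l t n hg).trans ?_⟩
  have h1 : (β + ε) * (n * Real.log 2) ≤ (β' + ε) * (n * Real.log 2) :=
    mul_le_mul_of_nonneg_right (by linarith) (by positivity)
  nlinarith

/-- **the inequality with price `2`** from the three statements on the penalised excess -/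
theorem top_of (hX : PXtrL) (hJ : PJL) (hc : PNoXtr) : ∀ b : ℝ, 0 < b → JF 2 b := by
  intro b hb
  have h1 : 0 < min b (1 / 2) := lt_min hb (by norm_num)
  have h2 : min b (1 / 2) < 1 := (min_le_right _ _).trans_lt (by norm_num)
  obtain ⟨β, h3, h4, h5, h6⟩ := hX 2 (min b (1 / 2)) (by norm_num) h1 h2.le
  have h7 : β ≤ min b (1 / 2) := by
    by_contra h
    push Not at h
    obtain ⟨S, n, l, t, h8⟩ := h6 (h1.trans h)
    exact hc 2 (min b (1 / 2)) β le_rfl h1 h2 h h4 h5
      (hJ 2 (min b (1 / 2)) β (by norm_num) h1 h2.le h3 h5) S n l t h8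
  exact (Lam.jf_of_jfg h1.le h2.le h5).mono (h7.trans (min_le_left _ _))

end Vale.Agent.P127.U
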