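import Vale.Agent.P127.U.Lam.Exc

/-!
# P127 / U / Lam : the finite inequality with the penalised excess (helper624)

* `blF s l t` the line seen in the ball of radius `2^-s` around the point of time `t` (finite form of
  `Sys.bl`), `tlF s n l t` the tubelet (finite form of `Sys.tl`), `ptF l t` the point.
* `XF lam P s n l t C` : penalised excess `X(s)` of the lines of precision `n` at the level `s`, given
  `C` : `excFl` of the tubelet given the point cell plus `H(line | tubelet)`.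
* `JFK N lam K β` : the inequality `X(s) ≤ X(0) + β s + N D(s)` for the class `s ≤ n ≤ K s`.
* `JFG N lam β` : the same for all `n ≥ s`, with the error `c (1 + log (n + 1))`.
* `PRed` : `JFK` for one `K = K(lam)` implies `JFG`.
-/

set_option autoImplicit false

namespace Vale.Agent.P127.U

open Filter Topology Vale.Agent.P127 Vale.Agent.P127.Stk Sys

section finite

variable {Ω : Type} {γ : Type*}

/-- the line seen in the ball of radius `2^-s` around the point of time `t` -/
noncomputable def blF (s : ℕ) (l : Ω → Ln) (t : Ω → ℝ) : Ω → Ln := fun ω =>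
  (fun j => Int.fract ((2 : ℝ) ^ s * pos (l ω) (qa s (t ω)) j), (l ω).2)

/-- the tubelet of length `2^-s` and precision `n` around the point of time `t` -/
noncomputable def tlF (s n : ℕ) (l : Ω → Ln) (t : Ω → ℝ) : Ω → ℤ × (Fin 2 → ℤ) × (Fin 2 → ℤ) :=
  fun ω => (fl1 s (t ω), fl n (pos (l ω) (qa s (t ω))), fl (n - s) (l ω).2)

/-- the point of time `t` of the line -/
noncomputable def ptF (l : Ω → Ln) (t : Ω → ℝ) : Ω → Pt := fun ω => (t ω, pos (l ω) (t ω))

variable [Fintype Ω]

/-- normalised lines and times -/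
def GoodF (P : Law Ω) (l : Ω → Ln) (t : Ω → ℝ) : Prop :=
  ∀ ω, 0 < P.w ω → LnOk (l ω) ∧ 0 ≤ t ω ∧ t ω ≤ 1

/-- penalised excess at the level `s` of the lines of precision `n`, given `C` -/
noncomputable def XF (lam : ℝ) (P : Law Ω) (s n : ℕ) (l : Ω → Ln) (t : Ω → ℝ) (C : Ω → γ) : ℝ :=
  excFl lam P (tbx (n - s) (blF s l t)) (fun ω => (pq s (ptF l t ω), C ω)) +
    Stk.hc P (fun ω => tb n (l ω)) (fun ω => (tlF s n l t ω, C ω))

/-- time deficit -/
noncomputable def DF (P : Law Ω) (s n : ℕ) (l : Ω → Ln) (t : Ω → ℝ) (C : Ω → γ) : ℝ :=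
  s * Real.log 2 - Stk.hc P (fun ω => fl1 s (t ω)) (fun ω => (tb n (l ω), C ω))

end finite

/-- the inequality with the penalised excess for the class `s ≤ n ≤ K s` -/
def JFK (N lam K β : ℝ) : Prop :=
  ∀ ε : ℝ, 0 < ε → ∃ c : ℝ, ∀ (Ω : Type) [Fintype Ω] (P : Law Ω) (l : Ω → Ln) (t : Ω → ℝ) (s n : ℕ),
    GoodF P l t → s ≤ n → (n : ℝ) ≤ K * s →
    XF lam P s n l t (fun _ => ()) ≤
      (β + ε) * s * Real.log 2 + c + excFl lam P (tbx n l) (fun _ => ()) +
      N * DF P s n l t (fun _ => ())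

/-- the inequality with the penalised excess for all precisions `n ≥ s` -/
def JFG (N lam β : ℝ) : Prop :=
  ∀ ε : ℝ, 0 < ε → ∃ c : ℝ, ∀ (Ω : Type) [Fintype Ω] (P : Law Ω) (l : Ω → Ln) (t : Ω → ℝ) (s n : ℕ),
    GoodF P l t → s ≤ n →
    XF lam P s n l t (fun _ => ()) ≤
      (β + ε) * s * Real.log 2 + c * (1 + Real.log (n + 1)) + excFl lam P (tbx n l) (fun _ => ()) +
      N * DF P s n l t (fun _ => ())

/-- **REDUCTION** : the precision may be assumed to be at most `K(lam)` times the time scale -/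
def PRed : Prop :=
  ∀ lam : ℝ, 0 < lam → lam ≤ 1 → ∃ K : ℝ, 1 ≤ K ∧ ∀ N β : ℝ, 0 ≤ N → 0 ≤ β →
    JFK N lam K β → JFG N lam β

namespace Sys

variable {S : Sys} {γ : Type}

/-- penalised excess of the system at the level `s`, lines of precision `n`, given `C` -/
noncomputable def Xl (lam : ℝ) (s n : ℕ → ℕ) (l : S.RV Ln) (t : S.RV ℝ) (C : S.RV γ) : ℝ :=
  S.excl lam (tubes (fun i => n i - s i) (bl s l t)) (Sys.pr (pqs s (pt l t)) C) +
    S.hc (tbs n l) (Sys.pr (tl s n l t) C)

/-- time deficit with side information -/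
noncomputable def Dl (s n : ℕ → ℕ) (l : S.RV Ln) (t : S.RV ℝ) (C : S.RV γ) : ℝ :=
  S.nu s - S.hc (dg s t) (Sys.pr (tbs n l) C)

end Sys

/-- conditional form of the inequality with the penalised excess, for systems -/
def JL (N lam β : ℝ) : Prop :=
  ∀ (S : Sys) (γ : Type) (C : S.RV γ) (l : S.RV Ln) (t : S.RV ℝ) (s n : ℕ → ℕ),
    S.Bd n → LnA l → T01 t → (∀ i, s i ≤ n i) →
    Xl lam s n l t C ≤ β * S.nu s + S.excl lam (tubes n l) C + N * Dl s n l t C

/-- finite form implies the form for systems -/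
def PJL : Prop := ∀ N lam β : ℝ, 0 ≤ N → 0 < lam → lam ≤ 1 → 0 ≤ β → JFG N lam β → JL N lam β

/-- extremal system, lines of precision `n = O(L)`, time scale `L` -/
structure XtrL (N lam β : ℝ) (S : Sys) (n : ℕ → ℕ) (l : S.RV Ln) (t : S.RV ℝ) : Prop where
  bd : S.Bd n
  le : ∀ i, S.L i ≤ n i
  ln : LnA l
  t01 : T01 t
  eq : Xl lam S.L n l t (one (S := S)) =
    β + S.excl lam (tubes n l) (one (S := S)) + N * Dl S.L n l t (one (S := S))

/-- best constant and extremal system for the penalised inequality, all precisions -/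
def PXtrL : Prop :=
  ∀ N lam : ℝ, 0 ≤ N → 0 < lam → lam ≤ 1 → ∃ β : ℝ, 0 ≤ β ∧ β ≤ 2 ∧ JFG N lam β ∧
    (0 < β → ∃ (S : Sys) (n : ℕ → ℕ) (l : S.RV Ln) (t : S.RV ℝ), XtrL N lam β S n l t)

end Vale.Agent.P127.U
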