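import Vale.Agent.P127.U.Lam.BallA
import Vale.Agent.P127.U.Lam.FinDefs

/-!
# P127 / U / Lam : WIN, the window inequality (helper465)

* `XF_ball`, `DF_ball` : finite form, with `O(1)` errors, for `s ≤ s' ≤ n`.
* `win` : for systems, from `JL`.
-/

set_option autoImplicit false

namespace Vale.Agent.P127.U

open Filter Topology Vale.Agent.P127 Vale.Agent.P127.Stk Vale.Agent.P127.U.Apx Sys

section finite

variable {Ω : Type} {γ : Type*}

/-- the time in the ball of radius `2^-s` -/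
noncomputable def tfF (s : ℕ) (t : Ω → ℝ) : Ω → ℝ := fun ω => Int.fract ((2 : ℝ) ^ s * t ω)

theorem blF_blF {s s' : ℕ} (h : s ≤ s') (l : Ω → Ln) (t : Ω → ℝ) :
    blF (s' - s) (blF s l t) (tfF s t) = blF s' l t := by
  funext ω
  exact Lam.Ball.bl1_bl1 h (l ω) (t ω)

variable [Fintype Ω]

theorem GoodF.blF {P : Law Ω} {l : Ω → Ln} {t : Ω → ℝ} (h : GoodF P l t) (s : ℕ) :
    GoodF P (blF s l t) (tfF s t) := by
  intro ω hω
  refine ⟨⟨fun j => ?_, (h ω hω).1.2⟩, Int.fract_nonneg _, (Int.fract_lt_one _).le⟩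
  show |Int.fract _| ≤ 1
  rw [abs_of_nonneg (Int.fract_nonneg _)]
  exact (Int.fract_lt_one _).le

theorem boxOk_tbx {P : Law Ω} {l : Ω → Ln} (h : ∀ ω, 0 < P.w ω → LnOk (l ω)) (n : ℕ) :
    ∀ ω, 0 < P.w ω → BxOk (tbx n l) ω := fun ω hω =>
  ⟨h ω hω, by show |(0:ℝ)| ≤ 4; norm_num, le_rfl⟩

/-- **ball in a ball**, the penalised excess -/
theorem XF_ball {lam : ℝ} (hlam : 0 ≤ lam ∧ lam ≤ 1) (P : Law Ω) {s s' n : ℕ} (h : s ≤ s')
    (h' : s' ≤ n) {l : Ω → Ln} {t : Ω → ℝ} (hg : GoodF P l t) (C : Ω → γ) :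
    XF lam P s' n l t C ≤ XF lam P s n l t C +
      (XF lam P (s' - s) (n - s) (blF s l t) (tfF s t) (fun ω => (pq s (ptF l t ω), C ω)) -
        excFl lam P (tbx (n - s) (blF s l t)) (fun ω => (pq s (ptF l t ω), C ω))) +
      14 * Real.log 13 := by
  have hl : ∀ ω, 0 < P.w ω → LnOk (l ω) := fun ω hω => (hg ω hω).1
  have hn : n - s - (s' - s) = n - s' := by omega
  -- the excess
  have k1 := Lam.excF_le_add hlam (B := tbx (n - s') (blF s' l t))
    (fun ω => (pq s' (ptF l t ω), C ω))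
    (fun ω => (pq (s' - s) (ptF (blF s l t) (tfF s t) ω), (pq s (ptF l t ω), C ω)))
    (boxOk_tbx (fun ω hω => (hg.blF s' ω hω).1) (n - s'))
  have k2 : Stk.hc P (fun ω => (pq (s' - s) (ptF (blF s l t) (tfF s t) ω), (pq s (ptF l t ω), C ω)))
      (fun ω => (pq s' (ptF l t ω), C ω)) ≤ 4 * Real.log 13 + 4 * Real.log 13 :=
    Lam.Ball.cond_le P s s' h l t hl C
  -- the tubelets
  have k3 : Stk.hc P (fun ω => tlF s n l t ω)
      (fun ω => (tb (n - s) (blF s l t ω), (tlF s' n l t ω, C ω))) ≤ 2 * Real.log 13 :=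
    Lam.Ball.tubelet_le P s s' n h h' l t hl C
  have k4 : Stk.hc P (fun ω => (tlF (s' - s) (n - s) (blF s l t) (tfF s t) ω,
        (pq s (ptF l t ω), C ω))) (fun ω => (tlF s' n l t ω, C ω)) ≤ 4 * Real.log 13 :=
    Lam.Ball.inner_le P s s' n h h' l t hl C
  have k5 := hc_cmp P (fun ω => tlF s n l t ω) (fun ω => tb (n - s) (blF s l t ω))
    (fun ω => (tlF s' n l t ω, C ω))
    (fun ω => (tlF (s' - s) (n - s) (blF s l t) (tfF s t) ω, (pq s (ptF l t ω), C ω)))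
  have k6 := Stk.hc_le_add' P (fun ω => tb n (l ω)) (fun ω => tlF s n l t ω)
    (fun ω => (tlF s' n l t ω, C ω))
  have k7 : Stk.hc P (fun ω => tb n (l ω)) (fun ω => (tlF s n l t ω, (tlF s' n l t ω, C ω))) ≤
      Stk.hc P (fun ω => tb n (l ω)) (fun ω => (tlF s n l t ω, C ω)) :=
    Stk.hc_mono_right P _ fun ω ω' _ _ e => by
      simp only [Prod.mk.injEq] at e ⊢
      exact ⟨e.1, e.2.2⟩
  unfold XF
  rw [hn, blF_blF h]
  linarith

/-- **ball in a ball**, the time deficit -/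
theorem DF_ball (P : Law Ω) {s s' n : ℕ} (h : s ≤ s') (h' : s' ≤ n) {l : Ω → Ln} {t : Ω → ℝ}
    (hg : GoodF P l t) (C : Ω → γ) :
    DF P (s' - s) (n - s) (blF s l t) (tfF s t) (fun ω => (pq s (ptF l t ω), C ω)) ≤
      DF P s' n l t C - DF P s n l t C + 6 * Real.log 13 := by
  have hl : ∀ ω, 0 < P.w ω → LnOk (l ω) := fun ω hω => (hg ω hω).1
  have k1 : Stk.hc P (fun ω => (tb (n - s) (blF s l t ω), (pq s (ptF l t ω), C ω)))
      (fun ω => (fl1 s (t ω), (tb n (l ω), C ω))) ≤ 6 * Real.log 13 :=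
    Lam.Ball.ball_of_tube P s n (h.trans h') l t hl (fun ω hω => (hg ω hω).2) C
  have k2 := hc_cmp P (fun ω => fl1 s' (t ω)) (fun ω => fl1 (s' - s) (tfF s t ω))
    (fun ω => (fl1 s (t ω), (tb n (l ω), C ω)))
    (fun ω => (tb (n - s) (blF s l t ω), (pq s (ptF l t ω), C ω)))
  have k3 : Stk.hc P (fun ω => fl1 s' (t ω))
      (fun ω => (fl1 (s' - s) (tfF s t ω), (fl1 s (t ω), (tb n (l ω), C ω)))) = 0 := by
    apply Stk.hc_zero
    intro ω ω' _ _ e
    have e1 : fl1 (s' - s) (Lam.Ball.tfr s (t ω)) = fl1 (s' - s) (Lam.Ball.tfr s (t ω')) :=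
      congrArg Prod.fst e
    have e2 : fl1 s (t ω) = fl1 s (t ω') := congrArg (fun q => q.2.1) e
    rw [Lam.Ball.fl1_tfr h, Lam.Ball.fl1_tfr h, e2] at e1
    linarith
  have k4 := Stk.hc_le_add' P (fun ω => fl1 s' (t ω)) (fun ω => fl1 s (t ω))
    (fun ω => (tb n (l ω), C ω))
  have e1 : ((s' - s : ℕ) : ℝ) = s' - s := Nat.cast_sub h
  unfold DF
  rw [e1]
  have k5 : Stk.hc P (fun ω => fl1 (s' - s) (tfF s t ω))
      (fun ω => (tb (n - s) (blF s l t ω), (pq s (ptF l t ω), C ω))) =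
    Stk.hc P (fun ω => fl1 (s' - s) (tfF s t ω))
      (fun ω => (tb (n - s) (blF s l t ω), (pq s (ptF l t ω), C ω))) := rfl
  nlinarith

end finite

/-! ### systems -/

namespace Sys

variable {S : Sys} {γ : Type}

/-- the time in the ball -/
noncomputable def tfS (s : ℕ → ℕ) (t : S.RV ℝ) : S.RV ℝ := fun i ω =>
  Int.fract ((2 : ℝ) ^ s i * t i ω)

theorem tfS_01 (s : ℕ → ℕ) (t : S.RV ℝ) : T01 (tfS s t) :=
  Eventually.of_forall fun _ _ _ => ⟨Int.fract_nonneg _, (Int.fract_lt_one _).le⟩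

theorem bl_lnA {s : ℕ → ℕ} {l : S.RV Ln} {t : S.RV ℝ} (hl : LnA l) : LnA (bl s l t) := by
  filter_upwards [hl] with i hi ω hω
  refine ⟨fun j => ?_, (hi ω hω).2⟩
  show |Int.fract _| ≤ 1
  rw [abs_of_nonneg (Int.fract_nonneg _)]
  exact (Int.fract_lt_one _).le

theorem tubes_ok {n : ℕ → ℕ} (hn : S.Bd n) {l : S.RV Ln} (hl : LnA l) : BxA (tubes n l) := by
  obtain ⟨c, hc⟩ := hn
  refine ⟨?_, c, ?_⟩
  · filter_upwards [hl] with i hi ω hω
    exact ⟨hi ω hω, by show |(0:ℝ)| ≤ 4; norm_num, le_rfl⟩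
  · filter_upwards [hc] with i hi ω _
    exact hi

theorem goodF {l : S.RV Ln} {t : S.RV ℝ} (hl : LnA l) (ht : T01 t) :
    ∀ᶠ i in (uf : Filter ℕ), GoodF (S.P i) (l i) (t i) := by
  filter_upwards [hl, ht] with i h1 h2 ω hω
  exact ⟨h1 ω hω, h2 ω hω⟩

theorem ub_Xl {lam : ℝ} (hlam : 0 ≤ lam ∧ lam ≤ 1) {s n : ℕ → ℕ} (hn : S.Bd n) {l : S.RV Ln}
    (hl : LnA l) (t : S.RV ℝ) (C : S.RV γ) :
    UB fun i => XF lam (S.P i) (s i) (n i) (l i) (t i) (C i) / S.nm i := by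
  have hB : BxA (tubes (fun i => n i - s i) (bl s l t)) :=
    tubes_ok (bd_mono hn fun i => Nat.sub_le _ _) (bl_lnA hl)
  have h1 := Lam.ub_exc hlam hB (Sys.pr (pqs s (pt l t)) C)
  have h2 := UB.hc (tame_tbs hn hl) (Sys.pr (tl s n l t) C)
  refine UB.of_tendsto (x := _) ((h1.add h2).tendsto.congr fun i => ?_)
  rw [← add_div]
  rfl

/-- `Xl` as a limit -/
theorem Xl_eq {lam : ℝ} (hlam : 0 ≤ lam ∧ lam ≤ 1) {s n : ℕ → ℕ} (hn : S.Bd n) {l : S.RV Ln}
    (hl : LnA l) (t : S.RV ℝ) (C : S.RV γ) :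
    Xl lam s n l t C = ulim fun i => XF lam (S.P i) (s i) (n i) (l i) (t i) (C i) / S.nm i := by
  have hB : BxA (tubes (fun i => n i - s i) (bl s l t)) :=
    tubes_ok (bd_mono hn fun i => Nat.sub_le _ _) (bl_lnA hl)
  have h1 := Lam.ub_exc hlam hB (Sys.pr (pqs s (pt l t)) C)
  have h2 := UB.hc (tame_tbs hn hl) (Sys.pr (tl s n l t) C)
  unfold Xl
  refine (ulim_add h1 h2).symm.trans ?_
  refine ulim_congr (Eventually.of_forall fun i => ?_)
  rw [← add_div]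
  rfl

theorem ub_DF {s n : ℕ → ℕ} (hs : S.Bd s) {l : S.RV Ln} {t : S.RV ℝ} (ht : T01 t)
    (C : S.RV γ) : UB fun i => DF (S.P i) (s i) (n i) (l i) (t i) (C i) / S.nm i := by
  have h1 := UB.nu hs
  have h2 := UB.hc (tame_dg hs ht) (Sys.pr (tbs n l) C)
  refine UB.of_tendsto (x := _) ((h1.sub h2).tendsto.congr' ?_)
  filter_upwards [S.L_pos] with i hi
  have hL : (0:ℝ) < S.L i := by exact_mod_cast hi
  have hl2 : 0 < Real.log 2 := Real.log_pos (by norm_num)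
  unfold DF nm
  rw [sub_div]
  congr 1
  field_simp

/-- `Dl` as a limit -/
theorem Dl_eq {s n : ℕ → ℕ} (hs : S.Bd s) {l : S.RV Ln} {t : S.RV ℝ} (ht : T01 t)
    (C : S.RV γ) :
    Dl s n l t C = ulim fun i => DF (S.P i) (s i) (n i) (l i) (t i) (C i) / S.nm i := by
  have h1 := UB.nu hs
  have h2 := UB.hc (tame_dg hs ht) (Sys.pr (tbs n l) C)
  unfold Dl
  refine (ulim_sub h1 h2).symm.trans ?_
  refine ulim_congr ?_
  filter_upwards [S.L_pos] with i hi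
  have hL : (0:ℝ) < S.L i := by exact_mod_cast hi
  have hl2 : 0 < Real.log 2 := Real.log_pos (by norm_num)
  unfold DF nm
  rw [sub_div]
  congr 1
  field_simp

/-- **ball in a ball**, for systems -/
theorem Xl_ball {lam : ℝ} (hlam : 0 ≤ lam ∧ lam ≤ 1) {s s' n : ℕ → ℕ} (hn : S.Bd n)
    (h : ∀ i, s i ≤ s' i) (h' : ∀ i, s' i ≤ n i) {l : S.RV Ln} {t : S.RV ℝ} (hl : LnA l)
    (ht : T01 t) (C : S.RV γ) :
    Xl lam s' n l t C ≤ Xl lam s n l t C +
      (Xl lam (fun i => s' i - s i) (fun i => n i - s i) (bl s l t) (tfS s t)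
          (Sys.pr (pqs s (pt l t)) C) -
        S.excl lam (tubes (fun i => n i - s i) (bl s l t)) (Sys.pr (pqs s (pt l t)) C)) := by
  have hn' : S.Bd (fun i => n i - s i) := bd_mono hn fun i => Nat.sub_le _ _
  have hl' : LnA (bl s l t) := bl_lnA hl
  have hB : BxA (tubes (fun i => n i - s i) (bl s l t)) := tubes_ok hn' hl'
  have u1 := ub_Xl hlam (s := s') hn hl t C
  have u2 := ub_Xl hlam (s := s) hn hl t C
  have u3 := ub_Xl hlam (s := fun i => s' i - s i) hn' hl' (tfS s t) (Sys.pr (pqs s (pt l t)) C)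
  have u4 := Lam.ub_exc hlam hB (Sys.pr (pqs s (pt l t)) C)
  rw [Xl_eq hlam hn hl, Xl_eq hlam hn hl, Xl_eq hlam hn' hl']
  unfold excl
  rw [← ulim_sub u3 u4, ← ulim_add u2 (u3.sub u4)]
  refine ulim_le_of_sub u1 (u2.add (u3.sub u4)) (S.const_div_nm (14 * Real.log 13)) ?_
  filter_upwards [goodF hl ht, S.nm_pos] with i hg hp
  have := XF_ball hlam (S.P i) (h i) (h' i) hg (C i)
  rw [← sub_div, ← add_div, ← add_div]
  exact div_le_div_of_nonneg_right this hp.le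

theorem Dl_ball {s s' n : ℕ → ℕ} (hn : S.Bd n)
    (h : ∀ i, s i ≤ s' i) (h' : ∀ i, s' i ≤ n i) {l : S.RV Ln} {t : S.RV ℝ} (hl : LnA l)
    (ht : T01 t) (C : S.RV γ) :
    Dl (fun i => s' i - s i) (fun i => n i - s i) (bl s l t) (tfS s t)
          (Sys.pr (pqs s (pt l t)) C) ≤ Dl s' n l t C - Dl s n l t C := by
  have hs' : S.Bd s' := bd_mono hn h'
  have hs : S.Bd s := bd_mono hs' h
  have hd : S.Bd (fun i => s' i - s i) := bd_mono hs' fun i => Nat.sub_le _ _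
  have u1 := ub_DF (n := n) (l := l) hs' ht C
  have u2 := ub_DF (n := n) (l := l) hs ht C
  have u3 := ub_DF (n := fun i => n i - s i) (l := bl s l t) hd (tfS_01 s t)
    (Sys.pr (pqs s (pt l t)) C)
  rw [Dl_eq hs' ht, Dl_eq hs ht, Dl_eq hd (tfS_01 s t), ← ulim_sub u1 u2]
  refine ulim_le_of_sub u3 (u1.sub u2) (S.const_div_nm (6 * Real.log 13)) ?_
  filter_upwards [goodF hl ht, S.nm_pos] with i hg hp
  have := DF_ball (S.P i) (h i) (h' i) hg (C i)
  rw [← sub_div, ← add_div]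
  exact div_le_div_of_nonneg_right this hp.le

end Sys

/-- **WIN** : the window inequality -/
theorem win {N lam β : ℝ} (hN : 0 ≤ N) (hlam : 0 ≤ lam ∧ lam ≤ 1) (hJ : JL N lam β) {S : Sys}
    {γ : Type} (C : S.RV γ) {l : S.RV Ln} {t : S.RV ℝ} {s s' n : ℕ → ℕ} (hn : S.Bd n)
    (hl : LnA l) (ht : T01 t) (h : ∀ i, s i ≤ s' i) (h' : ∀ i, s' i ≤ n i) :
    Xl lam s' n l t C ≤ Xl lam s n l t C + β * (S.nu s' - S.nu s) +
      N * (Dl s' n l t C - Dl s n l t C) := by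
  have hn' : S.Bd (fun i => n i - s i) := bd_mono hn fun i => Nat.sub_le _ _
  have hs' : S.Bd s' := bd_mono hn h'
  have k1 := Xl_ball hlam hn h h' hl ht C
  have k2 := Dl_ball hn h h' hl ht C
  have k3 := hJ S _ (Sys.pr (pqs s (pt l t)) C) (bl s l t) (tfS s t) (fun i => s' i - s i)
    (fun i => n i - s i) hn' (bl_lnA hl) (tfS_01 s t) (fun i => Nat.sub_le_sub_right (h' i) _)
  have k4 : S.nu (fun i => s' i - s i) = S.nu s' - S.nu s := nu_sub hs' h
  rw [k4] at k3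
  have k5 := mul_le_mul_of_nonneg_left k2 hN
  linarith

end Vale.Agent.P127.U
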