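import Vale.Agent.P127.U.Lam.Exist
import Vale.Agent.P127.U.Lam.JL
import Vale.Agent.P127.U.Lam.Win
import Vale.Agent.P127.U.Coarse
import Vale.Agent.P127.U.End.End7

/-!
# P127 / U / Lam : the last window of the path (helper931)

* `jfk_cond` : the inequality `JFK` with side information.
* `xtrL_coarse` : an extremal system whose lines have precision `n` with `n / L → 1` gives an extremal
  system whose lines have precision `L`.
* `PEnd7K`, `end7K_of` : if there is no extremal system whose lines have the precision `L` of the time,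
  then for lines of precision `s ≤ n ≤ (1 + δ) s` the inequality holds with a constant `β' < β`;
  `pEnd7K : PEnd7K`.
-/

set_option autoImplicit false

namespace Vale.Agent.P127.U

open Filter Topology Vale.Agent.P127 Vale.Agent.P127.Stk Sys Lam

/-! ### side information -/

/-- `JFK` with side information -/
theorem jfk_cond {N lam K β : ℝ} (hl : 0 ≤ lam ∧ lam ≤ 1) (hJ : JFK N lam K β) {ε : ℝ}
    (hε : 0 < ε) : ∃ c : ℝ, ∀ (Ω : Type) [Fintype Ω] (γ : Type) (P : Law Ω) (l : Ω → Ln) (t : Ω → ℝ)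
      (s n : ℕ) (C : Ω → γ), GoodF P l t → s ≤ n → (n : ℝ) ≤ K * s →
      XF lam P s n l t C ≤ (β + ε) * s * Real.log 2 + c + excFl lam P (tbx n l) C +
        N * DF P s n l t C := by
  obtain ⟨c, hc⟩ := hJ ε hε
  refine ⟨c + 1, ?_⟩
  intro Ω _ γ P l t s n C h hsn hK
  have h1 : ∀ z ∈ img C, P.pr C z * XF lam (P.cond C z) s n l t (fun _ => ()) ≤
      P.pr C z * ((β + ε) * s * Real.log 2 + c) +
      P.pr C z * excFl lam (P.cond C z) (tbx n l) (fun _ => ()) +
      N * (P.pr C z * DF (P.cond C z) s n l t (fun _ => ())) := by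
    intro z _
    have h2 := hc Ω (P.cond C z) l t s n (fun ω hω => h ω (JSB.cond_supp P C z hω)) hsn hK
    have h3 := mul_le_mul_of_nonneg_left h2 (P.pr_nonneg C z)
    refine h3.trans (le_of_eq ?_)
    ring
  have h2 := Finset.sum_le_sum h1
  rw [Finset.sum_add_distrib, Finset.sum_add_distrib, ← Finset.sum_mul, ← Finset.mul_sum,
    P.sum_pr_image C, one_mul, ← DF_cond_sum P s n l t C] at h2
  have hok : ∀ ω, 0 < P.w ω → BxOk (tbx n l) ω := fun ω hω => tbx_ok (h ω hω).1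
  have h3 := excFl_cond_sum hl P (tbx n l) (fun _ => ()) C hok
  have h4 : excFl lam P (tbx n l) (fun ω => ((), C ω)) = excFl lam P (tbx n l) C :=
    excFl_congr hl _ _ hok fun ω ω' => by
      simp only [Prod.mk.injEq]
      tauto
  rw [h4] at h3
  have h5 := XF_le_cond_sum hl P s n l t C h
  linarith

/-! ### the precision of the lines -/

namespace Sys

variable {S : Sys} {γ : Type}

/-- the tube of precision `n` given the tube of precision `m` -/
theorem hc_tbs_gap {m n : ℕ → ℕ} (hn : S.Bd n) (h : ∀ i, m i ≤ n i) {l : S.RV Ln} (hl : LnA l)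
    (C : S.RV γ) : S.hc (tbs n l) (Sys.pr (tbs m l) C) ≤ 4 * (S.nu n - S.nu m) := by
  have hm : S.Bd m := Apx.bd_mono hn h
  have hlog : 0 < Real.log 2 := Real.log_pos (by norm_num)
  have u1 := UB.hc (tame_tbs hn hl) (Sys.pr (tbs m l) C)
  have u2 := Apx.UB.nu hn
  have u3 := Apx.UB.nu hm
  have e : 4 * (S.nu n - S.nu m) =
      ulim fun i => 4 * ((n i : ℝ) / S.L i - (m i : ℝ) / S.L i) := by
    rw [ulim_const_mul _ (u2.sub u3), ulim_sub u2 u3]
    rfl
  rw [e]
  refine ulim_le_of_sub u1 (UB.const_mul 4 (u2.sub u3)) (S.const_div_nm (4 * Real.log 5)) ?_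
  filter_upwards [S.nm_pos, S.L_pos] with i hi hL
  have hLr : (0 : ℝ) < S.L i := by exact_mod_cast hL
  have key : ∀ (v : S.Ω i → Fin 2 → ℝ) (Z : S.Ω i → ((Fin 2 → ℤ) × (Fin 2 → ℤ)) × γ),
      (∀ ω ω', Z ω = Z ω' → fl (m i) (v ω) = fl (m i) (v ω')) →
      Stk.hc (S.P i) (fun ω => fl (n i) (v ω)) Z ≤
        2 * (((n i : ℝ) - m i) * Real.log 2 + Real.log 5) := by
    intro v Z hZ
    have a1 := Apx.hc_fl_apx (S.P i) (n i) (2 ^ (n i - m i)) v Z (fun ω ω' _ _ e j => by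
      have b1 := Apx.fl_close (hZ ω ω' e) j
      have b2 : ((2 ^ (n i - m i) : ℕ) : ℝ) * (1 / 2 : ℝ) ^ n i = (1 / 2 : ℝ) ^ m i := by
        have b3 : (n i - m i) + m i = n i := Nat.sub_add_cancel (h i)
        have b4 : (1 / 2 : ℝ) ^ n i = (1 / 2) ^ (n i - m i) * (1 / 2) ^ m i := by
          rw [← pow_add, b3]
        rw [b4]
        push_cast
        rw [← mul_assoc, ← mul_pow]
        norm_num
      rw [b2]
      exact b1)
    rw [Fintype.card_fin] at a1
    have a2 : Real.log (2 * ((2 ^ (n i - m i) : ℕ) : ℝ) + 3) ≤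
        ((n i : ℝ) - m i) * Real.log 2 + Real.log 5 := by
      have c1 : (1 : ℝ) ≤ 2 ^ (n i - m i) := one_le_pow₀ (by norm_num)
      have c2 : Real.log (2 * ((2 ^ (n i - m i) : ℕ) : ℝ) + 3) ≤
          Real.log (5 * 2 ^ (n i - m i)) := by
        refine Real.log_le_log (by positivity) ?_
        push_cast
        linarith
      rw [Real.log_mul (by norm_num) (by positivity), Real.log_pow, Nat.cast_sub (h i)] at c2
      linarith
    push_cast at a1 a2 ⊢
    linarith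
  have k1 := key (fun ω => (l i ω).1) (Sys.pr (tbs m l) C i) (fun ω ω' e =>
    congrArg (fun q : ((Fin 2 → ℤ) × (Fin 2 → ℤ)) × γ => q.1.1) e)
  have k2 := key (fun ω => (l i ω).2) (Sys.pr (tbs m l) C i) (fun ω ω' e =>
    congrArg (fun q : ((Fin 2 → ℤ) × (Fin 2 → ℤ)) × γ => q.1.2) e)
  have k3 := Apx.hc_pair_le (S.P i) (fun ω => fl (n i) (l i ω).1) (fun ω => fl (n i) (l i ω).2)
    (Sys.pr (tbs m l) C i)
  have k4 : Stk.hc (S.P i) (tbs n l i) (Sys.pr (tbs m l) C i) ≤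
      4 * (((n i : ℝ) - m i) * Real.log 2) + 4 * Real.log 5 := by
    have e1 : Stk.hc (S.P i) (tbs n l i) (Sys.pr (tbs m l) C i) =
      Stk.hc (S.P i) (fun ω => (fl (n i) (l i ω).1, fl (n i) (l i ω).2))
        (Sys.pr (tbs m l) C i) := rfl
    rw [e1]
    linarith
  have e2 : 4 * ((n i : ℝ) / S.L i - (m i : ℝ) / S.L i) + 4 * Real.log 5 / S.nm i =
      (4 * (((n i : ℝ) - m i) * Real.log 2) + 4 * Real.log 5) / S.nm i := by
    unfold Sys.nm
    field_simp
  rw [e2]
  exact div_le_div_of_nonneg_right k4 hi.le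

/-- average of the size of tubes -/
theorem av_szl_tubes' {lam : ℝ} {m n : ℕ → ℕ} (hn : S.Bd n) (h : ∀ i, m i ≤ n i) (l : S.RV Ln) :
    S.av (fun i ω => BX.szl lam (tubes n l) i ω - BX.szl lam (tubes m l) i ω) =
      2 * (S.nu n - S.nu m) := by
  have hm : S.Bd m := Apx.bd_mono hn h
  have u2 := Apx.UB.nu hn
  have u3 := Apx.UB.nu hm
  unfold Sys.av Sys.nu
  rw [← ulim_sub u2 u3, ← ulim_const_mul _ (u2.sub u3)]
  refine ulim_congr (Eventually.of_forall fun i => ?_)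
  have e : (fun ω => BX.szl lam (tubes n l) i ω - BX.szl lam (tubes m l) i ω) =
      fun _ => 2 * ((n i : ℝ) - m i) := by
    funext ω
    show ((tbx (n i) (l i)).szl lam ω) - ((tbx (m i) (l i)).szl lam ω) = _
    unfold Bx.szl tbx
    ring
  show (S.P i).ex (fun ω => BX.szl lam (tubes n l) i ω - BX.szl lam (tubes m l) i ω) /
    (S.L i : ℝ) = _
  rw [e, (S.P i).ex_const]
  ring

/-- the excess of coarser tubes, no loss when the precision is the same up to `o(L)` -/
theorem excl_tubes_le {lam : ℝ} (hlam : 0 ≤ lam ∧ lam ≤ 1) {m n : ℕ → ℕ} (hn : S.Bd n)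
    (h : ∀ i, m i ≤ n i) {l : S.RV Ln} (hl : LnA l) (C : S.RV γ) (he : S.nu n ≤ S.nu m) :
    S.excl lam (tubes m l) C ≤ S.excl lam (tubes n l) C := by
  have hm : S.Bd m := Apx.bd_mono hn h
  have hB : BxA (tubes n l) := tubes_ok hn hl
  have hU : BxA (tubes m l) := tubes_ok hm hl
  have k := Lam.excl_coarse hlam C hB hU (Coa.subA_tubes h l)
  have k1 : S.av (fun i ω => BX.szl lam (tubes n l) i ω - BX.szl lam (tubes m l) i ω) ≤ 0 := by
    rw [av_szl_tubes' hn h]
    linarith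
  have k2 := Sys.hc_nonneg hB.tame (Sys.pr (BX.lab (tubes m l)) C)
  have k3 : S.hc (BX.lab (tubes m l)) (Sys.pr (BX.lab (tubes n l)) C) = 0 := by
    refine Sys.hc_fn ?_
    filter_upwards [Coa.fn_lab m l, Coa.fn_lab' n l] with i h1 h2 ω ω' p p' q
    have q1 : BX.lab (tubes n l) i ω = BX.lab (tubes n l) i ω' := congrArg Prod.fst q
    have q2 : tbs n l i ω = tbs n l i ω' := h2 ω ω' p p' q1
    refine h1 ω ω' p p' ?_
    show (fl (m i) (l i ω).1, fl (m i) (l i ω).2) = (fl (m i) (l i ω').1, fl (m i) (l i ω').2)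
    have q3 : fl (n i) (l i ω).1 = fl (n i) (l i ω').1 := congrArg Prod.fst q2
    have q4 : fl (n i) (l i ω).2 = fl (n i) (l i ω').2 := congrArg Prod.snd q2
    rw [Coa.fl_of_le (h i) q3, Coa.fl_of_le (h i) q4]
  linarith

/-- the excess of tubes is at most `7` times their precision -/
theorem excl_tubes_small {lam : ℝ} (hlam : 0 ≤ lam ∧ lam ≤ 1) {m : ℕ → ℕ} (hm : S.Bd m)
    {l : S.RV Ln} (hl : LnA l) (C : S.RV γ) : S.excl lam (tubes m l) C ≤ 7 * S.nu m := by
  have hB : BxA (tubes m l) := tubes_ok hm hl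
  have u3 := Apx.UB.nu hm
  unfold Sys.nu
  rw [← ulim_const_mul _ u3]
  refine ulim_le_of_sub (Lam.ub_exc hlam hB C) (UB.const_mul 7 u3)
    (S.const_div_nm (16 * Real.log 2)) ?_
  filter_upwards [S.nm_pos, S.L_pos, hl] with i hi hL h1
  have hLr : (0 : ℝ) < S.L i := by exact_mod_cast hL
  have hlog : 0 < Real.log 2 := Real.log_pos (by norm_num)
  have ok : ∀ ω, 0 < (S.P i).w ω → BxOk (tbx (m i) (l i)) ω := fun ω hω => Ex.tbx_ok (h1 ω hω)
  have k1 := Lam.excF_le_H hlam (C := C i) ok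
  have k2 := H_lab_le (S.P i) (tbx (m i) (l i)) (m i) (fun ω hω => ⟨ok ω hω, le_rfl⟩)
  have e2 : 7 * ((m i : ℝ) / S.L i) + 16 * Real.log 2 / S.nm i =
      ((7 * (m i : ℝ) + 16) * Real.log 2) / S.nm i := by
    unfold Sys.nm
    field_simp
  rw [e2]
  exact div_le_div_of_nonneg_right (k1.trans k2) hi.le

end Sys

/-- an extremal system whose lines have precision `n` with `n / L → 1` gives an extremal system whose
lines have precision `L` -/
theorem xtrL_coarse {N lam β : ℝ} (hN : 0 ≤ N) (hlam : 0 ≤ lam ∧ lam ≤ 1) (hJ : JL N lam β) {S : Sys}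
    {n : ℕ → ℕ} {l : S.RV Ln} {t : S.RV ℝ} (h : XtrL N lam β S n l t) (he : S.nu n = 1) :
    XtrL N lam β S S.L l t := by
  have hn := h.bd
  have hL := h.le
  have hl := h.ln
  have ht := h.t01
  have hLb : S.Bd S.L := Apx.bd_mono hn hL
  have hgap : S.nu n - S.nu S.L = 0 := by rw [he, Fi.nu_L, sub_self]
  refine ⟨hLb, fun _ => le_rfl, hl, ht, le_antisymm ?_ ?_⟩
  · have k := hJ S _ (one (S := S)) l t S.L S.L hLb hl ht (fun _ => le_rfl)
    rw [Fi.nu_L, mul_one] at k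
    exact k
  -- the excess
  have k1 := Sys.excl_tubes_le (m := S.L) hlam hn hL hl (one (S := S)) (by linarith)
  -- the time
  have k2 : Dl S.L S.L l t (one (S := S)) ≤ Dl S.L n l t (one (S := S)) := by
    unfold Dl
    have : S.hc (dg S.L t) (Sys.pr (tbs n l) (one (S := S))) ≤
        S.hc (dg S.L t) (Sys.pr (tbs S.L l) (one (S := S))) := by
      refine hc_mono_right (tame_dg_t hLb ht) ?_
      filter_upwards [Coa.fn_tbs hL l] with i h1 ω ω' p p' q
      have q1 : tbs n l i ω = tbs n l i ω' := congrArg Prod.fst q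
      show (tbs S.L l i ω, _) = (tbs S.L l i ω', _)
      rw [h1 ω ω' p p' q1]
    linarith
  have k2' := mul_le_mul_of_nonneg_left k2 hN
  -- the value
  have k3 : Xl lam S.L n l t (one (S := S)) ≤ Xl lam S.L S.L l t (one (S := S)) := by
    have hm : S.Bd (fun i => n i - S.L i) := Apx.bd_mono hn fun i => Nat.sub_le _ _
    have hm0 : S.nu (fun i => n i - S.L i) = 0 := by rw [Apx.nu_sub hn hL, hgap]
    have a1 : S.excl lam (tubes (fun i => n i - S.L i) (bl S.L l t))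
        (Sys.pr (pqs S.L (pt l t)) (one (S := S))) ≤ 0 := by
      have := Sys.excl_tubes_small hlam hm (Sys.bl_lnA (s := S.L) (t := t) hl)
        (Sys.pr (pqs S.L (pt l t)) (one (S := S)))
      rw [hm0, mul_zero] at this
      exact this
    have a2 : 0 ≤ S.excl lam (tubes (fun i => S.L i - S.L i) (bl S.L l t))
        (Sys.pr (pqs S.L (pt l t)) (one (S := S))) :=
      excl_nonneg hlam _ (tubes_ok (Apx.bd_mono hLb fun i => Nat.sub_le _ _) (Sys.bl_lnA hl))
    have a3 : S.hc (tbs n l) (Sys.pr (tl S.L n l t) (one (S := S))) ≤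
        S.hc (tbs S.L l) (Sys.pr (tl S.L S.L l t) (one (S := S))) := by
      have b1 : S.hc (tbs n l) (Sys.pr (tl S.L n l t) (one (S := S))) ≤
          S.hc (tbs n l) (Sys.pr (tl S.L S.L l t) (one (S := S))) := by
        refine hc_mono_right (tame_tbs hn hl) (Eventually.of_forall fun i ω ω' _ _ q => ?_)
        simp only [Sys.pr_apply, Prod.mk.injEq, tl] at q ⊢
        obtain ⟨⟨q1, q2, q3⟩, -⟩ := q
        refine ⟨⟨q1, Coa.fl_of_le (hL i) q2, Coa.fl_of_le ?_ q3⟩, trivial⟩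
        omega
      have b2 := Sys.hc_le_add (tame_tbs hn hl) (tame_tbs hLb hl)
        (Sys.pr (tl S.L S.L l t) (one (S := S)))
      have b3 := Sys.hc_tbs_gap hn hL hl (Sys.pr (tl S.L S.L l t) (one (S := S)))
      linarith
    unfold Xl
    linarith
  have k4 := h.eq
  linarith

/-! ### compactness -/

/-- a violating sequence gives a system, with control of the precision -/
theorem seq_sysV {N lam : ℝ} (hl : 0 ≤ lam ∧ lam ≤ 1) (hN : 0 ≤ N) {b κ : ℕ → ℝ} {β : ℝ}
    (hκ : ∀ m, κ m ≤ 2) (hb0 : ∀ m, 0 ≤ b m) (hb : Tendsto b (uf : Filter ℕ) (𝓝 β))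
    (h : ∀ m : ℕ, ∃ (Ω : Type) (_ : Fintype Ω) (P : Law Ω) (l : Ω → Ln) (t : Ω → ℝ) (s n : ℕ),
      GoodF P l t ∧ s ≤ n ∧ (n : ℝ) ≤ κ m * s ∧
      b m * (s * Real.log 2) + m + excFl lam P (tbx n l) (fun _ => ()) +
        N * DF P s n l t (fun _ => ()) < XF lam P s n l t (fun _ => ())) :
    ∃ (S : Sys) (n : ℕ → ℕ) (l : S.RV Ln) (t : S.RV ℝ),
      (∀ i, (n i : ℝ) ≤ κ i * S.L i) ∧ (∀ i, S.L i ≤ n i) ∧ LnA l ∧ T01 t ∧
      β + S.excl lam (tubes n l) (one (S := S)) + N * Dl S.L n l t (one (S := S)) ≤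
        Xl lam S.L n l t (one (S := S)) := by
  choose Ω hf P l t s n hg hsn hnK hlt using h
  have hlog : 0 < Real.log 2 := Real.log_pos (by norm_num)
  have hlog3 : 0 ≤ Real.log 3 := Real.log_nonneg (by norm_num)
  have hnK2 : ∀ m, (n m : ℝ) ≤ 2 * s m := fun m =>
    (hnK m).trans (mul_le_mul_of_nonneg_right (hκ m) (Nat.cast_nonneg _))
  -- the scales tend to infinity
  set c : ℝ := 20 + N * Real.log 3 with hc
  have hn : ∀ m : ℕ, (m : ℝ) - c ≤ 22 * (s m * Real.log 2) := by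
    intro m
    have h1 := LamEx.XF_triv hl (P m) (s m) (n m) (l m) (t m) (hg m)
    have h2 := LamEx.exc_nn hl (P m) (n m) (l m) (t m) (hg m)
    have h3 := LamEx.DF_ge (P m) (s m) (n m) (l m) (t m) (hg m)
    have h5 := mul_le_mul_of_nonneg_left h3 hN
    have h6 := hlt m
    have h7 : 0 ≤ b m * ((s m : ℝ) * Real.log 2) :=
      mul_nonneg (hb0 m) (mul_nonneg (Nat.cast_nonneg _) hlog.le)
    have h8 : (n m : ℝ) * Real.log 2 ≤ 2 * s m * Real.log 2 :=
      mul_le_mul_of_nonneg_right (hnK2 m) hlog.le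
    rw [hc]
    nlinarith
  have htop : Tendsto s (uf : Filter ℕ) atTop := by
    refine Tendsto.mono_left ?_ uf_le
    rw [tendsto_atTop]
    intro k
    filter_upwards [eventually_ge_atTop ⌈c + 22 * (k * Real.log 2)⌉₊] with m hm
    have h1 : c + 22 * (k * Real.log 2) ≤ m := (Nat.le_ceil _).trans (by exact_mod_cast hm)
    have h2 := hn m
    have h3 : (k : ℝ) ≤ s m := by
      have h5 : (k : ℝ) * Real.log 2 ≤ s m * Real.log 2 := by linarith
      exact le_of_mul_le_mul_right h5 hlog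
    exact_mod_cast h3
  let S : Sys := ⟨Ω, hf, P, s, htop⟩
  have hln : Sys.LnA (S := S) l := Eventually.of_forall fun m ω hω => (hg m ω hω).1
  have ht : Sys.T01 (S := S) t := Eventually.of_forall fun m ω hω => (hg m ω hω).2
  have hBd : S.Bd n := ⟨2, Eventually.of_forall hnK2⟩
  refine ⟨S, n, l, t, hnK, hsn, hln, ht, ?_⟩
  obtain ⟨e1, u1⟩ := LamEx.rhs_eq (N := N) (lam := lam) hl hBd hsn hln ht hb
  obtain ⟨ua, ub', -, -⟩ := LamEx.ub_all (lam := lam) hl hBd hsn hln ht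
  have uX : UB fun i => XF lam (S.P i) (S.L i) (n i) (l i) (t i) (fun _ => ()) / S.nm i := by
    obtain ⟨c', hc'⟩ := ua.add ub'
    refine ⟨c', ?_⟩
    filter_upwards [hc'] with i h1
    refine le_trans (le_of_eq ?_) h1
    rw [← add_div]
    rfl
  rw [e1, LamEx.Xl_eq hl hBd hsn hln ht]
  refine ulim_le u1 uX ?_
  filter_upwards [S.nm_pos] with i hi
  refine div_le_div_of_nonneg_right ?_ hi.le
  have h1 := (hlt i).le
  have h0 : (0 : ℝ) ≤ i := Nat.cast_nonneg _
  refine le_trans ?_ h1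
  show b i * ((s i : ℝ) * Real.log 2) + excFl lam (P i) (tbx (n i) (l i)) (fun _ => ()) +
    N * DF (P i) (s i) (n i) (l i) (t i) (fun _ => ()) ≤ _
  linarith

/-- **the last window** : for lines of precision `s ≤ n ≤ (1 + δ) s` the inequality holds with a
constant `β' < β` -/
def PEnd7K : Prop :=
  ∀ N lam β : ℝ, 2 ≤ N → 0 < lam → lam ≤ 1 → lam < β → β ≤ 2 → JFG N lam β → JL N lam β →
    ∃ δ β' : ℝ, 0 < δ ∧ δ ≤ 1 ∧ 0 ≤ β' ∧ β' < β ∧ JFK N lam (1 + δ) β'

/-- the compactness form of END7 -/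
theorem end7K_of (h7 : ∀ N lam β : ℝ, 2 ≤ N → 0 < lam → lam ≤ 1 → lam < β → JL N lam β →
    ∀ (S : Sys) (l : S.RV Ln) (t : S.RV ℝ), XtrL N lam β S S.L l t → False) : PEnd7K := by
  intro N lam β hN h0 h1 h2 h3 _ hJ
  have hN0 : 0 ≤ N := by linarith
  have hlam : 0 ≤ lam ∧ lam ≤ 1 := ⟨h0.le, h1⟩
  have hβ : 0 < β := h0.trans h2
  by_contra hcon
  set κ : ℕ → ℝ := fun m => 1 + 1 / ((m : ℝ) + 1) with hκ
  set b : ℕ → ℝ := fun m => β * (1 - 1 / ((m : ℝ) + 1)) with hb
  have hpos : ∀ m : ℕ, 0 < 1 / ((m : ℝ) + 1) := fun m => by positivity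
  have hle : ∀ m : ℕ, 1 / ((m : ℝ) + 1) ≤ 1 := fun m => by
    rw [div_le_one (by positivity)]
    linarith [(Nat.cast_nonneg m : (0 : ℝ) ≤ m)]
  have hb0 : ∀ m, 0 ≤ b m := fun m => mul_nonneg hβ.le (by linarith [hle m])
  have hbn : ∀ m, ¬ JFK N lam (κ m) (b m) := by
    intro m hm
    refine hcon ⟨1 / ((m : ℝ) + 1), b m, hpos m, hle m, hb0 m, ?_, hm⟩
    show β * (1 - 1 / ((m : ℝ) + 1)) < β
    nlinarith [hpos m]
  have h1lim : Tendsto (fun m : ℕ => 1 / ((m : ℝ) + 1)) (uf : Filter ℕ) (𝓝 0) :=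
    Tendsto.mono_left tendsto_one_div_add_atTop_nhds_zero_nat uf_le
  have hlim : Tendsto b (uf : Filter ℕ) (𝓝 β) := by
    have h3 := ((tendsto_const_nhds (x := (1 : ℝ))).sub h1lim).const_mul β
    rw [sub_zero, mul_one] at h3
    exact h3
  have hκlim : Tendsto κ (uf : Filter ℕ) (𝓝 1) := by
    have h3 := (tendsto_const_nhds (x := (1 : ℝ))).add h1lim
    rw [add_zero] at h3
    exact h3
  obtain ⟨S, n, l, t, g1, g2, g3, g4, g5⟩ := seq_sysV (κ := κ) hlam hN0
    (fun m => by show 1 + 1 / ((m : ℝ) + 1) ≤ 2; linarith [hle m]) hb0 hlim (fun m => by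
      obtain ⟨ε, hε, h1⟩ := LamEx.jfk_not (hbn m)
      obtain ⟨Ω, hf, P, l, t, s, n, hg, k1, k2, hlt⟩ := h1 m
      refine ⟨Ω, hf, P, l, t, s, n, hg, k1, k2, lt_of_le_of_lt ?_ hlt⟩
      have h0 : 0 ≤ (s : ℝ) * Real.log 2 :=
        mul_nonneg (Nat.cast_nonneg _) (Real.log_nonneg (by norm_num))
      have : b m * (s * Real.log 2) ≤ (b m + ε) * (s * Real.log 2) :=
        mul_le_mul_of_nonneg_right (by linarith) h0
      linarith)
  have hBd : S.Bd n := ⟨2, Eventually.of_forall fun i => (g1 i).trans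
    (mul_le_mul_of_nonneg_right (by show 1 + 1 / ((i : ℝ) + 1) ≤ 2; linarith [hle i])
      (Nat.cast_nonneg _))⟩
  have hX : XtrL N lam β S n l t := by
    refine ⟨hBd, g2, g3, g4, le_antisymm ?_ g5⟩
    have k := hJ S _ (one (S := S)) l t S.L n hBd g3 g4 g2
    rw [Fi.nu_L, mul_one] at k
    exact k
  have hnu : S.nu n = 1 := by
    refine le_antisymm ?_ ?_
    · rw [← ulim_eq hκlim]
      refine ulim_le (Apx.UB.nu hBd) (UB.of_tendsto hκlim) ?_
      filter_upwards [S.L_pos] with i hi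
      have : (0 : ℝ) < S.L i := by exact_mod_cast hi
      rw [div_le_iff₀ this]
      exact g1 i
    · refine const_le_ulim (Apx.UB.nu hBd) ?_
      filter_upwards [S.L_pos] with i hi
      have : (0 : ℝ) < S.L i := by exact_mod_cast hi
      rw [le_div_iff₀ this, one_mul]
      exact_mod_cast g2 i
  exact h7 N lam β hN h0 h1 h2 hJ S l t (xtrL_coarse hN0 hlam hJ hX hnu)

/-- **block END7K** -/
theorem pEnd7K : PEnd7K := end7K_of pEnd7

end Vale.Agent.P127.U
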