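import Vale.Agent.P127.U.Lam.FinDefs

/-!
# P127 / U / Lam : the inequality for labels of fixed shape (helper624)

* `exSetR`, `excR lam P n l C k J` : penalised excess of the lines of precision `n` given `C`, with
  the labels `A` such that `k ≤ A.k` and `A.j ≤ J` only.
* `PFix` : (FIX) of helper102's shape chain.  Error `O(1)`, every precision `n`.
-/

set_option autoImplicit false

namespace Vale.Agent.P127.U

open Filter Topology Vale.Agent.P127 Vale.Agent.P127.Stk Sys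

section finite

variable {Ω : Type} [Fintype Ω] {γ : Type*}

/-- values of the labels with exponents in `[k, J]`, on all extensions of `P` -/
def exSetR (lam : ℝ) (P : Law Ω) (n : ℕ) (l : Ω → Ln) (C : Ω → γ) (k J : ℕ) : Set ℝ :=
  {v | ∃ (Ω' : Type) (_ : Fintype Ω') (P' : Law Ω') (π : Ω' → Ω) (A : Bx Ω'),
    (∀ ω, P'.pr π ω = P.w ω) ∧
    (∀ ω, 0 < P'.w ω → Sub 1 ((tbx n l).comp π) A ω ∧ k ≤ A.k ω ∧ A.j ω ≤ J) ∧
    v = exVl lam P' ((tbx n l).comp π) A fun ω => C (π ω)}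

/-- penalised excess restricted to the labels with exponents in `[k, J]` -/
noncomputable def excR (lam : ℝ) (P : Law Ω) (n : ℕ) (l : Ω → Ln) (C : Ω → γ) (k J : ℕ) : ℝ :=
  sSup (exSetR lam P n l C k J)

end finite

/-- **FIX** : labels `W` of the level `s` of fixed shape `(k, j)`, any precision `n`, error `O(1)` -/
def PFix : Prop :=
  ∀ lam : ℝ, 0 < lam → lam ≤ 1 → ∃ K : ℝ, 1 ≤ K ∧ ∀ N β : ℝ, 0 ≤ N → 0 ≤ β → JFK N lam K β →
    ∀ ε : ℝ, 0 < ε → ∃ c : ℝ, ∀ (Ω : Type) [Fintype Ω] (γ : Type) (P : Law Ω) (l : Ω → Ln)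
      (t : Ω → ℝ) (s n k j : ℕ) (W : Bx Ω) (C : Ω → γ),
      GoodF P l t → k ≤ j → s + j ≤ n →
      (∀ ω, 0 < P.w ω → W.l ω = blF s l t ω ∧ |W.θ ω| ≤ 4 ∧ W.k ω = k ∧ W.j ω = j) →
      Stk.hc P (fun ω => tb n (l ω)) (fun ω => (W.lab ω, pq s (ptF l t ω), C ω)) -
          Real.log 2 * (2 * ((n : ℝ) - s) - ((1 + lam) * k + (1 - lam) * j)) ≤
        (β + ε) * s * Real.log 2 + c + excR lam P n l C k (s + j) + N * DF P s n l t C

end Vale.Agent.P127.U
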