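import Vale.Agent.P127.U.Lam.HBall
import Vale.Agent.P127.U.Lam.FixDefs
import Vale.Agent.P127.U.JS

/-!
# P127 / U / Lam : penalised excess with the softness of the shape, auxiliary lemmas (helper102)

* `Bx.shp` : shape of a random box.
* `hc_nat_le` : `H(Z | Y) ≤ 2 E Z / K + log K + log 4` for a variable with natural values.
* `exVl_lam`, `excFl_le_excH_add` : dependence on the price of the flatness.
-/

set_option autoImplicit false

namespace Vale.Agent.P127.U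

open Filter Topology Vale.Agent.P127 Vale.Agent.P127.Stk Sys

/-- the shape of a random box -/
def Bx.shp {Ω : Type} (W : Bx Ω) (ω : Ω) : ℕ × ℕ := (W.k ω, W.j ω)

namespace Lam

variable {lam N : ℝ} {Ω : Type} [Fintype Ω] {γ : Type*}

/-- entropy of a variable with natural values -/
theorem hc_nat_le {T : Type*} (P : Law Ω) (Z : Ω → ℕ) (Y : Ω → T) {K : ℝ} (hK : 1 ≤ K) :
    Stk.hc P Z Y ≤ 2 * P.ex (fun ω => (Z ω : ℝ)) / K + Real.log K + Real.log 4 := by
  have h := P.H_scale (fun ω => (Z ω : ℤ)) Y K hK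
  have hK0 : 0 < K := by linarith
  have e1 : Stk.hc P Z Y = P.H (fun ω => ((Z ω : ℤ), Y ω)) - P.H Y := by
    unfold Stk.hc
    congr 1
    refine P.H_congr fun ω ω' => ?_
    simp only [Prod.mk.injEq, Nat.cast_inj]
  rw [e1]
  have h2 : P.ex (fun ω => Real.log (1 + |((Z ω : ℤ) : ℝ)| / K)) ≤ P.ex (fun ω => (Z ω : ℝ) / K) := by
    refine P.ex_mono fun ω _ => ?_
    have h3 : (0:ℝ) ≤ (Z ω : ℝ) / K := by positivity
    have h4 : |((Z ω : ℤ) : ℝ)| = (Z ω : ℝ) := by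
      rw [Int.cast_natCast]
      exact abs_of_nonneg (Nat.cast_nonneg _)
    rw [h4]
    have := Real.log_le_sub_one_of_pos (show 0 < 1 + (Z ω : ℝ) / K by positivity)
    linarith
  have h3 : P.ex (fun ω => (Z ω : ℝ) / K) = P.ex (fun ω => (Z ω : ℝ)) / K := by
    have := P.ex_const_mul (K⁻¹) (fun ω => (Z ω : ℝ))
    rw [div_eq_inv_mul, ← this]
    congr 1
    funext ω
    rw [div_eq_inv_mul]
  have h4 : 2 * P.ex (fun ω => (Z ω : ℝ)) / K = 2 * (P.ex (fun ω => (Z ω : ℝ)) / K) := by ring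
  rw [h4, ← h3]
  linarith

/-- dependence on the price of the flatness -/
theorem exVl_lam (P : Law Ω) (B W : Bx Ω) (C : Ω → γ) (lam κ : ℝ) :
    exVl (lam + κ) P B W C = exVl lam P B W C -
      κ * Real.log 2 * P.ex (fun ω => ((W.j ω : ℝ) - W.k ω) - ((B.j ω : ℝ) - B.k ω)) := by
  unfold exVl
  have h : P.ex (fun ω => B.szl (lam + κ) ω - W.szl (lam + κ) ω) =
      P.ex (fun ω => B.szl lam ω - W.szl lam ω) +
        κ * P.ex (fun ω => ((W.j ω : ℝ) - W.k ω) - ((B.j ω : ℝ) - B.k ω)) := by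
    rw [← P.ex_const_mul, ← P.ex_add]
    refine P.ex_congr fun ω _ => ?_
    unfold Bx.szl
    ring
  rw [h]
  ring

/-- comparison of the functionals with different prices of the flatness -/
theorem excFl_le_excH_add (hl : 0 ≤ lam) {κ : ℝ} (hκ : 0 ≤ κ) (h1 : lam + κ ≤ 1) (hN : 0 ≤ N)
    {P : Law Ω} (n : ℕ) {l : Ω → Ln} {C : Ω → γ} (h : ∀ ω, 0 < P.w ω → LnOk (l ω)) :
    excFl lam P (tbx n l) C ≤ excH (lam + κ) N P n l C + κ * n * Real.log 2 := by
  refine csSup_le ⟨0, Lam.zero_mem_exSet (boxOk_tbx h n)⟩ ?_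
  rintro v ⟨Ω', _, P', π, W, h2, h3, rfl⟩
  have h4 := HX.le_excH (lam := lam + κ) ⟨by linarith, h1⟩ hN (C := C) h2 h3
  have h5 := exVl_lam P' ((tbx n l).comp π) W (fun ω => C (π ω)) lam κ
  have h6 := mul_nonneg hN (Stk.hc_nonneg P' (fun ω => (W.k ω, W.j ω))
    (fun ω => (tb n (l (π ω)), C (π ω))))
  have h7 : P'.ex (fun ω => ((W.j ω : ℝ) - W.k ω) -
      ((((tbx n l).comp π).j ω : ℝ) - ((tbx n l).comp π).k ω)) ≤ n := by
    have h8 : P'.ex (fun ω => ((W.j ω : ℝ) - W.k ω) -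
      ((((tbx n l).comp π).j ω : ℝ) - ((tbx n l).comp π).k ω)) ≤ P'.ex (fun _ => (n : ℝ)) := by
      refine P'.ex_mono fun ω hω => ?_
      obtain ⟨-, -, a3, a4, a5, -⟩ := h3 ω hω
      have a6 : (W.j ω : ℝ) ≤ n := by exact_mod_cast a5
      have a7 : (0 : ℝ) ≤ W.k ω := Nat.cast_nonneg _
      have a8 : (((tbx n l).comp π).j ω : ℝ) - ((tbx n l).comp π).k ω = 0 := sub_self _
      linarith
    rwa [P'.ex_const] at h8
  have hlog : 0 ≤ Real.log 2 := Real.log_nonneg (by norm_num)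
  have h8 := mul_le_mul_of_nonneg_left h7 (mul_nonneg hκ hlog)
  nlinarith

end Lam

end Vale.Agent.P127.U
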