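import Vale.Agent.P127.U.Lam.PathH
import Vale.Agent.P127.U.Lam.IncDefs
import Vale.Agent.P127.U.Lam.End7K
import Vale.Agent.P127.U.Lam.Basic
import Vale.Agent.P127.U.Lam.HAux
import Vale.Agent.P127.U.End.Comp
import Mathlib.Analysis.SpecialFunctions.Trigonometric.ArctanDeriv

/-!
# P127 / U / Lam : the last window of the path (helper611)

* `cell_of_cel` : the cell of the state `(h, q)` is a function of the end label.
* `lab_cell` : the label of the slab box of the ball and the point cell are known from the cell of the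
  state, up to `O(1)` values.
* `tail_gen` : **last window** (state of precision `n - a - r ≤ (1 + δ) (h - a)`).
* `tail_EF`, `tail_of` : the field `tail` of `Inc.Incr`.
-/

set_option autoImplicit false

namespace Vale.Agent.P127.U.EndWin

open Filter Topology Vale.Agent.P127 Vale.Agent.P127.Stk Vale.Agent.P127.U Vale.Agent.P127.U.Apx
  Vale.Agent.P127.U.Pf Sys

theorem abs_arctan_sub (x y : ℝ) : |Real.arctan x - Real.arctan y| ≤ |x - y| := by
  have h := Convex.norm_image_sub_le_of_norm_hasDerivWithin_le (f := Real.arctan)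
    (f' := fun x => 1 / (1 + x ^ 2)) (C := 1) (s := Set.univ) (x := y) (y := x)
    (fun z _ => (Real.hasDerivAt_arctan z).hasDerivWithinAt) (by
      intro z _
      rw [Real.norm_eq_abs, abs_of_nonneg (by positivity), div_le_one (by positivity)]
      nlinarith [sq_nonneg z]) convex_univ (Set.mem_univ _) (Set.mem_univ _)
  rwa [Real.norm_eq_abs, Real.norm_eq_abs, one_mul] at h

/-- comparison of the frames of the rounded slope and of the rounded angle -/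
theorem frame_close (ρ : ℕ) (u : ℝ) :
    |Real.cos (qa ρ (Real.arctan u)) * qa ρ u - Real.sin (qa ρ (Real.arctan u))| ≤
      (1 + |qa ρ u| + 1) * (1 / 2 : ℝ) ^ ρ := by
  set θ := Real.arctan u with hθ
  have h1 : |θ - qa ρ θ| ≤ (1 / 2 : ℝ) ^ ρ := abs_sub_qa ρ θ
  have h2 : |u - qa ρ u| ≤ (1 / 2 : ℝ) ^ ρ := abs_sub_qa ρ u
  have hc : |Real.cos (qa ρ θ) - Real.cos θ| ≤ |qa ρ θ - θ| := by
    have := Real.abs_cos_sub_cos_le (qa ρ θ) θ
    exact this
  have hs : |Real.sin θ - Real.sin (qa ρ θ)| ≤ |θ - qa ρ θ| := by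
    have := Real.abs_sin_sub_sin_le θ (qa ρ θ)
    exact this
  have h3 : Real.cos θ * u = Real.sin θ := by
    have h4 := Real.cos_arctan_pos u
    have h5 := Real.tan_arctan u
    rw [Real.tan_eq_sin_div_cos, ← hθ] at h5
    rw [← hθ] at h4
    rw [div_eq_iff h4.ne'] at h5
    rw [h5]
    ring
  have e : Real.cos (qa ρ θ) * qa ρ u - Real.sin (qa ρ θ) =
      (Real.cos (qa ρ θ) - Real.cos θ) * qa ρ u - Real.cos θ * (u - qa ρ u) +
        (Real.sin θ - Real.sin (qa ρ θ)) := by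
    rw [← h3]
    ring
  rw [e]
  rw [abs_sub_comm (qa ρ θ) θ] at hc
  have k1 : |(Real.cos (qa ρ θ) - Real.cos θ) * qa ρ u| ≤ (1 / 2 : ℝ) ^ ρ * |qa ρ u| := by
    rw [abs_mul]
    exact mul_le_mul_of_nonneg_right (hc.trans h1) (abs_nonneg _)
  have k2 : |Real.cos θ * (u - qa ρ u)| ≤ (1 / 2 : ℝ) ^ ρ := by
    rw [abs_mul]
    calc |Real.cos θ| * |u - qa ρ u| ≤ 1 * (1 / 2 : ℝ) ^ ρ :=
          mul_le_mul (Real.abs_cos_le_one θ) h2 (abs_nonneg _) zero_le_one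
      _ = _ := one_mul _
  have k3 := abs_add_le ((Real.cos (qa ρ θ) - Real.cos θ) * qa ρ u - Real.cos θ * (u - qa ρ u))
    (Real.sin θ - Real.sin (qa ρ θ))
  have k4 := abs_sub ((Real.cos (qa ρ θ) - Real.cos θ) * qa ρ u) (Real.cos θ * (u - qa ρ u))
  have k5 := hs.trans h1
  linarith

section defs

variable {Ω : Type}

/-- the cell of the state `(h, q)` is a function of the end label -/
theorem cell_of_cel (l : Ω → Ln) (t v : Ω → ℝ) (h q : ℕ) {ω ω' : Ω}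
    (e : Inc.cel l t v h q ω = Inc.cel l t v h q ω') : cell h q l t v ω = cell h q l t v ω' := by
  have e1 : fl1 h (t ω) = fl1 h (t ω') := congrArg Prod.fst e
  have e2 : fl1 q (v ω) = fl1 q (v ω') := congrArg (fun z => z.2.1) e
  have e3 : fl1 0 ((l ω).2 0) = fl1 0 ((l ω').2 0) := congrArg (fun z => z.2.2.1) e
  have e4 : fl1 q ((l ω).2 1 - qa q (v ω) * (l ω).2 0) =
      fl1 q ((l ω').2 1 - qa q (v ω') * (l ω').2 0) := congrArg (fun z => z.2.2.2.1) e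
  have e5 : fl1 h ((l ω).1 0 + qa h (t ω) * (l ω).2 0) =
      fl1 h ((l ω').1 0 + qa h (t ω') * (l ω').2 0) := congrArg (fun z => z.2.2.2.2.1) e
  have e6 : fl1 (h + q) ((l ω).1 1 + qa h (t ω) * (l ω).2 1 -
      qa q (v ω) * ((l ω).1 0 + qa h (t ω) * (l ω).2 0)) =
      fl1 (h + q) ((l ω').1 1 + qa h (t ω') * (l ω').2 1 -
      qa q (v ω') * ((l ω').1 0 + qa h (t ω') * (l ω').2 0)) := congrArg (fun z => z.2.2.2.2.2) e
  refine Prod.ext e1 (Prod.ext e2 (Prod.ext ?_ ?_))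
  · show fl 0 (shv q (v ω) (l ω).2) = fl 0 (shv q (v ω') (l ω').2)
    funext j
    fin_cases j
    · exact e3
    · show ⌊2 ^ 0 * (2 ^ q * ((l ω).2 1 - qa q (v ω) * (l ω).2 0))⌋ =
        ⌊2 ^ 0 * (2 ^ q * ((l ω').2 1 - qa q (v ω') * (l ω').2 0))⌋
      rw [pow_zero, one_mul, one_mul]
      exact e4
  · show fl h (shv q (v ω) (pos (l ω) (qa h (t ω)))) = fl h (shv q (v ω') (pos (l ω') (qa h (t ω'))))
    funext j
    fin_cases j
    · exact e5
    · show ⌊2 ^ h * (2 ^ q * (((l ω).1 1 + qa h (t ω) * (l ω).2 1) -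
          qa q (v ω) * ((l ω).1 0 + qa h (t ω) * (l ω).2 0)))⌋ =
        ⌊2 ^ h * (2 ^ q * (((l ω').1 1 + qa h (t ω') * (l ω').2 1) -
          qa q (v ω') * ((l ω').1 0 + qa h (t ω') * (l ω').2 0)))⌋
      rw [← mul_assoc, ← mul_assoc, ← pow_add]
      exact e6

/-- the slab box of the ball of radius `2^-w` : slope `v`, thickness `2^-ρ` -/
noncomputable def sbx (w ρ : ℕ) (l : Ω → Ln) (t v : Ω → ℝ) : Bx Ω :=
  ⟨blF w l t, fun ω => Real.arctan (v ω), fun _ => 0, fun _ => ρ⟩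

theorem sbx_sub (w ρ : ℕ) (l : Ω → Ln) (t v : Ω → ℝ) {ω : Ω} (hv : 0 ≤ v ω ∧ v ω ≤ 1) :
    Sub 1 (tbx ρ (blF w l t)) (sbx w ρ l t v) ω := by
  refine ⟨rfl, ?_, Nat.zero_le _, Nat.zero_le _, le_rfl, ?_⟩
  · show |Real.arctan (v ω)| ≤ 4
    have h1 := abs_arctan_sub (v ω) 0
    rw [Real.arctan_zero, sub_zero, sub_zero, abs_of_nonneg hv.1] at h1
    linarith
  · show |Real.sin (0 - Real.arctan (v ω))| * (1 / 2 : ℝ) ^ ρ ≤ 1 * (1 / 2 : ℝ) ^ ρ
    exact mul_le_mul_of_nonneg_right (Real.abs_sin_le_one _) (by positivity)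

end defs

section finite

variable {Ω : Type} [Fintype Ω] {γ : Type*} (P : Law Ω)

theorem log_le17 {x : ℝ} (h0 : 0 < x) (h : x ≤ 17) : Real.log x ≤ Real.log 17 :=
  Real.log_le_log h0 h

/-- coordinates in the frame of the rounded angle -/
theorem co_apx (ρ : ℕ) (v : Ω → ℝ) (x : Ω → Fin 2 → ℝ) (Z : Ω → γ)
    (hv : ∀ ω, 0 < P.w ω → 0 ≤ v ω ∧ v ω ≤ 1) (hx : ∀ ω, 0 < P.w ω → ∀ j, |x ω j| ≤ 1)
    (hZ : ∀ ω ω', 0 < P.w ω → 0 < P.w ω' → Z ω = Z ω' → fl1 ρ (v ω) = fl1 ρ (v ω') ∧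
      fl1 ρ (Real.arctan (v ω)) = fl1 ρ (Real.arctan (v ω')) ∧
      |(x ω 1 - qa ρ (v ω') * x ω 0) - (x ω' 1 - qa ρ (v ω') * x ω' 0)| ≤ (1 / 2 : ℝ) ^ ρ) :
    Stk.hc P (fun ω => fkj 0 ρ (co (qa ρ (Real.arctan (v ω))) (x ω))) Z ≤ 2 * Real.log 17 := by
  have h1 : Stk.hc P (fun ω => fl1 0 (co (qa ρ (Real.arctan (v ω))) (x ω) 0)) Z ≤ Real.log 17 := by
    have h := hc_fl1_apx P 0 4 (fun ω => co (qa ρ (Real.arctan (v ω))) (x ω) 0) Z (by
      intro ω ω' p p' e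
      obtain ⟨-, e2, -⟩ := hZ ω ω' p p' e
      rw [qa_congr e2]
      set θ := qa ρ (Real.arctan (v ω')) with hθ
      show |(Real.cos θ * x ω 0 + Real.sin θ * x ω 1) - (Real.cos θ * x ω' 0 + Real.sin θ * x ω' 1)| ≤ _
      have b : ∀ ω, 0 < P.w ω → |Real.cos θ * x ω 0 + Real.sin θ * x ω 1| ≤ 2 := by
        intro ω hω
        refine (abs_add_le _ _).trans ?_
        rw [abs_mul, abs_mul]
        have c1 : |Real.cos θ| * |x ω 0| ≤ 1 * 1 :=
          mul_le_mul (Real.abs_cos_le_one θ) (hx ω hω 0) (abs_nonneg _) zero_le_one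
        have c2 : |Real.sin θ| * |x ω 1| ≤ 1 * 1 :=
          mul_le_mul (Real.abs_sin_le_one θ) (hx ω hω 1) (abs_nonneg _) zero_le_one
        linarith
      have b1 := b ω p
      have b2 := b ω' p'
      have b3 := abs_sub (Real.cos θ * x ω 0 + Real.sin θ * x ω 1)
        (Real.cos θ * x ω' 0 + Real.sin θ * x ω' 1)
      push_cast
      linarith)
    refine h.trans (log_le17 ?_ ?_) <;> norm_num
  have h2 : Stk.hc P (fun ω => fl1 ρ (co (qa ρ (Real.arctan (v ω))) (x ω) 1)) Z ≤ Real.log 17 := by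
    have h := hc_fl1_apx P ρ 7 (fun ω => co (qa ρ (Real.arctan (v ω))) (x ω) 1) Z (by
      intro ω ω' p p' e
      obtain ⟨-, e2, e3⟩ := hZ ω ω' p p' e
      rw [qa_congr e2]
      have f := frame_close ρ (v ω')
      have hq : |qa ρ (v ω')| ≤ 1 := by
        obtain ⟨b0, b1⟩ := hv ω' p'
        rw [abs_of_nonneg]
        · exact (qa_le _ _).trans b1
        · unfold qa fl1
          have : (0 : ℤ) ≤ ⌊(2 : ℝ) ^ ρ * v ω'⌋ := Int.floor_nonneg.2 (mul_nonneg (by positivity) b0)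
          have h3 : (0 : ℝ) ≤ (⌊(2 : ℝ) ^ ρ * v ω'⌋ : ℝ) := by exact_mod_cast this
          positivity
      set θ := qa ρ (Real.arctan (v ω')) with hθ
      set u := qa ρ (v ω') with hu
      show |(-Real.sin θ * x ω 0 + Real.cos θ * x ω 1) - (-Real.sin θ * x ω' 0 + Real.cos θ * x ω' 1)| ≤ _
      have e4 : (-Real.sin θ * x ω 0 + Real.cos θ * x ω 1) -
          (-Real.sin θ * x ω' 0 + Real.cos θ * x ω' 1) =
          Real.cos θ * ((x ω 1 - u * x ω 0) - (x ω' 1 - u * x ω' 0)) +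
            (Real.cos θ * u - Real.sin θ) * (x ω 0 - x ω' 0) := by ring
      rw [e4]
      refine (abs_add_le _ _).trans ?_
      rw [abs_mul, abs_mul]
      have c1 : |Real.cos θ| * |(x ω 1 - u * x ω 0) - (x ω' 1 - u * x ω' 0)| ≤ 1 * (1 / 2 : ℝ) ^ ρ :=
        mul_le_mul (Real.abs_cos_le_one θ) e3 (abs_nonneg _) zero_le_one
      have c2 : |x ω 0 - x ω' 0| ≤ 2 := by
        have := abs_sub (x ω 0) (x ω' 0)
        have := hx ω p 0
        have := hx ω' p' 0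
        linarith
      have c3 : |Real.cos θ * u - Real.sin θ| * |x ω 0 - x ω' 0| ≤ (3 * (1 / 2 : ℝ) ^ ρ) * 2 := by
        refine mul_le_mul (f.trans ?_) c2 (abs_nonneg _) (by positivity)
        have : (0:ℝ) < (1 / 2) ^ ρ := by positivity
        nlinarith
      push_cast
      linarith)
    refine h.trans (log_le17 ?_ ?_) <;> norm_num
  have h3 := hc_pair_le P (fun ω => fl1 0 (co (qa ρ (Real.arctan (v ω))) (x ω) 0))
    (fun ω => fl1 ρ (co (qa ρ (Real.arctan (v ω))) (x ω) 1)) Z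
  have h4 : Stk.hc P (fun ω => fkj 0 ρ (co (qa ρ (Real.arctan (v ω))) (x ω))) Z =
    Stk.hc P (fun ω => (fl1 0 (co (qa ρ (Real.arctan (v ω))) (x ω) 0),
      fl1 ρ (co (qa ρ (Real.arctan (v ω))) (x ω) 1))) Z := rfl
  rw [h4]
  linarith

/-- the label of the slab box and the point cell are known from the cell of the state -/
theorem lab_cell (w ρ : ℕ) {l : Ω → Ln} {t v : Ω → ℝ} (hg : GoodF P l t)
    (hv : ∀ ω, 0 < P.w ω → 0 ≤ v ω ∧ v ω ≤ 1) (C : Ω → γ) :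
    Stk.hc P (fun ω => ((sbx w ρ l t v).lab ω, (pq w (ptF l t ω), C ω)))
      (fun ω => (cell w ρ l t v ω, C ω)) ≤ 9 * Real.log 17 := by
  set Z := fun ω => (cell w ρ l t v ω, C ω) with hZ
  have hw : (0 : ℝ) < 2 ^ w := by positivity
  have hρ : (0 : ℝ) < 2 ^ ρ := by positivity
  have hρ1 : (1 : ℝ) ≤ 2 ^ ρ := one_le_pow₀ (by norm_num)
  have hiw : (0 : ℝ) < (1 / 2) ^ w := by positivity
  have hiρ : (0 : ℝ) < (1 / 2) ^ ρ := by positivity
  have ew : (1 / 2 : ℝ) ^ w * 2 ^ w = 1 := by rw [← mul_pow]; norm_num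
  have eρ : (1 / 2 : ℝ) ^ ρ * 2 ^ ρ = 1 := by rw [← mul_pow]; norm_num
  have hρ2 : (1 / 2 : ℝ) ^ ρ ≤ 1 := pow_le_one₀ (by norm_num) (by norm_num)
  -- consequences of the equality of the cells
  have z1 : ∀ ω ω', Z ω = Z ω' → fl1 w (t ω) = fl1 w (t ω') ∧ fl1 ρ (v ω) = fl1 ρ (v ω') :=
    fun ω ω' e => ⟨congrArg (fun q => q.1.1) e, congrArg (fun q => q.1.2.1) e⟩
  have z2 : ∀ ω ω', Z ω = Z ω' → |((l ω).2 1 - qa ρ (v ω') * (l ω).2 0) -
      ((l ω').2 1 - qa ρ (v ω') * (l ω').2 0)| ≤ (1 / 2 : ℝ) ^ ρ := by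
    intro ω ω' e
    have a1 := fl_close (congrArg (fun q => q.1.2.2.1) e :
      fl 0 (shv ρ (v ω) (l ω).2) = fl 0 (shv ρ (v ω') (l ω').2)) 1
    rw [shv1, shv1, qa_congr (z1 ω ω' e).2, pow_zero, ← mul_sub, abs_mul, abs_of_pos hρ] at a1
    calc _ = (2 ^ ρ * |((l ω).2 1 - qa ρ (v ω') * (l ω).2 0) -
      ((l ω').2 1 - qa ρ (v ω') * (l ω').2 0)|) * (1 / 2 : ℝ) ^ ρ := by
          rw [mul_comm (2 ^ ρ), mul_assoc, mul_comm ((2:ℝ) ^ ρ), eρ, mul_one]
      _ ≤ 1 * (1 / 2 : ℝ) ^ ρ := mul_le_mul_of_nonneg_right a1 hiρ.le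
      _ = _ := one_mul _
  have z3 : ∀ ω ω', Z ω = Z ω' →
      |pos (l ω) (qa w (t ω)) 0 - pos (l ω') (qa w (t ω')) 0| ≤ (1 / 2 : ℝ) ^ w := by
    intro ω ω' e
    exact fl_close (congrArg (fun q => q.1.2.2.2) e :
      fl w (shv ρ (v ω) (pos (l ω) (qa w (t ω)))) = fl w (shv ρ (v ω') (pos (l ω') (qa w (t ω'))))) 0
  have z4 : ∀ ω ω', Z ω = Z ω' →
      |(pos (l ω) (qa w (t ω)) 1 - qa ρ (v ω') * pos (l ω) (qa w (t ω)) 0) -
        (pos (l ω') (qa w (t ω')) 1 - qa ρ (v ω') * pos (l ω') (qa w (t ω')) 0)| ≤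
        (1 / 2 : ℝ) ^ w * (1 / 2 : ℝ) ^ ρ := by
    intro ω ω' e
    have a1 := fl_close (congrArg (fun q => q.1.2.2.2) e :
      fl w (shv ρ (v ω) (pos (l ω) (qa w (t ω)))) = fl w (shv ρ (v ω') (pos (l ω') (qa w (t ω'))))) 1
    rw [shv1, shv1, qa_congr (z1 ω ω' e).2, ← mul_sub, abs_mul, abs_of_pos hρ] at a1
    calc _ = (2 ^ ρ * |(pos (l ω) (qa w (t ω)) 1 - qa ρ (v ω') * pos (l ω) (qa w (t ω)) 0) -
        (pos (l ω') (qa w (t ω')) 1 - qa ρ (v ω') * pos (l ω') (qa w (t ω')) 0)|) *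
          (1 / 2 : ℝ) ^ ρ := by
          rw [mul_comm (2 ^ ρ), mul_assoc, mul_comm ((2:ℝ) ^ ρ), eρ, mul_one]
      _ ≤ (1 / 2 : ℝ) ^ w * (1 / 2 : ℝ) ^ ρ := mul_le_mul_of_nonneg_right a1 hiρ.le
  have hqv : ∀ ω, 0 < P.w ω → |qa ρ (v ω)| ≤ 1 := by
    intro ω hω
    obtain ⟨b0, b1⟩ := hv ω hω
    rw [abs_of_nonneg]
    · exact (qa_le _ _).trans b1
    · unfold qa fl1
      have : (0 : ℤ) ≤ ⌊(2 : ℝ) ^ ρ * v ω⌋ := Int.floor_nonneg.2 (mul_nonneg (by positivity) b0)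
      have h3 : (0 : ℝ) ≤ (⌊(2 : ℝ) ^ ρ * v ω⌋ : ℝ) := by exact_mod_cast this
      positivity
  -- the angle
  have f1 : Stk.hc P (fun ω => fl1 ρ (Real.arctan (v ω))) Z ≤ Real.log 17 := by
    have h := hc_fl1_apx P ρ 1 (fun ω => Real.arctan (v ω)) Z (by
      intro ω ω' _ _ e
      have h1 := fl1_close (z1 ω ω' e).2
      have h2 := abs_arctan_sub (v ω) (v ω')
      push_cast
      linarith)
    refine h.trans (log_le17 ?_ ?_) <;> norm_num
  -- the position at the rounded time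
  have f2 : Stk.hc P (fun ω => fl w (pos (l ω) (qa w (t ω)))) Z ≤ 2 * Real.log 17 := by
    have h := hc_fl_apx P (ι := Fin 2) w 2 (fun ω => pos (l ω) (qa w (t ω))) Z (by
      intro ω ω' p p' e
      rw [Fin.forall_fin_two]
      have a0 := z3 ω ω' e
      have a1 := z4 ω ω' e
      have hq := hqv ω' p'
      push_cast
      refine ⟨by linarith, ?_⟩
      have e1 : pos (l ω) (qa w (t ω)) 1 - pos (l ω') (qa w (t ω')) 1 =
          ((pos (l ω) (qa w (t ω)) 1 - qa ρ (v ω') * pos (l ω) (qa w (t ω)) 0) -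
          (pos (l ω') (qa w (t ω')) 1 - qa ρ (v ω') * pos (l ω') (qa w (t ω')) 0)) +
          qa ρ (v ω') * (pos (l ω) (qa w (t ω)) 0 - pos (l ω') (qa w (t ω')) 0) := by ring
      rw [e1]
      refine (abs_add_le _ _).trans ?_
      have a2 : |qa ρ (v ω') * (pos (l ω) (qa w (t ω)) 0 - pos (l ω') (qa w (t ω')) 0)| ≤
          1 * (1 / 2 : ℝ) ^ w := by
        rw [abs_mul]
        exact mul_le_mul hq a0 (abs_nonneg _) zero_le_one
      have a3 : (1 / 2 : ℝ) ^ w * (1 / 2 : ℝ) ^ ρ ≤ (1 / 2 : ℝ) ^ w * 1 :=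
        mul_le_mul_of_nonneg_left hρ2 hiw.le
      linarith)
    refine h.trans (le_of_eq_of_le (by rw [Fintype.card_fin]) ?_)
    have := log_le17 (x := 2 * ((2 : ℕ) : ℝ) + 3) (by norm_num) (by norm_num)
    push_cast at this ⊢
    linarith
  set F := fun ω => (fl1 ρ (Real.arctan (v ω)), fl w (pos (l ω) (qa w (t ω)))) with hF
  set Y := fun ω => (F ω, Z ω) with hY
  have f3 : Stk.hc P F Z ≤ 3 * Real.log 17 := by
    have := hc_pair_le P (fun ω => fl1 ρ (Real.arctan (v ω)))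
      (fun ω => fl w (pos (l ω) (qa w (t ω)))) Z
    linarith
  -- the position at the time
  have g1 : Stk.hc P (fun ω => fl w (pos (l ω) (t ω))) Y ≤ 2 * Real.log 17 := by
    have h := hc_fl_apx P (ι := Fin 2) w 3 (fun ω => pos (l ω) (t ω)) Y (by
      intro ω ω' p p' e i
      have a0 := fl_close (congrArg (fun q => q.1.2) e :
        fl w (pos (l ω) (qa w (t ω))) = fl w (pos (l ω') (qa w (t ω')))) i
      have b : ∀ ω, 0 < P.w ω → |pos (l ω) (t ω) i - pos (l ω) (qa w (t ω)) i| ≤ (1 / 2 : ℝ) ^ w := by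
        intro ω hω
        rw [pos_sub, abs_mul]
        calc |t ω - qa w (t ω)| * |(l ω).2 i| ≤ (1 / 2 : ℝ) ^ w * 1 :=
              mul_le_mul (abs_sub_qa w (t ω)) ((hg ω hω).1.2 i) (abs_nonneg _) hiw.le
          _ = _ := mul_one _
      have b1 := b ω p
      have b2 := b ω' p'
      have e1 : pos (l ω) (t ω) i - pos (l ω') (t ω') i =
          (pos (l ω) (t ω) i - pos (l ω) (qa w (t ω)) i) +
          (pos (l ω) (qa w (t ω)) i - pos (l ω') (qa w (t ω')) i) -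
          (pos (l ω') (t ω') i - pos (l ω') (qa w (t ω')) i) := by ring
      rw [e1]
      have c1 := abs_sub ((pos (l ω) (t ω) i - pos (l ω) (qa w (t ω)) i) +
          (pos (l ω) (qa w (t ω)) i - pos (l ω') (qa w (t ω')) i))
          (pos (l ω') (t ω') i - pos (l ω') (qa w (t ω')) i)
      have c2 := abs_add_le (pos (l ω) (t ω) i - pos (l ω) (qa w (t ω)) i)
          (pos (l ω) (qa w (t ω)) i - pos (l ω') (qa w (t ω')) i)
      push_cast
      linarith)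
    refine h.trans (le_of_eq_of_le (by rw [Fintype.card_fin]) ?_)
    have := log_le17 (x := 2 * ((3 : ℕ) : ℝ) + 3) (by norm_num) (by norm_num)
    push_cast at this ⊢
    linarith
  -- the position in the ball in the frame
  have g2 : Stk.hc P (fun ω => fkj 0 ρ (co (qa ρ (Real.arctan (v ω))) (blF w l t ω).1)) Y ≤
      2 * Real.log 17 := by
    refine co_apx P ρ v (fun ω => (blF w l t ω).1) Y hv ?_ ?_
    · intro ω _ j
      show |Int.fract _| ≤ 1
      rw [abs_of_nonneg (Int.fract_nonneg _)]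
      exact (Int.fract_lt_one _).le
    · intro ω ω' p p' e
      have eZ : Z ω = Z ω' := congrArg (fun q => q.2) e
      refine ⟨(z1 ω ω' eZ).2, congrArg (fun q => q.1.1) e, ?_⟩
      have e0 : ∀ i, fl w (pos (l ω) (qa w (t ω))) i = fl w (pos (l ω') (qa w (t ω'))) i :=
        fun i => congrFun (congrArg (fun q => q.1.2) e) i
      have hfr : ∀ ω i, (blF w l t ω).1 i =
          2 ^ w * pos (l ω) (qa w (t ω)) i - (fl w (pos (l ω) (qa w (t ω))) i : ℝ) := fun ω i => rfl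
      have a1 := z4 ω ω' eZ
      show |((blF w l t ω).1 1 - qa ρ (v ω') * (blF w l t ω).1 0) -
        ((blF w l t ω').1 1 - qa ρ (v ω') * (blF w l t ω').1 0)| ≤ (1 / 2 : ℝ) ^ ρ
      rw [hfr, hfr, hfr, hfr, e0 0, e0 1]
      have e1 : (2 ^ w * pos (l ω) (qa w (t ω)) 1 - (fl w (pos (l ω') (qa w (t ω'))) 1 : ℝ) -
          qa ρ (v ω') * (2 ^ w * pos (l ω) (qa w (t ω)) 0 - (fl w (pos (l ω') (qa w (t ω'))) 0 : ℝ))) -
          (2 ^ w * pos (l ω') (qa w (t ω')) 1 - (fl w (pos (l ω') (qa w (t ω'))) 1 : ℝ) -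
          qa ρ (v ω') * (2 ^ w * pos (l ω') (qa w (t ω')) 0 -
            (fl w (pos (l ω') (qa w (t ω'))) 0 : ℝ))) =
          2 ^ w * ((pos (l ω) (qa w (t ω)) 1 - qa ρ (v ω') * pos (l ω) (qa w (t ω)) 0) -
          (pos (l ω') (qa w (t ω')) 1 - qa ρ (v ω') * pos (l ω') (qa w (t ω')) 0)) := by ring
      rw [e1, abs_mul, abs_of_pos hw]
      calc _ ≤ 2 ^ w * ((1 / 2 : ℝ) ^ w * (1 / 2 : ℝ) ^ ρ) := mul_le_mul_of_nonneg_left a1 hw.le
        _ = ((1 / 2 : ℝ) ^ w * 2 ^ w) * (1 / 2 : ℝ) ^ ρ := by ring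
        _ = _ := by rw [ew, one_mul]
  -- the direction in the frame
  have g3 : Stk.hc P (fun ω => fkj 0 ρ (co (qa ρ (Real.arctan (v ω))) (l ω).2)) Y ≤
      2 * Real.log 17 := by
    refine co_apx P ρ v (fun ω => (l ω).2) Y hv (fun ω hω j => (hg ω hω).1.2 j) ?_
    intro ω ω' p p' e
    have eZ : Z ω = Z ω' := congrArg (fun q => q.2) e
    exact ⟨(z1 ω ω' eZ).2, congrArg (fun q => q.1.1) e, z2 ω ω' eZ⟩
  set G := fun ω => (fl w (pos (l ω) (t ω)),
    (fkj 0 ρ (co (qa ρ (Real.arctan (v ω))) (blF w l t ω).1),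
      fkj 0 ρ (co (qa ρ (Real.arctan (v ω))) (l ω).2))) with hG
  have g4 : Stk.hc P G Y ≤ 6 * Real.log 17 := by
    have k1 := hc_pair_le P (fun ω => fl w (pos (l ω) (t ω))) (fun ω =>
      (fkj 0 ρ (co (qa ρ (Real.arctan (v ω))) (blF w l t ω).1),
      fkj 0 ρ (co (qa ρ (Real.arctan (v ω))) (l ω).2))) Y
    have k2 := hc_pair_le P (fun ω => fkj 0 ρ (co (qa ρ (Real.arctan (v ω))) (blF w l t ω).1))
      (fun ω => fkj 0 ρ (co (qa ρ (Real.arctan (v ω))) (l ω).2)) Y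
    linarith
  have x1 := hc_via P (fun ω => ((sbx w ρ l t v).lab ω, (pq w (ptF l t ω), C ω))) F Z
  have x2 := hc_via P (fun ω => ((sbx w ρ l t v).lab ω, (pq w (ptF l t ω), C ω))) G Y
  have x3 : Stk.hc P (fun ω => ((sbx w ρ l t v).lab ω, (pq w (ptF l t ω), C ω)))
      (fun ω => (G ω, Y ω)) = 0 := by
    apply Stk.hc_zero
    intro ω ω' _ _ e
    have e1 : fl w (pos (l ω) (t ω)) = fl w (pos (l ω') (t ω')) := congrArg (fun q => q.1.1) e
    have e2 : fkj 0 ρ (co (qa ρ (Real.arctan (v ω))) (blF w l t ω).1) =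
      fkj 0 ρ (co (qa ρ (Real.arctan (v ω'))) (blF w l t ω').1) := congrArg (fun q => q.1.2.1) e
    have e3 : fkj 0 ρ (co (qa ρ (Real.arctan (v ω))) (l ω).2) =
      fkj 0 ρ (co (qa ρ (Real.arctan (v ω'))) (l ω').2) := congrArg (fun q => q.1.2.2) e
    have e4 : fl1 ρ (Real.arctan (v ω)) = fl1 ρ (Real.arctan (v ω')) :=
      congrArg (fun q => q.2.1.1) e
    have eZ : Z ω = Z ω' := congrArg (fun q => q.2.2) e
    have eC : C ω = C ω' := congrArg Prod.snd eZ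
    refine Prod.ext ?_ (Prod.ext (Prod.ext (z1 ω ω' eZ).1 e1) eC)
    exact Prod.ext rfl (Prod.ext rfl (Prod.ext e4 (Prod.ext e2 e3)))
  linarith

/-- **last window**, given `C` : the state has the precision `n - a - r ≤ (1 + δ) (h - a)` -/
theorem tail_gen {N lam β δ : ℝ} (hl : 0 ≤ lam ∧ lam ≤ 1) (hN : 0 ≤ N)
    (hJ : JFK N lam (1 + δ) β) {ε : ℝ} (hε : 0 < ε) :
    ∃ c : ℝ, 0 ≤ c ∧ ∀ (Ω : Type) [Fintype Ω] (γ : Type) (Q : Law Ω) (l : Ω → Ln) (t v : Ω → ℝ)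
      (n h q a r : ℕ) (C : Ω → γ), GoodF Q l t → (∀ ω, 0 < Q.w ω → |v ω| ≤ 1) → n = h + q →
      a ≤ h → r ≤ q → ((q : ℝ) - r) ≤ δ * ((h : ℝ) - a) →
      Stk.hc Q (fun ω => tb n (l ω)) (fun ω => (Inc.cel l t v h q ω, C ω)) -
          (1 + lam) * q * Real.log 2 ≤
        Pf.EF Q lam n a r l t v C + (β + ε) * ((h : ℝ) - a) * Real.log 2 +
          N * (((h : ℝ) - a) * Real.log 2 -
            Stk.hc Q (fun ω => fl1 h (t ω)) (fun ω => (tb n (l ω), (cell a r l t v ω, C ω)))) + c := by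
  obtain ⟨c, hc⟩ := jfk_cond hl hJ hε
  refine ⟨|c| + (Real.log (((2 * 4 + 1) ^ 4 : ℕ) : ℝ) + Real.log 2 * (2 * (0 : ℕ)) + 2 * Real.log 9) +
    (9 * Real.log 17 + 12 * Real.log 13) + N * (4 * Real.log 13), ?_, ?_⟩
  · have h1 : 0 ≤ Real.log 17 := Real.log_nonneg (by norm_num)
    have h2 : 0 ≤ Real.log 13 := Real.log_nonneg (by norm_num)
    have h3 : 0 ≤ Real.log 9 := Real.log_nonneg (by norm_num)
    have h4 : 0 ≤ Real.log (((2 * 4 + 1) ^ 4 : ℕ) : ℝ) := Real.log_nonneg (by norm_num)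
    have h5 := abs_nonneg c
    have h6 := mul_nonneg hN (mul_nonneg (by norm_num : (0:ℝ) ≤ 4) h2)
    push_cast at h4 ⊢
    linarith
  intro Ω _ γ Q l t v n h q a r C hg hv hn ha hr hδ
  obtain ⟨w, rfl⟩ := Nat.exists_eq_add_of_le ha
  obtain ⟨ρ, rfl⟩ := Nat.exists_eq_add_of_le hr
  subst hn
  have hlog : 0 < Real.log 2 := Real.log_pos (by norm_num)
  have h13 : 0 ≤ Real.log 13 := log13_nonneg
  have hprec : a + w + (r + ρ) - a - r = w + ρ := by omega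
  set n := a + w + (r + ρ) with hn
  set l' := lnS a r l t v with hl'
  set t' := tfF a t with ht'
  set v' := tfF r v with hv'
  set C' := fun ω => (cell a r l t v ω, C ω) with hC'
  have hg' : GoodF Q l' t' := fun ω _ => ⟨st1_ok a r (l ω) (t ω) (v ω), Int.fract_nonneg _,
    (Int.fract_lt_one _).le⟩
  have hv1 : ∀ ω, 0 < Q.w ω → 0 ≤ v' ω ∧ v' ω ≤ 1 := fun ω _ =>
    ⟨Int.fract_nonneg _, (Int.fract_lt_one _).le⟩
  -- the inequality at the inner configuration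
  have k1 := hc Ω _ Q l' t' w (w + ρ) C' hg' (Nat.le_add_right w ρ) (by
    push_cast at hδ ⊢
    linarith)
  -- the slab is a competitor
  have k2 := Lam.valX_le hl Q (Nat.le_add_right w ρ) hg' C' (P' := Q) (π := id)
    (W := sbx w ρ l' t' v') (c := 1) (m := 0) (by norm_num) (Stk.pr_id Q) (by
      intro ω hω
      rw [Nat.add_sub_cancel_left]
      exact sbx_sub w ρ l' t' v' (hv1 ω hω))
  have k3 : Lam.valX lam Q w (w + ρ) (fun ω => l' (id ω)) (fun ω => t' (id ω)) (sbx w ρ l' t' v')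
      (fun ω => C' (id ω)) = Stk.hc Q (fun ω => tb (w + ρ) (l' ω))
        (fun ω => ((sbx w ρ l' t' v').lab ω, (pq w (ptF l' t' ω), C' ω))) -
          (1 + lam) * ρ * Real.log 2 := by
    have e1 : Q.ex ((sbx w ρ l' t' v').szl lam) = (1 - lam) * ρ := by
      have e2 : (sbx w ρ l' t' v').szl lam = fun _ => (1 - lam) * (ρ : ℝ) := by
        funext ω
        show (1 + lam) * ((0 : ℕ) : ℝ) + (1 - lam) * (ρ : ℝ) = _
        push_cast
        ring
      rw [e2, Q.ex_const]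
    unfold Lam.valX
    rw [e1]
    push_cast
    simp only [id]
    ring
  rw [k3] at k2
  -- the deficit
  have k4 := DF_state Q (n := n) (a := a) (r := r) (w := w) (by omega) hg hv C
  rw [hprec] at k4
  -- the entropy
  set Zc := fun ω => (Inc.cel l t v (a + w) (r + ρ) ω, C ω) with hZc
  have m1 : Stk.hc Q (fun ω => (cell w ρ l' t' v' ω, C' ω)) Zc ≤ 4 * Real.log 13 := by
    refine (Stk.hc_mono_right Q _ ?_).trans (hc_inner Q a w r ρ l t v C)
    intro ω ω' _ _ e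
    have eC : C ω = C ω' := congrArg Prod.snd e
    exact Prod.ext (cell_of_cel l t v (a + w) (r + ρ) (congrArg Prod.fst e)) eC
  have m2 : Stk.hc Q C' Zc ≤ 4 * Real.log 13 := by
    refine (Stk.hc_mono_left Q ?_).trans m1
    intro ω ω' _ _ e
    have e1 : (cell w ρ l' t' v' ω, C' ω) = (cell w ρ l' t' v' ω', C' ω') := congrArg Prod.fst e
    exact congrArg Prod.snd e1
  have m3 : Stk.hc Q (fun ω => ((sbx w ρ l' t' v').lab ω, (pq w (ptF l' t' ω), C' ω))) Zc ≤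
      9 * Real.log 17 + 4 * Real.log 13 := by
    have a1 := hc_via Q (fun ω => ((sbx w ρ l' t' v').lab ω, (pq w (ptF l' t' ω), C' ω)))
      (fun ω => (cell w ρ l' t' v' ω, C' ω)) Zc
    have a2 := lab_cell Q w ρ hg' hv1 C'
    have a3 : Stk.hc Q (fun ω => ((sbx w ρ l' t' v').lab ω, (pq w (ptF l' t' ω), C' ω)))
        (fun ω => ((cell w ρ l' t' v' ω, C' ω), Zc ω)) ≤
        Stk.hc Q (fun ω => ((sbx w ρ l' t' v').lab ω, (pq w (ptF l' t' ω), C' ω)))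
        (fun ω => (cell w ρ l' t' v' ω, C' ω)) :=
      Stk.hc_mono_right Q _ fun ω ω' _ _ e => congrArg Prod.fst e
    linarith
  have m4 := hc_via Q (fun ω => tb n (l ω)) (fun ω => tb (w + ρ) (l' ω)) Zc
  have m5 := hc_cmp Q (fun ω => tb n (l ω)) (fun ω => tb n (l ω))
    (fun ω => (tb (w + ρ) (l' ω), Zc ω)) (fun ω => (tb (w + ρ) (l' ω), C' ω))
  have m6 : Stk.hc Q (fun ω => tb n (l ω))
      (fun ω => (tb n (l ω), (tb (w + ρ) (l' ω), Zc ω))) = 0 :=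
    Stk.hc_zero Q fun _ _ _ _ e => congrArg Prod.fst e
  have m7 : Stk.hc Q (fun ω => (tb (w + ρ) (l' ω), C' ω)) (fun ω => (tb (w + ρ) (l' ω), Zc ω)) ≤
      4 * Real.log 13 := by
    have a1 := hc_via Q (fun ω => (tb (w + ρ) (l' ω), C' ω)) C' (fun ω => (tb (w + ρ) (l' ω), Zc ω))
    have a2 : Stk.hc Q (fun ω => (tb (w + ρ) (l' ω), C' ω))
        (fun ω => (C' ω, (tb (w + ρ) (l' ω), Zc ω))) = 0 := by
      apply Stk.hc_zero
      intro ω ω' _ _ e
      have e1 : tb (w + ρ) (l' ω) = tb (w + ρ) (l' ω') := congrArg (fun q => q.2.1) e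
      have e2 : C' ω = C' ω' := congrArg Prod.fst e
      exact Prod.ext e1 e2
    have a3 : Stk.hc Q C' (fun ω => (tb (w + ρ) (l' ω), Zc ω)) ≤ Stk.hc Q C' Zc :=
      Stk.hc_mono_right Q _ fun ω ω' _ _ e => congrArg Prod.snd e
    linarith
  have m8 := hc_cmp Q (fun ω => tb (w + ρ) (l' ω)) (fun ω => tb (w + ρ) (l' ω)) Zc
    (fun ω => ((sbx w ρ l' t' v').lab ω, (pq w (ptF l' t' ω), C' ω)))
  have m9 : Stk.hc Q (fun ω => tb (w + ρ) (l' ω)) (fun ω => (tb (w + ρ) (l' ω), Zc ω)) = 0 :=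
    Stk.hc_zero Q fun _ _ _ _ e => congrArg Prod.fst e
  have m10 : RF Q n a r l t v C = Stk.hc Q (fun ω => tb n (l ω))
      (fun ω => (tb (w + ρ) (l' ω), C' ω)) := by
    unfold RF
    rw [hprec]
  have m11 : Pf.EF Q lam n a r l t v C = excFl lam Q (tbx (w + ρ) l') C' +
      Stk.hc Q (fun ω => tb n (l ω)) (fun ω => (tb (w + ρ) (l' ω), C' ω)) -
      (1 + lam) * r * Real.log 2 := by
    unfold Pf.EF
    rw [hprec, m10]
  have m12 : N * DF Q w (w + ρ) l' t' C' ≤ N * (w * Real.log 2 -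
      Stk.hc Q (fun ω => fl1 (a + w) (t ω)) (fun ω => (tb n (l ω), C' ω)) + 4 * Real.log 13) :=
    mul_le_mul_of_nonneg_left k4 hN
  have m13 := le_abs_self c
  rw [m11]
  have e1 : ((a + w : ℕ) : ℝ) - a = w := by push_cast; ring
  rw [e1]
  show Stk.hc Q (fun ω => tb n (l ω)) Zc - (1 + lam) * ((r + ρ : ℕ) : ℝ) * Real.log 2 ≤
    excFl lam Q (tbx (w + ρ) l') C' +
      Stk.hc Q (fun ω => tb n (l ω)) (fun ω => (tb (w + ρ) (l' ω), C' ω)) -
      (1 + lam) * r * Real.log 2 + (β + ε) * w * Real.log 2 +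
      N * (w * Real.log 2 - Stk.hc Q (fun ω => fl1 (a + w) (t ω)) (fun ω => (tb n (l ω), C' ω))) +
      (|c| + (Real.log (((2 * 4 + 1) ^ 4 : ℕ) : ℝ) + Real.log 2 * (2 * (0 : ℕ)) + 2 * Real.log 9) +
    (9 * Real.log 17 + 12 * Real.log 13) + N * (4 * Real.log 13))
  generalize Stk.hc Q (fun ω => fl1 (a + w) (t ω)) (fun ω => (tb n (l ω), C' ω)) = H1 at *
  generalize Stk.hc Q (fun ω => tb n (l ω)) (fun ω => (tb (w + ρ) (l' ω), C' ω)) = H2 at *
  generalize DF Q w (w + ρ) l' t' C' = H3 at *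
  push_cast at k2 ⊢
  linarith

/-- **last window**, in terms of the state -/
theorem tail_EF {N lam β δ : ℝ} (hl : 0 ≤ lam ∧ lam ≤ 1) (hN : 0 ≤ N)
    (hJ : JFK N lam (1 + δ) β) {ε : ℝ} (hε : 0 < ε) :
    ∃ c : ℝ, 0 ≤ c ∧ ∀ (Ω : Type) [Fintype Ω] (K : ℝ) (Q : Law Ω) (l : Ω → Ln) (t v : Ω → ℝ)
      (n h q : ℕ), Inc.Nd K Q l t v n h q → ∀ a r : ℕ, a ≤ h → r ≤ q →
      ((q : ℝ) - r) ≤ δ * ((h : ℝ) - a) →
      Inc.valE lam Q l t v n h q ≤
        Pf.EF Q lam n a r l t v (fun _ => ()) + (β + ε) * ((h : ℝ) - a) * Real.log 2 +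
          N * (((h : ℝ) - a) * Real.log 2 -
            Stk.hc Q (fun ω => fl1 h (t ω)) (fun ω => (tb n (l ω), Inc.st t v a r ω))) + c := by
  obtain ⟨c, hc0, hc⟩ := tail_gen hl hN hJ hε
  refine ⟨c, hc0, ?_⟩
  intro Ω _ K Q l t v n h q hd a r ha hr hδ
  have k1 := hc Ω Unit Q l t v n h q a r (fun _ => ()) hd.good hd.sl hd.nq ha hr hδ
  have k2 : Stk.hc Q (fun ω => tb n (l ω)) (Inc.cel l t v h q) ≤
      Stk.hc Q (fun ω => tb n (l ω)) (fun ω => (Inc.cel l t v h q ω, ())) :=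
    Stk.hc_mono_right Q _ fun ω ω' _ _ e => Prod.ext e rfl
  have k3 : Stk.hc Q (fun ω => fl1 h (t ω)) (fun ω => (tb n (l ω), Inc.st t v a r ω)) ≤
      Stk.hc Q (fun ω => fl1 h (t ω)) (fun ω => (tb n (l ω), (cell a r l t v ω, ()))) := by
    refine Stk.hc_mono_right Q _ ?_
    intro ω ω' p p' e
    have e1 : tb n (l ω) = tb n (l ω') := congrArg Prod.fst e
    have e2 : fl1 a (t ω) = fl1 a (t ω') := congrArg (fun z => z.2.1) e
    have e3 : fl1 r (v ω) = fl1 r (v ω') := congrArg (fun z => z.2.2) e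
    have e4 : l ω = l ω' := hd.rnd ω ω' p p' e1
    have e5 : cell a r l t v ω = cell a r l t v ω' := by
      show cell1 a r (l ω) (t ω) (v ω) = cell1 a r (l ω') (t ω') (v ω')
      unfold cell1 shv
      rw [e4, e2, e3, qa_congr e2, qa_congr e3]
    exact Prod.ext e1 (Prod.ext e5 rfl)
  have k4 := mul_le_mul_of_nonneg_left k3 hN
  have k5 : (n : ℝ) = h + q := by exact_mod_cast hd.nq
  unfold Inc.valE
  rw [k5]
  linarith

/-- change of the price of the flatness -/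
theorem EF_le_EFH_add {lam κ Λ : ℝ} (hl : 0 ≤ lam) (hκ : 0 ≤ κ) (h1 : lam + κ ≤ 1) (hΛ : 0 ≤ Λ)
    {n a r : ℕ} (h : a + r ≤ n) (l : Ω → Ln) (t v : Ω → ℝ) (C : Ω → γ) :
    Pf.EF P lam n a r l t v C ≤ EFH P (lam + κ) Λ n a r l t v C + κ * n * Real.log 2 := by
  have k1 := Lam.excFl_le_excH_add (N := Λ) hl hκ h1 hΛ (P := P) (n - a - r) (l := lnS a r l t v)
    (C := fun ω => (cell a r l t v ω, C ω)) (lnS_ok' P a r l t v)
  have hlog : 0 ≤ Real.log 2 := Real.log_nonneg (by norm_num)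
  have k2 : ((n - a - r : ℕ) : ℝ) + r ≤ n := by exact_mod_cast (by omega : n - a - r + r ≤ n)
  have k3 := mul_le_mul_of_nonneg_right (mul_le_mul_of_nonneg_left k2 hκ) hlog
  unfold Pf.EF EFH
  linarith

end finite

/-- **TAIL** : the field `tail` of `Inc.Incr` for the functional `EFH` with the price `lam + κ` of the
flatness and any price `Λ` of the entropy of the shape -/
theorem tail_of {N lam β : ℝ} (hN : 2 ≤ N) (h0 : 0 < lam) (h1 : lam ≤ 1) (hβ : lam < β)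
    (hJ : JL N lam β) :
    ∃ δ : ℝ, 0 < δ ∧ δ ≤ 1 ∧ ∀ K ε : ℝ, 0 < ε → ∃ B : ℝ, 0 ≤ B ∧
      ∀ κ Λ : ℝ, 0 ≤ κ → lam + κ ≤ 1 → κ * K ≤ ε / 2 → 0 ≤ Λ →
      ∀ (Ω : Type) [Fintype Ω] (Q : Law Ω) (l : Ω → Ln) (t v : Ω → ℝ) (n h q : ℕ),
        Inc.Nd K Q l t v n h q → ∀ a r : ℕ, a ≤ h → r ≤ q → ((q : ℝ) - r) ≤ δ * ((h : ℝ) - a) →
        Inc.valE lam Q l t v n h q ≤ EFH Q (lam + κ) Λ n a r l t v (fun _ => ()) +
          (β - δ) * ((h : ℝ) - a) * Real.log 2 +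
          N * (((h : ℝ) - a) * Real.log 2 -
            Stk.hc Q (fun ω => fl1 h (t ω)) (fun ω => (tb n (l ω), Inc.st t v a r ω))) +
          ε * h * Real.log 2 + B := by
  obtain ⟨δ, hδ0, hδ1, hK⟩ := pEnd7F N lam β hN h0 h1 hβ hJ
  refine ⟨δ, hδ0, hδ1, ?_⟩
  intro K ε hε
  have hl : 0 ≤ lam ∧ lam ≤ 1 := ⟨h0.le, h1⟩
  have hN0 : 0 ≤ N := by linarith
  obtain ⟨c, hc0, hc⟩ := tail_EF hl hN0 hK (half_pos hε)
  refine ⟨c, hc0, ?_⟩
  intro κ Λ hκ hκ1 hκK hΛ Ω _ Q l t v n h q hd a r ha hr hδ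
  have k1 := hc Ω K Q l t v n h q hd a r ha hr hδ
  have k2 := EF_le_EFH_add Q h0.le hκ hκ1 hΛ (n := n) (a := a) (r := r)
    (by have := hd.nq; omega) l t v (fun _ => ())
  have hlog : 0 < Real.log 2 := Real.log_pos (by norm_num)
  have h3 : (0 : ℝ) ≤ h := Nat.cast_nonneg h
  have h4 : (0 : ℝ) ≤ a := Nat.cast_nonneg a
  have k3 : κ * n * Real.log 2 ≤ ε / 2 * h * Real.log 2 := by
    have e1 : κ * n ≤ κ * (K * h) := mul_le_mul_of_nonneg_left hd.nK hκ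
    have e2 : κ * K * h ≤ ε / 2 * h := mul_le_mul_of_nonneg_right hκK h3
    refine mul_le_mul_of_nonneg_right ?_ hlog.le
    calc κ * n ≤ κ * (K * h) := e1
      _ = κ * K * h := by ring
      _ ≤ _ := e2
  have k4 : ε / 2 * ((h : ℝ) - a) * Real.log 2 ≤ ε / 2 * h * Real.log 2 := by
    refine mul_le_mul_of_nonneg_right ?_ hlog.le
    exact mul_le_mul_of_nonneg_left (by linarith) (by linarith)
  linarith

/-- the field `fin` is the field `tail` at the last state -/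
theorem fin_of {N lam β δ ε B : ℝ} {Ω : Type} [Fintype Ω] {Q : Law Ω} {l : Ω → Ln} {t v : Ω → ℝ}
    {n h q : ℕ} {E : ℕ → ℕ → ℝ}
    (ht : ∀ a r : ℕ, a ≤ h → r ≤ q → ((q : ℝ) - r) ≤ δ * ((h : ℝ) - a) →
      Inc.valE lam Q l t v n h q ≤ E a r + (β - δ) * ((h : ℝ) - a) * Real.log 2 +
        N * (((h : ℝ) - a) * Real.log 2 -
          Stk.hc Q (fun ω => fl1 h (t ω)) (fun ω => (tb n (l ω), Inc.st t v a r ω))) +
        ε * h * Real.log 2 + B) :
    Inc.valE lam Q l t v n h q ≤ E h q + ε * h * Real.log 2 + B := by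
  have k1 := ht h q le_rfl le_rfl (by rw [sub_self, sub_self, mul_zero])
  have k2 : Stk.hc Q (fun ω => fl1 h (t ω)) (fun ω => (tb n (l ω), Inc.st t v h q ω)) = 0 :=
    Stk.hc_zero Q fun ω ω' _ _ e => congrArg (fun z => z.2.1) e
  rw [k2, sub_self] at k1
  linarith

end Vale.Agent.P127.U.EndWin
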