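import Vale.Agent.P127.U.Lam.Inc
import Vale.Agent.P127.U.Lam.EndWin

/-!
# P127 / U / Lam : `PTailH` (helper611)
-/

set_option autoImplicit false

namespace Vale.Agent.P127.U.EndWin

open Filter Topology Vale.Agent.P127 Vale.Agent.P127.Stk Vale.Agent.P127.U Vale.Agent.P127.U.Apx
  Vale.Agent.P127.U.Pf Sys

/-- the field `tail` of `Inc.Incr` for the functional `EFH` -/
theorem pTailH : Inc.PTailH := by
  intro N lam β hN h0 h1 hβ _ _ hJ
  obtain ⟨δ, hδ0, hδ1, hK⟩ := pEnd7F N lam β hN h0 h1.le hβ hJ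
  refine ⟨δ, hδ0, ?_⟩
  intro K Λ κ ε hΛ hκ hκ1 hε
  have hl : 0 ≤ lam ∧ lam ≤ 1 := ⟨h0.le, h1.le⟩
  have hN0 : 0 ≤ N := by linarith
  obtain ⟨c, hc0, hc⟩ := tail_EF hl hN0 hK hε
  refine ⟨c, ?_⟩
  intro Ω _ Q l t v n h q hd a r ha hr hδ
  have k1 := hc Ω K Q l t v n h q hd a r ha hr hδ
  have k2 := EF_le_EFH_add Q h0.le hκ.le hκ1 hΛ (n := n) (a := a) (r := r)
    (by have := hd.nq; omega) l t v (fun _ => ())
  have hlog : 0 < Real.log 2 := Real.log_pos (by norm_num)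
  have h3 : (0 : ℝ) ≤ h := Nat.cast_nonneg h
  have h4 : (0 : ℝ) ≤ a := Nat.cast_nonneg a
  have k3 : κ * n * Real.log 2 ≤ κ * |K| * h * Real.log 2 := by
    have e1 : (n : ℝ) ≤ |K| * h :=
      hd.nK.trans (mul_le_mul_of_nonneg_right (le_abs_self K) h3)
    have e2 : κ * n ≤ κ * (|K| * h) := mul_le_mul_of_nonneg_left e1 hκ.le
    refine mul_le_mul_of_nonneg_right ?_ hlog.le
    calc κ * n ≤ κ * (|K| * h) := e2
      _ = _ := by ring
  have k4 : ε * ((h : ℝ) - a) * Real.log 2 ≤ ε * h * Real.log 2 := by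
    refine mul_le_mul_of_nonneg_right ?_ hlog.le
    exact mul_le_mul_of_nonneg_left (by linarith) hε.le
  linarith

/-- **INC** from the inequality for labels of fixed shape and `lip` -/
theorem pInc_of' (hF : PFix) (hL : Inc.PLipH) : Inc.PInc := Inc.pInc_of hF hL

end Vale.Agent.P127.U.EndWin
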