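import Vale.Agent.P127.U.Lam.NormF

/-!
# P127 / U / Lam : normalisation of the extremal system (helper119)

`pNorm : PNorm` : an extremal system gives an extremal system with an end label of shape `(0, q)`, precision
`L + q`, direction within `π / 4` of the first axis, and rounded lines.
-/

set_option autoImplicit false

namespace Vale.Agent.P127.U

open Filter Topology Vale.Agent.P127 Vale.Agent.P127.Stk Sys

namespace Norm

open JSB Lam Lam.Ball

theorem exists_supp {Ω : Type} [Fintype Ω] (P : Law Ω) : ∃ ω, 0 < P.w ω := by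
  by_contra h
  push Not at h
  have h1 : ∑ ω, P.w ω = 1 := P.sum_one
  have h2 : ∑ ω, P.w ω ≤ 0 := Finset.sum_nonpos fun ω _ => h ω
  linarith

/-- **normalisation** -/
theorem pNorm : PNorm := by
  intro N lam β hN h0 hlam1 _ _ _ _ S n l t hx
  have hlam : 0 ≤ lam ∧ lam ≤ 1 := ⟨h0.le, hlam1⟩
  have hN0 : 0 ≤ N := by linarith
  obtain ⟨S1, l1, t1, W1, hn1, hle1, hl1, ht1, hW1, hs1, hv1⟩ := start hlam hx
  obtain ⟨S2, l2, t2, W2, k, j, b, hn2, hle2, hl2, ht2, hW2, hs2, hsh2, hb2, hv2⟩ :=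
    shape_const hlam hN0 hn1 hle1 hl1 ht1 hW1 hs1 hv1
  -- exact inequalities for the exponents
  set j' : ℕ → ℕ := fun i => min (j i) (n i - S2.L i) with hj'
  set k' : ℕ → ℕ := fun i => min (k i) (j' i) with hk'
  have hsh : Shape W2 k' j' := by
    obtain ⟨c, hc⟩ := hs2
    filter_upwards [hsh2, hW2.1, hc] with i g1 g2 g3 ω hω
    obtain ⟨a1, a2⟩ := g1 ω hω
    have a3 : (W2 i).k ω ≤ (W2 i).j ω := (g2 ω hω).2.2
    obtain ⟨-, -, -, -, a4, -⟩ := g3 ω hω
    have a5 : (W2 i).j ω ≤ n i - S2.L i := a4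
    have a6 : j' i = j i := by simp only [hj']; omega
    have a7 : k' i = k i := by simp only [hk', a6]; omega
    rw [a6, a7]
    exact ⟨a1, a2⟩
  have hkj : ∀ i, k' i ≤ j' i := fun i => min_le_right _ _
  have hj : ∀ i, S2.L i + j' i ≤ n i := fun i => by
    have h1 : j' i ≤ n i - S2.L i := min_le_right _ _
    have h2 := hle2 i
    omega
  have hWl : S2.Ae fun i ω => (W2 i).l ω = bl S2.L l2 t2 i ω := by
    obtain ⟨c, hc⟩ := hs2
    filter_upwards [hc] with i g ω hω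
    exact (g ω hω).1
  -- blow up
  obtain ⟨S3, l3, t3, θ3, hL3, hn3, hl3, ht3, hp3, hv3⟩ :=
    zoom hlam hN0 hn2 hkj hj hl2 ht2 hW2 hWl hsh hv2
  have hθ3 : S3.Ae fun i ω => |θ3 i ω| ≤ 4 := hp3 (fun _ x => |x| ≤ 4) (by
    filter_upwards [hW2.1] with i hi ω hω
    exact (hi ω hω).2.1)
  have hb3 : S3.Ae fun i ω => AOk (b i) (θ3 i ω) := hp3 (fun i x => AOk (b i) x) (by
    filter_upwards [hb2] with i hi ω hω
    exact hi ω hω)
  set q : ℕ → ℕ := fun i => j' i - k' i with hq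
  have hbq : S3.Bd q := bd_le hn3 fun i => by
    have := hj i
    simp only [hq]
    omega
  -- coarse precision
  set m : ℕ → ℕ := fun i => S3.L i + q i with hm
  have hmn : ∀ i, m i ≤ n i - k' i := fun i => by
    have h1 := hj i
    have h2 := hkj i
    have h3 : S3.L i = S2.L i := congrFun hL3 i
    simp only [hm, hq]
    omega
  have hbm : S3.Bd m := bd_le hn3 hmn
  have hW3 : BxA (sbox q θ3 l3 t3) := sbox_ok hbq hθ3 hl3 t3
  have hv4 := coarse hlam hN0 hn3 hmn hl3 ht3 hW3 hv3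
  -- direction
  have hv5 := turnS (b := b) hlam hN0 hbm hbq hl3 ht3 hθ3 hb3 hv4
  set l5 : S3.RV Ln := fun i ω => tln (b i) (l3 i ω) with hl5def
  set θ5 : S3.RV ℝ := fun i ω => tang (b i) (θ3 i ω) with hθ5def
  have hl5 : LnA l5 := by
    filter_upwards [hl3] with i hi ω hω
    show LnOk (tln (b i) (l3 i ω))
    cases b i
    · exact Swp.swl_ok (hi ω hω)
    · exact hi ω hω
  have hang5 : S3.Ae fun i ω => |θ5 i ω| ≤ Real.pi / 4 := by
    filter_upwards [hb3] with i hi ω hω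
    exact tang_le (hi ω hω)
  have hθ5 : S3.Ae fun i ω => |θ5 i ω| ≤ 4 := by
    filter_upwards [hb3] with i hi ω hω
    exact tang_le4 (hi ω hω)
  -- rounding
  have hv6 := roundS hlam hN0 hbm hbq (fun i => le_rfl) hl5 ht3 hθ5 hv5
  set l6 : S3.RV Ln := fun i ω => rnd (m i) (l5 i ω) with hl6def
  have hl6 : LnA l6 := by
    filter_upwards [hl5] with i hi ω hω
    exact rnd_ok (hi ω hω)
  have hW6 : BxA (sbox q θ5 l6 t3) := sbox_ok hbq hθ5 hl6 t3
  have hsh6 : Shape (sbox q θ5 l6 t3) (fun _ => 0) q :=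
    Eventually.of_forall fun i ω _ => ⟨rfl, rfl⟩
  refine ⟨S3, m, l6, t3, sbox q θ5 l6 t3, q, hbm, fun i => rfl, hl6, ht3, ?_, hW6, hsh6, hang5, ?_, ?_⟩
  · refine Eventually.of_forall fun i ω ω' _ _ e => ?_
    show rnd (m i) (l5 i ω) = rnd (m i) (l5 i ω')
    have e1 : tb (m i) (rnd (m i) (l5 i ω)) = tb (m i) (rnd (m i) (l5 i ω')) := e
    rw [tb_rnd, tb_rnd] at e1
    exact rnd_congr e1
  · exact sbox_sub (fun i => le_rfl) hθ5 l6 t3
  · rw [valS_eq Bd_L hbm hl6 t3 hlam hW6, av_shape (bd_le hbm fun _ => Nat.zero_le _) hbq hsh6] at hv6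
    have e1 : S3.nu S3.L = 1 := nu_L
    have e2 : S3.nu (fun _ => 0) = 0 := by
      unfold Sys.nu
      simp only [Nat.cast_zero, zero_div]
      exact ulim_const 0
    have tm : Tame (tbs m l6) := tame_tbs hbm hl6
    have e3 : S3.hc (tbs m l6) (Sys.pr (sbox q θ5 l6 t3).lab
        (Sys.pr (pqs S3.L (pt l6 t3)) (one (S := S3)))) ≤
        S3.hc (tbs m l6) (Sys.pr (sbox q θ5 l6 t3).lab (pqs S3.L (pt l6 t3))) :=
      hc_mono_right tm (Eventually.of_forall fun i ω ω' _ _ e => by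
        simp only [pr_apply, Prod.mk.injEq] at e ⊢
        exact ⟨e.1, e.2.1⟩)
    rw [e1, e2] at hv6
    linarith

end Norm

end Vale.Agent.P127.U
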