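import Vale.Agent.P127.U.Lam.LinkC
import Vale.Agent.P127.U.Mic.Props

/-!
# P127 / U / Lam : values of labels in terms of the cells of the micro part (helper480)

* `box_congr` : `Mic.box C s q` and `cellC s q` are the same information.
* `sat_link` : information of the end cell on the line given the root cell, in terms of labels.
* `root_box` : the root cell gives a lower bound for the penalised excess of the tubes.
* `grow_box` : **GROW** in digits of `y1`: a nearly maximal end label branches at every scale.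
-/

set_option autoImplicit false

namespace Vale.Agent.P127.U.LinkC

open Filter Topology Vale.Agent.P127 Vale.Agent.P127.Stk Sys Apx

section finite

variable {Ω : Type} [Fintype Ω] {γ : Type*}

/-- the path `C` describes the lines `m`, the times `t` and the slopes `tan θ` -/
structure Rep (C : CellD.Pth Ω) (m : Ω → Ln) (t θ : Ω → ℝ) : Prop where
  x1 : ∀ ω, C.x1 ω = (m ω).1 0
  x2 : ∀ ω, C.x2 ω = (m ω).1 1
  y1 : ∀ ω, C.y1 ω = (m ω).2 0
  y2 : ∀ ω, C.y2 ω = (m ω).2 1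
  t : ∀ ω, C.t ω = t ω
  v : ∀ ω, C.v ω = Real.tan (θ ω)

omit [Fintype Ω] in
/-- `Mic.box` and `cellC` are the same information -/
theorem Rep.box_iff {C : CellD.Pth Ω} {m : Ω → Ln} {t θ : Ω → ℝ} (h : Rep C m t θ) (s q : ℕ)
    (ω ω' : Ω) : Mic.box C s q ω = Mic.box C s q ω' ↔
      cellC s q (m ω) (t ω) (Real.tan (θ ω)) = cellC s q (m ω') (t ω') (Real.tan (θ ω')) := by
  unfold Mic.box cellC fN fF fX
  simp only [← qa_eq_rd, h.x1, h.x2, h.y1, h.y2, h.t, h.v, Prod.mk.injEq, and_assoc]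

omit [Fintype Ω] in
theorem Rep.ln_iff {C : CellD.Pth Ω} {m : Ω → Ln} {t θ : Ω → ℝ} (h : Rep C m t θ)
    (ω ω' : Ω) : C.ln ω = C.ln ω' ↔ m ω = m ω' := by
  unfold CellD.Pth.ln
  simp only [h.x1, h.x2, h.y1, h.y2, Prod.mk.injEq]
  constructor
  · rintro ⟨h1, h2, h3, h4⟩
    refine Prod.ext ?_ ?_ <;> funext i <;> fin_cases i <;> assumption
  · intro e
    rw [e]
    exact ⟨rfl, rfl, rfl, rfl⟩

variable {P : Law Ω} {n : ℕ} {l m : Ω → Ln} {t θ : Ω → ℝ} {C : CellD.Pth Ω}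

/-- `cellB 0 0` is a function of the box -/
theorem Rep.cellB_of_box (h : Rep C m t θ) {s q : ℕ} {ω ω' : Ω}
    (e : Mic.box C s q ω = Mic.box C s q ω') :
    cellB s 0 q m t θ ω = cellB s 0 q m t θ ω' := by
  have e1 := (h.box_iff s q ω ω').1 e
  unfold cellB
  have e2 : fl1 0 ((m ω).2 0) = fl1 0 ((m ω').2 0) := congrArg (fun q => q.2.1) e1
  have e3 : fl1 s (fX s (m ω) (t ω)) = fl1 s (fX s (m ω') (t ω')) :=
    congrArg (fun q => q.2.2.2.1) e1
  rw [e1, e2, Nat.add_zero, e3]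

/-- **labels and boxes of the same level have the same value** -/
theorem val_box_le (h : Dat P n l m t θ) (hC : Rep C m t θ) {a r : ℕ} (hn : a + r ≤ n)
    (D : Ω → γ) :
    Stk.hc P (fun ω => tb n (l ω)) (fun ω => (Mic.box C a r ω, D ω)) ≤
      Stk.hc P (fun ω => tb n (l ω)) (fun ω => (U.lab (θ ω) 0 r (blF a l t ω),
        (pq a (ptF l t ω), D ω))) + 9 * Real.log 200 := by
  have h1 := Apx.hc_cmp P (fun ω => tb n (l ω)) (fun ω => tb n (l ω))
    (fun ω => (Mic.box C a r ω, D ω))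
    (fun ω => (U.lab (θ ω) 0 r (blF a l t ω), (pq a (ptF l t ω), D ω)))
  have h2 : Stk.hc P (fun ω => tb n (l ω)) (fun ω => (tb n (l ω), (Mic.box C a r ω, D ω))) = 0 :=
    Stk.hc_zero P fun _ _ _ _ e => congrArg Prod.fst e
  have h3 := lab_le h (Nat.zero_le r) hn (fun ω => (Mic.box C a r ω, D ω))
    fun ω ω' _ _ e => hC.cellB_of_box (congrArg Prod.fst e)
  have h4 := pq_le h (Nat.zero_le r) hn (fun ω => (Mic.box C a r ω, D ω))
    fun ω ω' _ _ e => hC.cellB_of_box (congrArg Prod.fst e)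
  have h5 := Apx.hc_pair_le P (fun ω => U.lab (θ ω) 0 r (blF a l t ω))
    (fun ω => (pq a (ptF l t ω), D ω)) (fun ω => (Mic.box C a r ω, D ω))
  have h6 := Apx.hc_pair_le P (fun ω => pq a (ptF l t ω)) D (fun ω => (Mic.box C a r ω, D ω))
  have h7 : Stk.hc P D (fun ω => (Mic.box C a r ω, D ω)) = 0 :=
    Stk.hc_zero P fun _ _ _ _ e => congrArg Prod.snd e
  linarith

theorem val_lab_le (h : Dat P n l m t θ) (hC : Rep C m t θ) {a r : ℕ} (hn : a + r ≤ n)
    (D : Ω → γ) :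
    Stk.hc P (fun ω => tb n (l ω)) (fun ω => (U.lab (θ ω) 0 r (blF a l t ω),
        (pq a (ptF l t ω), D ω))) ≤
      Stk.hc P (fun ω => tb n (l ω)) (fun ω => (Mic.box C a r ω, D ω)) + 7 * Real.log 200 := by
  set Z := fun ω => (U.lab (θ ω) 0 r (blF a l t ω), (pq a (ptF l t ω), D ω)) with hZ
  have h1 := Apx.hc_cmp P (fun ω => tb n (l ω)) (fun ω => tb n (l ω)) Z
    (fun ω => (Mic.box C a r ω, D ω))
  have h2 : Stk.hc P (fun ω => tb n (l ω)) (fun ω => (tb n (l ω), Z ω)) = 0 :=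
    Stk.hc_zero P fun _ _ _ _ e => congrArg Prod.fst e
  have h3 := cell_le h hn Z fun ω ω' _ _ e =>
    ⟨congrArg Prod.fst e, congrArg (fun q => q.2.1) e⟩
  have h5 := Apx.hc_pair_le P (Mic.box C a r) D Z
  have h7 : Stk.hc P D Z = 0 := Stk.hc_zero P fun _ _ _ _ e => congrArg (fun q => q.2.2) e
  have h8 : Stk.hc P (Mic.box C a r) Z ≤
      Stk.hc P (fun ω => cellC a r (m ω) (t ω) (Real.tan (θ ω))) Z := by
    refine Stk.hc_mono_left P fun ω ω' _ _ e => ?_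
    exact (hC.box_iff a r ω ω').2 (congrArg Prod.fst e)
  linarith

/-- **the root cell** gives a lower bound for the penalised excess -/
theorem root_box {lam : ℝ} (hl : 0 ≤ lam ∧ lam ≤ 1) (h : Dat P n l m t θ) (hC : Rep C m t θ)
    {r : ℕ} (hn : r ≤ n) (D : Ω → γ) :
    Stk.hc P (fun ω => tb n (l ω)) (fun ω => (Mic.box C 0 r ω, D ω)) -
        Real.log 2 * (2 * n - (1 - lam) * r) ≤
      excFl lam P (tbx n l) D + (7 * Real.log 200 + Real.log (((2 * 4 + 1) ^ 4 : ℕ) : ℝ)) := by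
  set W : Bx Ω := ⟨l, θ, fun _ => 0, fun _ => r⟩ with hW
  have hs : ∀ ω, 0 < P.w ω → Sub 1 ((tbx n l).comp id) W ω := by
    intro ω p
    have h1 := (h.ang ω p).trans pi_div_four_le
    refine ⟨rfl, by show |θ ω| ≤ 4; linarith, Nat.zero_le _, Nat.zero_le _, hn, ?_⟩
    have h2 : |Real.sin (0 - θ ω)| ≤ 1 := Real.abs_sin_le_one _
    exact mul_le_mul h2 (hp_anti hn) (by positivity) zero_le_one
  have k1 := Lam.exV_le_excF' hl (C := D) (m := 0) (c := 1) (by norm_num) (Stk.pr_id P) hs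
  have k2 : P.ex (fun ω => (tbx n l).szl lam ω - W.szl lam ω) = 2 * n - (1 - lam) * r := by
    have : (fun ω => (tbx n l).szl lam ω - W.szl lam ω) =
        fun _ => (2 * (n : ℝ) - (1 - lam) * r) := by
      funext ω
      show ((1 + lam) * (n : ℝ) + (1 - lam) * (n : ℝ)) -
        ((1 + lam) * ((0 : ℕ) : ℝ) + (1 - lam) * (r : ℝ)) = _
      push_cast
      ring
    rw [this, P.ex_const]
  have k3 : exVl lam P ((tbx n l).comp id) W (fun ω => D (id ω)) =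
      Stk.hc P (tbx n l).lab (fun ω => (W.lab ω, D ω)) -
        Real.log 2 * (2 * n - (1 - lam) * r) := by
    unfold exVl
    have e : P.ex (fun ω => ((tbx n l).comp id).szl lam ω - W.szl lam ω) =
      P.ex (fun ω => (tbx n l).szl lam ω - W.szl lam ω) := rfl
    rw [e, k2]
    rfl
  rw [k3] at k1
  have k4 : Stk.hc P (fun ω => tb n (l ω)) (fun ω => (W.lab ω, D ω)) ≤
      Stk.hc P (tbx n l).lab (fun ω => (W.lab ω, D ω)) :=
    Stk.hc_mono_left P fun ω ω' _ _ e => LocT.tbx_lab.1 (congrArg Prod.fst e)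
  have h1 := Apx.hc_cmp P (fun ω => tb n (l ω)) (fun ω => tb n (l ω))
    (fun ω => (Mic.box C 0 r ω, D ω)) (fun ω => (W.lab ω, D ω))
  have h2 : Stk.hc P (fun ω => tb n (l ω)) (fun ω => (tb n (l ω), (Mic.box C 0 r ω, D ω))) = 0 :=
    Stk.hc_zero P fun _ _ _ _ e => congrArg Prod.fst e
  have h3 : Stk.hc P W.lab (fun ω => (Mic.box C 0 r ω, D ω)) ≤ 7 * Real.log 200 :=
    root_le h (Nat.zero_le r) hn (fun ω => (Mic.box C 0 r ω, D ω))
      fun ω ω' _ _ e => hC.cellB_of_box (congrArg Prod.fst e)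
  have h5 := Apx.hc_pair_le P W.lab D (fun ω => (Mic.box C 0 r ω, D ω))
  have h7 : Stk.hc P D (fun ω => (Mic.box C 0 r ω, D ω)) = 0 :=
    Stk.hc_zero P fun _ _ _ _ e => congrArg Prod.snd e
  push_cast at k1 ⊢
  linarith

/-- **coarser cells are known from finer cells** up to a bounded number of values -/
theorem cell_mono (P : Law Ω) (m : Ω → Ln) (t v : Ω → ℝ) {a r a' r' : ℕ} (ha : a ≤ a') (hr : r ≤ r')
    (Z : Ω → γ) (hZ : ∀ ω ω', 0 < P.w ω → 0 < P.w ω' → Z ω = Z ω' →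
      cellC a' r' (m ω) (t ω) (v ω) = cellC a' r' (m ω') (t ω') (v ω')) :
    Stk.hc P (fun ω => cellC a r (m ω) (t ω) (v ω)) Z ≤ 3 * Real.log 200 := by
  have key : ∀ ω ω', 0 < P.w ω → 0 < P.w ω' → Z ω = Z ω' →
      fl1 a (t ω) = fl1 a (t ω') ∧ fl1 r (v ω) = fl1 r (v ω') ∧
      fl1 0 ((m ω).2 0) = fl1 0 ((m ω').2 0) ∧
      |fN r (m ω) (v ω) - fN r (m ω') (v ω')| ≤ 2 * (1 / 2 : ℝ) ^ r ∧
      |fX a (m ω) (t ω) - fX a (m ω') (t ω')| ≤ 2 * (1 / 2 : ℝ) ^ a ∧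
      |fF a r (m ω) (t ω) (v ω) - fF a r (m ω') (t ω') (v ω')| ≤ 4 * (1 / 2 : ℝ) ^ (a + r) := by
    intro ω ω' p p' e
    have h1 := hZ ω ω' p p' e
    unfold cellC at h1
    simp only [Prod.mk.injEq] at h1
    obtain ⟨⟨g1, g2⟩, g3, g4, g5, g6⟩ := h1
    have q1 : qa a' (t ω) = qa a' (t ω') := qa_congr g1
    have q2 : qa r' (v ω) = qa r' (v ω') := qa_congr g2
    have f1 := Apx.fl1_of_fl1 ha g1
    have f2 := Apx.fl1_of_fl1 hr g2
    have q3 : qa a (t ω) = qa a (t ω') := qa_congr f1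
    have q4 : qa r (v ω) = qa r (v ω') := qa_congr f2
    have d1 : |qa a' (t ω) - qa a (t ω)| ≤ (1 / 2 : ℝ) ^ a := CellD.rd_sub ha (t ω)
    have d2 : |qa r' (v ω) - qa r (v ω)| ≤ (1 / 2 : ℝ) ^ r := CellD.rd_sub hr (v ω)
    have c3 := Apx.fl1_close g3
    have c4 := Apx.fl1_close g4
    have c5 := Apx.fl1_close g5
    have c6 := Apx.fl1_close g6
    rw [pow_zero] at c3
    unfold fF at c6 ⊢
    unfold fN at c4 ⊢
    unfold fX at c5 c6 ⊢
    rw [← q1] at c5 c6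
    rw [← q2] at c4 c6
    rw [← q3, ← q4]
    set τ' := qa a' (t ω) with hτ'
    set τ := qa a (t ω) with hτ
    set w' := qa r' (v ω) with hw'
    set w := qa r (v ω) with hw
    have hra : (1 / 2 : ℝ) ^ r' ≤ (1 / 2) ^ r := hp_anti hr
    have haa : (1 / 2 : ℝ) ^ a' ≤ (1 / 2) ^ a := hp_anti ha
    have p3 : |(w' - w) * ((m ω).2 0 - (m ω').2 0)| ≤ (1 / 2 : ℝ) ^ r := by
      rw [abs_mul]
      calc _ ≤ (1 / 2 : ℝ) ^ r * 1 := mul_le_mul d2 c3 (abs_nonneg _) (by positivity)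
        _ = _ := mul_one _
    have k4 : |(m ω).2 1 - w * (m ω).2 0 - ((m ω').2 1 - w * (m ω').2 0)| ≤
        2 * (1 / 2 : ℝ) ^ r := by
      have e1 : (m ω).2 1 - w * (m ω).2 0 - ((m ω').2 1 - w * (m ω').2 0) =
          ((m ω).2 1 - w' * (m ω).2 0 - ((m ω').2 1 - w' * (m ω').2 0)) +
            (w' - w) * ((m ω).2 0 - (m ω').2 0) := by ring
      rw [e1]
      refine (abs_add_le _ _).trans ?_
      linarith
    have p5 : |(τ - τ') * ((m ω).2 0 - (m ω').2 0)| ≤ (1 / 2 : ℝ) ^ a := by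
      rw [abs_mul, abs_sub_comm τ τ']
      calc _ ≤ (1 / 2 : ℝ) ^ a * 1 := mul_le_mul d1 c3 (abs_nonneg _) (by positivity)
        _ = _ := mul_one _
    refine ⟨f1, f2, g3, k4, ?_, ?_⟩
    · have e1 : (m ω).1 0 + τ * (m ω).2 0 - ((m ω').1 0 + τ * (m ω').2 0) =
          ((m ω).1 0 + τ' * (m ω).2 0 - ((m ω').1 0 + τ' * (m ω').2 0)) +
            (τ - τ') * ((m ω).2 0 - (m ω').2 0) := by ring
      rw [e1]
      refine (abs_add_le _ _).trans ?_
      linarith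
    · have e1 : (m ω).1 1 + τ * (m ω).2 1 - w * ((m ω).1 0 + τ * (m ω).2 0) -
          ((m ω').1 1 + τ * (m ω').2 1 - w * ((m ω').1 0 + τ * (m ω').2 0)) =
          ((m ω).1 1 + τ' * (m ω).2 1 - w' * ((m ω).1 0 + τ' * (m ω).2 0) -
          ((m ω').1 1 + τ' * (m ω').2 1 - w' * ((m ω').1 0 + τ' * (m ω').2 0))) +
          (w' - w) * ((m ω).1 0 + τ' * (m ω).2 0 - ((m ω').1 0 + τ' * (m ω').2 0)) +
          (τ - τ') * ((m ω).2 1 - w * (m ω).2 0 - ((m ω').2 1 - w * (m ω').2 0)) := by ring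
      have p6 : |(w' - w) * ((m ω).1 0 + τ' * (m ω).2 0 - ((m ω').1 0 + τ' * (m ω').2 0))| ≤
          (1 / 2 : ℝ) ^ (a + r) := by
        rw [abs_mul, pow_add, mul_comm]
        exact mul_le_mul (c5.trans haa) d2 (abs_nonneg _) (by positivity)
      have p7 : |(τ - τ') * ((m ω).2 1 - w * (m ω).2 0 - ((m ω').2 1 - w * (m ω').2 0))| ≤
          2 * (1 / 2 : ℝ) ^ (a + r) := by
        rw [abs_mul, pow_add, abs_sub_comm τ τ']
        calc _ ≤ (1 / 2 : ℝ) ^ a * (2 * (1 / 2) ^ r) :=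
              mul_le_mul d1 k4 (abs_nonneg _) (by positivity)
          _ = _ := by ring
      have p8 : (1 / 2 : ℝ) ^ (a' + r') ≤ (1 / 2) ^ (a + r) := hp_anti (by omega)
      rw [e1]
      refine (abs_add_le _ _).trans ?_
      have := abs_add_le ((m ω).1 1 + τ' * (m ω).2 1 - w' * ((m ω).1 0 + τ' * (m ω).2 0) -
          ((m ω').1 1 + τ' * (m ω').2 1 - w' * ((m ω').1 0 + τ' * (m ω').2 0)))
          ((w' - w) * ((m ω).1 0 + τ' * (m ω).2 0 - ((m ω').1 0 + τ' * (m ω').2 0)))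
      linarith
  have c4 : Stk.hc P (fun ω => fl1 r (fN r (m ω) (v ω))) Z ≤ Real.log 200 :=
    (hc_fl1_apx P r 2 (fun ω => fN r (m ω) (v ω)) Z (by
      intro ω ω' p p' e
      push_cast
      exact (key ω ω' p p' e).2.2.2.1)).trans (log_le_K (by positivity) (by norm_num))
  have c5 : Stk.hc P (fun ω => fl1 a (fX a (m ω) (t ω))) Z ≤ Real.log 200 :=
    (hc_fl1_apx P a 2 (fun ω => fX a (m ω) (t ω)) Z (by
      intro ω ω' p p' e
      push_cast
      exact (key ω ω' p p' e).2.2.2.2.1)).trans (log_le_K (by positivity) (by norm_num))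
  have c6 : Stk.hc P (fun ω => fl1 (a + r) (fF a r (m ω) (t ω) (v ω))) Z ≤ Real.log 200 :=
    (hc_fl1_apx P (a + r) 4 (fun ω => fF a r (m ω) (t ω) (v ω)) Z (by
      intro ω ω' p p' e
      push_cast
      exact (key ω ω' p p' e).2.2.2.2.2)).trans (log_le_K (by positivity) (by norm_num))
  have t6 : Stk.hc P (fun ω => cellC a r (m ω) (t ω) (v ω)) Z ≤
      Stk.hc P (fun ω => (fl1 r (fN r (m ω) (v ω)), (fl1 a (fX a (m ω) (t ω)),
        fl1 (a + r) (fF a r (m ω) (t ω) (v ω))))) Z := by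
    refine Stk.hc_mono_left P fun ω ω' p p' e => ?_
    simp only [Prod.mk.injEq] at e
    obtain ⟨k1, k2, k3, -⟩ := key ω ω' p p' e.2
    show cellC a r (m ω) (t ω) (v ω) = cellC a r (m ω') (t ω') (v ω')
    unfold cellC
    rw [k1, k2, k3, e.1.1, e.1.2.1, e.1.2.2]
  have t7 := hc_pair_le P (fun ω => fl1 r (fN r (m ω) (v ω)))
    (fun ω => (fl1 a (fX a (m ω) (t ω)), fl1 (a + r) (fF a r (m ω) (t ω) (v ω)))) Z
  have t8 := hc_pair_le P (fun ω => fl1 a (fX a (m ω) (t ω)))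
    (fun ω => fl1 (a + r) (fF a r (m ω) (t ω) (v ω))) Z
  linarith

/-- digits of `X1` given the cell -/
theorem x1_le {a b r : ℕ} (Z : Ω → γ)
    (hZ : ∀ ω ω', 0 < P.w ω → 0 < P.w ω' → Z ω = Z ω' →
      cellC a r (m ω) (t ω) (Real.tan (θ ω)) = cellC a r (m ω') (t ω') (Real.tan (θ ω'))) :
    Stk.hc P (fun ω => fl1 (a + b) (fX a (m ω) (t ω))) Z ≤ b * Real.log 2 + Real.log 200 := by
  have h1 := hc_fl1_apx P (a + b) (2 ^ b) (fun ω => fX a (m ω) (t ω)) Z (by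
    intro ω ω' p p' e
    have e1 : fl1 a (fX a (m ω) (t ω)) = fl1 a (fX a (m ω') (t ω')) :=
      congrArg (fun q => q.2.2.2.1) (hZ ω ω' p p' e)
    have e2 := Apx.fl1_close e1
    have e3 : ((2 ^ b : ℕ) : ℝ) * (1 / 2 : ℝ) ^ (a + b) = (1 / 2) ^ a := by
      push_cast
      rw [pow_add, mul_comm ((1 / 2 : ℝ) ^ a), ← mul_assoc, ← mul_pow]
      norm_num
    rw [e3]
    exact e2)
  have h2 : Real.log (2 * ((2 ^ b : ℕ) : ℝ) + 3) ≤ b * Real.log 2 + Real.log 200 := by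
    have e1 : b * Real.log 2 + Real.log 200 = Real.log (2 ^ b * 200) := by
      rw [Real.log_mul (by positivity) (by norm_num), Real.log_pow]
    rw [e1]
    apply Real.log_le_log (by positivity)
    push_cast
    have : (1 : ℝ) ≤ 2 ^ b := one_le_pow₀ (by norm_num)
    nlinarith
  exact h1.trans h2

/-- **GROW in digits of `y1`** : if the end cell is nearly maximal then `y1` branches at the rate `lam` -/
theorem grow_box {lam : ℝ} (hl : 0 ≤ lam ∧ lam ≤ 1) (h : Dat P n l m t θ) (hC : Rep C m t θ)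
    {s q b : ℕ} (hn : s + q ≤ n) (hb : b ≤ q) (D : Ω → γ) {eta : ℝ}
    (hopt : XF lam P s n l t D ≤
      Stk.hc P (fun ω => tb n (l ω)) (fun ω => (Mic.box C s q ω, D ω)) -
        Real.log 2 * (2 * ((n : ℝ) - s) - (1 - lam) * q) + eta) :
    lam * b * Real.log 2 ≤
      Stk.hc P (fun ω => fl1 b (C.y1 ω))
        (fun ω => (fl1 (s + b) (fX s (m ω) (t ω)), (Mic.box C s q ω, D ω))) + eta +
        (10 * Real.log 200 + (Real.log (((2 * 4 + 1) ^ 4 : ℕ) : ℝ) + 2 * Real.log 9)) := by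
  have hsn : s ≤ n := by omega
  set W : Bx Ω := ⟨blF s l t, θ, fun _ => b, fun _ => q⟩ with hW
  have hs : ∀ ω, 0 < P.w ω → Sub 1 ((tbx (n - s) (blF s l t)).comp id) W ω := by
    intro ω p
    have h1 := (h.ang ω p).trans pi_div_four_le
    refine ⟨rfl, by show |θ ω| ≤ 4; linarith, hb, by show b ≤ n - s; omega,
      by show q ≤ n - s; omega, ?_⟩
    have h2 : |Real.sin (0 - θ ω)| ≤ 1 := Real.abs_sin_le_one _
    exact mul_le_mul h2 (hp_anti (by show q ≤ n - s; omega)) (by positivity) zero_le_one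
  have k1 := Lam.valX_le hl P hsn h.good D (m := 0) (c := 1) (by norm_num) (Stk.pr_id P) hs
  have k2 : P.ex (W.szl lam) = (1 + lam) * b + (1 - lam) * q := by
    have : W.szl lam = fun _ => (1 + lam) * (b : ℝ) + (1 - lam) * (q : ℝ) := rfl
    rw [this, P.ex_const]
  have k3 : Lam.valX lam P s n (fun ω => l (id ω)) (fun ω => t (id ω)) W (fun ω => D (id ω)) =
      Stk.hc P (fun ω => tb n (l ω)) (fun ω => (W.lab ω, (pq s (ptF l t ω), D ω))) -
        Real.log 2 * (2 * ((n : ℝ) - s) - ((1 + lam) * b + (1 - lam) * q)) := by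
    unfold Lam.valX
    rw [k2]
    rfl
  rw [k3] at k1
  -- `H(l | box) ≤ H(l | W, pq) + H(W, pq | box)`
  set Z := fun ω => (Mic.box C s q ω, D ω) with hZd
  set Z1 := fun ω => (fl1 (s + b) (fX s (m ω) (t ω)), Z ω) with hZ1
  set Z2 := fun ω => (fl1 b (C.y1 ω), Z1 ω) with hZ2
  have hcell : ∀ ω ω', Z2 ω = Z2 ω' → cellB s b q m t θ ω = cellB s b q m t θ ω' := by
    intro ω ω' e
    have e1 : fl1 b (C.y1 ω) = fl1 b (C.y1 ω') := congrArg Prod.fst e
    have e2 : fl1 (s + b) (fX s (m ω) (t ω)) = fl1 (s + b) (fX s (m ω') (t ω')) :=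
      congrArg (fun q => q.2.1) e
    have e3 : Mic.box C s q ω = Mic.box C s q ω' := congrArg (fun q => q.2.2.1) e
    unfold cellB
    rw [hC.y1, hC.y1] at e1
    rw [(hC.box_iff s q ω ω').1 e3, e1, e2]
  have c1 := lab_le h hb hn Z2 fun ω ω' _ _ e => hcell ω ω' e
  have c2 := pq_le h hb hn Z2 fun ω ω' _ _ e => hcell ω ω' e
  have c3 : Stk.hc P (fun ω => fl1 (s + b) (fX s (m ω) (t ω))) Z ≤
      b * Real.log 2 + Real.log 200 :=
    x1_le (r := q) Z fun ω ω' _ _ e => (hC.box_iff s q ω ω').1 (congrArg Prod.fst e)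
  have h1 := Apx.hc_cmp P (fun ω => tb n (l ω)) (fun ω => tb n (l ω)) Z
    (fun ω => (W.lab ω, (pq s (ptF l t ω), D ω)))
  have h2 : Stk.hc P (fun ω => tb n (l ω)) (fun ω => (tb n (l ω), Z ω)) = 0 :=
    Stk.hc_zero P fun _ _ _ _ e => congrArg Prod.fst e
  have h3 : Stk.hc P (fun ω => (W.lab ω, (pq s (ptF l t ω), D ω))) Z ≤
      Stk.hc P (fun ω => (W.lab ω, (pq s (ptF l t ω), D ω))) Z2 +
        Stk.hc P (fun ω => fl1 b (C.y1 ω)) Z1 +
        Stk.hc P (fun ω => fl1 (s + b) (fX s (m ω) (t ω))) Z := by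
    have a1 := Apx.hc_via P (fun ω => (W.lab ω, (pq s (ptF l t ω), D ω)))
      (fun ω => fl1 (s + b) (fX s (m ω) (t ω))) Z
    have a2 := Apx.hc_via P (fun ω => (W.lab ω, (pq s (ptF l t ω), D ω)))
      (fun ω => fl1 b (C.y1 ω)) Z1
    linarith
  have h5 := Apx.hc_pair_le P W.lab (fun ω => (pq s (ptF l t ω), D ω)) Z2
  have h6 := Apx.hc_pair_le P (fun ω => pq s (ptF l t ω)) D Z2
  have h7 : Stk.hc P D Z2 = 0 := Stk.hc_zero P fun _ _ _ _ e => congrArg (fun q => q.2.2.2) e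
  have h8 : Stk.hc P W.lab Z2 = Stk.hc P (fun ω => U.lab (θ ω) b q (blF s l t ω)) Z2 := rfl
  push_cast at k1 ⊢
  linarith

/-- the same without the digits of `X1` -/
theorem grow_box' {lam : ℝ} (hl : 0 ≤ lam ∧ lam ≤ 1) (h : Dat P n l m t θ) (hC : Rep C m t θ)
    {s q b : ℕ} (hn : s + q ≤ n) (hb : b ≤ q) (D : Ω → γ) {eta : ℝ}
    (hopt : XF lam P s n l t D ≤
      Stk.hc P (fun ω => tb n (l ω)) (fun ω => (Mic.box C s q ω, D ω)) -
        Real.log 2 * (2 * ((n : ℝ) - s) - (1 - lam) * q) + eta) :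
    lam * b * Real.log 2 ≤
      Stk.hc P (fun ω => fl1 b (C.y1 ω)) (fun ω => (Mic.box C s q ω, D ω)) + eta +
        (10 * Real.log 200 + (Real.log (((2 * 4 + 1) ^ 4 : ℕ) : ℝ) + 2 * Real.log 9)) := by
  have h1 := grow_box hl h hC hn hb D hopt
  have h2 : Stk.hc P (fun ω => fl1 b (C.y1 ω))
        (fun ω => (fl1 (s + b) (fX s (m ω) (t ω)), (Mic.box C s q ω, D ω))) ≤
      Stk.hc P (fun ω => fl1 b (C.y1 ω)) (fun ω => (Mic.box C s q ω, D ω)) :=
    Stk.hc_mono_right P _ fun _ _ _ _ e => congrArg Prod.snd e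
  linarith

end finite

theorem near_self (n : ℕ) (l : Ln) : Near n l l :=
  ⟨fun _ => by rw [sub_self, abs_zero]; positivity, fun _ => by rw [sub_self, abs_zero]; positivity⟩

/-- **link of SAT** (form of helper336, D3) -/
theorem sat_link : ∃ K : ℝ, ∀ {Ω : Type} [Fintype Ω] (P : Law Ω) (l : Ω → Ln) (t : Ω → ℝ) (W : Bx Ω)
    (C : CellD.Pth Ω) (h q n : ℕ), GoodF P l t → n = h + q →
    (∀ ω ω', 0 < P.w ω → 0 < P.w ω' → tb n (l ω) = tb n (l ω') → l ω = l ω') →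
    (∀ ω, 0 < P.w ω → W.l ω = blF h l t ω ∧ |W.θ ω| ≤ Real.pi / 4 ∧ W.k ω = 0 ∧ W.j ω = q) →
    (∀ ω, C.x1 ω = (l ω).1 0 ∧ C.x2 ω = (l ω).1 1 ∧ C.y1 ω = (l ω).2 0 ∧ C.y2 ω = (l ω).2 1 ∧
      C.t ω = t ω ∧ C.v ω = Real.tan (W.θ ω)) →
    C.a 0 = 0 → C.r 0 ≤ q →
    Stk.mi P C.ln (Mic.box C h q) (Mic.box C (C.a 0) (C.r 0)) - K ≤
      Stk.hc P (fun ω => tb n (l ω)) (fun ω => U.lab (W.θ ω) 0 (C.r 0) (l ω)) -
        Stk.hc P (fun ω => tb n (l ω)) (fun ω => (W.lab ω, pq h (ptF l t ω))) := by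
  refine ⟨17 * Real.log 200, ?_⟩
  intro Ω _ P l t W C h q n hg hn hrnd hW hC ha hr
  have hd : Dat P n l l t W.θ := ⟨hg, fun ω _ => near_self n (l ω), fun ω p => (hW ω p).2.1⟩
  have hR : Rep C l t W.θ := ⟨fun ω => (hC ω).1, fun ω => (hC ω).2.1, fun ω => (hC ω).2.2.1,
    fun ω => (hC ω).2.2.2.1, fun ω => (hC ω).2.2.2.2.1, fun ω => (hC ω).2.2.2.2.2⟩
  rw [ha]
  set r := C.r 0 with hrd
  have hrn : r ≤ n := by omega
  -- the line
  have el : ∀ {δ : Type} (Z : Ω → δ), Stk.hc P C.ln Z = Stk.hc P (fun ω => tb n (l ω)) Z := by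
    intro δ Z
    refine Stk.hc_congr P ?_ ?_ (fun _ _ _ _ e => e) (fun _ _ _ _ e => e)
    · intro ω ω' p p' e
      exact (hR.ln_iff ω ω').2 (hrnd ω ω' p p' (congrArg Prod.fst e))
    · intro ω ω' p p' e
      show tb n (l ω) = tb n (l ω')
      rw [(hR.ln_iff ω ω').1 (congrArg Prod.fst e)]
  set B0 := Mic.box C 0 r with hB0
  set B1 := Mic.box C h q with hB1
  set T := fun ω => tb n (l ω) with hT
  set R := fun ω => U.lab (W.θ ω) 0 r (l ω) with hRd
  set V := fun ω => (W.lab ω, pq h (ptF l t ω)) with hV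
  -- the label of the end
  have wl : ∀ ω, 0 < P.w ω → W.lab ω = U.lab (W.θ ω) 0 q (blF h l t ω) := by
    intro ω p
    obtain ⟨h1, -, h3, h4⟩ := hW ω p
    show U.lab (W.θ ω) (W.k ω) (W.j ω) (W.l ω) = _
    rw [h1, h3, h4]
  have hZV : ∀ ω ω', 0 < P.w ω → 0 < P.w ω' → V ω = V ω' →
      U.lab (W.θ ω) 0 q (blF h l t ω) = U.lab (W.θ ω') 0 q (blF h l t ω') ∧
      pq h (ptF l t ω) = pq h (ptF l t ω') := by
    intro ω ω' p p' e
    simp only [hV, Prod.mk.injEq] at e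
    rw [← wl ω p, ← wl ω' p']
    exact e
  -- `B1` from `V`
  have c1 : Stk.hc P B1 V ≤ 7 * Real.log 200 := by
    refine le_trans ?_ (cell_le hd (show h + q ≤ n by omega) V hZV)
    refine Stk.hc_mono_left P fun ω ω' _ _ e => ?_
    exact (hR.box_iff h q ω ω').2 (congrArg Prod.fst e)
  -- `B0` from `B1` or `V`
  have c0 : Stk.hc P B0 (fun ω => (B1 ω, V ω)) ≤ 3 * Real.log 200 := by
    refine le_trans ?_ (cell_mono P l t (fun ω => Real.tan (W.θ ω)) (Nat.zero_le h) hr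
      (fun ω => (B1 ω, V ω)) fun ω ω' _ _ e => (hR.box_iff h q ω ω').1 (congrArg Prod.fst e))
    refine Stk.hc_mono_left P fun ω ω' _ _ e => ?_
    exact (hR.box_iff 0 r ω ω').2 (congrArg Prod.fst e)
  -- `R` from `B0`
  have c2 : Stk.hc P R B0 ≤ 7 * Real.log 200 :=
    root_le hd (Nat.zero_le r) hrn B0 fun ω ω' _ _ e => hR.cellB_of_box e
  -- assembly: mi P ln B1 B0 = H(T | B0) - H(T | B1, B0)
  have e1 : Stk.mi P C.ln B1 B0 = Stk.hc P T B0 - Stk.hc P T (fun ω => (B1 ω, B0 ω)) := by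
    unfold Stk.mi
    rw [el, el]
  have a1 := Apx.hc_cmp P T T B0 R
  have a2 : Stk.hc P T (fun ω => (T ω, B0 ω)) = 0 :=
    Stk.hc_zero P fun _ _ _ _ e => congrArg Prod.fst e
  have b1 := Apx.hc_cmp P T T V (fun ω => (B1 ω, B0 ω))
  have b2 : Stk.hc P T (fun ω => (T ω, V ω)) = 0 :=
    Stk.hc_zero P fun _ _ _ _ e => congrArg Prod.fst e
  have b3 := Stk.hc_pair P B1 B0 V
  have := log200_nonneg
  rw [e1]
  linarith

end Vale.Agent.P127.U.LinkC
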