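import Vale.Agent.P127.U.Lam.FSat
import Vale.Agent.P127.U.Lam.LinkD

/-!
# P127 / U / Lam : the finite saturation from the micro part (helper336)

* `PHyp` : for a near-extremal law there are a conditional law and a deterministic path with the hypotheses
  `Mic.Hyp` of the micro part, which reaches (up to `ε h`) the corner `(h, q)`.
* `fsat_of : Mic.PMic → PHyp → FSat`.
-/

set_option autoImplicit false

namespace Vale.Agent.P127.U.TopD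

open Finset Vale.Agent.P127 Vale.Agent.P127.Stk

/-- **hypotheses of the micro part from near-extremality** -/
def PHyp : Prop :=
  ∀ N lam β : ℝ, 2 ≤ N → 0 < lam → lam < 1 → lam < β → β ≤ 2 → JFG N lam β → JL N lam β →
    ∀ K ε : ℝ, 0 < ε → ∃ (M : ℕ) (lam' : ℝ), 0 < lam' ∧ ∀ ε₁ : ℝ, 0 < ε₁ →
    ∃ (J : ℕ) (δ₁ : ℝ), 0 < δ₁ ∧ ∀ δ₀ : ℝ, 0 < δ₀ → ∃ δ : ℝ, 0 < δ ∧ ∃ L₀ : ℕ,
    ∀ (Ω : Type) [Fintype Ω] (P : Law Ω) (l : Ω → Ln) (t : Ω → ℝ) (W : Bx Ω) (h q n : ℕ),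
      L₀ ≤ h → (n : ℝ) ≤ K * h → NEx N lam β δ P l t W h q n →
      ∃ (Q : Law Ω) (C : CellD.Pth Ω) (m k b1 b2 : ℕ) (B : Finset ℕ),
        (∀ ω, 0 < Q.w ω → 0 < P.w ω) ∧ NEx N lam β ε Q l t W h q n ∧
        (∀ ω, C.x1 ω = (l ω).1 0 ∧ C.x2 ω = (l ω).1 1 ∧ C.y1 ω = (l ω).2 0 ∧ C.y2 ω = (l ω).2 1 ∧
          C.t ω = t ω ∧ C.v ω = Real.tan (W.θ ω)) ∧
        C.a 0 = 0 ∧ C.r 0 ≤ q ∧ Mic.Hyp Q C m k h q M J b1 b2 lam' ε₁ B ∧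
        1 ≤ δ₀ * m ∧ (m : ℝ) ≤ δ₀ * Real.logb 2 h ∧ Real.sqrt h ≤ b1 ∧ δ₁ * h ≤ b2 ∧
        (b2 : ℝ) ≤ ε₁ * h ∧
        2 * (h : ℝ) + ((q : ℝ) - C.r 0) - ε * h ≤ 2 * (C.a k : ℝ) + ((C.r k : ℝ) - C.r 0)

/-- **finite saturation** from the micro part and its hypotheses -/
theorem fsat_of (hmic : Mic.PMic) (hh : PHyp) : FSat := by
  intro N lam β hN h0 h1 h2 h3 hG hJ K ε hε
  obtain ⟨Kl, hlink⟩ := LinkC.sat_link
  have hlog : 0 < Real.log 2 := Real.log_pos (by norm_num)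
  set ε₂ : ℝ := ε / 4 with hε₂
  have hε₂0 : 0 < ε₂ := by positivity
  obtain ⟨M, lam', hlam', hA⟩ := hh N lam β hN h0 h1 h2 h3 hG hJ K ε₂ hε₂0
  have hε' : 0 < ε₂ * Real.log 2 := by positivity
  obtain ⟨ε₁, hε₁, hmic1⟩ := hmic (⌈K⌉₊) M lam' (ε₂ * Real.log 2) hlam' hε'
  obtain ⟨J, δ₁, hδ₁, hB⟩ := hA ε₁ hε₁
  obtain ⟨δ₀, hδ₀, hmic2⟩ := hmic1 J δ₁ hδ₁
  obtain ⟨δ, hδ, L₀, hmain⟩ := hB δ₀ hδ₀
  -- the constant of the link is small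
  obtain ⟨L₁, hL₁⟩ := exists_nat_ge (Kl / (ε₂ * Real.log 2))
  refine ⟨δ, hδ, max L₀ L₁, ?_⟩
  intro Ω _ P l t W h q n hL hnK hP
  have hh0 : L₀ ≤ h := (le_max_left _ _).trans hL
  have hh1 : L₁ ≤ h := (le_max_right _ _).trans hL
  obtain ⟨Q, C, m, k, b1, b2, B, hac, hQ, hC, ha0, hr0, hyp, hm1, hm2, hb1, hb2, hb2', hcor⟩ :=
    hmain Ω P l t W h q n hh0 hnK hP
  have hqK : q ≤ ⌈K⌉₊ * h := by
    have e1 : (q : ℝ) ≤ n := by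
      have := hQ.nq
      exact_mod_cast (by omega : q ≤ n)
    have e2 : K ≤ (⌈K⌉₊ : ℝ) := Nat.le_ceil K
    have e3 : K * h ≤ (⌈K⌉₊ : ℝ) * h := mul_le_mul_of_nonneg_right e2 (Nat.cast_nonneg _)
    have e4 : (q : ℝ) ≤ ((⌈K⌉₊ * h : ℕ) : ℝ) := by
      push_cast
      linarith
    exact_mod_cast e4
  have k1 := hmic2 Q C m k h q b1 b2 B hyp hqK hm1 hm2 hb1 hb2 hb2'
  have k2 := hlink Q l t W C h q n hQ.good hQ.nq (fun ω ω' p p' e => hQ.rnd ω ω' p p' e) hQ.lab hC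
    ha0 hr0
  have hKl : Kl ≤ ε₂ * Real.log 2 * h := by
    have e1 : Kl / (ε₂ * Real.log 2) ≤ h := hL₁.trans (by exact_mod_cast hh1)
    rw [div_le_iff₀ hε'] at e1
    linarith
  have hhn : (0 : ℝ) ≤ h := Nat.cast_nonneg _
  refine ⟨Q, hac, ?_, C.r 0, hr0, ?_⟩
  · refine ⟨hQ.nq, hQ.good, hQ.lab, hQ.rnd, le_trans ?_ hQ.ge⟩
    have e1 : (β - ε) * (h * Real.log 2) ≤ (β - ε₂) * (h * Real.log 2) :=
      mul_le_mul_of_nonneg_right (by linarith) (mul_nonneg hhn hlog.le)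
    linarith
  · have e0 : Stk.hc Q (fun ω => tb n (l ω)) (rootF (C.r 0) W l).lab =
        Stk.hc Q (fun ω => tb n (l ω)) (fun ω => U.lab (W.θ ω) 0 (C.r 0) (l ω)) := rfl
    rw [e0]
    rw [ha0] at k1
    have e1 : (2 * (h : ℝ) + ((q : ℝ) - C.r 0) - ε₂ * h) * Real.log 2 ≤
        (2 * ((C.a k : ℝ) - ((0 : ℕ) : ℝ)) + ((C.r k : ℝ) - C.r 0)) * Real.log 2 := by
      refine mul_le_mul_of_nonneg_right ?_ hlog.le
      push_cast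
      linarith
    rw [ha0] at k2
    have e2 : ε * h * Real.log 2 = 4 * (ε₂ * Real.log 2 * h) := by rw [hε₂]; ring
    have e3 : 0 ≤ ε₂ * Real.log 2 * h := by positivity
    linarith

end Vale.Agent.P127.U.TopD
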