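import Vale.Agent.P127.U.Lam.Red
import Vale.Agent.P127.U.Lam.JL
import Vale.Agent.P127.U.Lam.Norm
import Vale.Agent.P127.U.Lam.EndWinH
import Vale.Agent.P127.U.Lam.TopD3
import Vale.Agent.P127.U.Lam.CoreDef
import Vale.Agent.P127.U.H833.PMic
import Vale.Agent.P127.U.Lam.CoreP
import Vale.Agent.P127.U.H205.TopF
import Vale.Agent.P127.U.H560.PLip
import Vale.Agent.P127.M3.FrontI

/-!
# P127 / U / Lam : composition of the blocks (helper336)
-/

set_option autoImplicit false

namespace Vale.Agent.P127.U.Final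

open Vale.Agent.P127 Vale.Agent.P127.Stk Vale.Agent.P127.U

/-- the functional of the path from LIP -/
theorem pInc_of_lip (hL : Inc.PLipH) : Inc.PInc := EndWin.pInc_of' pFix hL

/-- no extremal system from the hypotheses of the micro part -/
theorem noXtr_of_hyp (h : TopD.PHyp) : PNoXtr :=
  noXtr_of Norm.pNorm (psat_of (TopD.fsat_of H833.pMic h))

/-- **the inequality with price `2`** -/
theorem jf2_of_hyp (h : TopD.PHyp) : ∀ b : ℝ, 0 < b → JF 2 b :=
  top_of pXtrL' pJL (noXtr_of_hyp h)

/-- **the maximal inequality** -/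
theorem kmax_of_hyp (h : TopD.PHyp) : M3.KMax 2 := M3.kmax_of_JF_two (jf2_of_hyp h)

/-- the hypotheses of the micro part from LIP -/
theorem pHyp_of_lip (hL : Inc.PLipH) : TopD.PHyp := TopF.phyp_of Core.pCore (pInc_of_lip hL)

/-- **the inequality with price `2`**, from LIP -/
theorem jf2_of_lip (hL : Inc.PLipH) : ∀ b : ℝ, 0 < b → JF 2 b := jf2_of_hyp (pHyp_of_lip hL)

/-- **the maximal inequality**, from LIP -/
theorem kmax_of_lip (hL : Inc.PLipH) : M3.KMax 2 := kmax_of_hyp (pHyp_of_lip hL)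

/-- the hypotheses of the micro part -/
theorem pHyp : TopD.PHyp := pHyp_of_lip LipS.pLipH

/-- there is no extremal system -/
theorem pNoXtr : PNoXtr := noXtr_of_hyp pHyp

/-- **the inequality with price `2`** -/
theorem jf2 : ∀ b : ℝ, 0 < b → JF 2 b := jf2_of_hyp pHyp

/-- **the Kakeya maximal inequality in `ℝ ^ 3`** -/
theorem kmax2 : M3.KMax 2 := kmax_of_hyp pHyp

end Vale.Agent.P127.U.Final
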