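import Vale.Agent.P127.U.Lam.HSoft

/-!
# P127 / U / Lam : direct values of soft labels, extension to the level `0` (helper864)

* `HX.XFH_soft` : `XFH` at the level `s` is at most the direct value of a soft label `W` of the balls,
  `H(l | W, p_s, C) - log 2 E (2 (n - s) - szl W) + N H(shape W | l, t_s, C) + O(1)`.
* `HX.ext_value` : extension of a label of the level `s` to the level `0`.
* `XFH_up` : `XFH s ≤ excH + 2 s log 2 + O(1)`.
-/

set_option autoImplicit false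

namespace Vale.Agent.P127.U.HX

open Filter Topology Vale.Agent.P127 Vale.Agent.P127.Stk Vale.Agent.P127.U.Apx Vale.Agent.P127.U
  Sys ExcB

variable {lam N : ℝ}

section finite

variable {Ω : Type} [Fintype Ω]

/-- the error of `XFH_soft` -/
noncomputable def cS : ℝ := 1 + 3 * Real.log (((2 * 5 + 1) ^ 4 : ℕ) : ℝ) + 10 * Real.log 13

/-- the tubelet determines the tube of the ball, the point and `C` up to `O(1)` -/
theorem ball_of_tubelet {T : Type*} (P : Law Ω) {s n : ℕ} (h : s ≤ n) {l : Ω → Ln} {t : Ω → ℝ}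
    (hl : ∀ ω, 0 < P.w ω → LnOk (l ω)) (C : Ω → T) :
    Stk.hc P (fun ω => (tb (n - s) (blF s l t ω), (pq s (ptF l t ω), C ω)))
      (fun ω => (tlF s n l t ω, C ω)) ≤ 4 * Real.log 13 := by
  have k4 : Stk.hc P (fun ω => (tlF (s - s) (n - s) (blF s l t) (tfF s t) ω,
        (pq s (ptF l t ω), C ω))) (fun ω => (tlF s n l t ω, C ω)) ≤ 4 * Real.log 13 :=
    Lam.Ball.inner_le P s s n le_rfl h l t hl C
  refine (Stk.hc_mono_left P ?_).trans k4
  intro ω ω' _ _ e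
  simp only [Prod.mk.injEq] at e
  obtain ⟨⟨e1, e2, e3⟩, -⟩ := e
  have hq : ∀ ω, qa (s - s) (tfF s t ω) = 0 := by
    intro ω
    rw [Nat.sub_self]
    unfold qa fl1 tfF
    simp
  have hp : ∀ ω, pos (blF s l t ω) (qa (s - s) (tfF s t ω)) = (blF s l t ω).1 := by
    intro ω
    rw [hq ω]
    funext j
    unfold pos
    ring
  have e4 : fl (n - s) (blF s l t ω).1 = fl (n - s) (blF s l t ω').1 := by
    have := congrArg (fun q => q.2.1) e1
    simp only [tlF] at this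
    rwa [hp ω, hp ω'] at this
  have e5 : fl (n - s) (blF s l t ω).2 = fl (n - s) (blF s l t ω').2 := by
    have := congrArg (fun q => q.2.2) e1
    simp only [tlF, Nat.sub_self, Nat.sub_zero] at this
    exact this
  simp only [Prod.mk.injEq]
  exact ⟨Prod.ext e4 e5, e2, e3⟩

/-- **direct value of a soft label** -/
theorem XFH_soft (hN : 0 ≤ N) {γ : Type} {P : Law Ω} {s n : ℕ} (h : s ≤ n)
    {l : Ω → Ln} {t : Ω → ℝ} (hg : GoodF P l t) (C : Ω → γ) :
    ∃ (Ω' : Type) (_ : Fintype Ω') (P' : Law Ω') (π : Ω' → Ω) (W : Bx Ω'),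
      (∀ ω, P'.pr π ω = P.w ω) ∧
      (∀ ω, 0 < P'.w ω → Sub 2 ((tbx (n - s) (blF s l t)).comp π) W ω) ∧
      XFH lam N P s n l t C ≤
        Stk.hc P' (fun ω => tb n (l (π ω))) (fun ω => (W.lab ω, (pq s (ptF l t (π ω)), C (π ω)))) -
        Real.log 2 * P'.ex (fun ω => 2 * ((n : ℝ) - s) - W.szl lam ω) +
        N * Stk.hc P' (fun ω => (W.k ω, W.j ω))
          (fun ω => (fl1 s (t (π ω)), (tb n (l (π ω)), C (π ω)))) + cS := by
  have hl : ∀ ω, 0 < P.w ω → LnOk (l ω) := fun ω hω => (hg ω hω).1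
  obtain ⟨Ω', iΩ', P', π, W, h1, h2, h3, h4, h5⟩ := soft (lam := lam) (N := N) (P := P)
    (n := n - s) (l := blF s l t) (fun ω => (pq s (ptF l t ω), C ω))
    (fun ω hω => (hg.blF s ω hω).1)
  refine ⟨Ω', iΩ', P', π, W, h1, h2, ?_⟩
  have hg' : GoodF P' (fun ω => l (π ω)) (fun ω => t (π ω)) := by
    intro ω hω
    refine hg (π ω) ?_
    rw [← h1]
    exact P'.pr_pos π hω
  have hl' : ∀ ω, 0 < P'.w ω → LnOk (l (π ω)) := fun ω hω => (hg' ω hω).1
  set K : ℝ := Real.log (((2 * 5 + 1) ^ 4 : ℕ) : ℝ) with hK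
  set X : Ω' → _ := fun ω => tb n (l (π ω)) with hX
  set B : Ω' → _ := fun ω => tb (n - s) (blF s l t (π ω)) with hB
  set D : Ω' → _ := fun ω => (pq s (ptF l t (π ω)), C (π ω)) with hD
  -- the value of `W` for the balls
  have a1 : exVl lam P' ((tbx (n - s) (blF s l t)).comp π) W D =
      Stk.hc P' B (fun ω => (W.lab ω, D ω)) -
        Real.log 2 * P'.ex (fun ω => 2 * ((n : ℝ) - s) - W.szl lam ω) := by
    have b1 : Stk.hc P' ((tbx (n - s) (blF s l t)).comp π).lab (fun ω => (W.lab ω, D ω)) =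
        Stk.hc P' B (fun ω => (W.lab ω, D ω)) := hc_tbx P' (n - s) (fun ω => blF s l t (π ω)) _
    have b2 : (P'.ex fun ω => ((tbx (n - s) (blF s l t)).comp π).szl lam ω - W.szl lam ω) =
        P'.ex fun ω => 2 * ((n : ℝ) - s) - W.szl lam ω := by
      refine P'.ex_congr fun ω _ => ?_
      have e1 : ((tbx (n - s) (blF s l t)).comp π).szl lam ω =
          (1 + lam) * ((n - s : ℕ) : ℝ) + (1 - lam) * ((n - s : ℕ) : ℝ) := rfl
      rw [e1, Nat.cast_sub h]
      ring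
    unfold exVl
    rw [b1, b2]
  -- the line given the tubelet
  have a2 : Stk.hc P (fun ω => tb n (l ω)) (fun ω => (tlF s n l t ω, C ω)) =
      Stk.hc P' X (fun ω => (tlF s n l t (π ω), C (π ω))) :=
    (Stk.hc_of_law P' P π h1 (fun ω => tb n (l ω)) (fun ω => (tlF s n l t ω, C ω))).symm
  have a3 : Stk.hc P' (fun ω => (B ω, D ω)) (fun ω => (tlF s n l t (π ω), C (π ω))) ≤
      4 * Real.log 13 := ball_of_tubelet P' h (l := fun ω => l (π ω)) (t := fun ω => t (π ω)) hl'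
    (fun ω => C (π ω))
  have a4 : Stk.hc P' X (fun ω => (tlF s n l t (π ω), C (π ω))) ≤
      Stk.hc P' X (fun ω => (B ω, D ω)) + 4 * Real.log 13 := by
    have b1 := Stk.hc_le_add' P' X (fun ω => (B ω, D ω))
      (fun ω => (tlF s n l t (π ω), C (π ω)))
    have b2 : Stk.hc P' X (fun ω => ((B ω, D ω), (tlF s n l t (π ω), C (π ω)))) ≤
        Stk.hc P' X (fun ω => (B ω, D ω)) :=
      Stk.hc_mono_right P' X fun ω ω' _ _ e => congrArg Prod.fst e
    linarith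
  -- softness of the label
  have a5 := h4 _ (fun ω => tb n (l ω))
  have a6 : Stk.hc P' X (fun ω => (B ω, D ω)) ≤
      Stk.hc P' X (fun ω => (W.lab ω, (B ω, D ω))) + 2 * K := by
    have b1 := Stk.hc_pair P' X W.lab (fun ω => (B ω, D ω))
    have b2 := Stk.hc_pair P' W.lab X (fun ω => (B ω, D ω))
    have b3 : Stk.hc P' (fun ω => (X ω, W.lab ω)) (fun ω => (B ω, D ω)) =
        Stk.hc P' (fun ω => (W.lab ω, X ω)) (fun ω => (B ω, D ω)) :=
      Stk.hc_congr P' (fun _ _ _ _ e => by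
        simp only [Prod.mk.injEq] at e ⊢
        exact ⟨e.1.2, e.1.1⟩) (fun _ _ _ _ e => by
        simp only [Prod.mk.injEq] at e ⊢
        exact ⟨e.1.2, e.1.1⟩) (fun _ _ _ _ e => e) (fun _ _ _ _ e => e)
    have b4 : Stk.hc P' W.lab (fun ω => (B ω, D ω)) - 2 * K ≤
        Stk.hc P' W.lab (fun ω => (X ω, (B ω, D ω))) := a5
    linarith
  -- the ball is a function of the line, the time and `C`
  have a7 : Stk.hc P' B (fun ω => (X ω, (W.lab ω, D ω))) ≤ 6 * Real.log 13 := by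
    have b1 : Stk.hc P' (fun ω => (B ω, (pq s (ptF l t (π ω)), C (π ω))))
        (fun ω => (fl1 s (t (π ω)), (X ω, C (π ω)))) ≤ 6 * Real.log 13 :=
      Lam.Ball.ball_of_tube P' s n h (fun ω => l (π ω)) (fun ω => t (π ω)) hl'
        (fun ω hω => (hg' ω hω).2) (fun ω => C (π ω))
    refine le_trans ?_ b1
    refine (Stk.hc_mono_left P' ?_).trans (Stk.hc_mono_right P' _ ?_)
    · intro ω ω' _ _ e
      exact congrArg (fun q => q.1.1) e
    · intro ω ω' _ _ e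
      simp only [Prod.mk.injEq, hD] at e ⊢
      exact ⟨congrArg Prod.fst e.2.2.1, e.1, e.2.2.2⟩
  have a8 : Stk.hc P' B (fun ω => (W.lab ω, D ω)) +
      Stk.hc P' X (fun ω => (W.lab ω, (B ω, D ω))) ≤
      Stk.hc P' X (fun ω => (W.lab ω, D ω)) + 6 * Real.log 13 := by
    have b1 := Stk.hc_pair P' B X (fun ω => (W.lab ω, D ω))
    have b2 := Stk.hc_pair P' X B (fun ω => (W.lab ω, D ω))
    have b3 : Stk.hc P' (fun ω => (B ω, X ω)) (fun ω => (W.lab ω, D ω)) =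
        Stk.hc P' (fun ω => (X ω, B ω)) (fun ω => (W.lab ω, D ω)) :=
      Stk.hc_congr P' (fun _ _ _ _ e => by
        simp only [Prod.mk.injEq] at e ⊢
        exact ⟨e.1.2, e.1.1⟩) (fun _ _ _ _ e => by
        simp only [Prod.mk.injEq] at e ⊢
        exact ⟨e.1.2, e.1.1⟩) (fun _ _ _ _ e => e) (fun _ _ _ _ e => e)
    have b4 : Stk.hc P' X (fun ω => (B ω, (W.lab ω, D ω))) =
        Stk.hc P' X (fun ω => (W.lab ω, (B ω, D ω))) :=
      Stk.hc_congr P' (fun _ _ _ _ e => congrArg Prod.fst e) (fun _ _ _ _ e => congrArg Prod.fst e)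
        (fun _ _ _ _ e => by
          simp only [Prod.mk.injEq] at e ⊢
          exact ⟨e.2.1, e.1, e.2.2⟩) (fun _ _ _ _ e => by
          simp only [Prod.mk.injEq] at e ⊢
          exact ⟨e.2.1, e.1, e.2.2⟩)
    linarith
  -- the shape
  have a9 : Stk.hc P' (fun ω => (W.k ω, W.j ω)) (fun ω => (B ω, D ω)) ≤
      Stk.hc P' (fun ω => (W.k ω, W.j ω))
        (fun ω => (fl1 s (t (π ω)), (tb n (l (π ω)), C (π ω)))) := by
    have b1 : Stk.hc P' (fun ω => (W.k ω, W.j ω)) (fun ω => ((fl1 s (t (π ω)), tb n (l (π ω))), (B ω, D ω))) =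
        Stk.hc P' (fun ω => (W.k ω, W.j ω)) (fun ω => (B ω, D ω)) :=
      h5 _ (fun ω => (fl1 s (t ω), tb n (l ω)))
    rw [← b1]
    refine Stk.hc_mono_right P' _ fun ω ω' _ _ e => ?_
    simp only [Prod.mk.injEq, hD] at e ⊢
    exact ⟨e.1.1, e.1.2, e.2.2.2⟩
  have a10 := mul_le_mul_of_nonneg_left a9 hN
  have a11 : excH lam N P (n - s) (blF s l t) (fun ω => (pq s (ptF l t ω), C ω)) - 1 - K ≤
      exVl lam P' ((tbx (n - s) (blF s l t)).comp π) W D +
        N * Stk.hc P' (fun ω => (W.k ω, W.j ω)) (fun ω => (B ω, D ω)) := h3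
  unfold XFH
  rw [a1] at a11
  rw [a2]
  unfold cS
  rw [← hK]
  linarith

/-- **extension of a label to the level `0`** : direct values -/
theorem ext_value {T : Type*} {P : Law Ω} {s n : ℕ} {l : Ω → Ln} {t : Ω → ℝ}
    (hg : GoodF P l t) (C : Ω → T) {W : Bx Ω} {V : Bx Ω}
    (hW : ∀ ω, 0 < P.w ω → W.l ω = blF s l t ω)
    (hV : V = ⟨l, W.θ, W.k, W.j⟩) :
    Stk.hc P (fun ω => tb n (l ω)) (fun ω => (W.lab ω, (pq s (ptF l t ω), C ω))) ≤
      Stk.hc P (fun ω => tb n (l ω)) (fun ω => (V.lab ω, C ω)) +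
        (2 * Real.log 9 + 5 * Real.log 7) := by
  subst hV
  set X : Ω → _ := fun ω => tb n (l ω) with hX
  set F : Ω → _ := fun ω => fl s (pos (l ω) (qa s (t ω))) with hF
  set D : Ω → _ := fun ω => (W.lab ω, (pq s (ptF l t ω), C ω)) with hD
  set V : Bx Ω := ⟨l, W.θ, W.k, W.j⟩ with hV
  have a1 : Stk.hc P F D ≤ 2 * Real.log 9 := by
    refine LocB.cell_le P s s le_rfl l t (fun ω hω => (hg ω hω).1) D fun ω ω' _ _ e => ?_
    simp only [Prod.mk.injEq, hD] at e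
    exact congrArg Prod.snd e.2.1
  have a2 : Stk.hc P V.lab (fun ω => (F ω, D ω)) ≤ 5 * Real.log 7 := by
    have b1 := LamEx.ext_lab P s l t W (fun ω => (F ω, D ω))
      (fun ω hω => ⟨hW ω hω, Fi.abs_qa_le (hg ω hω).2.1 (hg ω hω).2.2⟩)
      (fun ω ω' _ _ e => by
        simp only [Prod.mk.injEq, hD] at e
        exact ⟨e.2.1, congrArg Prod.fst e.2.2.1, e.1⟩)
    have b2 : (2 * ((2 : ℕ) : ℝ) + 3) = 7 := by norm_num
    rw [b2] at b1
    exact b1
  have a3 : Stk.hc P V.lab D ≤ 2 * Real.log 9 + 5 * Real.log 7 := by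
    have b1 := Stk.hc_le_add P V.lab F D
    linarith
  have a4 := Stk.hc_le_add' P X V.lab D
  have a5 : Stk.hc P X (fun ω => (V.lab ω, D ω)) ≤ Stk.hc P X (fun ω => (V.lab ω, C ω)) :=
    Stk.hc_mono_right P X fun ω ω' _ _ e => by
      simp only [Prod.mk.injEq, hD] at e ⊢
      exact ⟨e.1, e.2.2.2⟩
  linarith

/-- the extended label contains the tube -/
theorem ext_sub {Ω : Type} {n : ℕ} {l : Ω → Ln} {B W : Bx Ω} {c : ℝ} {ω : Ω}
    (h : Sub c B W ω) (hk : B.k ω ≤ n) (hj : B.j ω ≤ n) :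
    Sub 1 (tbx n l) (⟨l, W.θ, W.k, W.j⟩ : Bx Ω) ω := by
  obtain ⟨-, a2, a3, a4, a5, -⟩ := h
  refine ⟨rfl, a2, a3, a4.trans hk, a5.trans hj, ?_⟩
  have b1 := Real.abs_sin_le_one ((0 : ℝ) - W.θ ω)
  have b2 : (1 / 2 : ℝ) ^ n ≤ (1 / 2 : ℝ) ^ W.j ω :=
    pow_le_pow_of_le_one (by norm_num) (by norm_num) (a5.trans hj)
  have b3 : (0 : ℝ) < (1 / 2 : ℝ) ^ n := by positivity
  show |Real.sin ((0 : ℝ) - W.θ ω)| * (1 / 2 : ℝ) ^ n ≤ 1 * (1 / 2 : ℝ) ^ W.j ω
  calc _ ≤ 1 * (1 / 2 : ℝ) ^ n := mul_le_mul_of_nonneg_right b1 b3.le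
    _ ≤ _ := mul_le_mul_of_nonneg_left b2 zero_le_one

end finite

end Vale.Agent.P127.U.HX

namespace Vale.Agent.P127.U

open Filter Topology Vale.Agent.P127 Vale.Agent.P127.Stk Vale.Agent.P127.U.Apx Sys HX

variable {lam N : ℝ}

/-- **extension to the level `0`**, with the softness of the shape -/
theorem XFH_up (hl : 0 ≤ lam ∧ lam ≤ 1) (hN : 0 ≤ N) {Ω : Type} [Fintype Ω] {γ : Type}
    {P : Law Ω} {s n : ℕ} (h : s ≤ n) {l : Ω → Ln} {t : Ω → ℝ} (hg : GoodF P l t) (C : Ω → γ) :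
    XFH lam N P s n l t C ≤ excH lam N P n l C + 2 * s * Real.log 2 +
      (cS + (2 * Real.log 9 + 5 * Real.log 7)) := by
  obtain ⟨Ω', iΩ', P', π, W, h1, h2, h3⟩ := XFH_soft (lam := lam) hN h hg C
  have hg' : GoodF P' (fun ω => l (π ω)) (fun ω => t (π ω)) := by
    intro ω hω
    refine hg (π ω) ?_
    rw [← h1]
    exact P'.pr_pos π hω
  set V : Bx Ω' := ⟨fun ω => l (π ω), W.θ, W.k, W.j⟩ with hV
  have a1 : ∀ ω, 0 < P'.w ω → Sub 1 ((tbx n l).comp π) V ω := fun ω hω =>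
    ext_sub (n := n) (l := fun ω => l (π ω)) (h2 ω hω) (Nat.sub_le _ _) (Nat.sub_le _ _)
  have a2 := le_excH hl hN (C := C) h1 a1
  have a3 : Stk.hc P' (fun ω => tb n (l (π ω)))
      (fun ω => (W.lab ω, (pq s (ptF l t (π ω)), C (π ω)))) ≤
      Stk.hc P' (fun ω => tb n (l (π ω))) (fun ω => (V.lab ω, C (π ω))) +
        (2 * Real.log 9 + 5 * Real.log 7) :=
    ext_value (P := P') (s := s) (n := n) hg' (fun ω => C (π ω)) (W := W) (V := V)
      (fun ω hω => (h2 ω hω).1) rfl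
  have a4 : exVl lam P' ((tbx n l).comp π) V (fun ω => C (π ω)) =
      Stk.hc P' (fun ω => tb n (l (π ω))) (fun ω => (V.lab ω, C (π ω))) -
        Real.log 2 * P'.ex (fun ω => 2 * (n : ℝ) - W.szl lam ω) := by
    have b1 : Stk.hc P' ((tbx n l).comp π).lab (fun ω => (V.lab ω, C (π ω))) =
        Stk.hc P' (fun ω => tb n (l (π ω))) (fun ω => (V.lab ω, C (π ω))) :=
      hc_tbx P' n (fun ω => l (π ω)) _
    have b2 : (P'.ex fun ω => ((tbx n l).comp π).szl lam ω - V.szl lam ω) =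
        P'.ex fun ω => 2 * (n : ℝ) - W.szl lam ω := by
      refine P'.ex_congr fun ω _ => ?_
      show (1 + lam) * (n : ℝ) + (1 - lam) * (n : ℝ) - W.szl lam ω = _
      ring
    unfold exVl
    rw [b1, b2]
  have a5 : P'.ex (fun ω => 2 * (n : ℝ) - W.szl lam ω) =
      P'.ex (fun ω => 2 * ((n : ℝ) - s) - W.szl lam ω) + 2 * s := by
    have e : (2 * (s : ℝ)) = P'.ex (fun _ => 2 * (s : ℝ)) := by rw [P'.ex_const]
    rw [e, ← P'.ex_add]
    refine P'.ex_congr fun ω _ => ?_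
    ring
  have a6 : Stk.hc P' (fun ω => (W.k ω, W.j ω))
      (fun ω => (fl1 s (t (π ω)), (tb n (l (π ω)), C (π ω)))) ≤
      Stk.hc P' (fun ω => (V.k ω, V.j ω)) (fun ω => (tb n (l (π ω)), C (π ω))) :=
    Stk.hc_mono_right P' _ fun ω ω' _ _ e => congrArg Prod.snd e
  have a7 := mul_le_mul_of_nonneg_left a6 hN
  rw [a4, a5, mul_add] at a2
  have e : Real.log 2 * (2 * (s : ℝ)) = 2 * s * Real.log 2 := by ring
  rw [e] at a2
  linarith

/-- without the softness term -/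
theorem excH_zero {Ω : Type} [Fintype Ω] {γ : Type*} (P : Law Ω) (n : ℕ) (l : Ω → Ln)
    (C : Ω → γ) : excH lam 0 P n l C = excFl lam P (tbx n l) C := by
  unfold excH excFl exSetH exSetl
  simp only [zero_mul, add_zero]

theorem XFH_zero {Ω : Type} [Fintype Ω] {γ : Type*} (P : Law Ω) (s n : ℕ) (l : Ω → Ln)
    (t : Ω → ℝ) (C : Ω → γ) : XFH lam 0 P s n l t C = XF lam P s n l t C := by
  unfold XFH XF
  rw [excH_zero]

/-- the same for the penalised excess -/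
theorem XF_up0 (hl : 0 ≤ lam ∧ lam ≤ 1) {Ω : Type} [Fintype Ω] {γ : Type}
    {P : Law Ω} {s n : ℕ} (h : s ≤ n) {l : Ω → Ln} {t : Ω → ℝ} (hg : GoodF P l t) (C : Ω → γ) :
    XF lam P s n l t C ≤ excFl lam P (tbx n l) C + 2 * s * Real.log 2 +
      (cS + (2 * Real.log 9 + 5 * Real.log 7)) := by
  rw [← XFH_zero, ← excH_zero]
  exact XFH_up hl le_rfl h hg C

/-- levels `s ≤ s'` -/
theorem XFH_up' (hl : 0 ≤ lam ∧ lam ≤ 1) (hN : 0 ≤ N) {Ω : Type} [Fintype Ω] {γ : Type}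
    {P : Law Ω} {s s' n : ℕ} (h : s ≤ s') (h' : s' ≤ n) {l : Ω → Ln} {t : Ω → ℝ}
    (hg : GoodF P l t) (C : Ω → γ) :
    XFH lam N P s' n l t C ≤ XFH lam N P s n l t C + 2 * ((s' : ℝ) - s) * Real.log 2 +
      (cS + (2 * Real.log 9 + 5 * Real.log 7) + (14 + 8 * N) * Real.log 13) := by
  have k1 := XFH_ball hl hN P h h' hg C
  have k2 := XFH_up hl hN (s := s' - s) (n := n - s) (Nat.sub_le_sub_right h' s) (hg.blF s)
    (fun ω => (pq s (ptF l t ω), C ω))
  rw [Nat.cast_sub h] at k2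
  linarith

end Vale.Agent.P127.U
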