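import Vale.Agent.P127.U.Lam.Grow
import Vale.Agent.P127.U.Lam.Basic
import Vale.Agent.P127.U.CellD

/-!
# P127 / U / Lam : labels of boxes and cells in slope coordinates (helper480)

* `cellC a r l t v` : `t_a`, `v_r`, `y1` to `0` digits, `y2 - v_r y1` to `r` digits, `X1(t_a)` to `a`
  digits, `X2(t_a) - v_r X1(t_a)` to `a + r` digits (type `CellD.Dg`).
* `lab_le` : the label of shape `(b, r)` of the line in the ball of level `a` is determined, up to a
  bounded number of values, by the cell and `b` digits of `y1` and `a + b` digits of `X1`.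
* `cell_le` : the cell is determined by the label of shape `(0, r)` and the cell of the point.
* `grow_y1` : branching of a maximiser in digits of `y1`.
-/

set_option autoImplicit false

namespace Vale.Agent.P127.U.LinkC

open Filter Topology Vale.Agent.P127 Vale.Agent.P127.Stk Sys Apx

/-! ### frames and slopes -/

theorem qa_eq_rd (m : ℕ) (x : ℝ) : qa m x = CellD.rd m x := rfl

/-- rounding of a number in `[-1, 1]` -/
theorem qa_mem {x : ℝ} (h : |x| ≤ 1) (m : ℕ) : |qa m x| ≤ 1 := by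
  have h1 := Apx.qa_le m x
  have h2 : (-1 : ℝ) ≤ qa m x := by
    unfold qa
    rw [le_div_iff₀ (by positivity)]
    have : ((-(2 ^ m) : ℤ) : ℝ) ≤ (fl1 m x : ℝ) := by
      exact_mod_cast Int.le_floor.2 (by
        push_cast
        have h3 := (abs_le.1 h).1
        have h4 : (0 : ℝ) < 2 ^ m := by positivity
        nlinarith)
    push_cast at this
    linarith
  rw [abs_le]
  exact ⟨h2, h1.trans (abs_le.1 h).2⟩

theorem cos_ge {φ : ℝ} (h : |φ| ≤ 1) : 1 / 2 ≤ Real.cos φ := by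
  have h1 := Real.one_sub_sq_div_two_le_cos (x := φ)
  have h2 : φ ^ 2 ≤ 1 := by
    rw [← sq_abs]
    nlinarith [abs_nonneg φ]
  linarith

theorem pi_div_four_le : Real.pi / 4 ≤ 1 := by
  have := Real.pi_le_four
  linarith

/-- the tangent is Lipschitz on `[-1, 1]` -/
theorem tan_lip {θ φ : ℝ} (h1 : |θ| ≤ 1) (h2 : |φ| ≤ 1) :
    |Real.tan θ - Real.tan φ| ≤ 4 * |θ - φ| := by
  have c1 := cos_ge h1
  have c2 := cos_ge h2
  have e : Real.tan θ - Real.tan φ = Real.sin (θ - φ) / (Real.cos θ * Real.cos φ) := by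
    rw [Real.tan_eq_sin_div_cos, Real.tan_eq_sin_div_cos, Real.sin_sub,
      div_sub_div _ _ (by linarith : Real.cos θ ≠ 0) (by linarith : Real.cos φ ≠ 0)]
  rw [e, abs_div, div_le_iff₀ (by
    apply abs_pos.2
    exact mul_ne_zero (by linarith) (by linarith))]
  have h3 : |Real.sin (θ - φ)| ≤ |θ - φ| := Real.abs_sin_le_abs
  have h4 : (1 : ℝ) / 4 ≤ |Real.cos θ * Real.cos φ| := by
    rw [abs_of_pos (mul_pos (by linarith) (by linarith))]
    nlinarith
  calc |Real.sin (θ - φ)| ≤ |θ - φ| := h3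
    _ = 4 * |θ - φ| * (1 / 4) := by ring
    _ ≤ 4 * |θ - φ| * |Real.cos θ * Real.cos φ| :=
        mul_le_mul_of_nonneg_left h4 (by positivity)

/-- the angle is a Lipschitz function of the slope -/
theorem angle_lip {θ φ : ℝ} (h1 : |θ| ≤ Real.pi / 4) (h2 : |φ| ≤ Real.pi / 4) :
    |θ - φ| ≤ 2 * |Real.tan θ - Real.tan φ| := by
  have p4 := pi_div_four_le
  have c1 := cos_ge (h1.trans p4)
  have c2 := cos_ge (h2.trans p4)
  have e : Real.sin (θ - φ) = (Real.tan θ - Real.tan φ) * (Real.cos θ * Real.cos φ) := by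
    rw [Real.tan_eq_sin_div_cos, Real.tan_eq_sin_div_cos, Real.sin_sub]
    have : Real.cos θ ≠ 0 := by linarith
    have : Real.cos φ ≠ 0 := by linarith
    field_simp
  have h3 : |Real.sin (θ - φ)| ≤ |Real.tan θ - Real.tan φ| := by
    rw [e, abs_mul]
    have : |Real.cos θ * Real.cos φ| ≤ 1 := by
      rw [abs_mul]
      exact mul_le_one₀ (Real.abs_cos_le_one _) (abs_nonneg _) (Real.abs_cos_le_one _)
    calc |Real.tan θ - Real.tan φ| * |Real.cos θ * Real.cos φ| ≤ |Real.tan θ - Real.tan φ| * 1 :=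
          mul_le_mul_of_nonneg_left this (abs_nonneg _)
      _ = _ := mul_one _
  have h4 : |θ - φ| ≤ Real.pi / 2 := by
    calc |θ - φ| ≤ |θ| + |φ| := abs_sub _ _
      _ ≤ _ := by linarith
  have h5 : 2 / Real.pi * |θ - φ| ≤ |Real.sin (θ - φ)| := by
    rcases le_total 0 (θ - φ) with h | h
    · rw [abs_of_nonneg h] at h4 ⊢
      exact (Real.mul_le_sin h h4).trans (le_abs_self _)
    · rw [abs_of_nonpos h] at h4 ⊢
      have := Real.mul_le_sin (x := -(θ - φ)) (by linarith) h4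
      rw [Real.sin_neg] at this
      exact this.trans (neg_le_abs _)
  have h6 : (1 : ℝ) / 2 ≤ 2 / Real.pi := by
    rw [div_le_div_iff₀ (by norm_num) Real.pi_pos]
    linarith [Real.pi_le_four]
  have h7 : 1 / 2 * |θ - φ| ≤ 2 / Real.pi * |θ - φ| := mul_le_mul_of_nonneg_right h6 (abs_nonneg _)
  linarith

theorem tan_le_one {θ : ℝ} (h : |θ| ≤ Real.pi / 4) : |Real.tan θ| ≤ 1 := by
  have h1 := abs_le.1 h
  have hp := Real.pi_pos
  have m := Real.strictMonoOn_tan.monotoneOn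
  rw [abs_le]
  constructor
  · have := m (a := -(Real.pi / 4)) (b := θ) ⟨by linarith, by linarith⟩ ⟨by linarith, by linarith⟩
      (by linarith)
    rw [Real.tan_neg, Real.tan_pi_div_four] at this
    exact this
  · have := m (a := θ) (b := Real.pi / 4) ⟨by linarith, by linarith⟩ ⟨by linarith, by linarith⟩
      (by linarith)
    rw [Real.tan_pi_div_four] at this
    exact this

/-- from slopes to a frame -/
theorem frame_of_slope {φ w A B c e0 e1 : ℝ} (hφ : |φ| ≤ 1) (hw : |w| ≤ 1)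
    {u : Fin 2 → ℝ} (h0 : |u 0| ≤ A * e0) (h1 : |u 1 - w * u 0| ≤ B * e1)
    (h2 : |w - Real.tan φ| * e0 ≤ c * e1) (he : e1 ≤ e0) (hA : 0 ≤ A) (hB : 0 ≤ B) :
    |co φ u 0| ≤ (2 * A + B) * e0 ∧ |co φ u 1| ≤ (c * A + B) * e1 := by
  have c1 := cos_ge hφ
  have hc : Real.cos φ ≠ 0 := by linarith
  have u1 : |u 1| ≤ (A + B) * e0 := by
    have : u 1 = (u 1 - w * u 0) + w * u 0 := by ring
    rw [this]
    calc |u 1 - w * u 0 + w * u 0| ≤ |u 1 - w * u 0| + |w * u 0| := abs_add_le _ _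
      _ ≤ B * e1 + 1 * (A * e0) := by
          rw [abs_mul]
          have := mul_le_mul hw h0 (abs_nonneg _) zero_le_one
          linarith
      _ ≤ _ := by nlinarith
  constructor
  · show |Real.cos φ * u 0 + Real.sin φ * u 1| ≤ _
    calc |Real.cos φ * u 0 + Real.sin φ * u 1| ≤ |Real.cos φ * u 0| + |Real.sin φ * u 1| :=
          abs_add_le _ _
      _ ≤ 1 * (A * e0) + 1 * ((A + B) * e0) := by
          rw [abs_mul, abs_mul]
          have a1 := mul_le_mul (Real.abs_cos_le_one φ) h0 (abs_nonneg _) zero_le_one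
          have a2 := mul_le_mul (Real.abs_sin_le_one φ) u1 (abs_nonneg _) zero_le_one
          linarith
      _ = _ := by ring
  · show |-Real.sin φ * u 0 + Real.cos φ * u 1| ≤ _
    have e : -Real.sin φ * u 0 + Real.cos φ * u 1 =
        Real.cos φ * ((u 1 - w * u 0) + (w - Real.tan φ) * u 0) := by
      rw [Real.tan_eq_sin_div_cos]
      field_simp
      ring
    rw [e, abs_mul]
    have a1 : |(u 1 - w * u 0) + (w - Real.tan φ) * u 0| ≤ B * e1 + c * A * e1 := by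
      refine (abs_add_le _ _).trans (add_le_add h1 ?_)
      rw [abs_mul]
      calc |w - Real.tan φ| * |u 0| ≤ |w - Real.tan φ| * (A * e0) :=
            mul_le_mul_of_nonneg_left h0 (abs_nonneg _)
        _ = A * (|w - Real.tan φ| * e0) := by ring
        _ ≤ A * (c * e1) := mul_le_mul_of_nonneg_left h2 hA
        _ = _ := by ring
    calc |Real.cos φ| * |(u 1 - w * u 0) + (w - Real.tan φ) * u 0| ≤
        1 * (B * e1 + c * A * e1) :=
          mul_le_mul (Real.abs_cos_le_one φ) a1 (abs_nonneg _) zero_le_one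
      _ = _ := by ring

/-- from a frame to slopes -/
theorem slope_of_frame {φ w A B c e1 : ℝ} (hφ : |φ| ≤ 1)
    {u : Fin 2 → ℝ} (h0 : |u 0| ≤ A) (h1 : |co φ u 1| ≤ B * e1)
    (h2 : |w - Real.tan φ| ≤ c * e1) (hBe : 0 ≤ B * e1) :
    |u 1 - w * u 0| ≤ (2 * B + c * A) * e1 := by
  have c1 := cos_ge hφ
  have hc : Real.cos φ ≠ 0 := by linarith
  have e : u 1 - w * u 0 = co φ u 1 / Real.cos φ + (Real.tan φ - w) * u 0 := by
    show _ = (-Real.sin φ * u 0 + Real.cos φ * u 1) / Real.cos φ + (Real.tan φ - w) * u 0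
    rw [Real.tan_eq_sin_div_cos]
    field_simp
    ring
  rw [e]
  have a1 : |co φ u 1 / Real.cos φ| ≤ 2 * (B * e1) := by
    rw [abs_div, abs_of_pos (by linarith : 0 < Real.cos φ), div_le_iff₀ (by linarith)]
    nlinarith
  have a2 : |(Real.tan φ - w) * u 0| ≤ c * e1 * A := by
    rw [abs_mul, abs_sub_comm]
    exact mul_le_mul h2 h0 (abs_nonneg _) ((abs_nonneg _).trans h2)
  calc |co φ u 1 / Real.cos φ + (Real.tan φ - w) * u 0| ≤
      |co φ u 1 / Real.cos φ| + |(Real.tan φ - w) * u 0| := abs_add_le _ _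
    _ ≤ 2 * (B * e1) + c * e1 * A := add_le_add a1 a2
    _ = _ := by ring

/-! ### cells -/

/-- first coordinate of the position at the time `t_a` -/
noncomputable def fX (a : ℕ) (l : Ln) (t : ℝ) : ℝ := l.1 0 + qa a t * l.2 0

/-- normal coordinate of the direction -/
noncomputable def fN (r : ℕ) (l : Ln) (v : ℝ) : ℝ := l.2 1 - qa r v * l.2 0

/-- normal coordinate of the position at the time `t_a` -/
noncomputable def fF (a r : ℕ) (l : Ln) (t v : ℝ) : ℝ :=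
  l.1 1 + qa a t * l.2 1 - qa r v * fX a l t

/-- cell of the line `l` at the time `t_a` in the frame `v_r` -/
noncomputable def cellC (a r : ℕ) (l : Ln) (t v : ℝ) : CellD.Dg :=
  ((fl1 a t, fl1 r v), fl1 0 (l.2 0), fl1 r (fN r l v), fl1 a (fX a l t), fl1 (a + r) (fF a r l t v))

theorem fF_eq (a r : ℕ) (l : Ln) (t v : ℝ) :
    fF a r l t v = pos l (qa a t) 1 - qa r v * pos l (qa a t) 0 := rfl

theorem fX_eq (a : ℕ) (l : Ln) (t : ℝ) : fX a l t = pos l (qa a t) 0 := rfl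

/-- nearby lines -/
def Near (n : ℕ) (l l' : Ln) : Prop :=
  (∀ i, |l.1 i - l'.1 i| ≤ (1 / 2 : ℝ) ^ n) ∧ ∀ i, |l.2 i - l'.2 i| ≤ (1 / 2 : ℝ) ^ n

theorem Near.posl {n : ℕ} {l l' : Ln} (h : Near n l l') {t : ℝ} (ht : |t| ≤ 1) (i : Fin 2) :
    |pos l t i - pos l' t i| ≤ 2 * (1 / 2 : ℝ) ^ n := by
  have e : pos l t i - pos l' t i = (l.1 i - l'.1 i) + t * (l.2 i - l'.2 i) := by
    unfold U.pos
    ring
  rw [e]
  have h1 := h.1 i
  have h2 := mul_le_mul ht (h.2 i) (abs_nonneg _) zero_le_one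
  rw [← abs_mul] at h2
  calc _ ≤ |l.1 i - l'.1 i| + |t * (l.2 i - l'.2 i)| := abs_add_le _ _
    _ ≤ _ := by linarith

theorem Near.slope {w d : ℝ} (hw : |w| ≤ 1) {x x' y y' : ℝ} (hx : |x - x'| ≤ d) (hy : |y - y'| ≤ d) :
    |(y - w * x) - (y' - w * x')| ≤ 2 * d := by
  have e : (y - w * x) - (y' - w * x') = (y - y') - w * (x - x') := by ring
  rw [e]
  have h2 := mul_le_mul hw hx (abs_nonneg _) zero_le_one
  rw [← abs_mul] at h2
  calc _ ≤ |y - y'| + |w * (x - x')| := abs_sub _ _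
    _ ≤ _ := by linarith

section finite

variable {Ω : Type} [Fintype Ω] {γ : Type*}

theorem hp_pos (k : ℕ) : (0 : ℝ) < (1 / 2) ^ k := by positivity

theorem hp_anti {i j : ℕ} (h : i ≤ j) : (1 / 2 : ℝ) ^ j ≤ (1 / 2) ^ i :=
  pow_le_pow_of_le_one (by norm_num) (by norm_num) h

theorem log_le_K {x : ℝ} (h0 : 0 < x) (h1 : x ≤ 200) : Real.log x ≤ Real.log 200 :=
  Real.log_le_log h0 h1

theorem log200_nonneg : 0 ≤ Real.log 200 := Real.log_nonneg (by norm_num)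

/-- digits of a vector in the frame of the box, from approximate slope coordinates -/
theorem fkj_le (P : Law Ω) {b r : ℕ} (hb : b ≤ r) {θ : Ω → ℝ}
    (hθ : ∀ ω, 0 < P.w ω → |θ ω| ≤ Real.pi / 4) (Z : Ω → γ)
    (hZ : ∀ ω ω', 0 < P.w ω → 0 < P.w ω' → Z ω = Z ω' → fl1 (r - b) (θ ω) = fl1 (r - b) (θ ω'))
    (F : Ω → Fin 2 → ℝ) (hF : ∀ ω ω', 0 < P.w ω → 0 < P.w ω' → Z ω = Z ω' →
      |F ω 0 - F ω' 0| ≤ 10 * (1 / 2 : ℝ) ^ b ∧
      |(F ω 1 - qa r (Real.tan (θ ω)) * F ω 0) - (F ω' 1 - qa r (Real.tan (θ ω)) * F ω' 0)| ≤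
        18 * (1 / 2 : ℝ) ^ r) :
    Stk.hc P (fun ω => fkj b r (co (qa (r - b) (θ ω)) (F ω))) Z ≤ 2 * Real.log 200 := by
  have p4 := pi_div_four_le
  have frame : ∀ ω, 0 < P.w ω → ∀ u : Fin 2 → ℝ,
      |u 0| ≤ 10 * (1 / 2 : ℝ) ^ b → |u 1 - qa r (Real.tan (θ ω)) * u 0| ≤ 18 * (1 / 2 : ℝ) ^ r →
      |co (qa (r - b) (θ ω)) u 0| ≤ 38 * (1 / 2 : ℝ) ^ b ∧
      |co (qa (r - b) (θ ω)) u 1| ≤ 68 * (1 / 2 : ℝ) ^ r := by
    intro ω p u hu0 hu1
    have hθ1 : |θ ω| ≤ 1 := (hθ ω p).trans p4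
    have hφ : |qa (r - b) (θ ω)| ≤ 1 := qa_mem hθ1 _
    have hw : |qa r (Real.tan (θ ω))| ≤ 1 := qa_mem (tan_le_one (hθ ω p)) r
    have h2 : |qa r (Real.tan (θ ω)) - Real.tan (qa (r - b) (θ ω))| ≤ 5 * (1 / 2 : ℝ) ^ (r - b) := by
      have a1 := Apx.abs_sub_qa r (Real.tan (θ ω))
      have a2 := tan_lip hθ1 hφ
      have a3 := Apx.abs_sub_qa (r - b) (θ ω)
      have a4 : (1 / 2 : ℝ) ^ r ≤ (1 / 2) ^ (r - b) := hp_anti (by omega)
      have e1 : qa r (Real.tan (θ ω)) - Real.tan (qa (r - b) (θ ω)) =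
          (Real.tan (θ ω) - Real.tan (qa (r - b) (θ ω))) -
            (Real.tan (θ ω) - qa r (Real.tan (θ ω))) := by ring
      rw [e1]
      refine (abs_sub _ _).trans ?_
      linarith
    have h3 : |qa r (Real.tan (θ ω)) - Real.tan (qa (r - b) (θ ω))| * (1 / 2 : ℝ) ^ b ≤
        5 * (1 / 2 : ℝ) ^ r := by
      have e1 : (1 / 2 : ℝ) ^ r = (1 / 2) ^ (r - b) * (1 / 2) ^ b := by
        rw [← pow_add, Nat.sub_add_cancel hb]
      rw [e1, ← mul_assoc]
      exact mul_le_mul_of_nonneg_right h2 (hp_pos b).le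
    have := frame_of_slope hφ hw hu0 hu1 h3 (hp_anti hb) (by norm_num) (by norm_num)
    refine ⟨this.1.trans (le_of_eq ?_), this.2.trans (le_of_eq ?_)⟩ <;> ring
  have hdiff : ∀ ω ω', 0 < P.w ω → 0 < P.w ω' → Z ω = Z ω' →
      |co (qa (r - b) (θ ω)) (F ω) 0 - co (qa (r - b) (θ ω')) (F ω') 0| ≤ 38 * (1 / 2 : ℝ) ^ b ∧
      |co (qa (r - b) (θ ω)) (F ω) 1 - co (qa (r - b) (θ ω')) (F ω') 1| ≤ 68 * (1 / 2 : ℝ) ^ r := by
    intro ω ω' p p' e
    rw [← qa_congr (hZ ω ω' p p' e), ← co_sub, ← co_sub]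
    obtain ⟨h1, h2⟩ := hF ω ω' p p' e
    refine frame ω p _ h1 (le_trans (le_of_eq ?_) h2)
    congr 1
    ring
  have a1 := hc_fl1_apx P b 38 (fun ω => co (qa (r - b) (θ ω)) (F ω) 0) Z (by
    intro ω ω' p p' e
    push_cast
    exact (hdiff ω ω' p p' e).1)
  have a2 := hc_fl1_apx P r 68 (fun ω => co (qa (r - b) (θ ω)) (F ω) 1) Z (by
    intro ω ω' p p' e
    push_cast
    exact (hdiff ω ω' p p' e).2)
  have a3 := hc_pair_le P (fun ω => fl1 b (co (qa (r - b) (θ ω)) (F ω) 0))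
    (fun ω => fl1 r (co (qa (r - b) (θ ω)) (F ω) 1)) Z
  have a4 := log_le_K (x := 2 * (38 : ℕ) + 3) (by positivity) (by norm_num)
  have a5 := log_le_K (x := 2 * (68 : ℕ) + 3) (by positivity) (by norm_num)
  have a6 : Stk.hc P (fun ω => fkj b r (co (qa (r - b) (θ ω)) (F ω))) Z =
    Stk.hc P (fun ω => (fl1 b (co (qa (r - b) (θ ω)) (F ω) 0),
      fl1 r (co (qa (r - b) (θ ω)) (F ω) 1))) Z := rfl
  rw [a6]
  push_cast at a1 a2 a4 a5 ⊢
  linarith

/-- two outcomes in the same cell -/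
structure Cls (a b r : ℕ) (w : ℝ) (l l' : Ln) (τ τ' θ θ' : ℝ) : Prop where
  θθ : |θ - θ'| ≤ 2 * (1 / 2 : ℝ) ^ r
  pp : ∀ i, |pos l τ i - pos l' τ' i| ≤ 14 * (1 / 2 : ℝ) ^ a
  p0 : |pos l τ 0 - pos l' τ' 0| ≤ 5 * (1 / 2 : ℝ) ^ (a + b)
  p1 : |(pos l τ 1 - w * pos l τ 0) - (pos l' τ' 1 - w * pos l' τ' 0)| ≤ 9 * (1 / 2 : ℝ) ^ (a + r)
  y0 : |l.2 0 - l'.2 0| ≤ 5 * (1 / 2 : ℝ) ^ b
  y1 : |(l.2 1 - w * l.2 0) - (l'.2 1 - w * l'.2 0)| ≤ 9 * (1 / 2 : ℝ) ^ r

theorem cls {a b r n : ℕ} (hb : b ≤ r) (hn : a + r ≤ n) {l l' m m' : Ln} {t t' θ θ' : ℝ}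
    (ht : |t| ≤ 1) (hl : Near n l m) (hl' : Near n l' m')
    (hθ : |θ| ≤ Real.pi / 4) (hθ' : |θ'| ≤ Real.pi / 4)
    (h1 : cellC a r m t (Real.tan θ) = cellC a r m' t' (Real.tan θ'))
    (h2 : fl1 b (m.2 0) = fl1 b (m'.2 0))
    (h3 : fl1 (a + b) (fX a m t) = fl1 (a + b) (fX a m' t')) :
    Cls a b r (qa r (Real.tan θ)) l l' (qa a t) (qa a t') θ θ' := by
  unfold cellC at h1
  simp only [Prod.mk.injEq] at h1
  obtain ⟨⟨g1, g2⟩, g3, g4, g5, g6⟩ := h1
  have hq1 : qa a t = qa a t' := qa_congr g1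
  have hq2 : qa r (Real.tan θ) = qa r (Real.tan θ') := qa_congr g2
  have hw : |qa r (Real.tan θ)| ≤ 1 := qa_mem (tan_le_one hθ) r
  have ht : |qa a t| ≤ 1 := qa_mem ht a
  have hnn : (1 / 2 : ℝ) ^ n ≤ (1 / 2) ^ (a + r) := hp_anti hn
  have hnb : (1 / 2 : ℝ) ^ n ≤ (1 / 2) ^ (a + b) := hp_anti (by omega)
  have hna : (1 / 2 : ℝ) ^ n ≤ (1 / 2) ^ a := hp_anti (by omega)
  have hnr : (1 / 2 : ℝ) ^ n ≤ (1 / 2) ^ r := hp_anti (by omega)
  have hnb' : (1 / 2 : ℝ) ^ n ≤ (1 / 2) ^ b := hp_anti (by omega)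
  have hab : (1 / 2 : ℝ) ^ (a + b) ≤ (1 / 2) ^ a := hp_anti (by omega)
  have har : (1 / 2 : ℝ) ^ (a + r) ≤ (1 / 2) ^ a := hp_anti (by omega)
  have k1 := hl.posl ht
  have k2 := hl'.posl (hq1 ▸ ht)
  have k3 := hl.2
  have k4 := hl'.2
  have c3 := Apx.fl1_close h3
  have c2 := Apx.fl1_close h2
  have c4 := Apx.fl1_close g4
  have c6 := Apx.fl1_close g6
  rw [fX_eq, fX_eq] at c3
  rw [fF_eq, fF_eq, ← hq2] at c6
  unfold fN at c4
  rw [← hq2] at c4
  set w := qa r (Real.tan θ) with hwdef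
  have d0 : |pos l (qa a t) 0 - pos l' (qa a t') 0| ≤ 5 * (1 / 2 : ℝ) ^ (a + b) := by
    have a1 := k1 0
    have a2 := k2 0
    rw [abs_le] at a1 a2 c3 ⊢
    constructor <;> linarith [a1.1, a1.2, a2.1, a2.2, c3.1, c3.2]
  have d1 : |(pos l (qa a t) 1 - w * pos l (qa a t) 0) -
      (pos l' (qa a t') 1 - w * pos l' (qa a t') 0)| ≤ 9 * (1 / 2 : ℝ) ^ (a + r) := by
    have a1 := Near.slope hw (k1 0) (k1 1)
    have a2 := Near.slope hw (k2 0) (k2 1)
    rw [abs_le] at a1 a2 c6 ⊢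
    constructor <;> linarith [a1.1, a1.2, a2.1, a2.2, c6.1, c6.2]
  refine ⟨?_, ?_, d0, d1, ?_, ?_⟩
  · have a1 := Apx.fl1_close g2
    have a2 := angle_lip hθ hθ'
    linarith
  · intro i
    have b0 : |pos l (qa a t) 0 - pos l' (qa a t') 0| ≤ 5 * (1 / 2 : ℝ) ^ a := by linarith
    fin_cases i
    · show |pos l (qa a t) 0 - pos l' (qa a t') 0| ≤ _
      have := hp_pos a
      linarith
    · show |pos l (qa a t) 1 - pos l' (qa a t') 1| ≤ _
      have b1 := mul_le_mul hw b0 (abs_nonneg _) zero_le_one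
      rw [← abs_mul, one_mul] at b1
      rw [abs_le] at b1 d1 ⊢
      constructor <;> nlinarith [b1.1, b1.2, d1.1, d1.2, har]
  · have a1 := k3 0
    have a2 := k4 0
    rw [abs_le] at a1 a2 c2 ⊢
    constructor <;> linarith [a1.1, a1.2, a2.1, a2.2, c2.1, c2.2]
  · have a1 := Near.slope hw (k3 0) (k3 1)
    have a2 := Near.slope hw (k4 0) (k4 1)
    rw [abs_le] at a1 a2 c4 ⊢
    constructor <;> linarith [a1.1, a1.2, a2.1, a2.2, c4.1, c4.2]

/-- hypotheses of the comparison: `l` the lines, `m` the lines of the cells, `θ` the angle -/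
structure Dat (P : Law Ω) (n : ℕ) (l m : Ω → Ln) (t θ : Ω → ℝ) : Prop where
  good : GoodF P l t
  near : ∀ ω, 0 < P.w ω → Near n (l ω) (m ω)
  ang : ∀ ω, 0 < P.w ω → |θ ω| ≤ Real.pi / 4

variable {P : Law Ω} {n : ℕ} {l m : Ω → Ln} {t θ : Ω → ℝ}

theorem Dat.t_le (h : Dat P n l m t θ) {ω : Ω} (p : 0 < P.w ω) : |t ω| ≤ 1 := by
  rw [abs_of_nonneg (h.good ω p).2.1]
  exact (h.good ω p).2.2

/-- cell with `b` more digits in the wide direction -/
noncomputable def cellB (a b r : ℕ) (m : Ω → Ln) (t θ : Ω → ℝ) (ω : Ω) : CellD.Dg × ℤ × ℤ :=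
  (cellC a r (m ω) (t ω) (Real.tan (θ ω)), fl1 b ((m ω).2 0), fl1 (a + b) (fX a (m ω) (t ω)))

theorem Dat.cls (h : Dat P n l m t θ) {a b r : ℕ} (hb : b ≤ r) (hn : a + r ≤ n) {ω ω' : Ω}
    (p : 0 < P.w ω) (p' : 0 < P.w ω') (e : cellB a b r m t θ ω = cellB a b r m t θ ω') :
    Cls a b r (qa r (Real.tan (θ ω))) (l ω) (l ω') (qa a (t ω)) (qa a (t ω')) (θ ω) (θ ω') := by
  unfold cellB at e
  simp only [Prod.mk.injEq] at e
  exact LinkC.cls hb hn (h.t_le p) (h.near ω p) (h.near ω' p') (h.ang ω p) (h.ang ω' p')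
    e.1 e.2.1 e.2.2

/-- the angle digits -/
theorem Dat.angle_le (h : Dat P n l m t θ) {a b r : ℕ} (hb : b ≤ r) (hn : a + r ≤ n) (Z : Ω → γ)
    (hZ : ∀ ω ω', 0 < P.w ω → 0 < P.w ω' → Z ω = Z ω' → cellB a b r m t θ ω = cellB a b r m t θ ω') :
    Stk.hc P (fun ω => fl1 (r - b) (θ ω)) Z ≤ Real.log 200 := by
  have := hc_fl1_apx P (r - b) 2 θ Z (by
    intro ω ω' p p' e
    have h1 := (h.cls hb hn p p' (hZ ω ω' p p' e)).θθ
    have h2 : (1 / 2 : ℝ) ^ r ≤ (1 / 2) ^ (r - b) := hp_anti (by omega)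
    push_cast
    linarith)
  exact this.trans (log_le_K (by positivity) (by norm_num))

/-- **from the cell to the label** of shape `(b, r)` in the ball of level `a` -/
theorem lab_le (h : Dat P n l m t θ) {a b r : ℕ} (hb : b ≤ r) (hn : a + r ≤ n) (Z : Ω → γ)
    (hZ : ∀ ω ω', 0 < P.w ω → 0 < P.w ω' → Z ω = Z ω' → cellB a b r m t θ ω = cellB a b r m t θ ω') :
    Stk.hc P (fun ω => U.lab (θ ω) b r (blF a l t ω)) Z ≤ 7 * Real.log 200 := by
  have s1 := h.angle_le hb hn Z hZ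
  -- the integer part of the position
  have s2 : Stk.hc P (fun ω => fl a (pos (l ω) (qa a (t ω)))) (fun ω => (fl1 (r - b) (θ ω), Z ω)) ≤
      2 * Real.log 200 := by
    have := hc_fl_apx P (ι := Fin 2) a 14 (fun ω => pos (l ω) (qa a (t ω)))
      (fun ω => (fl1 (r - b) (θ ω), Z ω)) (by
      intro ω ω' p p' e i
      have h1 := (h.cls hb hn p p' (hZ ω ω' p p' (congrArg Prod.snd e))).pp i
      push_cast
      exact h1)
    rw [Fintype.card_fin] at this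
    have h2 := log_le_K (x := 2 * (14 : ℕ) + 3) (by positivity) (by norm_num)
    push_cast at this h2 ⊢
    linarith
  set Z' := fun ω => (fl a (pos (l ω) (qa a (t ω))), (fl1 (r - b) (θ ω), Z ω)) with hZ'
  have e1 : ∀ ω ω', Z' ω = Z' ω' → fl1 (r - b) (θ ω) = fl1 (r - b) (θ ω') := fun ω ω' e =>
    congrArg (fun q => q.2.1) e
  have e3 : ∀ k : ℕ, (2 : ℝ) ^ a * (1 / 2) ^ (a + k) = (1 / 2) ^ k := by
    intro k
    rw [pow_add, ← mul_assoc, ← mul_pow]
    norm_num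
  have hpa : (0 : ℝ) < 2 ^ a := by positivity
  have s4 := fkj_le P hb h.ang Z' (fun ω ω' _ _ e => e1 ω ω' e) (fun ω => (blF a l t ω).1) (by
    intro ω ω' p p' e
    have e0 : Z ω = Z ω' := congrArg (fun q => q.2.2) e
    have e2 : fl a (pos (l ω) (qa a (t ω))) = fl a (pos (l ω') (qa a (t ω'))) := congrArg Prod.fst e
    have c := h.cls hb hn p p' (hZ ω ω' p p' e0)
    have f : ∀ (ω : Ω) (i : Fin 2), (blF a l t ω).1 i = (2 : ℝ) ^ a * pos (l ω) (qa a (t ω)) i -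
        (fl a (pos (l ω) (qa a (t ω))) i : ℝ) := fun ω i => rfl
    rw [f, f, f, f, ← e2]
    constructor
    · have g1 : (2 : ℝ) ^ a * pos (l ω) (qa a (t ω)) 0 - (fl a (pos (l ω) (qa a (t ω))) 0 : ℝ) -
          ((2 : ℝ) ^ a * pos (l ω') (qa a (t ω')) 0 - (fl a (pos (l ω) (qa a (t ω))) 0 : ℝ)) =
          2 ^ a * (pos (l ω) (qa a (t ω)) 0 - pos (l ω') (qa a (t ω')) 0) := by ring
      rw [g1, abs_mul, abs_of_pos hpa]
      have := hp_pos b
      calc (2 : ℝ) ^ a * |pos (l ω) (qa a (t ω)) 0 - pos (l ω') (qa a (t ω')) 0| ≤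
          2 ^ a * (5 * (1 / 2) ^ (a + b)) := mul_le_mul_of_nonneg_left c.p0 hpa.le
        _ = 5 * (2 ^ a * (1 / 2) ^ (a + b)) := by ring
        _ = 5 * (1 / 2) ^ b := by rw [e3]
        _ ≤ _ := by linarith
    · set w := qa r (Real.tan (θ ω)) with hw
      have g1 : (2 : ℝ) ^ a * pos (l ω) (qa a (t ω)) 1 - (fl a (pos (l ω) (qa a (t ω))) 1 : ℝ) -
          w * ((2 : ℝ) ^ a * pos (l ω) (qa a (t ω)) 0 - (fl a (pos (l ω) (qa a (t ω))) 0 : ℝ)) -
          ((2 : ℝ) ^ a * pos (l ω') (qa a (t ω')) 1 - (fl a (pos (l ω) (qa a (t ω))) 1 : ℝ) -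
          w * ((2 : ℝ) ^ a * pos (l ω') (qa a (t ω')) 0 - (fl a (pos (l ω) (qa a (t ω))) 0 : ℝ))) =
          2 ^ a * ((pos (l ω) (qa a (t ω)) 1 - w * pos (l ω) (qa a (t ω)) 0) -
        (pos (l ω') (qa a (t ω')) 1 - w * pos (l ω') (qa a (t ω')) 0)) := by ring
      rw [g1, abs_mul, abs_of_pos hpa]
      have := hp_pos r
      calc _ ≤ (2 : ℝ) ^ a * (9 * (1 / 2) ^ (a + r)) := mul_le_mul_of_nonneg_left c.p1 hpa.le
        _ = 9 * (2 ^ a * (1 / 2) ^ (a + r)) := by ring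
        _ = 9 * (1 / 2) ^ r := by rw [e3]
        _ ≤ _ := by linarith)
  have s5 := fkj_le P hb h.ang Z' (fun ω ω' _ _ e => e1 ω ω' e) (fun ω => (blF a l t ω).2) (by
    intro ω ω' p p' e
    have c := h.cls hb hn p p' (hZ ω ω' p p' (congrArg (fun q => q.2.2) e))
    have h0 := hp_pos b
    have h1 := hp_pos r
    refine ⟨c.y0.trans ?_, c.y1.trans ?_⟩ <;> linarith)
  -- assembly
  have t1 := Apx.hc_via P (fun ω => U.lab (θ ω) b r (blF a l t ω)) (fun ω => fl1 (r - b) (θ ω)) Z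
  have t2 := Apx.hc_via P (fun ω => U.lab (θ ω) b r (blF a l t ω))
    (fun ω => fl a (pos (l ω) (qa a (t ω)))) (fun ω => (fl1 (r - b) (θ ω), Z ω))
  have t3 : Stk.hc P (fun ω => U.lab (θ ω) b r (blF a l t ω)) Z' ≤
      Stk.hc P (fun ω => (fkj b r (co (qa (r - b) (θ ω)) (blF a l t ω).1),
        fkj b r (co (qa (r - b) (θ ω)) (blF a l t ω).2))) Z' := by
    refine Stk.hc_mono_left P fun ω ω' _ _ e => ?_
    simp only [Prod.mk.injEq] at e
    have e1 : fl1 (r - b) (θ ω) = fl1 (r - b) (θ ω') := congrArg (fun q => q.2.1) e.2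
    show U.lab (θ ω) b r (blF a l t ω) = U.lab (θ ω') b r (blF a l t ω')
    unfold U.lab
    rw [e1, e.1.1, e.1.2]
  have t4 := hc_pair_le P (fun ω => fkj b r (co (qa (r - b) (θ ω)) (blF a l t ω).1))
    (fun ω => fkj b r (co (qa (r - b) (θ ω)) (blF a l t ω).2)) Z'
  linarith

/-- **from the cell to the label of the root** -/
theorem root_le (h : Dat P n l m t θ) {b r : ℕ} (hb : b ≤ r) (hn : r ≤ n) (Z : Ω → γ)
    (hZ : ∀ ω ω', 0 < P.w ω → 0 < P.w ω' → Z ω = Z ω' → cellB 0 b r m t θ ω = cellB 0 b r m t θ ω') :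
    Stk.hc P (fun ω => U.lab (θ ω) b r (l ω)) Z ≤ 7 * Real.log 200 := by
  have hn' : 0 + r ≤ n := by omega
  have s1 := h.angle_le hb hn' Z hZ
  set Z' := fun ω => (fl1 (r - b) (θ ω), Z ω) with hZ'
  have e1 : ∀ ω ω', Z' ω = Z' ω' → fl1 (r - b) (θ ω) = fl1 (r - b) (θ ω') := fun ω ω' e =>
    congrArg Prod.fst e
  have s4 := fkj_le P hb h.ang Z' (fun ω ω' _ _ e => e1 ω ω' e) (fun ω => (l ω).1) (by
    intro ω ω' p p' e
    have hc := hZ ω ω' p p' (congrArg Prod.snd e)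
    have c := h.cls hb hn' p p' hc
    have ht : |qa 0 (t ω)| ≤ 1 := qa_mem (h.t_le p) 0
    have hq : qa 0 (t ω) = qa 0 (t ω') := qa_congr (by
      have := congrArg (fun q => q.1.1.1) hc
      exact this)
    have f : ∀ (ω : Ω) (i : Fin 2), (l ω).1 i = pos (l ω) (qa 0 (t ω)) i - qa 0 (t ω) * (l ω).2 i := by
      intro ω i
      unfold pos
      ring
    have c0 := c.p0
    have c1 := c.p1
    rw [zero_add] at c0 c1
    set w := qa r (Real.tan (θ ω)) with hw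
    set τ := qa 0 (t ω) with hτ
    constructor
    · have g1 : (l ω).1 0 - (l ω').1 0 = (pos (l ω) τ 0 - pos (l ω') (qa 0 (t ω')) 0) -
          τ * ((l ω).2 0 - (l ω').2 0) := by
        rw [f ω, f ω', ← hq]
        ring
      have g2 := mul_le_mul ht c.y0 (abs_nonneg _) zero_le_one
      rw [← abs_mul, one_mul] at g2
      rw [g1]
      refine (abs_sub _ _).trans ?_
      linarith
    · have g1 : ((l ω).1 1 - w * (l ω).1 0) - ((l ω').1 1 - w * (l ω').1 0) =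
          ((pos (l ω) τ 1 - w * pos (l ω) τ 0) -
            (pos (l ω') (qa 0 (t ω')) 1 - w * pos (l ω') (qa 0 (t ω')) 0)) -
          τ * (((l ω).2 1 - w * (l ω).2 0) - ((l ω').2 1 - w * (l ω').2 0)) := by
        rw [f ω 0, f ω' 0, f ω 1, f ω' 1, ← hq]
        ring
      have g2 := mul_le_mul ht c.y1 (abs_nonneg _) zero_le_one
      rw [← abs_mul, one_mul] at g2
      rw [g1]
      refine (abs_sub _ _).trans ?_
      linarith)
  have s5 := fkj_le P hb h.ang Z' (fun ω ω' _ _ e => e1 ω ω' e) (fun ω => (l ω).2) (by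
    intro ω ω' p p' e
    have c := h.cls hb hn' p p' (hZ ω ω' p p' (congrArg Prod.snd e))
    have h0 := hp_pos b
    have h1 := hp_pos r
    refine ⟨c.y0.trans ?_, c.y1.trans ?_⟩ <;> linarith)
  have t1 := Apx.hc_via P (fun ω => U.lab (θ ω) b r (l ω)) (fun ω => fl1 (r - b) (θ ω)) Z
  have t3 : Stk.hc P (fun ω => U.lab (θ ω) b r (l ω)) Z' ≤
      Stk.hc P (fun ω => (fkj b r (co (qa (r - b) (θ ω)) (l ω).1),
        fkj b r (co (qa (r - b) (θ ω)) (l ω).2))) Z' := by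
    refine Stk.hc_mono_left P fun ω ω' _ _ e => ?_
    simp only [Prod.mk.injEq] at e
    have e1 : fl1 (r - b) (θ ω) = fl1 (r - b) (θ ω') := congrArg Prod.fst e.2
    show U.lab (θ ω) b r (l ω) = U.lab (θ ω') b r (l ω')
    unfold U.lab
    rw [e1, e.1.1, e.1.2]
  have t4 := hc_pair_le P (fun ω => fkj b r (co (qa (r - b) (θ ω)) (l ω).1))
    (fun ω => fkj b r (co (qa (r - b) (θ ω)) (l ω).2)) Z'
  have := log200_nonneg
  linarith

/-- **from the cell to the cell of the point** -/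
theorem pq_le (h : Dat P n l m t θ) {a b r : ℕ} (hb : b ≤ r) (hn : a + r ≤ n) (Z : Ω → γ)
    (hZ : ∀ ω ω', 0 < P.w ω → 0 < P.w ω' → Z ω = Z ω' → cellB a b r m t θ ω = cellB a b r m t θ ω') :
    Stk.hc P (fun ω => pq a (ptF l t ω)) Z ≤ 2 * Real.log 200 := by
  have s1 : Stk.hc P (fun ω => fl1 a (t ω)) Z = 0 := Stk.hc_zero P fun ω ω' p p' e => by
    have := congrArg (fun q => q.1.1.1) (hZ ω ω' p p' e)
    exact this
  have s2 : Stk.hc P (fun ω => fl a (pos (l ω) (t ω))) Z ≤ 2 * Real.log 200 := by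
    have := hc_fl_apx P (ι := Fin 2) a 16 (fun ω => pos (l ω) (t ω)) Z (by
      intro ω ω' p p' e i
      have h1 := (h.cls hb hn p p' (hZ ω ω' p p' e)).pp i
      have a2 : ∀ ω, 0 < P.w ω → |pos (l ω) (t ω) i - pos (l ω) (qa a (t ω)) i| ≤ (1 / 2 : ℝ) ^ a := by
        intro ω hω
        rw [pos_sub, abs_mul]
        have b1 := abs_sub_qa a (t ω)
        have b2 := (h.good ω hω).1.2 i
        calc |t ω - qa a (t ω)| * |(l ω).2 i| ≤ (1 / 2 : ℝ) ^ a * 1 :=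
              mul_le_mul b1 b2 (abs_nonneg _) (by positivity)
          _ = _ := mul_one _
      have a3 := a2 ω p
      have a4 := a2 ω' p'
      push_cast
      rw [abs_le] at h1 a3 a4 ⊢
      constructor <;> linarith [h1.1, h1.2, a3.1, a3.2, a4.1, a4.2])
    rw [Fintype.card_fin] at this
    have h2 := log_le_K (x := 2 * (16 : ℕ) + 3) (by positivity) (by norm_num)
    push_cast at this h2 ⊢
    linarith
  have s3 := hc_pair_le P (fun ω => fl1 a (t ω)) (fun ω => fl a (pos (l ω) (t ω))) Z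
  have s4 : Stk.hc P (fun ω => pq a (ptF l t ω)) Z =
    Stk.hc P (fun ω => (fl1 a (t ω), fl a (pos (l ω) (t ω)))) Z := rfl
  rw [s4]
  linarith

/-- **from the label of shape `(0, r)` and the cell of the point to the cell** -/
theorem cell_le (h : Dat P n l m t θ) {a r : ℕ} (hn : a + r ≤ n) (Z : Ω → γ)
    (hZ : ∀ ω ω', 0 < P.w ω → 0 < P.w ω' → Z ω = Z ω' →
      U.lab (θ ω) 0 r (blF a l t ω) = U.lab (θ ω') 0 r (blF a l t ω') ∧
      pq a (ptF l t ω) = pq a (ptF l t ω')) :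
    Stk.hc P (fun ω => cellC a r (m ω) (t ω) (Real.tan (θ ω))) Z ≤ 7 * Real.log 200 := by
  have p4 := pi_div_four_le
  have hθ1 : ∀ ω, 0 < P.w ω → |θ ω| ≤ 1 := fun ω p => (h.ang ω p).trans p4
  have hnn : (1 / 2 : ℝ) ^ n ≤ (1 / 2) ^ (a + r) := hp_anti hn
  have hna : (1 / 2 : ℝ) ^ n ≤ (1 / 2) ^ a := hp_anti (by omega)
  have hnr : (1 / 2 : ℝ) ^ n ≤ (1 / 2) ^ r := hp_anti (by omega)
  -- what is known
  have kθ : ∀ ω ω', 0 < P.w ω → 0 < P.w ω' → Z ω = Z ω' → fl1 r (θ ω) = fl1 r (θ ω') := by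
    intro ω ω' p p' e
    exact congrArg (fun q => q.2.2.1) (hZ ω ω' p p' e).1
  have kx : ∀ ω ω', 0 < P.w ω → 0 < P.w ω' → Z ω = Z ω' →
      |co (qa r (θ ω)) (fun i => (blF a l t ω).1 i - (blF a l t ω').1 i) 1| ≤ (1 / 2 : ℝ) ^ r := by
    intro ω ω' p p' e
    have e1 : fl1 r (co (qa (r - 0) (θ ω)) (blF a l t ω).1 1) =
        fl1 r (co (qa (r - 0) (θ ω')) (blF a l t ω').1 1) :=
      congrArg (fun q => q.2.2.2.1.2) (hZ ω ω' p p' e).1
    have e2 := Apx.fl1_close e1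
    rw [Nat.sub_zero, ← qa_congr (kθ ω ω' p p' e), ← co_sub] at e2
    exact e2
  have ky : ∀ ω ω', 0 < P.w ω → 0 < P.w ω' → Z ω = Z ω' →
      |co (qa r (θ ω)) (fun i => (l ω).2 i - (l ω').2 i) 1| ≤ (1 / 2 : ℝ) ^ r := by
    intro ω ω' p p' e
    have e1 : fl1 r (co (qa (r - 0) (θ ω)) (l ω).2 1) =
        fl1 r (co (qa (r - 0) (θ ω')) (l ω').2 1) :=
      congrArg (fun q => q.2.2.2.2.2) (hZ ω ω' p p' e).1
    have e2 := Apx.fl1_close e1
    rw [Nat.sub_zero, ← qa_congr (kθ ω ω' p p' e), ← co_sub] at e2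
    exact e2
  have kw : ∀ ω, 0 < P.w ω → |qa r (Real.tan (θ ω)) - Real.tan (qa r (θ ω))| ≤
      5 * (1 / 2 : ℝ) ^ r := by
    intro ω p
    have a1 := Apx.abs_sub_qa r (Real.tan (θ ω))
    have a2 := tan_lip (hθ1 ω p) (qa_mem (hθ1 ω p) r)
    have a3 := Apx.abs_sub_qa r (θ ω)
    have e1 : qa r (Real.tan (θ ω)) - Real.tan (qa r (θ ω)) =
        (Real.tan (θ ω) - Real.tan (qa r (θ ω))) - (Real.tan (θ ω) - qa r (Real.tan (θ ω))) := by
      ring
    rw [e1]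
    refine (abs_sub _ _).trans ?_
    linarith
  -- the components
  have c1 : Stk.hc P (fun ω => fl1 r (Real.tan (θ ω))) Z ≤ Real.log 200 := by
    have := hc_fl1_apx P r 4 (fun ω => Real.tan (θ ω)) Z (by
      intro ω ω' p p' e
      have a2 := tan_lip (hθ1 ω p) (hθ1 ω' p')
      have a3 := Apx.fl1_close (kθ ω ω' p p' e)
      push_cast
      linarith)
    exact this.trans (log_le_K (by positivity) (by norm_num))
  have c2 : Stk.hc P (fun ω => fl1 0 ((m ω).2 0)) Z ≤ Real.log 200 := by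
    have := hc_fl1_apx P 0 4 (fun ω => (m ω).2 0) Z (by
      intro ω ω' p p' e
      have a1 := (h.near ω p).2 0
      have a2 := (h.near ω' p').2 0
      have a3 := (h.good ω p).1.2 0
      have a4 := (h.good ω' p').1.2 0
      have a5 : (1 / 2 : ℝ) ^ n ≤ 1 := pow_le_one₀ (by norm_num) (by norm_num)
      rw [pow_zero, mul_one]
      push_cast
      rw [abs_le] at a1 a2 a3 a4 ⊢
      constructor <;> linarith [a1.1, a1.2, a2.1, a2.2, a3.1, a3.2, a4.1, a4.2])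
    exact this.trans (log_le_K (by positivity) (by norm_num))
  have c3 : Stk.hc P (fun ω => fl a (pos (l ω) (qa a (t ω)))) Z ≤ 2 * Real.log 200 := by
    have := LocB.cell_le P a a le_rfl l t (fun ω hω => (h.good ω hω).1) Z (fun ω ω' p p' e =>
      congrArg Prod.snd (hZ ω ω' p p' e).2)
    have h2 := log_le_K (x := 9) (by positivity) (by norm_num)
    linarith
  set Z' := fun ω => (fl1 r (Real.tan (θ ω)), (fl a (pos (l ω) (qa a (t ω))), Z ω)) with hZ'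
  have zZ : ∀ ω ω', Z' ω = Z' ω' → Z ω = Z ω' := fun ω ω' e => congrArg (fun q => q.2.2) e
  have zv : ∀ ω ω', Z' ω = Z' ω' → qa r (Real.tan (θ ω)) = qa r (Real.tan (θ ω')) := fun ω ω' e =>
    qa_congr (congrArg Prod.fst e)
  have zp : ∀ ω ω', Z' ω = Z' ω' → fl a (pos (l ω) (qa a (t ω))) = fl a (pos (l ω') (qa a (t ω'))) :=
    fun ω ω' e => congrArg (fun q => q.2.1) e
  have zt : ∀ ω ω', 0 < P.w ω → 0 < P.w ω' → Z' ω = Z' ω' → qa a (t ω) = qa a (t ω') :=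
    fun ω ω' p p' e => qa_congr (congrArg Prod.fst (hZ ω ω' p p' (zZ ω ω' e)).2)
  have ht1 : ∀ ω, 0 < P.w ω → |qa a (t ω)| ≤ 1 := fun ω p => qa_mem (h.t_le p) a
  have c4 : Stk.hc P (fun ω => fl1 r (fN r (m ω) (Real.tan (θ ω)))) Z' ≤ Real.log 200 := by
    have := hc_fl1_apx P r 16 (fun ω => fN r (m ω) (Real.tan (θ ω))) Z' (by
      intro ω ω' p p' e
      have hw : |qa r (Real.tan (θ ω))| ≤ 1 := qa_mem (tan_le_one (h.ang ω p)) r
      have a1 := Near.slope hw ((h.near ω p).2 0) ((h.near ω p).2 1)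
      have a2 := Near.slope hw ((h.near ω' p').2 0) ((h.near ω' p').2 1)
      have a3 := slope_of_frame (φ := qa r (θ ω)) (w := qa r (Real.tan (θ ω))) (A := 2) (B := 1)
        (c := 5) (e1 := (1 / 2 : ℝ) ^ r) (qa_mem (hθ1 ω p) r)
        (u := fun i => (l ω).2 i - (l ω').2 i) (by
          have b1 := (h.good ω p).1.2 0
          have b2 := (h.good ω' p').1.2 0
          show |(l ω).2 0 - (l ω').2 0| ≤ 2
          rw [abs_le] at b1 b2 ⊢
          constructor <;> linarith [b1.1, b1.2, b2.1, b2.2])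
        (by rw [one_mul]; exact ky ω ω' p p' (zZ ω ω' e)) (kw ω p) (by positivity)
      show |fN r (m ω) (Real.tan (θ ω)) - fN r (m ω') (Real.tan (θ ω'))| ≤ _
      unfold fN
      rw [← zv ω ω' e]
      have e5 : (l ω).2 1 - (l ω').2 1 - qa r (Real.tan (θ ω)) * ((l ω).2 0 - (l ω').2 0) =
        ((l ω).2 1 - qa r (Real.tan (θ ω)) * (l ω).2 0) -
          ((l ω').2 1 - qa r (Real.tan (θ ω)) * (l ω').2 0) := by ring
      rw [e5] at a3
      push_cast
      rw [abs_le] at a1 a2 a3 ⊢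
      constructor <;> linarith [a1.1, a1.2, a2.1, a2.2, a3.1, a3.2])
    exact this.trans (log_le_K (by positivity) (by norm_num))
  have c5 : Stk.hc P (fun ω => fl1 a (fX a (m ω) (t ω))) Z' ≤ Real.log 200 := by
    have := hc_fl1_apx P a 5 (fun ω => fX a (m ω) (t ω)) Z' (by
      intro ω ω' p p' e
      have a1 := (h.near ω p).posl (ht1 ω p) 0
      have a2 := (h.near ω' p').posl (ht1 ω' p') 0
      have a3 := Apx.fl_close (zp ω ω' e) 0
      show |fX a (m ω) (t ω) - fX a (m ω') (t ω')| ≤ _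
      rw [fX_eq, fX_eq]
      push_cast
      rw [abs_le] at a1 a2 a3 ⊢
      constructor <;> linarith [a1.1, a1.2, a2.1, a2.2, a3.1, a3.2])
    exact this.trans (log_le_K (by positivity) (by norm_num))
  have c6 : Stk.hc P (fun ω => fl1 (a + r) (fF a r (m ω) (t ω) (Real.tan (θ ω)))) Z' ≤
      Real.log 200 := by
    have := hc_fl1_apx P (a + r) 15 (fun ω => fF a r (m ω) (t ω) (Real.tan (θ ω))) Z' (by
      intro ω ω' p p' e
      have hw : |qa r (Real.tan (θ ω))| ≤ 1 := qa_mem (tan_le_one (h.ang ω p)) r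
      have a1 := Near.slope hw ((h.near ω p).posl (ht1 ω p) 0) ((h.near ω p).posl (ht1 ω p) 1)
      have a2 := Near.slope hw ((h.near ω' p').posl (ht1 ω' p') 0)
        ((h.near ω' p').posl (ht1 ω' p') 1)
      have a3 := slope_of_frame (φ := qa r (θ ω)) (w := qa r (Real.tan (θ ω))) (A := 1) (B := 1)
        (c := 5) (e1 := (1 / 2 : ℝ) ^ r) (qa_mem (hθ1 ω p) r)
        (u := fun i => (blF a l t ω).1 i - (blF a l t ω').1 i) (by
          have f1 : (0 : ℝ) ≤ (blF a l t ω).1 0 := Int.fract_nonneg _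
          have f2 : (blF a l t ω).1 0 < 1 := Int.fract_lt_one _
          have f3 : (0 : ℝ) ≤ (blF a l t ω').1 0 := Int.fract_nonneg _
          have f4 : (blF a l t ω').1 0 < 1 := Int.fract_lt_one _
          show |(blF a l t ω).1 0 - (blF a l t ω').1 0| ≤ 1
          rw [abs_le]
          constructor <;> linarith)
        (by rw [one_mul]; exact kx ω ω' p p' (zZ ω ω' e)) (kw ω p) (by positivity)
      have f : ∀ (ω : Ω) (i : Fin 2), (blF a l t ω).1 i = (2 : ℝ) ^ a * pos (l ω) (qa a (t ω)) i -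
        (fl a (pos (l ω) (qa a (t ω))) i : ℝ) := fun ω i => rfl
      rw [f, f, f, f, ← zp ω ω' e] at a3
      set w := qa r (Real.tan (θ ω)) with hwd
      have hpa : (0 : ℝ) < 2 ^ a := by positivity
      have e5 : (2 : ℝ) ^ a * pos (l ω) (qa a (t ω)) 1 - (fl a (pos (l ω) (qa a (t ω))) 1 : ℝ) -
          ((2 : ℝ) ^ a * pos (l ω') (qa a (t ω')) 1 - (fl a (pos (l ω) (qa a (t ω))) 1 : ℝ)) -
          w * ((2 : ℝ) ^ a * pos (l ω) (qa a (t ω)) 0 - (fl a (pos (l ω) (qa a (t ω))) 0 : ℝ) -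
          ((2 : ℝ) ^ a * pos (l ω') (qa a (t ω')) 0 - (fl a (pos (l ω) (qa a (t ω))) 0 : ℝ))) =
          2 ^ a * ((pos (l ω) (qa a (t ω)) 1 - w * pos (l ω) (qa a (t ω)) 0) -
            (pos (l ω') (qa a (t ω')) 1 - w * pos (l ω') (qa a (t ω')) 0)) := by ring
      rw [e5, abs_mul, abs_of_pos hpa] at a3
      have a4 : |(pos (l ω) (qa a (t ω)) 1 - w * pos (l ω) (qa a (t ω)) 0) -
            (pos (l ω') (qa a (t ω')) 1 - w * pos (l ω') (qa a (t ω')) 0)| ≤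
          7 * (1 / 2 : ℝ) ^ (a + r) := by
        have e6 : (1 / 2 : ℝ) ^ (a + r) = (1 / 2) ^ a * (1 / 2) ^ r := pow_add _ _ _
        have e7 : (1 / 2 : ℝ) ^ a * 2 ^ a = 1 := by rw [← mul_pow]; norm_num
        have := mul_le_mul_of_nonneg_left a3 (hp_pos a).le
        rw [← mul_assoc, e7, one_mul] at this
        rw [e6]
        linarith
      show |fF a r (m ω) (t ω) (Real.tan (θ ω)) - fF a r (m ω') (t ω') (Real.tan (θ ω'))| ≤ _
      rw [fF_eq, fF_eq, ← zv ω ω' e, ← hwd]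
      push_cast
      rw [abs_le] at a1 a2 a4 ⊢
      constructor <;> linarith [a1.1, a1.2, a2.1, a2.2, a4.1, a4.2])
    exact this.trans (log_le_K (by positivity) (by norm_num))
  -- assembly
  have t1 := Apx.hc_via P (fun ω => cellC a r (m ω) (t ω) (Real.tan (θ ω)))
    (fun ω => fl1 0 ((m ω).2 0)) Z
  have t2 := Apx.hc_via P (fun ω => cellC a r (m ω) (t ω) (Real.tan (θ ω)))
    (fun ω => fl a (pos (l ω) (qa a (t ω)))) (fun ω => (fl1 0 ((m ω).2 0), Z ω))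
  have t3 := Apx.hc_via P (fun ω => cellC a r (m ω) (t ω) (Real.tan (θ ω)))
    (fun ω => fl1 r (Real.tan (θ ω)))
    (fun ω => (fl a (pos (l ω) (qa a (t ω))), (fl1 0 ((m ω).2 0), Z ω)))
  have t4 : Stk.hc P (fun ω => fl a (pos (l ω) (qa a (t ω)))) (fun ω => (fl1 0 ((m ω).2 0), Z ω)) ≤
      2 * Real.log 200 :=
    (Stk.hc_mono_right P _ fun _ _ _ _ e => congrArg Prod.snd e).trans c3
  have t5 : Stk.hc P (fun ω => fl1 r (Real.tan (θ ω)))
      (fun ω => (fl a (pos (l ω) (qa a (t ω))), (fl1 0 ((m ω).2 0), Z ω))) ≤ Real.log 200 :=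
    (Stk.hc_mono_right P _ fun _ _ _ _ e => congrArg (fun q => q.2.2) e).trans c1
  set Z₁ := fun ω => (fl1 r (Real.tan (θ ω)),
    (fl a (pos (l ω) (qa a (t ω))), (fl1 0 ((m ω).2 0), Z ω))) with hZ₁
  have z1 : ∀ ω ω', Z₁ ω = Z₁ ω' → Z' ω = Z' ω' := by
    intro ω ω' e
    simp only [hZ₁, Prod.mk.injEq] at e
    simp only [hZ', Prod.mk.injEq]
    exact ⟨e.1, e.2.1, e.2.2.2⟩
  have t6 : Stk.hc P (fun ω => cellC a r (m ω) (t ω) (Real.tan (θ ω))) Z₁ ≤
      Stk.hc P (fun ω => (fl1 r (fN r (m ω) (Real.tan (θ ω))), (fl1 a (fX a (m ω) (t ω)),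
        fl1 (a + r) (fF a r (m ω) (t ω) (Real.tan (θ ω)))))) Z₁ := by
    refine Stk.hc_mono_left P fun ω ω' p p' e => ?_
    simp only [Prod.mk.injEq] at e
    have e0 : Z₁ ω = Z₁ ω' := e.2
    have e1 : fl1 r (Real.tan (θ ω)) = fl1 r (Real.tan (θ ω')) := congrArg Prod.fst e0
    have e2 : fl1 0 ((m ω).2 0) = fl1 0 ((m ω').2 0) := congrArg (fun q => q.2.2.1) e0
    have e3 : Z ω = Z ω' := congrArg (fun q => q.2.2.2) e0
    have e4 : fl1 a (t ω) = fl1 a (t ω') := congrArg Prod.fst (hZ ω ω' p p' e3).2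
    show cellC a r (m ω) (t ω) (Real.tan (θ ω)) = cellC a r (m ω') (t ω') (Real.tan (θ ω'))
    unfold cellC
    rw [e1, e2, e4, e.1.1, e.1.2.1, e.1.2.2]
  have t7 := hc_pair_le P (fun ω => fl1 r (fN r (m ω) (Real.tan (θ ω))))
    (fun ω => (fl1 a (fX a (m ω) (t ω)), fl1 (a + r) (fF a r (m ω) (t ω) (Real.tan (θ ω))))) Z₁
  have t8 := hc_pair_le P (fun ω => fl1 a (fX a (m ω) (t ω)))
    (fun ω => fl1 (a + r) (fF a r (m ω) (t ω) (Real.tan (θ ω)))) Z₁
  have m4 := (Stk.hc_mono_right P (fun ω => fl1 r (fN r (m ω) (Real.tan (θ ω))))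
    (Y := Z') (Y' := Z₁) fun ω ω' _ _ e => z1 ω ω' e).trans c4
  have m5 := (Stk.hc_mono_right P (fun ω => fl1 a (fX a (m ω) (t ω)))
    (Y := Z') (Y' := Z₁) fun ω ω' _ _ e => z1 ω ω' e).trans c5
  have m6 := (Stk.hc_mono_right P (fun ω => fl1 (a + r) (fF a r (m ω) (t ω) (Real.tan (θ ω))))
    (Y := Z') (Y' := Z₁) fun ω ω' _ _ e => z1 ω ω' e).trans c6
  linarith

end finite

end Vale.Agent.P127.U.LinkC
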