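import Vale.Agent.P127.U.Lam.FinDefs
import Vale.Agent.P127.U.Lam.ExcB
import Vale.Agent.P127.U.Lam.BallA
import Vale.Agent.P127.U.LocT
import Vale.Agent.P127.U.StrG

/-!
# P127 / U / Lam : exchange of the two coordinates (helper23)

* `sw v = (v 1, v 0)`, `swl l`, `swt` (angle), `swB` (box), `swz` (labels of tubes)
* `tb_sw`, `blF_sw`, `ptF_sw`, `pq_sw`, `DF_sw` : exact
* `gq_sw` : the gauge of the exchanged box; `sub_sw`
* `hc_swB`, `hc_swB'` : the labels of the two boxes are equivalent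
* `exVl_sw`, `excFl_sw`, `XF_sw` : the values change by at most `Ks`
-/

set_option autoImplicit false

namespace Vale.Agent.P127.U.Swp

open Filter Topology Vale.Agent.P127 Vale.Agent.P127.Stk Vale.Agent.P127.U Sys

/-- exchange of the coordinates of a vector -/
def sw {α : Type*} (v : Fin 2 → α) : Fin 2 → α := ![v 1, v 0]

@[simp] theorem sw0 {α : Type*} (v : Fin 2 → α) : sw v 0 = v 1 := rfl
@[simp] theorem sw1 {α : Type*} (v : Fin 2 → α) : sw v 1 = v 0 := rfl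

@[simp] theorem sw_sw {α : Type*} (v : Fin 2 → α) : sw (sw v) = v := by
  funext i
  fin_cases i <;> rfl

theorem sw_inj {α : Type*} {v w : Fin 2 → α} (h : sw v = sw w) : v = w := by
  rw [← sw_sw v, h, sw_sw]

theorem sw_fun {α β : Type*} (f : α → β) (v : Fin 2 → α) : (fun i => f (sw v i)) = sw fun i => f (v i) := by
  funext i
  fin_cases i <;> rfl

/-- exchange of the coordinates of a line -/
def swl (l : Ln) : Ln := (sw l.1, sw l.2)

@[simp] theorem swl_swl (l : Ln) : swl (swl l) = l := by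
  show (sw (sw l.1), sw (sw l.2)) = l
  rw [sw_sw, sw_sw]

theorem swl_ok {l : Ln} (h : LnOk l) : LnOk (swl l) := by
  refine ⟨fun i => ?_, fun i => ?_⟩
  · fin_cases i
    · exact h.1 1
    · exact h.1 0
  · fin_cases i
    · exact h.2 1
    · exact h.2 0

theorem pos_sw (l : Ln) (t : ℝ) : pos (swl l) t = sw (pos l t) := by
  funext i
  fin_cases i <;> rfl

theorem fl_sw (n : ℕ) (v : Fin 2 → ℝ) : fl n (sw v) = sw (fl n v) := by
  funext i
  fin_cases i <;> rfl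

theorem tb_sw (n : ℕ) (l : Ln) : tb n (swl l) = (sw (tb n l).1, sw (tb n l).2) := by
  show (fl n (sw l.1), fl n (sw l.2)) = _
  rw [fl_sw, fl_sw]
  rfl

theorem tb_sw_iff {n : ℕ} {l l' : Ln} : tb n (swl l) = tb n (swl l') ↔ tb n l = tb n l' := by
  rw [tb_sw, tb_sw]
  constructor
  · intro h
    exact Prod.ext (sw_inj (congrArg Prod.fst h)) (sw_inj (congrArg Prod.snd h))
  · intro h
    rw [h]

/-- exchange for points -/
def swp (q : Pt) : Pt := (q.1, sw q.2)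

theorem pq_sw (n : ℕ) (q : Pt) : pq n (swp q) = ((pq n q).1, sw (pq n q).2) := by
  show (fl1 n q.1, fl n (sw q.2)) = _
  rw [fl_sw]
  rfl

theorem pq_sw_iff {n : ℕ} {q q' : Pt} : pq n (swp q) = pq n (swp q') ↔ pq n q = pq n q' := by
  rw [pq_sw, pq_sw]
  constructor
  · intro h
    exact Prod.ext (congrArg (fun q => q.1) h) (sw_inj (congrArg (fun q => q.2) h))
  · intro h
    rw [h]

/-! ### angles -/

/-- the angle of the exchanged box -/
noncomputable def swt (θ : ℝ) : ℝ := if |Real.pi / 2 - θ| ≤ 4 then Real.pi / 2 - θ else -Real.pi / 2 - θ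

theorem swt_le {θ : ℝ} (h : |θ| ≤ 4) : |swt θ| ≤ 4 := by
  unfold swt
  split_ifs with h1
  · exact h1
  · have p1 := Real.pi_gt_three
    have p2 := Real.pi_le_four
    rw [abs_le] at h ⊢
    rw [abs_le, not_and_or] at h1
    rcases h1 with h1 | h1
    · push Not at h1
      constructor <;> linarith
    · push Not at h1
      constructor <;> linarith

theorem swt_cases (θ : ℝ) : ∃ e : ℝ, (e = 1 ∨ e = -1) ∧ Real.cos (swt θ) = e * Real.sin θ ∧
    Real.sin (swt θ) = e * Real.cos θ := by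
  unfold swt
  split_ifs with h1
  · refine ⟨1, Or.inl rfl, ?_, ?_⟩
    · rw [Real.cos_pi_div_two_sub, one_mul]
    · rw [Real.sin_pi_div_two_sub, one_mul]
  · refine ⟨-1, Or.inr rfl, ?_, ?_⟩
    · rw [show -Real.pi / 2 - θ = -(θ + Real.pi / 2) by ring, Real.cos_neg, Real.cos_add_pi_div_two]
      ring
    · rw [show -Real.pi / 2 - θ = -(θ + Real.pi / 2) by ring, Real.sin_neg, Real.sin_add_pi_div_two]
      ring

theorem sin_swt (θ ψ : ℝ) : |Real.sin (swt θ - swt ψ)| = |Real.sin (θ - ψ)| := by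
  obtain ⟨e, he, h1, h2⟩ := swt_cases θ
  obtain ⟨f, hf, h3, h4⟩ := swt_cases ψ
  rw [Real.sin_sub, h1, h2, h3, h4, Real.sin_sub]
  have : e * Real.cos θ * (f * Real.sin ψ) - e * Real.sin θ * (f * Real.cos ψ) =
      -(e * f) * (Real.sin θ * Real.cos ψ - Real.cos θ * Real.sin ψ) := by ring
  rw [this, abs_mul]
  have : |-(e * f)| = 1 := by
    rcases he with rfl | rfl <;> rcases hf with rfl | rfl <;> norm_num
  rw [this, one_mul]

/-- the gauge of the exchanged box -/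
theorem gq_sw (θ : ℝ) (k j : ℕ) (v : Fin 2 → ℝ) : Str.gq (swt θ) k j (sw v) = Str.gq θ k j v := by
  obtain ⟨e, he, h1, h2⟩ := swt_cases θ
  have he2 : e ^ 2 = 1 := by rcases he with rfl | rfl <;> norm_num
  unfold Str.gq
  rw [Str.co0, Str.co1, Str.co0, Str.co1, h1, h2, sw0, sw1]
  have a1 : ((2:ℝ) ^ k * (e * Real.sin θ * v 1 + e * Real.cos θ * v 0)) ^ 2 =
      e ^ 2 * (2 ^ k * (Real.cos θ * v 0 + Real.sin θ * v 1)) ^ 2 := by ring
  have a2 : ((2:ℝ) ^ j * (-(e * Real.cos θ) * v 1 + e * Real.sin θ * v 0)) ^ 2 =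
      e ^ 2 * (2 ^ j * (-Real.sin θ * v 0 + Real.cos θ * v 1)) ^ 2 := by ring
  rw [a1, a2, he2, one_mul, one_mul]

section families

variable {Ω Ω' : Type} {γ : Type*}

/-- exchange for families of lines -/
def swL (l : Ω → Ln) : Ω → Ln := fun ω => swl (l ω)

theorem swL_swL (l : Ω → Ln) : swL (swL l) = l := funext fun ω => swl_swl (l ω)

/-- exchange for boxes -/
noncomputable def swB (B : Bx Ω) : Bx Ω := ⟨swL B.l, fun ω => swt (B.θ ω), B.k, B.j⟩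

theorem swB_comp (B : Bx Ω) (π : Ω' → Ω) : swB (B.comp π) = (swB B).comp π := rfl

theorem swB_szl (lam : ℝ) (B : Bx Ω) : (swB B).szl lam = B.szl lam := rfl

theorem blF_sw (s : ℕ) (l : Ω → Ln) (t : Ω → ℝ) : blF s (swL l) t = swL (blF s l t) := by
  funext ω
  refine Prod.ext ?_ rfl
  funext j
  fin_cases j <;> rfl

theorem ptF_sw (l : Ω → Ln) (t : Ω → ℝ) : ptF (swL l) t = fun ω => swp (ptF l t ω) := by
  funext ω
  refine Prod.ext rfl ?_
  funext j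
  fin_cases j <;> rfl

theorem tlF_sw (s n : ℕ) (l : Ω → Ln) (t : Ω → ℝ) (ω : Ω) :
    tlF s n (swL l) t ω = ((tlF s n l t ω).1, sw (tlF s n l t ω).2.1, sw (tlF s n l t ω).2.2) := by
  unfold tlF
  refine Prod.ext rfl (Prod.ext ?_ ?_)
  · funext j
    fin_cases j <;> rfl
  · funext j
    fin_cases j <;> rfl

theorem tlF_sw_iff {s n : ℕ} {l : Ω → Ln} {t : Ω → ℝ} {ω ω' : Ω} :
    tlF s n (swL l) t ω = tlF s n (swL l) t ω' ↔ tlF s n l t ω = tlF s n l t ω' := by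
  rw [tlF_sw, tlF_sw]
  constructor
  · intro h
    exact Prod.ext (congrArg (fun q => q.1) h) (Prod.ext (sw_inj (congrArg (fun q => q.2.1) h))
      (sw_inj (congrArg (fun q => q.2.2) h)))
  · intro h
    rw [h]

theorem sub_sw {c : ℝ} {B W : Bx Ω} {ω : Ω} (h : Sub c B W ω) : Sub c (swB B) (swB W) ω := by
  obtain ⟨h1, h2, h3, h4, h5, h6⟩ := h
  refine ⟨?_, swt_le h2, h3, h4, h5, ?_⟩
  · show swl (W.l ω) = swl (B.l ω)
    rw [h1]
  · show |Real.sin (swt (B.θ ω) - swt (W.θ ω))| * _ ≤ _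
    rw [sin_swt]
    exact h6

/-- boxes which contain a tube -/
theorem sub_tbx {n : ℕ} {l : Ω → Ln} {W : Bx Ω} {ω : Ω} (h1 : W.l ω = l ω) (h2 : |W.θ ω| ≤ 4)
    (h3 : W.k ω ≤ W.j ω) (h5 : W.j ω ≤ n) : Sub 1 (tbx n l) W ω := by
  refine ⟨h1, h2, h3, h3.trans h5, h5, ?_⟩
  show |Real.sin (0 - W.θ ω)| * (1 / 2 : ℝ) ^ n ≤ 1 * (1 / 2 : ℝ) ^ W.j ω
  have a1 := Real.abs_sin_le_one (0 - W.θ ω)
  have a2 : (1 / 2 : ℝ) ^ n ≤ (1 / 2 : ℝ) ^ W.j ω := pow_le_pow_of_le_one (by norm_num) (by norm_num) h5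
  have a3 : (0:ℝ) ≤ (1 / 2 : ℝ) ^ n := by positivity
  nlinarith [abs_nonneg (Real.sin (0 - W.θ ω))]

theorem sub_tbx_sw {n : ℕ} {l : Ω → Ln} {π : Ω' → Ω} {W : Bx Ω'} {ω : Ω'}
    (h : Sub 1 ((tbx n l).comp π) W ω) : Sub 1 ((tbx n (swL l)).comp π) (swB W) ω := by
  obtain ⟨h1, h2, h3, h4, h5, h6⟩ := h
  refine sub_tbx (l := fun ω => swL l (π ω)) ?_ (swt_le h2) h3 h5
  show swl (W.l ω) = swl (l (π ω))
  rw [h1]
  rfl

end families

section finite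

variable {Ω : Type} [Fintype Ω] {γ : Type*}

/-- equivalent variables -/
theorem hc_iff {S S' T T' : Type*} (P : Law Ω) {X : Ω → S} {X' : Ω → S'} {Y : Ω → T} {Y' : Ω → T'}
    (h1 : ∀ ω ω', 0 < P.w ω → 0 < P.w ω' → (X ω = X ω' ↔ X' ω = X' ω'))
    (h2 : ∀ ω ω', 0 < P.w ω → 0 < P.w ω' → (Y ω = Y ω' ↔ Y' ω = Y' ω')) :
    Stk.hc P X Y = Stk.hc P X' Y' :=
  Stk.hc_congr P (fun ω ω' p p' e => (h1 ω ω' p p').2 (congrArg Prod.fst e))
    (fun ω ω' p p' e => (h1 ω ω' p p').1 (congrArg Prod.fst e))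
    (fun ω ω' p p' e => (h2 ω ω' p p').2 e) (fun ω ω' p p' e => (h2 ω ω' p p').1 e)

/-- the constant of the exchange -/
noncomputable def Ks : ℝ := MJ.Kc 2

theorem Ks_nonneg : 0 ≤ Ks := by
  unfold Ks MJ.Kc
  refine Real.log_nonneg ?_
  norm_num

/-- the label of the exchanged box is known -/
theorem hc_swB (P : Law Ω) (W : Bx Ω) (hW : ∀ ω, 0 < P.w ω → |W.θ ω| ≤ 4 ∧ W.k ω ≤ W.j ω)
    (C : Ω → γ) : Stk.hc P (swB W).lab (fun ω => (W.lab ω, C ω)) ≤ Ks := by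
  have h := Str.hc_lin' P W (swB W) (fun _ v => sw v) (fun _ _ => 0) (fun _ _ => 0) C 0
    (fun ω hω => ⟨swt_le (hW ω hω).1, (hW ω hω).2, (hW ω hω).2, fun i => by rw [sub_zero]; rfl,
      fun i => by rw [sub_zero]; rfl, fun v => by
        have := gq_sw (W.θ ω) (W.k ω) (W.j ω) v
        show Str.gq (W.θ ω) (W.k ω) (W.j ω) v ≤ ((2:ℝ) ^ 0) ^ 2 * Str.gq (swt (W.θ ω)) (W.k ω) (W.j ω) (sw v)
        rw [this]
        norm_num, fun v => by
        have := gq_sw (W.θ ω) (W.k ω) (W.j ω) v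
        show Str.gq (swt (W.θ ω)) (W.k ω) (W.j ω) (sw v) ≤ ((2:ℝ) ^ 0) ^ 2 * Str.gq (W.θ ω) (W.k ω) (W.j ω) v
        rw [this]
        norm_num, fun v w => by
        funext i
        fin_cases i <;> rfl, fun w => ⟨sw w, sw_sw w⟩⟩)
    (fun _ _ _ _ _ => ⟨rfl, rfl, rfl⟩)
  exact h

/-- the label of the box is known from the exchanged box -/
theorem hc_swB' (P : Law Ω) (W : Bx Ω) (hW : ∀ ω, 0 < P.w ω → |W.θ ω| ≤ 4 ∧ W.k ω ≤ W.j ω)
    (C : Ω → γ) : Stk.hc P W.lab (fun ω => ((swB W).lab ω, C ω)) ≤ Ks := by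
  have h := Str.hc_lin P W (swB W) (fun _ v => sw v) (fun _ _ => 0) (fun _ _ => 0) C 0
    (fun ω hω => ⟨(hW ω hω).1, (hW ω hω).2, (hW ω hω).2, fun i => by rw [sub_zero]; rfl,
      fun i => by rw [sub_zero]; rfl, fun v => by
        have := gq_sw (W.θ ω) (W.k ω) (W.j ω) v
        show Str.gq (W.θ ω) (W.k ω) (W.j ω) v ≤ ((2:ℝ) ^ 0) ^ 2 * Str.gq (swt (W.θ ω)) (W.k ω) (W.j ω) (sw v)
        rw [this]
        norm_num, fun v => by
        have := gq_sw (W.θ ω) (W.k ω) (W.j ω) v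
        show Str.gq (swt (W.θ ω)) (W.k ω) (W.j ω) (sw v) ≤ ((2:ℝ) ^ 0) ^ 2 * Str.gq (W.θ ω) (W.k ω) (W.j ω) v
        rw [this]
        norm_num, fun v w => by
        funext i
        fin_cases i <;> rfl⟩)
    (fun _ _ _ _ _ => ⟨rfl, rfl, rfl⟩)
  exact h

/-- entropies given the box or the exchanged box -/
theorem hc_given_sw {S : Type*} (P : Law Ω) (X : Ω → S) (W : Bx Ω)
    (hW : ∀ ω, 0 < P.w ω → |W.θ ω| ≤ 4 ∧ W.k ω ≤ W.j ω) (C : Ω → γ) :
    Stk.hc P X (fun ω => (W.lab ω, C ω)) ≤ Stk.hc P X (fun ω => ((swB W).lab ω, C ω)) + Ks := by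
  have h1 := Apx.hc_cmp P X X (fun ω => (W.lab ω, C ω)) (fun ω => ((swB W).lab ω, C ω))
  have h2 : Stk.hc P X (fun ω => (X ω, (W.lab ω, C ω))) = 0 :=
    Stk.hc_zero P fun _ _ _ _ e => congrArg Prod.fst e
  have h3 : Stk.hc P (fun ω => ((swB W).lab ω, C ω)) (fun ω => (W.lab ω, C ω)) ≤
      Stk.hc P (swB W).lab (fun ω => (W.lab ω, C ω)) := by
    refine (Stk.hc_le_add P (fun ω => ((swB W).lab ω, C ω)) (swB W).lab (fun ω => (W.lab ω, C ω))).trans ?_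
    have : Stk.hc P (fun ω => ((swB W).lab ω, C ω)) (fun ω => ((swB W).lab ω, (W.lab ω, C ω))) = 0 :=
      Stk.hc_zero P fun _ _ _ _ e => Prod.ext (congrArg (fun q => q.1) e) (congrArg (fun q => q.2.2) e)
    linarith
  have h4 := hc_swB P W hW C
  linarith

theorem hc_given_sw' {S : Type*} (P : Law Ω) (X : Ω → S) (W : Bx Ω)
    (hW : ∀ ω, 0 < P.w ω → |W.θ ω| ≤ 4 ∧ W.k ω ≤ W.j ω) (C : Ω → γ) :
    Stk.hc P X (fun ω => ((swB W).lab ω, C ω)) ≤ Stk.hc P X (fun ω => (W.lab ω, C ω)) + Ks := by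
  have h1 := Apx.hc_cmp P X X (fun ω => ((swB W).lab ω, C ω)) (fun ω => (W.lab ω, C ω))
  have h2 : Stk.hc P X (fun ω => (X ω, ((swB W).lab ω, C ω))) = 0 :=
    Stk.hc_zero P fun _ _ _ _ e => congrArg Prod.fst e
  have h3 : Stk.hc P (fun ω => (W.lab ω, C ω)) (fun ω => ((swB W).lab ω, C ω)) ≤
      Stk.hc P W.lab (fun ω => ((swB W).lab ω, C ω)) := by
    refine (Stk.hc_le_add P (fun ω => (W.lab ω, C ω)) W.lab (fun ω => ((swB W).lab ω, C ω))).trans ?_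
    have : Stk.hc P (fun ω => (W.lab ω, C ω)) (fun ω => (W.lab ω, ((swB W).lab ω, C ω))) = 0 :=
      Stk.hc_zero P fun _ _ _ _ e => Prod.ext (congrArg (fun q => q.1) e) (congrArg (fun q => q.2.2) e)
    linarith
  have h4 := hc_swB' P W hW C
  linarith

omit [Fintype Ω] in
/-- the label of the exchanged tube -/
theorem tbx_sw_iff {n : ℕ} {l : Ω → Ln} {ω ω' : Ω} :
    (tbx n (swL l)).lab ω = (tbx n (swL l)).lab ω' ↔ (tbx n l).lab ω = (tbx n l).lab ω' := by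
  rw [LocT.tbx_lab, LocT.tbx_lab]
  exact tb_sw_iff

/-- entropy of the exchanged tube -/
theorem hc_tbx_sw {T : Type*} (P : Law Ω) (n : ℕ) (l : Ω → Ln) (Z : Ω → T) :
    Stk.hc P (tbx n (swL l)).lab Z = Stk.hc P (tbx n l).lab Z :=
  le_antisymm (Stk.hc_mono_left P fun _ _ _ _ e => tbx_sw_iff.2 (congrArg Prod.fst e))
    (Stk.hc_mono_left P fun _ _ _ _ e => tbx_sw_iff.1 (congrArg Prod.fst e))

theorem hc_tb_sw {T : Type*} (P : Law Ω) (n : ℕ) (l : Ω → Ln) (Z : Ω → T) :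
    Stk.hc P (fun ω => tb n (swL l ω)) Z = Stk.hc P (fun ω => tb n (l ω)) Z :=
  le_antisymm (Stk.hc_mono_left P fun _ _ _ _ e => tb_sw_iff.2 (congrArg Prod.fst e))
    (Stk.hc_mono_left P fun _ _ _ _ e => tb_sw_iff.1 (congrArg Prod.fst e))

/-- values of boxes which contain a tube -/
theorem exVl_sw (lam : ℝ) (P : Law Ω) (n : ℕ) (l : Ω → Ln) (W : Bx Ω)
    (hW : ∀ ω, 0 < P.w ω → |W.θ ω| ≤ 4 ∧ W.k ω ≤ W.j ω) (C : Ω → γ) :
    exVl lam P (tbx n l) W C ≤ exVl lam P (tbx n (swL l)) (swB W) C + Ks := by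
  unfold exVl
  have h1 := hc_given_sw P (tbx n l).lab W hW C
  have h2 : Stk.hc P (tbx n (swL l)).lab (fun ω => ((swB W).lab ω, C ω)) =
    Stk.hc P (tbx n l).lab (fun ω => ((swB W).lab ω, C ω)) := hc_tbx_sw P n l _
  have h3 : (P.ex fun ω => (tbx n (swL l)).szl lam ω - (swB W).szl lam ω) =
    P.ex fun ω => (tbx n l).szl lam ω - W.szl lam ω := rfl
  rw [h2, h3]
  linarith

/-- the excess of the exchanged lines -/
theorem excFl_sw_le {lam : ℝ} (hl : 0 ≤ lam ∧ lam ≤ 1) (P : Law Ω) (n : ℕ) (l : Ω → Ln)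
    (hg : ∀ ω, 0 < P.w ω → LnOk (l ω)) (C : Ω → γ) :
    excFl lam P (tbx n l) C ≤ excFl lam P (tbx n (swL l)) C + Ks := by
  have h0 : ∀ ω, 0 < P.w ω → BxOk (tbx n l) ω := fun ω hω =>
    ⟨hg ω hω, by show |(0:ℝ)| ≤ 4; norm_num, le_rfl⟩
  refine csSup_le ⟨0, Lam.zero_mem_exSet h0⟩ ?_
  rintro v ⟨Ω', _, P', π, W, h1, h2, rfl⟩
  have h3 : ∀ ω, 0 < P'.w ω → Sub 1 ((tbx n (swL l)).comp π) (swB W) ω := fun ω hω =>
    sub_tbx_sw (h2 ω hω)
  have h4 := Lam.exV_le_excF hl (C := C) h1 h3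
  have h5 := exVl_sw lam P' n (fun ω => l (π ω)) W (fun ω hω => ⟨(h2 ω hω).2.1, (h2 ω hω).2.2.1⟩)
    (fun ω => C (π ω))
  exact h5.trans (by
    have h6 : exVl lam P' (tbx n (swL fun ω => l (π ω))) (swB W) (fun ω => C (π ω)) ≤
      excFl lam P (tbx n (swL l)) C := h4
    linarith)

theorem excFl_sw_ge {lam : ℝ} (hl : 0 ≤ lam ∧ lam ≤ 1) (P : Law Ω) (n : ℕ) (l : Ω → Ln)
    (hg : ∀ ω, 0 < P.w ω → LnOk (l ω)) (C : Ω → γ) :
    excFl lam P (tbx n (swL l)) C ≤ excFl lam P (tbx n l) C + Ks := by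
  have h := excFl_sw_le hl P n (swL l) (fun ω hω => swl_ok (hg ω hω)) C
  rwa [swL_swL] at h

/-- the side information may be exchanged -/
theorem excFl_congr {lam : ℝ} (hl : 0 ≤ lam ∧ lam ≤ 1) {δ : Type*} (P : Law Ω) (B : Bx Ω)
    (C : Ω → γ) (C' : Ω → δ) (hB : ∀ ω, 0 < P.w ω → BxOk B ω)
    (h : ∀ ω ω', 0 < P.w ω → 0 < P.w ω' → (C ω = C ω' ↔ C' ω = C' ω')) :
    excFl lam P B C = excFl lam P B C' := by
  refine le_antisymm ?_ ?_
  · refine csSup_le ⟨0, Lam.zero_mem_exSet hB⟩ ?_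
    rintro v ⟨Ω', _, P', π, W, h1, h2, rfl⟩
    have hp : ∀ ω, 0 < P'.w ω → 0 < P.w (π ω) := fun ω hω => by
      rw [← h1]
      exact P'.pr_pos π hω
    refine le_trans (le_of_eq ?_) (Lam.exV_le_excF hl (C := C') h1 h2)
    unfold exVl
    congr 1
    exact hc_iff P' (fun _ _ _ _ => Iff.rfl) (fun ω ω' hω hω' => by
      simp only [Prod.mk.injEq]
      rw [h (π ω) (π ω') (hp ω hω) (hp ω' hω')])
  · refine csSup_le ⟨0, Lam.zero_mem_exSet hB⟩ ?_
    rintro v ⟨Ω', _, P', π, W, h1, h2, rfl⟩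
    have hp : ∀ ω, 0 < P'.w ω → 0 < P.w (π ω) := fun ω hω => by
      rw [← h1]
      exact P'.pr_pos π hω
    refine le_trans (le_of_eq ?_) (Lam.exV_le_excF hl (C := C) h1 h2)
    unfold exVl
    congr 1
    exact hc_iff P' (fun _ _ _ _ => Iff.rfl) (fun ω ω' hω hω' => by
      simp only [Prod.mk.injEq]
      rw [h (π ω) (π ω') (hp ω hω) (hp ω' hω')])

/-- **the penalised excess of the exchanged lines** -/
theorem XF_sw_le {lam : ℝ} (hl : 0 ≤ lam ∧ lam ≤ 1) (P : Law Ω) (s n : ℕ) (l : Ω → Ln) (t : Ω → ℝ)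
    (hg : GoodF P l t) (C : Ω → γ) : XF lam P s n l t C ≤ XF lam P s n (swL l) t C + Ks := by
  unfold XF
  have hb : ∀ ω, 0 < P.w ω → LnOk (blF s l t ω) := fun ω hω => by
    refine ⟨fun j => ?_, (hg ω hω).1.2⟩
    show |Int.fract _| ≤ 1
    rw [abs_of_nonneg (Int.fract_nonneg _)]
    exact (Int.fract_lt_one _).le
  have h1 := excFl_sw_le hl P (n - s) (blF s l t) hb (fun ω => (pq s (ptF l t ω), C ω))
  have h2 : excFl lam P (tbx (n - s) (blF s (swL l) t)) (fun ω => (pq s (ptF (swL l) t ω), C ω)) =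
      excFl lam P (tbx (n - s) (swL (blF s l t))) (fun ω => (pq s (ptF l t ω), C ω)) := by
    rw [blF_sw, ptF_sw]
    refine excFl_congr hl P _ _ _ (fun ω hω => ⟨swl_ok (hb ω hω), by show |(0:ℝ)| ≤ 4; norm_num, le_rfl⟩)
      (fun ω ω' _ _ => ?_)
    simp only [Prod.mk.injEq]
    rw [pq_sw_iff]
  have h3 : Stk.hc P (fun ω => tb n (swL l ω)) (fun ω => (tlF s n (swL l) t ω, C ω)) =
      Stk.hc P (fun ω => tb n (l ω)) (fun ω => (tlF s n l t ω, C ω)) :=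
    hc_iff P (fun ω ω' _ _ => tb_sw_iff) (fun ω ω' _ _ => by
      simp only [Prod.mk.injEq]
      rw [tlF_sw_iff])
  rw [h2, h3]
  linarith

theorem goodF_sw {P : Law Ω} {l : Ω → Ln} {t : Ω → ℝ} (h : GoodF P l t) : GoodF P (swL l) t :=
  fun ω hω => ⟨swl_ok (h ω hω).1, (h ω hω).2⟩

theorem XF_sw_ge {lam : ℝ} (hl : 0 ≤ lam ∧ lam ≤ 1) (P : Law Ω) (s n : ℕ) (l : Ω → Ln) (t : Ω → ℝ)
    (hg : GoodF P l t) (C : Ω → γ) : XF lam P s n (swL l) t C ≤ XF lam P s n l t C + Ks := by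
  have h := XF_sw_le hl P s n (swL l) t (goodF_sw hg) C
  rwa [swL_swL] at h

/-- the time deficit of the exchanged lines -/
theorem DF_sw (P : Law Ω) (s n : ℕ) (l : Ω → Ln) (t : Ω → ℝ) (C : Ω → γ) :
    DF P s n (swL l) t C = DF P s n l t C := by
  unfold DF
  congr 1
  exact hc_iff P (fun _ _ _ _ => Iff.rfl) (fun ω ω' _ _ => by
    simp only [Prod.mk.injEq]
    show (tb n (swl (l ω)) = tb n (swl (l ω')) ∧ _) ↔ _
    rw [tb_sw_iff])

end finite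

end Vale.Agent.P127.U.Swp
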