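import Vale.Agent.P127.U.Lam.ExcB
import Vale.Agent.P127.U.MixP

/-!
# P127 / U / Lam : the penalised excess of a mixture (helper624, after helper205 and helper308)
-/

set_option autoImplicit false

namespace Vale.Agent.P127.U.Lam

open Finset Filter Topology Vale.Agent.P127 Vale.Agent.P127.Stk Vale.Agent.P127.U Sys

variable {lam : ℝ}

section finite

variable {Ω Ω' Ω₁ Ω₂ : Type} [Fintype Ω] [Fintype Ω'] [Fintype Ω₁] [Fintype Ω₂] {γ : Type*}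

theorem exSet_le (hl : 0 ≤ lam ∧ lam ≤ 1) (P : Law Ω) (B : Bx Ω) (C : Ω → γ) {v : ℝ} (hv : v ∈ exSetl lam P B C) :
    v ≤ P.H B.lab := by
  obtain ⟨Ω', _, P', π, W, h1, h2, rfl⟩ := hv
  unfold exVl
  have h3 : Stk.hc P' (B.comp π).lab (fun ω => (W.lab ω, C (π ω))) ≤ P'.H (B.comp π).lab :=
    hc_le_H _ _ _
  have h4 : P'.H (B.comp π).lab = P.H B.lab := H_law_aux P' P π h1 B.lab
  have h5 : 0 ≤ P'.ex fun ω => (B.comp π).szl lam ω - W.szl lam ω := by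
    exact P'.ex_nonneg fun ω hω => szl_nonneg hl.1 hl.2 (h2 ω hω)
  have h6 : 0 ≤ Real.log 2 := Real.log_nonneg (by norm_num)
  have h7 := mul_nonneg h6 h5
  linarith

theorem exSet_bdd (hl : 0 ≤ lam ∧ lam ≤ 1) (P : Law Ω) (B : Bx Ω) (C : Ω → γ) : BddAbove (exSetl lam P B C) :=
  ⟨_, fun _ hv => exSet_le hl P B C hv⟩

theorem zero_mem_exSetM (P : Law Ω) (B : Bx Ω) (C : Ω → γ)
    (h : ∀ ω, 0 < P.w ω → |B.θ ω| ≤ 4 ∧ B.k ω ≤ B.j ω) : (0 : ℝ) ∈ exSetl lam P B C := by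
  refine ⟨Ω, inferInstance, P, id, B, pr_id P, fun ω hω => ?_, ?_⟩
  · obtain ⟨h1, h2⟩ := h ω hω
    refine ⟨rfl, h1, h2, le_rfl, le_rfl, ?_⟩
    show |Real.sin (B.θ ω - B.θ ω)| * (1 / 2 : ℝ) ^ B.k ω ≤ 1 * (1 / 2 : ℝ) ^ B.j ω
    rw [sub_self, Real.sin_zero, abs_zero, zero_mul]
    positivity
  · unfold exVl
    have h1 : Stk.hc P (B.comp id).lab (fun ω => (B.lab ω, C (id ω))) = 0 :=
      hc_zero P fun ω ω' _ _ e => congrArg Prod.fst e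
    have h2 : (P.ex fun ω => (B.comp id).szl lam ω - B.szl lam ω) = 0 := by
      have : (fun ω => (B.comp id).szl lam ω - B.szl lam ω) = fun _ => (0 : ℝ) := by
        funext ω
        exact sub_self _
      rw [this, P.ex_const]
    rw [h1, h2, mul_zero, sub_zero]

theorem excF_nonnegM (hl : 0 ≤ lam ∧ lam ≤ 1) (P : Law Ω) (B : Bx Ω) (C : Ω → γ)
    (h : ∀ ω, 0 < P.w ω → |B.θ ω| ≤ 4 ∧ B.k ω ≤ B.j ω) : 0 ≤ excFl lam P B C :=
  le_csSup (exSet_bdd hl P B C) (zero_mem_exSetM P B C h)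

theorem excF_le_HM (hl : 0 ≤ lam ∧ lam ≤ 1) (P : Law Ω) (B : Bx Ω) (C : Ω → γ)
    (h : ∀ ω, 0 < P.w ω → |B.θ ω| ≤ 4 ∧ B.k ω ≤ B.j ω) : excFl lam P B C ≤ P.H B.lab :=
  csSup_le ⟨_, zero_mem_exSetM P B C h⟩ fun _ hv => exSet_le hl P B C hv

/-! ### mixtures -/

/-- lower bound: extensions of the two parts give an extension of the mixture -/
theorem mix_lower {P R : Law Ω} {Q : Law Ω'} {π : Ω' → Ω} {a : ℝ} (h0 : 0 ≤ a) (h1 : a ≤ 1)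
    (h : ∀ ω, P.w ω = a * Q.pr π ω + (1 - a) * R.w ω) (B : Bx Ω) (C : Ω → γ) {v v' : ℝ}
    (hv : v ∈ exSetl lam Q (B.comp π) (fun ω => C (π ω))) (hv' : v' ∈ exSetl lam R B C) :
    ∃ v'' ∈ exSetl lam P B C, a * v + (1 - a) * v' ≤ v'' := by
  classical
  obtain ⟨Ω₁, _, P₁, π₁, W₁, g1, g2, rfl⟩ := hv
  obtain ⟨Ω₂, _, P₂, π₂, W₂, k1, k2, rfl⟩ := hv'
  let M : Law (Ω₁ ⊕ Ω₂) := mixW P₁ Sum.inl (push P₂ Sum.inr) a h0 h1
  have hM : ∀ ω, M.w ω = a * P₁.pr Sum.inl ω + (1 - a) * (push P₂ Sum.inr).w ω := fun _ => rfl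
  let ρ : Ω₁ ⊕ Ω₂ → Ω := Sum.elim (fun ω => π (π₁ ω)) π₂
  let W : Bx (Ω₁ ⊕ Ω₂) := ⟨Sum.elim W₁.l W₂.l, Sum.elim W₁.θ W₂.θ, Sum.elim W₁.k W₂.k,
    Sum.elim W₁.j W₂.j⟩
  have hw1 : ∀ x, P₁.pr (Sum.inl : Ω₁ → Ω₁ ⊕ Ω₂) (Sum.inl x) = P₁.w x := by
    intro x
    have := pr_id P₁ x
    rw [← this]
    unfold Law.pr
    refine Finset.sum_congr ?_ fun _ _ => rfl
    ext y
    simp
  have hw2 : ∀ x, (push P₂ (Sum.inr : Ω₂ → Ω₁ ⊕ Ω₂)).w (Sum.inr x) = P₂.w x := by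
    intro x
    have := pr_id P₂ x
    rw [← this, push_w]
    unfold Law.pr
    refine Finset.sum_congr ?_ fun _ _ => rfl
    ext y
    simp
  have hw3 : ∀ x, P₁.pr (Sum.inl : Ω₁ → Ω₁ ⊕ Ω₂) (Sum.inr x) = 0 := by
    intro x
    unfold Law.pr
    refine Finset.sum_eq_zero fun y hy => ?_
    simp at hy
  have hw4 : ∀ x, (push P₂ (Sum.inr : Ω₂ → Ω₁ ⊕ Ω₂)).w (Sum.inl x) = 0 := by
    intro x
    rw [push_w]
    unfold Law.pr
    refine Finset.sum_eq_zero fun y hy => ?_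
    simp at hy
  refine ⟨_, ⟨Ω₁ ⊕ Ω₂, inferInstance, M, ρ, W, ?_, ?_, rfl⟩, ?_⟩
  · intro ω
    rw [pr_mix hM ρ ω, push_pr]
    have e1 : (ρ ∘ (Sum.inl : Ω₁ → Ω₁ ⊕ Ω₂)) = π ∘ π₁ := rfl
    have e2 : (ρ ∘ (Sum.inr : Ω₂ → Ω₁ ⊕ Ω₂)) = π₂ := rfl
    rw [e1, e2, k1, pr_law_aux P₁ Q π₁ g1 π ω, h ω]
  · rintro (x | x) hx
    · rw [hM, hw1, hw4, mul_zero, add_zero] at hx
      have : 0 < P₁.w x := by
        rcases (P₁.nn x).eq_or_lt with h2 | h2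
        · rw [← h2, mul_zero] at hx
          exact absurd hx (lt_irrefl _)
        · exact h2
      exact g2 x this
    · rw [hM, hw2, hw3, mul_zero, zero_add] at hx
      have : 0 < P₂.w x := by
        rcases (P₂.nn x).eq_or_lt with h2 | h2
        · rw [← h2, mul_zero] at hx
          exact absurd hx (lt_irrefl _)
        · exact h2
      exact k2 x this
  · unfold exVl
    have m1 := (mix_hc h0 h1 hM (B.comp ρ).lab (fun ω => (W.lab ω, C (ρ ω)))).1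
    have m2 := ex_mix hM (fun ω => (B.comp ρ).szl lam ω - W.szl lam ω)
    rw [push_hc] at m1
    rw [push_ex] at m2
    have e1 : ((B.comp ρ).lab ∘ (Sum.inl : Ω₁ → Ω₁ ⊕ Ω₂)) = ((B.comp π).comp π₁).lab := rfl
    have e2 : ((fun ω => (W.lab ω, C (ρ ω))) ∘ (Sum.inl : Ω₁ → Ω₁ ⊕ Ω₂)) =
      fun ω => (W₁.lab ω, C (π (π₁ ω))) := rfl
    have e3 : ((B.comp ρ).lab ∘ (Sum.inr : Ω₂ → Ω₁ ⊕ Ω₂)) = (B.comp π₂).lab := rfl
    have e4 : ((fun ω => (W.lab ω, C (ρ ω))) ∘ (Sum.inr : Ω₂ → Ω₁ ⊕ Ω₂)) =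
      fun ω => (W₂.lab ω, C (π₂ ω)) := rfl
    have e5 : ((fun ω => (B.comp ρ).szl lam ω - W.szl lam ω) ∘ (Sum.inl : Ω₁ → Ω₁ ⊕ Ω₂)) =
      fun ω => ((B.comp π).comp π₁).szl lam ω - W₁.szl lam ω := rfl
    have e6 : ((fun ω => (B.comp ρ).szl lam ω - W.szl lam ω) ∘ (Sum.inr : Ω₂ → Ω₁ ⊕ Ω₂)) =
      fun ω => (B.comp π₂).szl lam ω - W₂.szl lam ω := rfl
    rw [e1, e2, e3, e4] at m1
    rw [e5, e6] at m2
    rw [m2]
    linarith

/-- upper bound: an extension of the mixture gives extensions of the two parts -/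
theorem mix_upper {P R : Law Ω} {Q : Law Ω'} {π : Ω' → Ω} {a : ℝ} (h0 : 0 < a) (h1 : a < 1)
    (h : ∀ ω, P.w ω = a * Q.pr π ω + (1 - a) * R.w ω) (B : Bx Ω) (C : Ω → γ) {v : ℝ}
    (hv : v ∈ exSetl lam P B C) :
    ∃ v' ∈ exSetl lam Q (B.comp π) (fun ω => C (π ω)), ∃ v'' ∈ exSetl lam R B C,
      v ≤ a * v' + (1 - a) * v'' + Real.log 2 := by
  classical
  obtain ⟨Ω₁, _, P₁, π₁, W, g1, g2, rfl⟩ := hv
  have hacQ : ∀ ω, P.w ω = 0 → (push Q π).w ω = 0 := by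
    intro ω hω
    rw [h ω] at hω
    have n1 : 0 ≤ a * Q.pr π ω := mul_nonneg h0.le (Q.pr_nonneg _ _)
    have n2 : 0 ≤ (1 - a) * R.w ω := mul_nonneg (by linarith) (R.nn _)
    have n3 : a * Q.pr π ω = 0 := by linarith
    rcases mul_eq_zero.1 n3 with n4 | n4
    · linarith
    · exact n4
  have hacR : ∀ ω, P.w ω = 0 → R.w ω = 0 := by
    intro ω hω
    rw [h ω] at hω
    have n1 : 0 ≤ a * Q.pr π ω := mul_nonneg h0.le (Q.pr_nonneg _ _)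
    have n2 : 0 ≤ (1 - a) * R.w ω := mul_nonneg (by linarith) (R.nn _)
    have n3 : (1 - a) * R.w ω = 0 := by linarith
    rcases mul_eq_zero.1 n3 with n4 | n4
    · linarith
    · exact n4
  let Q₁ : Law Ω₁ := rwt P (push Q π) P₁ π₁ g1 hacQ
  let R₁ : Law Ω₁ := rwt P R P₁ π₁ g1 hacR
  have hQ₁ : ∀ ω, Q₁.pr π₁ ω = Q.pr π ω := rwt_pr P (push Q π) P₁ π₁ g1 hacQ
  have hR₁ : ∀ ω, R₁.pr π₁ ω = R.w ω := rwt_pr P R P₁ π₁ g1 hacR
  obtain ⟨Ω₃, _, Q₃, ρ₁, ρ₂, s1, s2, s3, -⟩ := Stk.glue_exists Q Q₁ π π₁ (fun ω => (hQ₁ ω).symm)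
  -- the mixture on `Ω₁`
  have hM : ∀ ω, P₁.w ω = a * Q₁.pr id ω + (1 - a) * R₁.w ω := by
    intro ω
    rw [pr_id]
    show P₁.w ω = a * (P₁.w ω * ((push Q π).w (π₁ ω) / P.w (π₁ ω))) +
      (1 - a) * (P₁.w ω * (R.w (π₁ ω) / P.w (π₁ ω)))
    by_cases hp : P₁.w ω = 0
    · rw [hp]; ring
    · have hpos : 0 < P₁.w ω := lt_of_le_of_ne (P₁.nn ω) (Ne.symm hp)
      have h2 : 0 < P.w (π₁ ω) := by
        rw [← g1]
        exact P₁.pr_pos π₁ hpos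
      have h3 := h (π₁ ω)
      rw [push_w]
      have e : a * (P₁.w ω * (Q.pr π (π₁ ω) / P.w (π₁ ω))) +
          (1 - a) * (P₁.w ω * (R.w (π₁ ω) / P.w (π₁ ω))) =
          P₁.w ω * ((a * Q.pr π (π₁ ω) + (1 - a) * R.w (π₁ ω)) / P.w (π₁ ω)) := by ring
      rw [e, ← h3, div_self h2.ne', mul_one]
  refine ⟨exVl lam Q₃ ((B.comp π).comp ρ₁) ⟨fun ω => W.l (ρ₂ ω), fun ω => W.θ (ρ₂ ω),
    fun ω => W.k (ρ₂ ω), fun ω => W.j (ρ₂ ω)⟩ (fun ω => C (π (ρ₁ ω))),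
    ⟨Ω₃, inferInstance, Q₃, ρ₁, _, s2, ?_, rfl⟩, exVl lam R₁ (B.comp π₁) W (fun ω => C (π₁ ω)),
    ⟨Ω₁, inferInstance, R₁, π₁, W, hR₁, fun ω hω => g2 ω (rwt_pos hω), rfl⟩, ?_⟩
  · intro ω hω
    have k1 : 0 < Q₁.w (ρ₂ ω) := by
      rw [← s3]
      exact Q₃.pr_pos ρ₂ hω
    have k2 := g2 (ρ₂ ω) (rwt_pos k1)
    unfold Sub at k2 ⊢
    have k3 : ((B.comp π).comp ρ₁).l ω = (B.comp π₁).l (ρ₂ ω) := congrArg B.l (s1 ω)
    have k4 : ((B.comp π).comp ρ₁).θ ω = (B.comp π₁).θ (ρ₂ ω) := congrArg B.θ (s1 ω)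
    have k5 : ((B.comp π).comp ρ₁).k ω = (B.comp π₁).k (ρ₂ ω) := congrArg B.k (s1 ω)
    have k6 : ((B.comp π).comp ρ₁).j ω = (B.comp π₁).j (ρ₂ ω) := congrArg B.j (s1 ω)
    rw [k3, k4, k5, k6]
    exact k2
  · have eB : ((B.comp π).comp ρ₁) = (B.comp π₁).comp ρ₂ := by
      unfold Bx.comp
      simp only [s1]
    have eC : (fun ω => C (π (ρ₁ ω))) = fun ω => C (π₁ (ρ₂ ω)) := by
      funext ω
      rw [s1]
    have e3 : exVl lam Q₃ ((B.comp π).comp ρ₁) ⟨fun ω => W.l (ρ₂ ω), fun ω => W.θ (ρ₂ ω),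
        fun ω => W.k (ρ₂ ω), fun ω => W.j (ρ₂ ω)⟩ (fun ω => C (π (ρ₁ ω))) =
        exVl lam Q₁ (B.comp π₁) W (fun ω => C (π₁ ω)) := by
      rw [eB, eC]
      unfold exVl
      have i1 := hc_of_law Q₃ Q₁ ρ₂ s3 (B.comp π₁).lab (fun ω => (W.lab ω, C (π₁ ω)))
      have i2 := ex_law_aux Q₃ Q₁ ρ₂ s3 (fun ω => (B.comp π₁).szl lam ω - W.szl lam ω)
      rw [← i1, ← i2]
      rfl
    rw [e3]
    unfold exVl
    have m1 := (mix_hc h0.le h1.le hM (B.comp π₁).lab (fun ω => (W.lab ω, C (π₁ ω)))).2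
    have m2 := ex_mix hM (fun ω => (B.comp π₁).szl lam ω - W.szl lam ω)
    simp only [Function.comp_id] at m1 m2
    rw [m2]
    linarith

/-- the excess of a mixture -/
theorem excF_mix (hl : 0 ≤ lam ∧ lam ≤ 1) {P R : Law Ω} {Q : Law Ω'} {π : Ω' → Ω} {a : ℝ} (h0 : 0 < a) (h1 : a < 1)
    (h : ∀ ω, P.w ω = a * Q.pr π ω + (1 - a) * R.w ω) (B : Bx Ω) (C : Ω → γ)
    (hB : ∀ ω, 0 < P.w ω → |B.θ ω| ≤ 4 ∧ B.k ω ≤ B.j ω) :
    a * excFl lam Q (B.comp π) (fun ω => C (π ω)) + (1 - a) * excFl lam R B C ≤ excFl lam P B C ∧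
    excFl lam P B C ≤ a * excFl lam Q (B.comp π) (fun ω => C (π ω)) + (1 - a) * excFl lam R B C +
      Real.log 2 := by
  have hQ : ∀ ω, 0 < Q.w ω → 0 < P.w (π ω) := by
    intro ω hω
    rw [h]
    have n1 : 0 < a * Q.pr π (π ω) := mul_pos h0 (Q.pr_pos π hω)
    have n2 : 0 ≤ (1 - a) * R.w (π ω) := mul_nonneg (by linarith) (R.nn _)
    linarith
  have hR : ∀ ω, 0 < R.w ω → 0 < P.w ω := by
    intro ω hω
    rw [h]
    have n1 : 0 ≤ a * Q.pr π ω := mul_nonneg h0.le (Q.pr_nonneg _ _)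
    have n2 : 0 < (1 - a) * R.w ω := mul_pos (by linarith) hω
    linarith
  have zP := zero_mem_exSetM (lam := lam) P B C hB
  have zQ := zero_mem_exSetM (lam := lam) Q (B.comp π) (fun ω => C (π ω)) fun ω hω => hB (π ω) (hQ ω hω)
  have zR := zero_mem_exSetM (lam := lam) R B C fun ω hω => hB ω (hR ω hω)
  have bP := exSet_bdd hl P B C
  have bQ := exSet_bdd hl Q (B.comp π) (fun ω => C (π ω))
  have bR := exSet_bdd hl R B C
  constructor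
  · have key : ∀ v ∈ exSetl lam Q (B.comp π) (fun ω => C (π ω)), ∀ v' ∈ exSetl lam R B C,
        a * v + (1 - a) * v' ≤ excFl lam P B C := by
      intro v hv v' hv'
      obtain ⟨v'', k1, k2⟩ := mix_lower h0.le h1.le h B C hv hv'
      exact k2.trans (le_csSup bP k1)
    have k1 : ∀ v' ∈ exSetl lam R B C,
        excFl lam Q (B.comp π) (fun ω => C (π ω)) ≤ (excFl lam P B C - (1 - a) * v') / a := by
      intro v' hv'
      refine csSup_le ⟨_, zQ⟩ fun v hv => ?_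
      rw [le_div_iff₀ h0]
      have := key v hv v' hv'
      linarith
    have k2 : excFl lam R B C ≤
        (excFl lam P B C - a * excFl lam Q (B.comp π) (fun ω => C (π ω))) / (1 - a) := by
      refine csSup_le ⟨_, zR⟩ fun v' hv' => ?_
      rw [le_div_iff₀ (by linarith)]
      have := k1 v' hv'
      rw [le_div_iff₀ h0] at this
      linarith
    rw [le_div_iff₀ (by linarith)] at k2
    linarith
  · refine csSup_le ⟨_, zP⟩ fun v hv => ?_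
    obtain ⟨v', k1, v'', k2, k3⟩ := mix_upper h0 h1 h B C hv
    have k4 : a * v' ≤ a * excFl lam Q (B.comp π) (fun ω => C (π ω)) :=
      mul_le_mul_of_nonneg_left (le_csSup bQ k1) h0.le
    have k5 : (1 - a) * v'' ≤ (1 - a) * excFl lam R B C :=
      mul_le_mul_of_nonneg_left (le_csSup bR k2) (by linarith)
    linarith

end finite


/-- decomposition of `S` into a dominated part and the rest, with the penalised excess -/
theorem mixl (S S' : Sys) (d : Dmn S' S) : ∃ (S'' : Sys) (d' : Dmn S'' S) (p : ℝ), 0 < p ∧ p < 1 ∧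
    (∀ (α β : Type) (X : S.RV α) (Y : S.RV β), Tame X →
      S.hc X Y = p * S'.hc (d.pull X) (d.pull Y) + (1 - p) * S''.hc (d'.pull X) (d'.pull Y)) ∧
    (∀ lam : ℝ, 0 ≤ lam ∧ lam ≤ 1 → ∀ (γ : Type) (C : S.RV γ) (B : S.BX), BxA B →
      S.excl lam B C = p * S'.excl lam (d.pullB B) (d.pull C) +
        (1 - p) * S''.excl lam (d'.pullB B) (d'.pull C)) := by
  choose R hR using fun i => exists_rem (S.P i) (S'.P i) (d.π i) d.K
  set K := max d.K 2 with hK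
  have hK2 : 2 ≤ K := le_max_right _ _
  have hK0 : 0 < K := by linarith
  have hdom : ∀ᶠ i in (uf : Filter ℕ), Dom (R i) id (S.P i) 2 ∧
      ∀ ω, (S.P i).w ω = 1 / K * (S'.P i).pr (d.π i) ω + (1 - 1 / K) * (R i).w ω := by
    filter_upwards [d.dom] with i hi
    exact hR i fun ω => (hi ω).trans
      (mul_le_mul_of_nonneg_right (le_max_left _ _) ((S.P i).nn ω))
  have hp0 : 0 < 1 / K := by positivity
  have hp1 : 1 / K < 1 := by rw [div_lt_one hK0]; linarith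
  let S'' : Sys := ⟨S.Ω, S.fin, R, S.L, S.Ltop⟩
  let d' : Dmn S'' S := ⟨fun _ ω => ω, rfl, 2, by
    filter_upwards [hdom] with i hi ω
    exact hi.1 ω⟩
  refine ⟨S'', d', 1 / K, hp0, hp1, ?_, ?_⟩
  · intro α β X Y hX
    refine ulim_mix (S := S) (S' := S') (S'' := S'') d.L_eq rfl hp0 hp1 ?_ (UB.hc hX Y)
    filter_upwards [hdom] with i hi
    obtain ⟨h1, h2⟩ := Stk.mix_hc hp0.le hp1.le hi.2 (X i) (Y i)
    exact ⟨Stk.hc_nonneg _ _ _, Stk.hc_nonneg _ _ _, h1, h2⟩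
  · intro lam hl γ C B hB
    obtain ⟨C0, hC0⟩ := hB.tame
    refine ulim_mix (S := S) (S' := S') (S'' := S'') d.L_eq rfl hp0 hp1 ?_ ?_
    · filter_upwards [hdom, hB.1, d.dom] with i hi hok hdi
      have hok' : ∀ ω, 0 < (S.P i).w ω → |(B i).θ ω| ≤ 4 ∧ (B i).k ω ≤ (B i).j ω :=
        fun ω hω => (hok ω hω).2
      obtain ⟨h1, h2⟩ := excF_mix hl hp0 hp1 hi.2 (B i) (C i) hok'
      refine ⟨excF_nonnegM hl _ _ _ fun ω hω => ?_, excF_nonnegM hl _ _ _ fun ω hω => ?_, h1, h2⟩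
      · exact hok' _ (Stk.Dom.pos (show Dom (S'.P i) (d.π i) (S.P i) d.K from hdi) hω)
      · exact hok' _ (Stk.Dom.pos hi.1 hω)
    · refine UB.of_le (C := C0) ?_ ?_
      · filter_upwards [S.nm_pos, hB.1] with i hi hok
        exact div_nonneg (excF_nonnegM hl _ _ _ fun ω hω => (hok ω hω).2) hi.le
      · filter_upwards [S.nm_pos, hB.1, hC0] with i hi hok h1
        rw [div_le_iff₀ hi]
        exact (excF_le_HM hl _ _ _ fun ω hω => (hok ω hω).2).trans h1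

end Vale.Agent.P127.U.Lam
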