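import Vale.Agent.P127.U.Lam.RedE

/-!
# P127 / U / Lam : reduction, part H (helper420)

The excess of the stretched lines given the frame is at most the restricted excess of the lines.

* `unst_clip` the unstretched box, clipped to the admissible exponents
* `coarse_str`
-/

set_option autoImplicit false

namespace Vale.Agent.P127.U.Red

open Filter Topology Vale.Agent.P127 Vale.Agent.P127.Stk Vale.Agent.P127.U Sys Str

/-! ### the unstretched box -/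

theorem gq_ge_k {θ : ℝ} {k j : ℕ} (h : k ≤ j) (w : Fin 2 → ℝ) :
    ((2:ℝ) ^ k) ^ 2 * (w 0 ^ 2 + w 1 ^ 2) ≤ gq θ k j w := by
  rw [← co_sq θ w]
  unfold gq
  have : ((2:ℝ) ^ k) ^ 2 ≤ ((2:ℝ) ^ j) ^ 2 :=
    pow_le_pow_left₀ (by positivity) (pow_le_pow_right₀ (by norm_num) h) 2
  rw [mul_pow, mul_pow, mul_add]
  gcongr

/-- the unstretched box, clipped -/
theorem unst_clip (φ : ℝ) (k r s j : ℕ) (hr : k + r ≤ j) (θ : ℝ) (k1 j1 : ℕ) (h1 : k1 ≤ j1)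
    (hj1 : j1 ≤ s + (j - (k + r)) + 2) :
    ∃ (ψ : ℝ) (k' j' : ℕ), |ψ| ≤ 4 ∧ k' ≤ j' ∧ k ≤ k' ∧ j' ≤ s + j ∧
      (∀ v, gq ψ k' j' v ≤ 16 * gq θ k1 j1 (stv φ k (k + r) v)) ∧
      (∀ v, gq θ k1 j1 (stv φ k (k + r) v) ≤ 256 * gq ψ k' j' v) ∧
      ∀ lam : ℝ, 0 ≤ lam ∧ lam ≤ 1 → (1 + lam) * (k1 : ℝ) + (1 - lam) * j1 + 2 * k + r - lam * r - 8 ≤
        (1 + lam) * k' + (1 - lam) * j' := by
  obtain ⟨ψ, k', j', hψ, hkj, hsum, g1, g2⟩ := unst φ k (k + r) θ k1 j1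
  have hk : k1 + k ≤ k' + 1 := by
    refine pow_le_of_sq ?_
    have a1 : gq ψ k' j' (mv ψ) = ((2:ℝ) ^ k') ^ 2 := gq_mv ψ k' j'
    have a2 := g2 (mv ψ)
    have a3 := gq_ge_k (θ := θ) h1 (stv φ k (k + r) (mv ψ))
    rw [stv_sq] at a3
    have a4 := gq_mv_ge (θ := φ) (ψ := ψ) (Nat.le_add_right k r)
    have a5 : ((2:ℝ) ^ k1) ^ 2 * ((2:ℝ) ^ k) ^ 2 ≤ ((2:ℝ) ^ k1) ^ 2 * gq φ k (k + r) (mv ψ) :=
      mul_le_mul_of_nonneg_left a4 (by positivity)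
    rw [a1] at a2
    calc ((2:ℝ) ^ (k1 + k)) ^ 2 = ((2:ℝ) ^ k1) ^ 2 * ((2:ℝ) ^ k) ^ 2 := by rw [pow_add, mul_pow]
      _ ≤ 4 * ((2:ℝ) ^ k') ^ 2 := by linarith
      _ = ((2:ℝ) ^ 1) ^ 2 * ((2:ℝ) ^ k') ^ 2 := by norm_num
  refine ⟨ψ, min (max k' k) (s + j), min (max j' k) (s + j), hψ.trans (by norm_num), ?_, ?_, ?_, ?_, ?_,
    ?_⟩
  · exact min_le_min (max_le_max hkj le_rfl) le_rfl
  · exact le_min (le_max_right _ _) (by omega)
  · exact min_le_right _ _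
  · intro v
    have a1 := gq_shift (θ := ψ) (k := k') (j := j') (k2 := min (max k' k) (s + j))
      (j2 := min (max j' k) (s + j)) (m := 1) (by omega) (by omega) v
    have a2 := g1 v
    norm_num at a1
    linarith
  · intro v
    have a1 := gq_shift (θ := ψ) (k := min (max k' k) (s + j)) (j := min (max j' k) (s + j))
      (k2 := k') (j2 := j') (m := 3) (by omega) (by omega) v
    have a2 := g2 v
    norm_num at a1
    linarith
  · intro lam hl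
    have b1 : k' ≤ min (max k' k) (s + j) + 3 := by omega
    have b2 : j' ≤ min (max j' k) (s + j) + 3 := by omega
    have b1' : (k' : ℝ) ≤ (min (max k' k) (s + j) : ℕ) + 3 := by exact_mod_cast b1
    have b2' : (j' : ℝ) ≤ (min (max j' k) (s + j) : ℕ) + 3 := by exact_mod_cast b2
    have b3 : (k' : ℝ) + j' = k1 + j1 + k + (k + r) := by exact_mod_cast hsum
    have b4 : (k1 : ℝ) + k ≤ k' + 1 := by exact_mod_cast hk
    obtain ⟨l0, l1⟩ := hl
    have c1 := mul_le_mul_of_nonneg_left b1' (by linarith : (0:ℝ) ≤ 1 + lam)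
    have c2 := mul_le_mul_of_nonneg_left b2' (by linarith : (0:ℝ) ≤ 1 - lam)
    have c3 := mul_le_mul_of_nonneg_left b4 l0
    have c4 : (1 + lam) * (k' : ℝ) + (1 - lam) * j' = (k' + j') + lam * (2 * k' - (k' + j')) := by
      ring
    rw [b3] at c4
    nlinarith

/-! ### the excess -/

/-- **COARSE STRETCHED LINES** -/
theorem coarse_str {lam : ℝ} (hl : 0 ≤ lam ∧ lam ≤ 1) : ∃ C : ℝ, ∀ (Ω : Type) [Fintype Ω]
    (P : Law Ω) (l : Ω → Ln) (t : Ω → ℝ) (s n k j r : ℕ) (W : Bx Ω)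
    (g : (Fin 2 → ℤ) × (Fin 2 → ℤ) → ℤ),
    OkS P l t s n k j W → k + r ≤ j → (∀ ω, 0 < P.w ω → fl1 r (W.θ ω) = g (tb n (l ω))) →
    excFl lam P (tbx (s + (j - (k + r)) + 2) (lst l W k r)) (fun ω => (frm l W k r).lab ω) ≤
      excR lam P n l (fun _ => ()) k (s + j) +
        Real.log 2 * (2 * (n : ℝ) - 2 * ((s + (j - (k + r)) + 2 : ℕ) : ℝ) - (2 * k + r) + lam * r) -
        Stk.hc P (fun ω => tb n (l ω))
          (fun ω => (tb (s + (j - (k + r)) + 2) (lst l W k r ω), (frm l W k r).lab ω)) + C := by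
  refine ⟨1 + 2 * cL 8 + (cL 2 + 4 * Real.log (2 * (8 : ℕ) + 3)) + 8 * Real.log 2, ?_⟩
  intro Ω _ P l t s n k j r W g hOk hr hg
  set n' := s + (j - (k + r)) + 2 with hn'
  have hsn := hOk.sn
  have hkr : k + r ≤ n := by omega
  have hkn : k + r + n' ≤ n + 2 := by omega
  -- a near optimal label of the stretched lines
  obtain ⟨Ω₁, i₁, P₁, π₁, A₁, e1, e2, e3⟩ := Lam.exists_near (lam := lam) (P := P)
    (B := tbx n' (lst l W k r)) (C := fun ω => (frm l W k r).lab ω)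
    (fun ω _ => ⟨stl_ok _ _ _ _, by show |(0:ℝ)| ≤ 4; norm_num, le_rfl⟩)
  -- glueing over the label of the stretched line and the frame
  set V : Ω → ((Fin 2 → ℤ) × (Fin 2 → ℤ)) × Lab := fun ω =>
    (tb n' (lst l W k r ω), (frm l W k r).lab ω) with hV
  obtain ⟨Ω₂, i₂, Q, ρ₁, ρ₂, q1, q2, q3, q4⟩ := Stk.glue_exists P₁ P (fun ω => V (π₁ ω)) V
    (fun v => Stk.pr_law_aux P₁ P π₁ e1 V v)
  have hs1 : ∀ q, 0 < Q.w q → 0 < P₁.w (ρ₁ q) := fun q hq => by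
    rw [← q2]; exact Q.pr_pos ρ₁ hq
  have hs2 : ∀ q, 0 < Q.w q → 0 < P.w (ρ₂ q) := fun q hq => by
    rw [← q3]; exact Q.pr_pos ρ₂ hq
  have hA1 : ∀ q, 0 < Q.w q → A₁.l (ρ₁ q) = lst l W k r (π₁ (ρ₁ q)) ∧ A₁.k (ρ₁ q) ≤ A₁.j (ρ₁ q) ∧
      A₁.j (ρ₁ q) ≤ n' := fun q hq => by
    obtain ⟨a1, -, a3, -, a5, -⟩ := e2 (ρ₁ q) (hs1 q hq)
    exact ⟨a1, a3, a5⟩
  -- the unstretched boxes
  have hex : ∀ q, ∃ (ψ : ℝ) (k' j' : ℕ), 0 < Q.w q → |ψ| ≤ 4 ∧ k' ≤ j' ∧ k ≤ k' ∧ j' ≤ s + j ∧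
      (∀ v, gq ψ k' j' v ≤ 16 * gq (A₁.θ (ρ₁ q)) (A₁.k (ρ₁ q)) (A₁.j (ρ₁ q))
        (stv (qa r (W.θ (ρ₂ q))) k (k + r) v)) ∧
      (∀ v, gq (A₁.θ (ρ₁ q)) (A₁.k (ρ₁ q)) (A₁.j (ρ₁ q)) (stv (qa r (W.θ (ρ₂ q))) k (k + r) v) ≤
        256 * gq ψ k' j' v) ∧
      ∀ lam : ℝ, 0 ≤ lam ∧ lam ≤ 1 → (1 + lam) * (A₁.k (ρ₁ q) : ℝ) + (1 - lam) * A₁.j (ρ₁ q) +
        2 * k + r - lam * r - 8 ≤ (1 + lam) * k' + (1 - lam) * j' := by
    intro q
    by_cases hq : 0 < Q.w q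
    · obtain ⟨ψ, k', j', h⟩ := unst_clip (qa r (W.θ (ρ₂ q))) k r s j hr (A₁.θ (ρ₁ q))
        (A₁.k (ρ₁ q)) (A₁.j (ρ₁ q)) (hA1 q hq).2.1 (hA1 q hq).2.2
      exact ⟨ψ, k', j', fun _ => h⟩
    · exact ⟨0, 0, 0, fun h => absurd h hq⟩
  choose ψ k' j' hbox using hex
  set A : Bx Ω₂ := ⟨fun q => l (ρ₂ q), ψ, k', j'⟩ with hA
  -- comparable boxes
  have hLR : ∀ q q', 0 < Q.w q → 0 < Q.w q' → A₁.lab (ρ₁ q') = A₁.lab (ρ₁ q) →
      (frm l W k r).lab (ρ₂ q') = (frm l W k r).lab (ρ₂ q) → LR 8 A q q' := by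
    intro q q' hq hq' eA eF
    obtain ⟨-, -, -, -, g1, g2, -⟩ := hbox q hq
    obtain ⟨-, -, -, -, g1', g2', -⟩ := hbox q' hq'
    obtain ⟨f1, f2, -, -⟩ := frm_lab eF
    rw [f2] at g1' g2'
    obtain ⟨c1, c2, c3, c4⟩ := LR_of_lab (hA1 q hq).2.1 eA
    norm_num at c1 c2 c3 c4
    have hline : ∀ x y z w : Fin 2 → ℝ, (∀ i, |x i - y i| ≤ (1 / 2 : ℝ) ^ n') →
        (∀ i, |z i - w i| ≤ (1 / 2 : ℝ) ^ n') →
        gq (A₁.θ (ρ₁ q)) (A₁.k (ρ₁ q)) (A₁.j (ρ₁ q)) (fun i => y i - z i) ≤ 16 →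
        gq (A₁.θ (ρ₁ q)) (A₁.k (ρ₁ q)) (A₁.j (ρ₁ q)) (fun i => x i - w i) ≤ 112 := by
      intro x y z w h1 h2 h3
      have d1 := gq_small (θ := A₁.θ (ρ₁ q)) (hA1 q hq).2.1 (hA1 q hq).2.2 h1
      have d2 := gq_small (θ := A₁.θ (ρ₁ q)) (hA1 q hq).2.1 (hA1 q hq).2.2 h2
      have d3 := gq_add_le (A₁.θ (ρ₁ q)) (A₁.k (ρ₁ q)) (A₁.j (ρ₁ q)) (fun i => x i - y i)
        (fun i => (y i - z i) + (z i - w i))
      have d4 := gq_add_le (A₁.θ (ρ₁ q)) (A₁.k (ρ₁ q)) (A₁.j (ρ₁ q)) (fun i => y i - z i)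
        (fun i => z i - w i)
      have e : (fun i => x i - w i) = fun i => (x i - y i) + ((y i - z i) + (z i - w i)) := by
        funext i; ring
      rw [e]
      linarith
    have hVq : tb n' (lst l W k r (π₁ (ρ₁ q))) = tb n' (lst l W k r (ρ₂ q)) :=
      congrArg Prod.fst (q1 q)
    have hVq' : tb n' (lst l W k r (π₁ (ρ₁ q'))) = tb n' (lst l W k r (ρ₂ q')) :=
      congrArg Prod.fst (q1 q')
    refine ⟨fun v => ?_, fun v => ?_, ?_, ?_⟩
    · have h1 : gq (ψ q') (k' q') (j' q') v ≤ _ := g1' v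
      have h2 := c1 (stv (qa r (W.θ (ρ₂ q))) k (k + r) v)
      have h3 : _ ≤ 256 * gq (ψ q) (k' q) (j' q) v := g2 v
      show gq (ψ q') (k' q') (j' q') v ≤ ((2:ℝ) ^ 8) ^ 2 * gq (ψ q) (k' q) (j' q) v
      norm_num
      linarith
    · have h1 : gq (ψ q) (k' q) (j' q) v ≤ _ := g1 v
      have h2 := c2 (stv (qa r (W.θ (ρ₂ q))) k (k + r) v)
      have h3 : _ ≤ 256 * gq (ψ q') (k' q') (j' q') v := g2' v
      show gq (ψ q) (k' q) (j' q) v ≤ ((2:ℝ) ^ 8) ^ 2 * gq (ψ q') (k' q') (j' q') v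
      norm_num
      linarith
    · have h1 : gq (ψ q) (k' q) (j' q) (fun i => (l (ρ₂ q')).1 i - (l (ρ₂ q)).1 i) ≤ _ := g1 _
      have h2 : stv (qa r (W.θ (ρ₂ q))) k (k + r) (fun i => (l (ρ₂ q')).1 i - (l (ρ₂ q)).1 i) =
          fun i => (lst l W k r (ρ₂ q')).1 i - (lst l W k r (ρ₂ q)).1 i := by
        funext i
        exact ((lst_sub eF i).1).symm
      rw [h2] at h1
      have h3 := hline (lst l W k r (ρ₂ q')).1 (A₁.l (ρ₁ q')).1 (A₁.l (ρ₁ q)).1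
        (lst l W k r (ρ₂ q)).1 (by
          rw [(hA1 q' hq').1]
          exact fun i => Apx.fl_close (congrArg Prod.fst hVq').symm i) (by
          rw [(hA1 q hq).1]
          exact fun i => Apx.fl_close (congrArg Prod.fst hVq) i) c3
      show gq (ψ q) (k' q) (j' q) (fun i => (l (ρ₂ q')).1 i - (l (ρ₂ q)).1 i) ≤ ((2:ℝ) ^ 8) ^ 2
      norm_num
      linarith
    · have h1 : gq (ψ q) (k' q) (j' q) (fun i => (l (ρ₂ q')).2 i - (l (ρ₂ q)).2 i) ≤ _ := g1 _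
      have h2 : stv (qa r (W.θ (ρ₂ q))) k (k + r) (fun i => (l (ρ₂ q')).2 i - (l (ρ₂ q)).2 i) =
          fun i => (lst l W k r (ρ₂ q')).2 i - (lst l W k r (ρ₂ q)).2 i := by
        funext i
        exact ((lst_sub eF i).2).symm
      rw [h2] at h1
      have h3 := hline (lst l W k r (ρ₂ q')).2 (A₁.l (ρ₁ q')).2 (A₁.l (ρ₁ q)).2
        (lst l W k r (ρ₂ q)).2 (by
          rw [(hA1 q' hq').1]
          exact fun i => Apx.fl_close (congrArg Prod.snd hVq').symm i) (by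
          rw [(hA1 q hq).1]
          exact fun i => Apx.fl_close (congrArg Prod.snd hVq) i) c4
      show gq (ψ q) (k' q) (j' q) (fun i => (l (ρ₂ q')).2 i - (l (ρ₂ q)).2 i) ≤ ((2:ℝ) ^ 8) ^ 2
      norm_num
      linarith
  -- the variables
  set X : Ω₂ → (Fin 2 → ℤ) × (Fin 2 → ℤ) := fun q => tb n (l (ρ₂ q)) with hX
  set T : Ω₂ → (Fin 2 → ℤ) × (Fin 2 → ℤ) := fun q => tb n' (lst l W k r (ρ₂ q)) with hT
  set F : Ω₂ → Lab := fun q => (frm l W k r).lab (ρ₂ q) with hF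
  set L : Ω₂ → Lab := fun q => A₁.lab (ρ₁ q) with hL
  -- the label of the unstretched box
  have b1 : ∀ {Z : Type} (Y : Ω₂ → Z), (∀ q q', Y q' = Y q → L q' = L q ∧ F q' = F q) →
      Stk.hc Q A.lab Y ≤ cL 8 := by
    intro Z Y hY
    refine hc_lab_le Q A Y 8 (fun q hq => ⟨(hbox q hq).1, (hbox q hq).2.1⟩) ?_
    intro q q' hq hq' e
    exact hLR q q' hq hq' (hY q q' e).1 (hY q q' e).2
  -- (T, F) given the line
  have b2 : Stk.hc Q (fun q => (T q, F q)) (fun q => (X q, A.lab q)) ≤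
      cL 2 + 4 * Real.log (2 * (8 : ℕ) + 3) := by
    have a1 : Stk.hc Q (fun q => (T q, F q)) (fun q => (X q, A.lab q)) ≤
        Stk.hc Q (fun q => (T q, F q)) (fun q => (X q, ())) :=
      Stk.hc_mono_right Q _ fun _ _ _ _ e => by
        simp only [Prod.mk.injEq] at e ⊢
        exact ⟨e.1, trivial⟩
    have a2 : Stk.hc Q (fun q => (T q, F q)) (fun q => (X q, ())) =
        Stk.hc P V (fun ω => (tb n (l ω), ())) :=
      Stk.hc_of_law Q P ρ₂ q3 V (fun ω => (tb n (l ω), ()))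
    have a3 : Stk.hc P V (fun ω => (tb n (l ω), ())) ≤
        Stk.hc P (fun ω => ((frm l W k r).lab ω, tb n' (lst l W k r ω)))
          (fun ω => (tb n (l ω), ())) := by
      refine Stk.hc_mono_left P fun ω ω' _ _ e => ?_
      simp only [Prod.mk.injEq] at e
      exact Prod.ext e.1.2 e.1.1
    have a4 := Stk.hc_pair P (frm l W k r).lab (fun ω => tb n' (lst l W k r ω))
      (fun ω => (tb n (l ω), ()))
    have a5 := hc_frm_x (W := W) (l := l) P hkr (fun ω hω => (hOk.w ω hω).2.1) hg (fun _ => ())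
    have a6 := hc_lst_x (W := W) (l := l) P (n' := n') hkn (fun _ => ())
    linarith
  -- the chain rule
  have b3 : Stk.hc Q X A.lab + Stk.hc Q (fun q => (T q, F q)) (fun q => (X q, A.lab q)) =
      Stk.hc Q (fun q => (T q, F q)) A.lab + Stk.hc Q X (fun q => ((T q, F q), A.lab q)) := by
    have a1 := Stk.hc_pair Q X (fun q => (T q, F q)) A.lab
    have a2 := Stk.hc_pair Q (fun q => (T q, F q)) X A.lab
    have a3 : Stk.hc Q (fun q => (X q, (T q, F q))) A.lab =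
        Stk.hc Q (fun q => ((T q, F q), X q)) A.lab :=
      le_antisymm (Stk.hc_mono_left Q fun _ _ _ _ e => by
        simp only [Prod.mk.injEq] at e ⊢
        exact ⟨e.1.2, e.1.1⟩) (Stk.hc_mono_left Q fun _ _ _ _ e => by
        simp only [Prod.mk.injEq] at e ⊢
        exact ⟨e.1.2, e.1.1⟩)
    linarith
  -- the stretched line given the label
  have b4 : Stk.hc P₁ (fun ω => tb n' (lst l W k r (π₁ ω)))
      (fun ω => (A₁.lab ω, (frm l W k r).lab (π₁ ω))) ≤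
      Stk.hc Q (fun q => (T q, F q)) A.lab + cL 8 := by
    have a1 : Stk.hc Q T (fun q => (L q, F q)) = Stk.hc P₁ (fun ω => tb n' (lst l W k r (π₁ ω)))
        (fun ω => (A₁.lab ω, (frm l W k r).lab (π₁ ω))) := by
      have c1 : T = fun q => tb n' (lst l W k r (π₁ (ρ₁ q))) :=
        funext fun q => (congrArg Prod.fst (q1 q)).symm
      have c2 : (fun q => (L q, F q)) = fun q => (A₁.lab (ρ₁ q), (frm l W k r).lab (π₁ (ρ₁ q))) :=
        funext fun q => Prod.ext rfl (congrArg Prod.snd (q1 q)).symm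
      rw [c1, c2]
      exact Stk.hc_of_law Q P₁ ρ₁ q2 (fun ω => tb n' (lst l W k r (π₁ ω)))
        (fun ω => (A₁.lab ω, (frm l W k r).lab (π₁ ω)))
    have a2 := Stk.hc_le_add' Q T A.lab (fun q => (L q, F q))
    have a3 := b1 (fun q => (L q, F q)) fun q q' e => by
      simp only [Prod.mk.injEq] at e
      exact e
    have a4 : Stk.hc Q T (fun q => (A.lab q, (L q, F q))) ≤ Stk.hc Q T (fun q => (F q, A.lab q)) :=
      Stk.hc_mono_right Q _ fun _ _ _ _ e => by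
        simp only [Prod.mk.injEq] at e ⊢
        exact ⟨e.2.2, e.1⟩
    have a5 := Stk.hc_pair Q F T A.lab
    have a6 : Stk.hc Q (fun q => (F q, T q)) A.lab = Stk.hc Q (fun q => (T q, F q)) A.lab :=
      le_antisymm (Stk.hc_mono_left Q fun _ _ _ _ e => by
        simp only [Prod.mk.injEq] at e ⊢
        exact ⟨e.1.2, e.1.1⟩) (Stk.hc_mono_left Q fun _ _ _ _ e => by
        simp only [Prod.mk.injEq] at e ⊢
        exact ⟨e.1.2, e.1.1⟩)
    have a7 := Stk.hc_nonneg Q F A.lab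
    linarith
  -- the line given the stretched line
  have b5 : Stk.hc P (fun ω => tb n (l ω)) V ≤
      Stk.hc Q X (fun q => ((T q, F q), A.lab q)) + cL 8 := by
    have a1 := (q4 A₁.lab (fun ω => tb n (l ω))).2
    have a2 : Stk.hc Q ((fun ω => tb n (l ω)) ∘ ρ₂) (fun q => (A₁.lab (ρ₁ q), V (π₁ (ρ₁ q)))) =
        Stk.hc Q X (fun q => (L q, (T q, F q))) := by
      have c1 : (fun q => (A₁.lab (ρ₁ q), V (π₁ (ρ₁ q)))) = fun q => (L q, (T q, F q)) :=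
        funext fun q => Prod.ext rfl (q1 q)
      rw [c1]
      rfl
    rw [a2] at a1
    have a3 := Stk.hc_le_add' Q X A.lab (fun q => (L q, (T q, F q)))
    have a4 := b1 (fun q => (L q, (T q, F q))) fun q q' e => by
      simp only [Prod.mk.injEq] at e
      exact ⟨e.1, e.2.2⟩
    have a5 : Stk.hc Q X (fun q => (A.lab q, (L q, (T q, F q)))) ≤
        Stk.hc Q X (fun q => ((T q, F q), A.lab q)) :=
      Stk.hc_mono_right Q _ fun _ _ _ _ e => by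
        simp only [Prod.mk.injEq] at e ⊢
        exact ⟨⟨e.2.2.1, e.2.2.2⟩, e.1⟩
    linarith
  -- the value
  have b6 := v0_le (lam := lam) hl (P := P) (n := n) (l := l) (k := k) (J := s + j) (A := A) hsn q3
    fun q hq => by
      obtain ⟨a1, a2, a3, a4, -⟩ := hbox q hq
      exact ⟨rfl, a1, a2, a3, a4⟩
  have b7 : P₁.ex (fun ω => A₁.szl lam ω) + (2 * k + r - lam * r - 8) ≤
      Q.ex (fun q => A.szl lam q) := by
    have a1 : P₁.ex (fun ω => A₁.szl lam ω) = Q.ex (fun q => A₁.szl lam (ρ₁ q)) :=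
      (Stk.ex_law_aux Q P₁ ρ₁ q2 (fun ω => A₁.szl lam ω)).symm
    have a2 : (2 * k + r - lam * r - 8 : ℝ) = Q.ex (fun _ => (2 * k + r - lam * r - 8 : ℝ)) :=
      (Q.ex_const _).symm
    rw [a1, a2, ← Q.ex_add]
    refine Q.ex_mono fun q hq => ?_
    have a3 := (hbox q hq).2.2.2.2.2.2 lam hl
    show (1 + lam) * (A₁.k (ρ₁ q) : ℝ) + (1 - lam) * (A₁.j (ρ₁ q) : ℝ) +
      (2 * k + r - lam * r - 8) ≤ (1 + lam) * (k' q : ℝ) + (1 - lam) * (j' q : ℝ)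
    linarith
  have b8 : exVl lam P₁ ((tbx n' (lst l W k r)).comp π₁) A₁ (fun ω => (frm l W k r).lab (π₁ ω)) =
      Stk.hc P₁ (fun ω => tb n' (lst l W k r (π₁ ω)))
        (fun ω => (A₁.lab ω, (frm l W k r).lab (π₁ ω))) -
        Real.log 2 * (2 * (n' : ℝ) - P₁.ex (fun ω => A₁.szl lam ω)) := by
    unfold exVl
    rw [tbx_comp, hc_tbx]
    congr 2
    rw [P₁.ex_sub]
    have : P₁.ex (fun ω => (tbx n' fun ω => lst l W k r (π₁ ω)).szl lam ω) = 2 * (n' : ℝ) := by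
      rw [show (fun ω => (tbx n' fun ω => lst l W k r (π₁ ω)).szl lam ω) =
          fun _ => 2 * (n' : ℝ) from by
        funext ω
        show (1 + lam) * (n' : ℝ) + (1 - lam) * (n' : ℝ) = 2 * n'
        ring]
      exact P₁.ex_const _
    rw [this]
  have b9 : Stk.hc Q X (fun q => (A.lab q, ())) = Stk.hc Q X A.lab :=
    le_antisymm (Stk.hc_mono_right Q _ fun _ _ _ _ e => congrArg Prod.fst e)
      (Stk.hc_mono_right Q _ fun _ _ _ _ e => by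
        simp only [Prod.mk.injEq]
        exact ⟨e, trivial⟩)
  unfold v0 at b6
  rw [b9] at b6
  rw [b8] at e3
  have hlog : 0 < Real.log 2 := Real.log_pos (by norm_num)
  have b10 := mul_le_mul_of_nonneg_left b7 hlog.le
  linarith

end Vale.Agent.P127.U.Red
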