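import Vale.Agent.P127.U.Lam.HWin
import Vale.Agent.P127.U.Lam.JL

/-!
# P127 / U / Lam : PRed from PFix (helper864)

The inequality for labels of fixed shape (all precisions) gives the inequality for all labels, with the
error `c (1 + log (n + 1))`.
-/

set_option autoImplicit false

namespace Vale.Agent.P127.U.Win

open Finset Filter Topology Vale.Agent.P127 Vale.Agent.P127.Stk Vale.Agent.P127.U Sys HX

variable {lam N : ℝ}

theorem excR_le_excFl (hl : 0 ≤ lam ∧ lam ≤ 1) {Ω : Type} [Fintype Ω] {γ : Type*} {P : Law Ω}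
    {n : ℕ} {l : Ω → Ln} {C : Ω → γ} {k J : ℕ} (hk : k ≤ J) (hJ : J ≤ n) :
    excR lam P n l C k J ≤ excFl lam P (tbx n l) C := by
  refine csSup_le (Lam.exSetR_nonempty hk hJ) ?_
  rintro v ⟨Ω', i, P', π, A, h1, h2, rfl⟩
  exact Lam.exV_le_excF hl (C := C) h1 fun ω hω => (h2 ω hω).1

/-- **PRed from PFix** -/
theorem pRed_of_fix (hF : PFix) : PRed := by
  intro lam hl hl1
  obtain ⟨K, hK1, hK⟩ := hF lam hl hl1
  refine ⟨K, hK1, fun N β hN hβ hJ ε hε => ?_⟩
  obtain ⟨c₀, hc₀⟩ := hK N β hN hβ hJ ε hε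
  have hlam : 0 ≤ lam ∧ lam ≤ 1 := ⟨hl.le, hl1⟩
  refine ⟨|c₀| + |cS| + 1 + 2 * N, fun Ω _ P l t s n hg hsn => ?_⟩
  classical
  obtain ⟨Ω', iF, P', π, W, hπ, -, hW, hv⟩ := XFH_softV (lam := lam) (N := 0) le_rfl hsn hg
    (fun _ => ())
  rw [XFH_zero, zero_mul, add_zero] at hv
  have hg' : GoodF P' (fun ω => l (π ω)) (fun ω => t (π ω)) := by
    intro ω hω
    refine hg (π ω) ?_
    rw [← hπ]
    exact P'.pr_pos π hω
  set X : Ω' → _ := fun ω => tb n (l (π ω)) with hX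
  set D : Ω' → Unit := fun ω => () with hD
  set T : Ω' → ℤ := fun ω => fl1 s (t (π ω)) with hT
  set Y : Ω' → _ := fun ω => (W.lab ω, (pq s (ptF l t (π ω)), ())) with hY
  -- fixed shapes
  have hfix : ∀ e : ℕ × ℕ, e ∈ img W.shp →
      P'.pr W.shp e * (Stk.hc (P'.cond W.shp e) X Y -
        Real.log 2 * (2 * ((n : ℝ) - s) - ((1 + lam) * e.1 + (1 - lam) * e.2))) ≤
      P'.pr W.shp e * ((β + ε) * s * Real.log 2 + c₀ +
        excFl lam (P'.cond W.shp e) (tbx n (fun ω => l (π ω))) D +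
        N * (s * Real.log 2 - Stk.hc (P'.cond W.shp e) T (fun ω => (X ω, D ω)))) := by
    intro e _
    rcases (P'.pr_nonneg W.shp e).eq_or_lt with h2 | h2
    · rw [← h2, zero_mul, zero_mul]
    · refine mul_le_mul_of_nonneg_left ?_ h2.le
      have hsh : ∀ ω, 0 < (P'.cond W.shp e).w ω → W.k ω = e.1 ∧ W.j ω = e.2 := by
        intro ω hω
        have h3 := JSB.cond_supp' P' W.shp e h2 hω
        exact ⟨congrArg Prod.fst h3, congrArg Prod.snd h3⟩
      obtain ⟨ω₀, hω₀⟩ : ∃ ω, 0 < (P'.cond W.shp e).w ω := by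
        by_contra hcon
        push Not at hcon
        have h3 := (P'.cond W.shp e).sum_one
        have h4 : ∑ ω, (P'.cond W.shp e).w ω ≤ 0 := Finset.sum_nonpos fun ω _ => hcon ω
        linarith
      have h5 := hsh ω₀ hω₀
      have h6 := hW ω₀ (JSB.cond_supp P' W.shp e hω₀)
      rw [h5.1, h5.2] at h6
      have h7 := hc₀ Ω' Unit (P'.cond W.shp e) (fun ω => l (π ω)) (fun ω => t (π ω)) s n e.1 e.2
        W D (fun ω hω => hg' ω (JSB.cond_supp P' W.shp e hω)) h6.2.2.1 h6.2.2.2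
        (fun ω hω => ⟨(hW ω (JSB.cond_supp P' W.shp e hω)).1,
          (hW ω (JSB.cond_supp P' W.shp e hω)).2.1, hsh ω hω⟩)
      have h8 : excR lam (P'.cond W.shp e) n (fun ω => l (π ω)) D e.1 (s + e.2) ≤
          excFl lam (P'.cond W.shp e) (tbx n (fun ω => l (π ω))) D :=
        excR_le_excFl hlam (by omega) h6.2.2.2
      have h9 : Stk.hc (P'.cond W.shp e) X Y -
          Real.log 2 * (2 * ((n : ℝ) - s) - ((1 + lam) * e.1 + (1 - lam) * e.2)) ≤
          (β + ε) * s * Real.log 2 + c₀ +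
          excR lam (P'.cond W.shp e) n (fun ω => l (π ω)) D e.1 (s + e.2) +
          N * (s * Real.log 2 - Stk.hc (P'.cond W.shp e) T (fun ω => (X ω, D ω))) := h7
      linarith
  have hsum := Finset.sum_le_sum hfix
  -- averages
  have a1 : ∑ e ∈ img W.shp, P'.pr W.shp e = 1 := P'.sum_pr_image W.shp
  have a2 : Stk.hc P' X Y = ∑ e ∈ img W.shp, P'.pr W.shp e * Stk.hc (P'.cond W.shp e) X Y := by
    rw [← JSB.hc_cond_sum P' X Y W.shp]
    refine Stk.hc_congr P' (fun _ _ _ _ e => congrArg Prod.fst e)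
      (fun _ _ _ _ e => congrArg Prod.fst e) (fun _ _ _ _ e => congrArg Prod.fst e) ?_
    intro ω ω' _ _ e
    have e1 : W.lab ω = W.lab ω' := congrArg Prod.fst e
    have e2 : W.k ω = W.k ω' := congrArg (fun q => q.1) e1
    have e3 : W.j ω = W.j ω' := congrArg (fun q => q.2.1) e1
    exact Prod.ext e (Prod.ext e2 e3)
  have a3 : Stk.hc P' T (fun ω => (W.shp ω, (X ω, D ω))) =
      ∑ e ∈ img W.shp, P'.pr W.shp e * Stk.hc (P'.cond W.shp e) T (fun ω => (X ω, D ω)) := by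
    rw [← JSB.hc_cond_sum P' T (fun ω => (X ω, D ω)) W.shp]
    exact Stk.hc_congr P' (fun _ _ _ _ e => congrArg Prod.fst e)
      (fun _ _ _ _ e => congrArg Prod.fst e) (fun _ _ _ _ e => by
        simp only [Prod.mk.injEq] at e ⊢
        exact ⟨e.2, e.1⟩) (fun _ _ _ _ e => by
        simp only [Prod.mk.injEq] at e ⊢
        exact ⟨e.2, e.1⟩)
  have a4 : P'.ex (W.szl lam) =
      ∑ e ∈ img W.shp, P'.pr W.shp e * ((1 + lam) * e.1 + (1 - lam) * e.2) :=
    P'.ex_comp W.shp (fun e => (1 + lam) * (e.1 : ℝ) + (1 - lam) * e.2)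
  have a5 : ∑ e ∈ img W.shp, P'.pr W.shp e *
      excFl lam (P'.cond W.shp e) (tbx n (fun ω => l (π ω))) D ≤
      excFl lam P (tbx n l) (fun _ => ()) + 1 := by
    have b1 := Lam.excFl_cond_sum hlam P' (tbx n (fun ω => l (π ω))) D W.shp
      (boxOk_tbx (fun ω hω => (hg' ω hω).1) n)
    have b3 := Lam.excF_le_add hlam (P := P') (B := tbx n (fun ω => l (π ω)))
      (fun ω => (D ω, W.shp ω)) D (boxOk_tbx (fun ω hω => (hg' ω hω).1) n)
    have b4 : Stk.hc P' D (fun ω => (D ω, W.shp ω)) = 0 :=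
      Stk.hc_zero P' fun _ _ _ _ _ => rfl
    have b5 : excFl lam P' (tbx n (fun ω => l (π ω))) D = excFl lam P (tbx n l) (fun _ => ()) :=
      Lam.excF_ext P' P π hπ (tbx n l) (fun _ => ())
    rw [b4, add_zero, b5] at b3
    linarith
  -- left side
  have b1 : ∑ e ∈ img W.shp, P'.pr W.shp e * (Stk.hc (P'.cond W.shp e) X Y -
        Real.log 2 * (2 * ((n : ℝ) - s) - ((1 + lam) * e.1 + (1 - lam) * e.2))) =
      Lam.valX lam P' s n (fun ω => l (π ω)) (fun ω => t (π ω)) W D := by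
    have e1 : ∀ e : ℕ × ℕ, P'.pr W.shp e * (Stk.hc (P'.cond W.shp e) X Y -
        Real.log 2 * (2 * ((n : ℝ) - s) - ((1 + lam) * e.1 + (1 - lam) * e.2))) =
        P'.pr W.shp e * Stk.hc (P'.cond W.shp e) X Y -
          (Real.log 2 * (2 * ((n : ℝ) - s))) * P'.pr W.shp e +
          Real.log 2 * (P'.pr W.shp e * ((1 + lam) * e.1 + (1 - lam) * e.2)) := fun e => by ring
    rw [Finset.sum_congr rfl fun e _ => e1 e, Finset.sum_add_distrib, Finset.sum_sub_distrib,
      ← Finset.mul_sum, ← Finset.mul_sum, a1, ← a2, ← a4]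
    unfold Lam.valX
    show _ = Stk.hc P' X Y - Real.log 2 * (2 * ((n : ℝ) - s) - P'.ex (W.szl lam))
    ring
  have b2 : ∑ e ∈ img W.shp, P'.pr W.shp e * ((β + ε) * s * Real.log 2 + c₀ +
        excFl lam (P'.cond W.shp e) (tbx n (fun ω => l (π ω))) D +
        N * (s * Real.log 2 - Stk.hc (P'.cond W.shp e) T (fun ω => (X ω, D ω)))) =
      (β + ε) * s * Real.log 2 + c₀ + (∑ e ∈ img W.shp, P'.pr W.shp e *
        excFl lam (P'.cond W.shp e) (tbx n (fun ω => l (π ω))) D) +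
        N * (s * Real.log 2 - Stk.hc P' T (fun ω => (W.shp ω, (X ω, D ω)))) := by
    have e1 : ∀ e : ℕ × ℕ, P'.pr W.shp e * ((β + ε) * s * Real.log 2 + c₀ +
        excFl lam (P'.cond W.shp e) (tbx n (fun ω => l (π ω))) D +
        N * (s * Real.log 2 - Stk.hc (P'.cond W.shp e) T (fun ω => (X ω, D ω)))) =
        ((β + ε) * s * Real.log 2 + c₀ + N * (s * Real.log 2)) * P'.pr W.shp e +
        P'.pr W.shp e * excFl lam (P'.cond W.shp e) (tbx n (fun ω => l (π ω))) D -
        N * (P'.pr W.shp e * Stk.hc (P'.cond W.shp e) T (fun ω => (X ω, D ω))) := fun e => by ring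
    rw [Finset.sum_congr rfl fun e _ => e1 e, Finset.sum_sub_distrib, Finset.sum_add_distrib,
      ← Finset.mul_sum, ← Finset.mul_sum, a1, ← a3]
    ring
  rw [b1, b2] at hsum
  -- the entropy of the shape
  have c1 := Stk.hc_le_add' P' T W.shp (fun ω => (X ω, D ω))
  have c2 : Stk.hc P' W.shp (fun ω => (X ω, D ω)) ≤ 2 * Real.log (n + 1) := by
    have d1 := Stk.hc_le_log P' W.shp (fun ω => (X ω, D ω)) ((n + 1) ^ 2) fun ω _ =>
      ⟨(Finset.range (n + 1)) ×ˢ (Finset.range (n + 1)), by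
        rw [Finset.card_product, Finset.card_range]
        exact (sq (n + 1)).ge, fun ω' hω' _ => by
        obtain ⟨-, -, g1, g2⟩ := hW ω' hω'
        show (W.k ω', W.j ω') ∈ _
        simp only [Finset.mem_product, Finset.mem_range]
        omega⟩
    have d2 : Real.log (((n + 1) ^ 2 : ℕ) : ℝ) = 2 * Real.log (n + 1) := by
      push_cast
      rw [Real.log_pow]
      push_cast
      ring
    rwa [d2] at d1
  have c4 : DF P s n l t (fun _ => ()) =
      s * Real.log 2 - Stk.hc P' T (fun ω => (X ω, D ω)) := by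
    unfold DF
    rw [← Stk.hc_of_law P' P π hπ (fun ω => fl1 s (t ω)) (fun ω => (tb n (l ω), ()))]
    rfl
  have c5 : N * (s * Real.log 2 - Stk.hc P' T (fun ω => (W.shp ω, (X ω, D ω)))) ≤
      N * DF P s n l t (fun _ => ()) + N * (2 * Real.log (n + 1)) := by
    rw [c4, ← mul_add]
    exact mul_le_mul_of_nonneg_left (by linarith) hN
  have hlog : 0 ≤ Real.log ((n : ℝ) + 1) :=
    Real.log_nonneg (by linarith [Nat.cast_nonneg (α := ℝ) n])
  have c6 : c₀ + cS + 1 + N * (2 * Real.log (n + 1)) ≤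
      (|c₀| + |cS| + 1 + 2 * N) * (1 + Real.log (n + 1)) := by
    have d1 := le_abs_self c₀
    have d2 := le_abs_self cS
    have d3 : 0 ≤ (|c₀| + |cS| + 1) * Real.log ((n : ℝ) + 1) :=
      mul_nonneg (by positivity) hlog
    nlinarith
  linarith

end Vale.Agent.P127.U.Win
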