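import Vale.Agent.P127.U.Lam.RedI
import Vale.Agent.P127.U.Lam.RedH
import Vale.Agent.P127.U.Lam.RedTop
import Vale.Agent.P127.U.Lam.Exist

/-!
# P127 / U / Lam : the reduction (helper624, coarse_str by helper420, pRed_of_fix by helper864,
pXtrL by helper404)

* `pFix : PFix`, `pRed : PRed`, `pXtrL' : PXtrL`
-/

set_option autoImplicit false

namespace Vale.Agent.P127.U

open Filter Topology Vale.Agent.P127 Vale.Agent.P127.Stk Sys

theorem Red.cStr {lam : ℝ} (h0 : 0 < lam) (h1 : lam ≤ 1) : Red.CStr lam := by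
  obtain ⟨C, hC⟩ := Red.coarse_str (lam := lam) ⟨h0.le, h1⟩
  refine ⟨C, ?_⟩
  intro Ω _ P l t s n k j r W g h hr hg n' hn'
  subst hn'
  exact hC Ω P l t s n k j r W g h hr hg

/-- **PFix** -/
theorem pFix : PFix := Red.pFix_of fun _ h0 h1 => Red.cStr h0 h1

/-- **PRed** -/
theorem pRed : PRed := Win.pRed_of_fix pFix

/-- best constant and extremal system, unconditional -/
theorem pXtrL' : PXtrL := pXtrL pRed

end Vale.Agent.P127.U
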