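import Vale.Agent.P127.U.Lam.Win

/-!
# P127 / U / Lam : the functional with the softness of the shape, ball in a ball (helper864)
-/

set_option autoImplicit false

namespace Vale.Agent.P127.U

open Filter Topology Vale.Agent.P127 Vale.Agent.P127.Stk Vale.Agent.P127.U.Apx Sys

section finite

variable {Ω : Type} [Fintype Ω] {γ : Type*}

/-- the values of the labels, with the softness of the shape -/
def exSetH (lam N : ℝ) (P : Law Ω) (n : ℕ) (l : Ω → Ln) (C : Ω → γ) : Set ℝ :=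
  {v | ∃ (Ω' : Type) (_ : Fintype Ω') (P' : Law Ω') (π : Ω' → Ω) (A : Bx Ω'),
    (∀ ω, P'.pr π ω = P.w ω) ∧ (∀ ω, 0 < P'.w ω → Sub 1 ((tbx n l).comp π) A ω) ∧
    v = exVl lam P' ((tbx n l).comp π) A (fun ω => C (π ω)) +
      N * Stk.hc P' (fun ω => (A.k ω, A.j ω)) (fun ω => (tb n (l (π ω)), C (π ω)))}

/-- penalised excess of the tubes with the softness of the shape -/
noncomputable def excH (lam N : ℝ) (P : Law Ω) (n : ℕ) (l : Ω → Ln) (C : Ω → γ) : ℝ :=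
  sSup (exSetH lam N P n l C)

/-- the same at the level `s` -/
noncomputable def XFH (lam N : ℝ) (P : Law Ω) (s n : ℕ) (l : Ω → Ln) (t : Ω → ℝ) (C : Ω → γ) : ℝ :=
  excH lam N P (n - s) (blF s l t) (fun ω => (pq s (ptF l t ω), C ω)) +
    Stk.hc P (fun ω => tb n (l ω)) (fun ω => (tlF s n l t ω, C ω))

end finite

namespace HX

variable {lam N : ℝ}

section finite

variable {Ω : Type} [Fintype Ω] {γ : Type*}

/-- the shape of a box containing a tube of precision `n` has entropy at most `2 log (n + 1)` -/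
theorem shape_le {Ω' : Type} [Fintype Ω'] {T : Type*} (P' : Law Ω') (n : ℕ) (B A : Bx Ω') (Y : Ω' → T)
    (hn : ∀ ω, 0 < P'.w ω → B.k ω ≤ n ∧ B.j ω ≤ n) (h : ∀ ω, 0 < P'.w ω → Sub 1 B A ω) :
    Stk.hc P' (fun ω => (A.k ω, A.j ω)) Y ≤ 2 * Real.log (n + 1) := by
  classical
  have h1 := Stk.hc_le_log P' (fun ω => (A.k ω, A.j ω)) Y ((n + 1) ^ 2) fun ω _ =>
    ⟨(Finset.range (n + 1)) ×ˢ (Finset.range (n + 1)), by
      rw [Finset.card_product, Finset.card_range]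
      exact (sq (n + 1)).ge, fun ω' hω' _ => by
      obtain ⟨-, -, -, h4, h5, -⟩ := h ω' hω'
      obtain ⟨g1, g2⟩ := hn ω' hω'
      simp only [Finset.mem_product, Finset.mem_range]
      omega⟩
  have h2 : Real.log (((n + 1) ^ 2 : ℕ) : ℝ) = 2 * Real.log (n + 1) := by
    push_cast
    rw [Real.log_pow]
    push_cast
    ring
  rwa [h2] at h1

theorem exSetH_le (hl : 0 ≤ lam ∧ lam ≤ 1) (hN : 0 ≤ N) (P : Law Ω) (n : ℕ) (l : Ω → Ln)
    (C : Ω → γ) {v : ℝ} (hv : v ∈ exSetH lam N P n l C) :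
    v ≤ excFl lam P (tbx n l) C + N * (2 * Real.log (n + 1)) := by
  obtain ⟨Ω', _, P', π, A, h1, h2, rfl⟩ := hv
  have h3 := Lam.exV_le_excF hl (C := C) h1 h2
  have h4 := mul_le_mul_of_nonneg_left (shape_le P' n _ A
    (fun ω => (tb n (l (π ω)), C (π ω))) (fun ω _ => ⟨le_rfl, le_rfl⟩) h2) hN
  linarith

theorem exSetH_bdd (hl : 0 ≤ lam ∧ lam ≤ 1) (hN : 0 ≤ N) (P : Law Ω) (n : ℕ) (l : Ω → Ln)
    (C : Ω → γ) : BddAbove (exSetH lam N P n l C) :=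
  ⟨_, fun _ hv => exSetH_le hl hN P n l C hv⟩

/-- every box on an extension gives a lower bound -/
theorem le_excH (hl : 0 ≤ lam ∧ lam ≤ 1) (hN : 0 ≤ N) {P : Law Ω} {n : ℕ} {l : Ω → Ln}
    {C : Ω → γ} {Ω' : Type} [Fintype Ω'] {P' : Law Ω'} {π : Ω' → Ω} {A : Bx Ω'}
    (h1 : ∀ ω, P'.pr π ω = P.w ω) (h2 : ∀ ω, 0 < P'.w ω → Sub 1 ((tbx n l).comp π) A ω) :
    exVl lam P' ((tbx n l).comp π) A (fun ω => C (π ω)) +
      N * Stk.hc P' (fun ω => (A.k ω, A.j ω)) (fun ω => (tb n (l (π ω)), C (π ω))) ≤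
      excH lam N P n l C :=
  le_csSup (exSetH_bdd hl hN P n l C) ⟨Ω', inferInstance, P', π, A, h1, h2, rfl⟩

theorem exSetH_ne {P : Law Ω} {n : ℕ} {l : Ω → Ln} (C : Ω → γ)
    (h : ∀ ω, 0 < P.w ω → LnOk (l ω)) : (exSetH lam N P n l C).Nonempty :=
  ⟨_, Ω, inferInstance, P, id, tbx n l, Stk.pr_id P,
    fun ω hω => sub_self_of_ok (boxOk_tbx h n ω hω) zero_le_one, rfl⟩

/-- `excFl ≤ excH ≤ excFl + 2 N log (n + 1)` -/
theorem excFl_le_excH (hl : 0 ≤ lam ∧ lam ≤ 1) (hN : 0 ≤ N) {P : Law Ω} {n : ℕ} {l : Ω → Ln}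
    (C : Ω → γ) (h : ∀ ω, 0 < P.w ω → LnOk (l ω)) :
    excFl lam P (tbx n l) C ≤ excH lam N P n l C := by
  refine csSup_le ⟨0, Lam.zero_mem_exSet (boxOk_tbx h n)⟩ ?_
  rintro v ⟨Ω', _, P', π, A, h1, h2, rfl⟩
  have h3 := le_excH hl hN (C := C) h1 h2
  have h4 := mul_nonneg hN (Stk.hc_nonneg P' (fun ω => (A.k ω, A.j ω))
    (fun ω => (tb n (l (π ω)), C (π ω))))
  linarith

theorem excH_le_excFl (hl : 0 ≤ lam ∧ lam ≤ 1) (hN : 0 ≤ N) {P : Law Ω} {n : ℕ} {l : Ω → Ln}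
    (C : Ω → γ) (h : ∀ ω, 0 < P.w ω → LnOk (l ω)) :
    excH lam N P n l C ≤ excFl lam P (tbx n l) C + N * (2 * Real.log (n + 1)) :=
  csSup_le (exSetH_ne C h) fun _ hv => exSetH_le hl hN P n l C hv

theorem excH_nonneg (hl : 0 ≤ lam ∧ lam ≤ 1) (hN : 0 ≤ N) {P : Law Ω} {n : ℕ} {l : Ω → Ln}
    (C : Ω → γ) (h : ∀ ω, 0 < P.w ω → LnOk (l ω)) : 0 ≤ excH lam N P n l C :=
  (Lam.excF_nonneg hl (boxOk_tbx h n)).trans (excFl_le_excH hl hN C h)

/-- change of the side information -/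
theorem excH_le_add (hl : 0 ≤ lam ∧ lam ≤ 1) (hN : 0 ≤ N) {δ : Type*} {P : Law Ω} {n : ℕ}
    {l : Ω → Ln} (C : Ω → γ) (C' : Ω → δ) (h : ∀ ω, 0 < P.w ω → LnOk (l ω)) :
    excH lam N P n l C ≤ excH lam N P n l C' + (1 + N) * Stk.hc P C' C := by
  refine csSup_le (exSetH_ne C h) ?_
  rintro v ⟨Ω', _, P', π, A, h1, h2, rfl⟩
  have h3 := le_excH hl hN (C := C') h1 h2
  have h4 : Stk.hc P' ((tbx n l).comp π).lab (fun ω => (A.lab ω, C (π ω))) ≤
      Stk.hc P' ((tbx n l).comp π).lab (fun ω => (C' (π ω), A.lab ω, C (π ω))) +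
        Stk.hc P' (fun ω => C' (π ω)) (fun ω => (A.lab ω, C (π ω))) :=
    Stk.hc_le_add' P' ((tbx n l).comp π).lab (fun ω => C' (π ω)) (fun ω => (A.lab ω, C (π ω)))
  have h5 : Stk.hc P' ((tbx n l).comp π).lab (fun ω => (C' (π ω), A.lab ω, C (π ω))) ≤
      Stk.hc P' ((tbx n l).comp π).lab (fun ω => (A.lab ω, C' (π ω))) := by
    refine Stk.hc_mono_right P' _ fun ω ω' _ _ e => ?_
    simp only [Prod.mk.injEq] at e ⊢
    exact ⟨e.2.1, e.1⟩
  have h6 : Stk.hc P' (fun ω => C' (π ω)) (fun ω => (A.lab ω, C (π ω))) ≤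
      Stk.hc P' (fun ω => C' (π ω)) (fun ω => C (π ω)) :=
    Stk.hc_mono_right P' _ fun ω ω' _ _ e => congrArg Prod.snd e
  have h7 : Stk.hc P' (fun ω => C' (π ω)) (fun ω => C (π ω)) = Stk.hc P C' C :=
    Stk.hc_of_law P' P π h1 C' C
  -- the softness
  have g4 := Stk.hc_le_add' P' (fun ω => (A.k ω, A.j ω)) (fun ω => C' (π ω))
    (fun ω => (tb n (l (π ω)), C (π ω)))
  have g5 : Stk.hc P' (fun ω => (A.k ω, A.j ω)) (fun ω => (C' (π ω), tb n (l (π ω)), C (π ω))) ≤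
      Stk.hc P' (fun ω => (A.k ω, A.j ω)) (fun ω => (tb n (l (π ω)), C' (π ω))) := by
    refine Stk.hc_mono_right P' _ fun ω ω' _ _ e => ?_
    simp only [Prod.mk.injEq] at e ⊢
    exact ⟨e.2.1, e.1⟩
  have g6 : Stk.hc P' (fun ω => C' (π ω)) (fun ω => (tb n (l (π ω)), C (π ω))) ≤
      Stk.hc P' (fun ω => C' (π ω)) (fun ω => C (π ω)) :=
    Stk.hc_mono_right P' _ fun ω ω' _ _ e => congrArg Prod.snd e
  have g7 : Stk.hc P' (fun ω => (A.k ω, A.j ω)) (fun ω => (tb n (l (π ω)), C (π ω))) ≤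
      Stk.hc P' (fun ω => (A.k ω, A.j ω)) (fun ω => (tb n (l (π ω)), C' (π ω))) +
        Stk.hc P C' C := by linarith
  have g8 := mul_le_mul_of_nonneg_left g7 hN
  unfold exVl at h3 ⊢
  linarith

end finite

end HX

section finite

variable {Ω : Type} [Fintype Ω] {γ : Type*}

/-- **ball in a ball**, with the softness of the shape -/
theorem XFH_ball {lam N : ℝ} (hlam : 0 ≤ lam ∧ lam ≤ 1) (hN : 0 ≤ N) (P : Law Ω) {s s' n : ℕ}
    (h : s ≤ s') (h' : s' ≤ n) {l : Ω → Ln} {t : Ω → ℝ} (hg : GoodF P l t) (C : Ω → γ) :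
    XFH lam N P s' n l t C ≤ XFH lam N P s n l t C +
      (XFH lam N P (s' - s) (n - s) (blF s l t) (tfF s t) (fun ω => (pq s (ptF l t ω), C ω)) -
        excH lam N P (n - s) (blF s l t) (fun ω => (pq s (ptF l t ω), C ω))) +
      (14 + 8 * N) * Real.log 13 := by
  have hl : ∀ ω, 0 < P.w ω → LnOk (l ω) := fun ω hω => (hg ω hω).1
  have hn : n - s - (s' - s) = n - s' := by omega
  -- the excess
  have k1 := HX.excH_le_add hlam hN (n := n - s') (l := blF s' l t)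
    (fun ω => (pq s' (ptF l t ω), C ω))
    (fun ω => (pq (s' - s) (ptF (blF s l t) (tfF s t) ω), (pq s (ptF l t ω), C ω)))
    (fun ω hω => (hg.blF s' ω hω).1)
  have k2 : Stk.hc P (fun ω => (pq (s' - s) (ptF (blF s l t) (tfF s t) ω), (pq s (ptF l t ω), C ω)))
      (fun ω => (pq s' (ptF l t ω), C ω)) ≤ 4 * Real.log 13 + 4 * Real.log 13 :=
    Lam.Ball.cond_le P s s' h l t hl C
  have k2' := mul_le_mul_of_nonneg_left k2 (show 0 ≤ 1 + N by linarith)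
  -- the tubelets
  have k3 : Stk.hc P (fun ω => tlF s n l t ω)
      (fun ω => (tb (n - s) (blF s l t ω), (tlF s' n l t ω, C ω))) ≤ 2 * Real.log 13 :=
    Lam.Ball.tubelet_le P s s' n h h' l t hl C
  have k4 : Stk.hc P (fun ω => (tlF (s' - s) (n - s) (blF s l t) (tfF s t) ω,
        (pq s (ptF l t ω), C ω))) (fun ω => (tlF s' n l t ω, C ω)) ≤ 4 * Real.log 13 :=
    Lam.Ball.inner_le P s s' n h h' l t hl C
  have k5 := hc_cmp P (fun ω => tlF s n l t ω) (fun ω => tb (n - s) (blF s l t ω))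
    (fun ω => (tlF s' n l t ω, C ω))
    (fun ω => (tlF (s' - s) (n - s) (blF s l t) (tfF s t) ω, (pq s (ptF l t ω), C ω)))
  have k6 := Stk.hc_le_add' P (fun ω => tb n (l ω)) (fun ω => tlF s n l t ω)
    (fun ω => (tlF s' n l t ω, C ω))
  have k7 : Stk.hc P (fun ω => tb n (l ω)) (fun ω => (tlF s n l t ω, (tlF s' n l t ω, C ω))) ≤
      Stk.hc P (fun ω => tb n (l ω)) (fun ω => (tlF s n l t ω, C ω)) :=
    Stk.hc_mono_right P _ fun ω ω' _ _ e => by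
      simp only [Prod.mk.injEq] at e ⊢
      exact ⟨e.1, e.2.2⟩
  unfold XFH
  rw [hn, blF_blF h]
  linarith

end finite

end Vale.Agent.P127.U
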