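import Vale.Agent.P127.U.Lam.PathC
import Vale.Agent.P127.U.Lam.HBall

/-!
# P127 / U / Lam : the functional of the path with the price of the shape (helper465)

* `EFH P lam Λ n a r l t v C` : `EF` with `excH lam Λ` in place of `excFl lam`;
* `EFH_comp` : composition;  `EF_le_EFH`, `EFH_le_EF`.
-/

set_option autoImplicit false

namespace Vale.Agent.P127.U.Pf

open Filter Topology Vale.Agent.P127 Vale.Agent.P127.Stk Vale.Agent.P127.U.Apx Sys

section finite

variable {Ω : Type} [Fintype Ω] {γ : Type*} (P : Law Ω)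

/-- **the functional of the path** with the price `Λ` of the entropy of the shape -/
noncomputable def EFH (lam Λ : ℝ) (n a r : ℕ) (l : Ω → Ln) (t v : Ω → ℝ) (C : Ω → γ) : ℝ :=
  excH lam Λ P (n - a - r) (lnS a r l t v) (fun ω => (cell a r l t v ω, C ω)) +
    RF P n a r l t v C - (1 + lam) * r * Real.log 2

theorem lnS_ok' (a r : ℕ) (l : Ω → Ln) (t v : Ω → ℝ) :
    ∀ ω, 0 < P.w ω → LnOk (lnS a r l t v ω) := fun ω _ => st1_ok a r (l ω) (t ω) (v ω)

theorem EF_le_EFH {lam Λ : ℝ} (hlam : 0 ≤ lam ∧ lam ≤ 1) (hΛ : 0 ≤ Λ) (n a r : ℕ) (l : Ω → Ln)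
    (t v : Ω → ℝ) (C : Ω → γ) : EF P lam n a r l t v C ≤ EFH P lam Λ n a r l t v C := by
  have := HX.excFl_le_excH hlam hΛ (P := P) (n := n - a - r) (l := lnS a r l t v)
    (fun ω => (cell a r l t v ω, C ω)) (lnS_ok' P a r l t v)
  unfold EF EFH
  linarith

theorem EFH_le_EF {lam Λ : ℝ} (hlam : 0 ≤ lam ∧ lam ≤ 1) (hΛ : 0 ≤ Λ) (n a r : ℕ) (l : Ω → Ln)
    (t v : Ω → ℝ) (C : Ω → γ) : EFH P lam Λ n a r l t v C ≤ EF P lam n a r l t v C +
      Λ * (2 * Real.log (n + 1)) := by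
  have h1 := HX.excH_le_excFl hlam hΛ (P := P) (n := n - a - r) (l := lnS a r l t v)
    (fun ω => (cell a r l t v ω, C ω)) (lnS_ok' P a r l t v)
  have h2 : Real.log (((n - a - r : ℕ) : ℝ) + 1) ≤ Real.log ((n : ℝ) + 1) := by
    refine Real.log_le_log (by positivity) ?_
    have : ((n - a - r : ℕ) : ℝ) ≤ n := by exact_mod_cast (by omega : n - a - r ≤ n)
    linarith
  have h3 := mul_le_mul_of_nonneg_left h2 hΛ
  unfold EF EFH
  linarith

/-- **composition**, with the price of the shape -/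
theorem EFH_comp {lam Λ : ℝ} (hlam : 0 ≤ lam ∧ lam ≤ 1) (hΛ : 0 ≤ Λ) (n a w r ρ : ℕ) (l : Ω → Ln)
    (t v : Ω → ℝ) (C : Ω → γ) :
    EFH P lam Λ n (a + w) (r + ρ) l t v C ≤ EFH P lam Λ n a r l t v C +
      (EFH P lam Λ (n - a - r) w ρ (lnS a r l t v) (tfF a t) (tfF r v)
          (fun ω => (cell a r l t v ω, C ω)) -
        excH lam Λ P (n - a - r) (lnS a r l t v) (fun ω => (cell a r l t v ω, C ω))) +
      (12 + 4 * Λ) * Real.log 13 := by
  have hn : n - (a + w) - (r + ρ) = n - a - r - w - ρ := by omega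
  have k1 := RF_comp P n a w r ρ l t v C
  have k2 := HX.excH_le_add hlam hΛ (P := P) (n := n - a - r - w - ρ)
    (l := lnS (a + w) (r + ρ) l t v)
    (fun ω => (cell (a + w) (r + ρ) l t v ω, C ω))
    (fun ω => (cell w ρ (lnS a r l t v) (tfF a t) (tfF r v) ω, (cell a r l t v ω, C ω)))
    (lnS_ok' P (a + w) (r + ρ) l t v)
  have k3 := mul_le_mul_of_nonneg_left (hc_inner P a w r ρ l t v C) (show 0 ≤ 1 + Λ by linarith)
  unfold EFH
  rw [hn, lnS_lnS]
  push_cast
  linarith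

end finite

end Vale.Agent.P127.U.Pf
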