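import Vale.Agent.P127.U.Lam.HAux

/-!
# P127 / U / Lam : LIFT (helper102)

Labels for the laws conditioned on a variable `E` which determines a shape give one label for the
functional `excH`; the entropy of the shapes costs only a change of the price of the flatness.
-/

set_option autoImplicit false

namespace Vale.Agent.P127.U

open Filter Topology Vale.Agent.P127 Vale.Agent.P127.Stk Sys

namespace Lam

variable {lam N : ℝ} {Ω : Type} [Fintype Ω] {γ : Type*}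

theorem exSetR_bdd (hl : 0 ≤ lam ∧ lam ≤ 1) (P : Law Ω) (n : ℕ) (l : Ω → Ln) (C : Ω → γ)
    (k J : ℕ) : BddAbove (exSetR lam P n l C k J) := by
  refine (exSet_bddAbove hl P (tbx n l) C).mono ?_
  rintro v ⟨Ω', i, P', π, A, h1, h2, rfl⟩
  exact ⟨Ω', i, P', π, A, h1, fun ω hω => (h2 ω hω).1, rfl⟩

theorem exVl_le_excR (hl : 0 ≤ lam ∧ lam ≤ 1) {P : Law Ω} {n : ℕ} {l : Ω → Ln} {C : Ω → γ}
    {k J : ℕ} {Ω' : Type} [Fintype Ω'] {P' : Law Ω'} {π : Ω' → Ω} {A : Bx Ω'}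
    (h1 : ∀ ω, P'.pr π ω = P.w ω)
    (h2 : ∀ ω, 0 < P'.w ω → Sub 1 ((tbx n l).comp π) A ω ∧ k ≤ A.k ω ∧ A.j ω ≤ J) :
    exVl lam P' ((tbx n l).comp π) A (fun ω => C (π ω)) ≤ excR lam P n l C k J :=
  le_csSup (exSetR_bdd hl P n l C k J) ⟨Ω', inferInstance, P', π, A, h1, h2, rfl⟩

/-- the tube of thickness `2^-J` -/
theorem exSetR_nonempty {P : Law Ω} {n : ℕ} {l : Ω → Ln} {C : Ω → γ} {k J : ℕ} (hk : k ≤ J)
    (hJ : J ≤ n) : (exSetR lam P n l C k J).Nonempty := by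
  refine ⟨_, Ω, inferInstance, P, id, tbx J l, Stk.pr_id P, fun ω hω => ⟨?_, hk, le_rfl⟩, rfl⟩
  refine ⟨rfl, ?_, le_rfl, hJ, hJ, ?_⟩
  · show |(0:ℝ)| ≤ 4
    norm_num
  · show |Real.sin (0 - 0)| * (1 / 2 : ℝ) ^ n ≤ 1 * (1 / 2 : ℝ) ^ J
    rw [sub_self, Real.sin_zero, abs_zero, zero_mul]
    positivity

theorem near_excR {P : Law Ω} {n : ℕ} {l : Ω → Ln} {C : Ω → γ} {k J : ℕ} (hk : k ≤ J)
    (hJ : J ≤ n) :
    ∃ (Ω' : Type) (_ : Fintype Ω') (P' : Law Ω') (π : Ω' → Ω) (A : Bx Ω'),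
      (∀ ω, P'.pr π ω = P.w ω) ∧
      (∀ ω, 0 < P'.w ω → Sub 1 ((tbx n l).comp π) A ω ∧ k ≤ A.k ω ∧ A.j ω ≤ J) ∧
      excR lam P n l C k J - 1 ≤ exVl lam P' ((tbx n l).comp π) A fun ω => C (π ω) := by
  obtain ⟨v, ⟨Ω', i, P', π, A, h1, h2, rfl⟩, h3⟩ := exists_lt_of_lt_csSup
    (exSetR_nonempty (lam := lam) (P := P) (l := l) (C := C) hk hJ)
    (sub_one_lt (sSup (exSetR lam P n l C k J)))
  exact ⟨Ω', i, P', π, A, h1, h2, h3.le⟩

/-- **LIFT** -/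
theorem lift {ι : Type} (hl : 0 ≤ lam) {κ : ℝ} (hκ : 0 < κ) (h1 : lam + κ ≤ 1) (hN : 0 ≤ N)
    {K : ℝ} (hK : 1 ≤ K) (hK2 : 2 * N ≤ κ * Real.log 2 * K)
    {P : Law Ω} {n : ℕ} {l : Ω → Ln} {C : Ω → γ} {Ω' : Type} [Fintype Ω'] (P' : Law Ω')
    (π : Ω' → Ω) (hπ : ∀ ω, P'.pr π ω = P.w ω) (E : Ω' → ι) (kk jj : ι → ℕ) (s K0 : ℕ)
    (hE : ∀ ω, 0 < P'.w ω → kk (E ω) ≤ jj (E ω) ∧ s + jj (E ω) ≤ n)
    (hK0 : ∀ k j : ℕ, ∃ F : Finset ι, F.card ≤ K0 ∧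
      ∀ ω, 0 < P'.w ω → kk (E ω) = k → jj (E ω) = j → E ω ∈ F) :
    ∑ e ∈ img E, P'.pr E e *
        excR lam (P'.cond E e) n (fun ω => l (π ω)) (fun ω => C (π ω)) (kk e) (s + jj e) +
      N * Stk.hc P' E (fun ω => (tb n (l (π ω)), C (π ω))) ≤
    excH (lam + κ) N P n l C +
      κ * Real.log 2 * (P'.ex (fun ω => (jj (E ω) : ℝ) - kk (E ω)) + s) +
      N * (2 * Real.log K + 2 * Real.log 4 + Real.log K0) + 1 := by
  classical
  have hl1 : 0 ≤ lam ∧ lam ≤ 1 := ⟨hl, by linarith⟩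
  have hl2 : 0 ≤ lam + κ ∧ lam + κ ≤ 1 := ⟨by linarith, h1⟩
  -- good labels for every value
  have hnear : ∀ z : {z // z ∈ img E}, ∃ (Ω'' : Type) (_ : Fintype Ω'') (Q : Law Ω'')
      (ρ : Ω'' → Ω') (A : Bx Ω''), (∀ ω, Q.pr ρ ω = (P'.cond E z.1).w ω) ∧
      (∀ ω, 0 < Q.w ω → Sub 1 ((tbx n (fun ω => l (π ω))).comp ρ) A ω ∧
        (0 < P'.pr E z.1 → kk z.1 ≤ A.k ω ∧ A.j ω ≤ s + jj z.1)) ∧
      (0 < P'.pr E z.1 → excR lam (P'.cond E z.1) n (fun ω => l (π ω)) (fun ω => C (π ω))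
        (kk z.1) (s + jj z.1) - 1 ≤
        exVl lam Q ((tbx n (fun ω => l (π ω))).comp ρ) A fun ω => C (π (ρ ω))) := by
    intro z
    by_cases hz : 0 < P'.pr E z.1
    · obtain ⟨ω, hω⟩ : ∃ ω, 0 < (P'.cond E z.1).w ω := by
        by_contra hcon
        push Not at hcon
        have h2 := (P'.cond E z.1).sum_one
        have h3 : ∑ ω, (P'.cond E z.1).w ω ≤ 0 := Finset.sum_nonpos fun ω _ => hcon ω
        linarith
      have h3 := JSB.cond_supp' P' E z.1 hz hω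
      have h4 := hE ω (JSB.cond_supp P' E z.1 hω)
      rw [h3] at h4
      obtain ⟨Ω'', i, Q, ρ, A, g1, g2, g3⟩ := near_excR (lam := lam) (P := P'.cond E z.1)
        (l := fun ω => l (π ω)) (C := fun ω => C (π ω)) (k := kk z.1) (J := s + jj z.1) (n := n)
        (by omega) h4.2
      exact ⟨Ω'', i, Q, ρ, A, g1, fun ω hω => ⟨(g2 ω hω).1, fun _ => (g2 ω hω).2⟩, fun _ => g3⟩
    · refine ⟨Ω', inferInstance, P'.cond E z.1, id, tbx n (fun ω => l (π ω)),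
        Stk.pr_id _, fun ω _ => ⟨?_, fun h => absurd h hz⟩, fun h => absurd h hz⟩
      refine ⟨rfl, ?_, le_rfl, le_rfl, le_rfl, ?_⟩
      · show |(0:ℝ)| ≤ 4
        norm_num
      · show |Real.sin (0 - 0)| * (1 / 2 : ℝ) ^ n ≤ 1 * (1 / 2 : ℝ) ^ n
        rw [sub_self, Real.sin_zero, abs_zero, zero_mul]
        positivity
  choose Ω₂ iF Q ρ₀ A₀ g1 g2 g3 using hnear
  have a0 : ∀ z : {z // z ∈ img E}, 0 ≤ P'.pr E z.1 := fun z => P'.pr_nonneg _ _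
  have a1 : ∑ z : {z // z ∈ img E}, P'.pr E z.1 = 1 := by
    rw [Finset.sum_coe_sort (img E) (fun z => P'.pr E z)]
    exact P'.sum_pr_image E
  set M : Law (Σ z, Ω₂ z) := JSB.sumL (fun z : {z // z ∈ img E} => P'.pr E z.1) a0 a1 Q with hM
  have hMw : ∀ p : (Σ z, Ω₂ z), M.w p = P'.pr E p.1.1 * (Q p.1).w p.2 := fun p => rfl
  set ρ : (Σ z, Ω₂ z) → Ω' := fun p => ρ₀ p.1 p.2 with hρ
  set A : Bx (Σ z, Ω₂ z) := ⟨fun p => (A₀ p.1).l p.2, fun p => (A₀ p.1).θ p.2,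
    fun p => (A₀ p.1).k p.2, fun p => (A₀ p.1).j p.2⟩ with hA
  have hpos : ∀ p : (Σ z, Ω₂ z), 0 < M.w p → 0 < P'.pr E p.1.1 ∧ 0 < (Q p.1).w p.2 := by
    intro p hp
    rw [hMw] at hp
    have b1 := P'.pr_nonneg E p.1.1
    have b2 := (Q p.1).nn p.2
    constructor
    · rcases b1.eq_or_lt with h2 | h2
      · rw [← h2, zero_mul] at hp
        exact absurd hp (lt_irrefl 0)
      · exact h2
    · rcases b2.eq_or_lt with h2 | h2
      · rw [← h2, mul_zero] at hp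
        exact absurd hp (lt_irrefl 0)
      · exact h2
  have hρpos : ∀ p : (Σ z, Ω₂ z), 0 < M.w p → 0 < (P'.cond E p.1.1).w (ρ p) := by
    intro p hp
    rw [← g1 p.1 (ρ p)]
    exact (Q p.1).pr_pos (ρ₀ p.1) (hpos p hp).2
  have hEe : ∀ p : (Σ z, Ω₂ z), 0 < M.w p → E (ρ p) = p.1.1 := fun p hp =>
    JSB.cond_supp' P' E p.1.1 (hpos p hp).1 (hρpos p hp)
  have hpr : ∀ ω, M.pr ρ ω = P'.w ω := by
    intro ω
    rw [hM, JSB.sumL_pr]
    have e : ∀ z : {z // z ∈ img E}, (Q z).pr (fun ω' => ρ ⟨z, ω'⟩) ω = (P'.cond E z.1).w ω :=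
      fun z => g1 z ω
    simp only [e]
    rw [Finset.sum_coe_sort (img E) (fun z => P'.pr E z * (P'.cond E z).w ω)]
    exact JSB.cond_avg P' E ω
  have hprΩ : ∀ ω, M.pr (fun p => π (ρ p)) ω = P.w ω := by
    intro ω
    have := Stk.pr_law_aux M P' ρ hpr π ω
    rw [← hπ ω, ← this]
    rfl
  have hsub : ∀ p, 0 < M.w p → Sub 1 ((tbx n l).comp fun p => π (ρ p)) A p := fun p hp =>
    (g2 p.1 p.2 (hpos p hp).2).1
  have hcon : ∀ p, 0 < M.w p → kk (E (ρ p)) ≤ A.k p ∧ A.j p ≤ s + jj (E (ρ p)) := by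
    intro p hp
    rw [hEe p hp]
    exact (g2 p.1 p.2 (hpos p hp).2).2 (hpos p hp).1
  have hle := HX.le_excH (lam := lam + κ) hl2 hN (C := C) hprΩ hsub
  -- the sum of the values
  have hge : ∑ z : {z // z ∈ img E}, P'.pr E z.1 *
      exVl lam (Q z) ((tbx n (fun ω => l (π ω))).comp (ρ₀ z)) (A₀ z) (fun ω => C (π (ρ₀ z ω))) ≤
      exVl lam M ((tbx n l).comp fun p => π (ρ p)) A (fun p => C (π (ρ p))) := by
    have e1 : Stk.hc M ((tbx n l).comp fun p => π (ρ p)).lab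
        (fun p => ((A.lab p, C (π (ρ p))), p.1)) ≤
        Stk.hc M ((tbx n l).comp fun p => π (ρ p)).lab (fun p => (A.lab p, C (π (ρ p)))) := by
      refine Stk.hc_mono_right M _ ?_
      intro p p' _ _ e
      simp only [Prod.mk.injEq] at e ⊢
      exact e.1
    have e2 := JSB.sumL_hc (a := fun z : {z // z ∈ img E} => P'.pr E z.1) (h0 := a0) (h1 := a1)
      (Q := Q) ((tbx n l).comp fun p => π (ρ p)).lab (fun p => (A.lab p, C (π (ρ p))))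
    have e3 := JSB.sumL_ex (a := fun z : {z // z ∈ img E} => P'.pr E z.1) (h0 := a0) (h1 := a1)
      (Q := Q) (fun p => ((tbx n l).comp fun p => π (ρ p)).szl lam p - A.szl lam p)
    rw [← hM] at e2 e3
    rw [e2] at e1
    have e4 : ∑ z : {z // z ∈ img E}, P'.pr E z.1 *
        exVl lam (Q z) ((tbx n (fun ω => l (π ω))).comp (ρ₀ z)) (A₀ z)
          (fun ω => C (π (ρ₀ z ω))) =
        ∑ z : {z // z ∈ img E}, P'.pr E z.1 * Stk.hc (Q z)
          (fun ω => ((tbx n l).comp fun p => π (ρ p)).lab ⟨z, ω⟩)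
          (fun ω => (A.lab ⟨z, ω⟩, C (π (ρ ⟨z, ω⟩)))) -
        Real.log 2 * ∑ z : {z // z ∈ img E}, P'.pr E z.1 *
          (Q z).ex (fun ω => ((tbx n l).comp fun p => π (ρ p)).szl lam ⟨z, ω⟩ -
            A.szl lam ⟨z, ω⟩) := by
      rw [Finset.mul_sum, ← Finset.sum_sub_distrib]
      refine Finset.sum_congr rfl fun z _ => ?_
      unfold exVl
      have f1 : ((tbx n (fun ω => l (π ω))).comp (ρ₀ z)).lab =
        fun ω => ((tbx n l).comp fun p => π (ρ p)).lab ⟨z, ω⟩ := rfl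
      have f2 : (fun ω => ((A₀ z).lab ω, C (π (ρ₀ z ω)))) =
        fun ω => (A.lab ⟨z, ω⟩, C (π (ρ ⟨z, ω⟩))) := rfl
      have f3 : (fun ω => ((tbx n (fun ω => l (π ω))).comp (ρ₀ z)).szl lam ω -
        (A₀ z).szl lam ω) =
        fun ω => ((tbx n l).comp fun p => π (ρ p)).szl lam ⟨z, ω⟩ - A.szl lam ⟨z, ω⟩ := rfl
      rw [f1, f2, f3]
      ring
    rw [e4]
    unfold exVl
    rw [e3]
    linarith
  have hav : ∑ e ∈ img E, P'.pr E e *
        excR lam (P'.cond E e) n (fun ω => l (π ω)) (fun ω => C (π ω)) (kk e) (s + jj e) - 1 ≤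
      ∑ z : {z // z ∈ img E}, P'.pr E z.1 *
      exVl lam (Q z) ((tbx n (fun ω => l (π ω))).comp (ρ₀ z)) (A₀ z)
        (fun ω => C (π (ρ₀ z ω))) := by
    have e : ∑ e ∈ img E, P'.pr E e *
        excR lam (P'.cond E e) n (fun ω => l (π ω)) (fun ω => C (π ω)) (kk e) (s + jj e) - 1 =
        ∑ z : {z // z ∈ img E}, P'.pr E z.1 * (excR lam (P'.cond E z.1) n (fun ω => l (π ω))
          (fun ω => C (π ω)) (kk z.1) (s + jj z.1) - 1) := by
      simp only [mul_sub, mul_one, Finset.sum_sub_distrib]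
      rw [a1, Finset.sum_coe_sort (img E)
        (fun e => P'.pr E e *
        excR lam (P'.cond E e) n (fun ω => l (π ω)) (fun ω => C (π ω)) (kk e) (s + jj e))]
    rw [e]
    refine Finset.sum_le_sum fun z _ => ?_
    rcases (a0 z).eq_or_lt with h2 | h2
    · rw [← h2, zero_mul, zero_mul]
    · exact mul_le_mul_of_nonneg_left (g3 z h2) h2.le
  -- the entropy of the value
  have hEnt : Stk.hc P' E (fun ω => (tb n (l (π ω)), C (π ω))) =
      Stk.hc M (fun p => E (ρ p)) (fun p => (tb n (l (π (ρ p))), C (π (ρ p)))) :=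
    (Stk.hc_of_law M P' ρ hpr E (fun ω => (tb n (l (π ω)), C (π ω)))).symm
  set Δ₁ : (Σ z, Ω₂ z) → ℕ := fun p => A.k p - kk (E (ρ p)) with hΔ₁
  set Δ₂ : (Σ z, Ω₂ z) → ℕ := fun p => s + jj (E (ρ p)) - A.j p with hΔ₂
  have b1 : Stk.hc M (fun p => E (ρ p)) (fun p => (tb n (l (π (ρ p))), C (π (ρ p)))) ≤
      Stk.hc M A.shp (fun p => (tb n (l (π (ρ p))), C (π (ρ p)))) +
        Stk.hc M (fun p => E (ρ p)) A.shp := by
    have c1 := Stk.hc_le_add' M (fun p => E (ρ p)) A.shp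
      (fun p => (tb n (l (π (ρ p))), C (π (ρ p))))
    have c2 : Stk.hc M (fun p => E (ρ p)) (fun p => (A.shp p,
        (tb n (l (π (ρ p))), C (π (ρ p))))) ≤ Stk.hc M (fun p => E (ρ p)) A.shp :=
      Stk.hc_mono_right M _ fun p p' _ _ e => by
        simp only [Prod.mk.injEq] at e
        exact e.1
    linarith
  have b2 : Stk.hc M (fun p => E (ρ p)) A.shp ≤
      Stk.hc M (fun p => (kk (E (ρ p)), jj (E (ρ p)))) A.shp + Real.log K0 := by
    have c1 := Stk.hc_le_add' M (fun p => E (ρ p)) (fun p => (kk (E (ρ p)), jj (E (ρ p)))) A.shp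
    have c2 : Stk.hc M (fun p => E (ρ p)) (fun p => ((kk (E (ρ p)), jj (E (ρ p))), A.shp p)) ≤
        Real.log K0 := by
      refine Stk.hc_le_log M _ _ _ fun p hp => ?_
      obtain ⟨F, f1, f2⟩ := hK0 (kk (E (ρ p))) (jj (E (ρ p)))
      refine ⟨F, f1, fun p' hp' e => ?_⟩
      simp only [Prod.mk.injEq] at e
      have hp'' : 0 < P'.w (ρ p') := JSB.cond_supp P' E p'.1.1 (hρpos p' hp')
      exact f2 (ρ p') hp'' e.1.1 e.1.2
    linarith
  have b3 : Stk.hc M (fun p => (kk (E (ρ p)), jj (E (ρ p)))) A.shp ≤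
      Stk.hc M Δ₁ A.shp + Stk.hc M Δ₂ A.shp := by
    have c1 : Stk.hc M (fun p => (kk (E (ρ p)), jj (E (ρ p)))) A.shp ≤
        Stk.hc M (fun p => (Δ₁ p, Δ₂ p)) A.shp := by
      refine Stk.hc_mono_left M fun p p' hp hp' e => ?_
      simp only [Prod.mk.injEq, Bx.shp, hΔ₁, hΔ₂] at e ⊢
      have d1 := hcon p hp
      have d2 := hcon p' hp'
      obtain ⟨⟨e1, e2⟩, e3, e4⟩ := e
      constructor <;> omega
    exact c1.trans (Apx.hc_pair_le M Δ₁ Δ₂ A.shp)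
  have b4 := hc_nat_le M Δ₁ A.shp hK
  have b5 := hc_nat_le M Δ₂ A.shp hK
  have b6 : M.ex (fun p => (Δ₁ p : ℝ)) + M.ex (fun p => (Δ₂ p : ℝ)) =
      P'.ex (fun ω => (jj (E ω) : ℝ) - kk (E ω)) + s - M.ex (fun p => (A.j p : ℝ) - A.k p) := by
    have c1 : P'.ex (fun ω => (jj (E ω) : ℝ) - kk (E ω)) =
        M.ex (fun p => (jj (E (ρ p)) : ℝ) - kk (E (ρ p))) :=
      (Stk.ex_law_aux M P' ρ hpr (fun ω => (jj (E ω) : ℝ) - kk (E ω))).symm
    have c2 : (s : ℝ) = M.ex (fun _ => (s : ℝ)) := (M.ex_const _).symm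
    rw [c1, c2, ← M.ex_add, ← M.ex_add, ← M.ex_sub]
    refine M.ex_congr fun p hp => ?_
    obtain ⟨d1, d2⟩ := hcon p hp
    simp only [hΔ₁, hΔ₂]
    rw [Nat.cast_sub d1, Nat.cast_sub d2]
    push_cast
    ring
  have b7 := exVl_lam M ((tbx n l).comp fun p => π (ρ p)) A (fun p => C (π (ρ p))) lam κ
  have b8 : M.ex (fun p => ((A.j p : ℝ) - A.k p) -
      ((((tbx n l).comp fun p => π (ρ p)).j p : ℝ) - ((tbx n l).comp fun p => π (ρ p)).k p)) =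
      M.ex (fun p => (A.j p : ℝ) - A.k p) := by
    refine M.ex_congr fun p _ => ?_
    show ((A.j p : ℝ) - A.k p) - ((n : ℝ) - n) = _
    ring
  rw [b8] at b7
  have hlog : 0 < Real.log 2 := Real.log_pos (by norm_num)
  have hK' : 0 < K := by linarith
  set S := M.ex (fun p => (Δ₁ p : ℝ)) + M.ex (fun p => (Δ₂ p : ℝ)) with hS
  have hS0 : 0 ≤ S := add_nonneg (M.ex_nonneg fun _ _ => Nat.cast_nonneg _)
    (M.ex_nonneg fun _ _ => Nat.cast_nonneg _)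
  have b9 : N * (2 * M.ex (fun p => (Δ₁ p : ℝ)) / K + 2 * M.ex (fun p => (Δ₂ p : ℝ)) / K) ≤
      κ * Real.log 2 * S := by
    have e : N * (2 * M.ex (fun p => (Δ₁ p : ℝ)) / K + 2 * M.ex (fun p => (Δ₂ p : ℝ)) / K) =
        (2 * N) * S / K := by
      rw [hS]
      ring
    rw [e, div_le_iff₀ hK']
    calc 2 * N * S ≤ (κ * Real.log 2 * K) * S := mul_le_mul_of_nonneg_right hK2 hS0
      _ = _ := by ring
  have hlabeq : Stk.hc M (fun p => (A.k p, A.j p))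
      (fun p => (tb n (l (π (ρ p))), C (π (ρ p)))) =
      Stk.hc M A.shp (fun p => (tb n (l (π (ρ p))), C (π (ρ p)))) := rfl
  rw [hlabeq] at hle
  rw [hEnt]
  have hNb : N * Stk.hc M (fun p => E (ρ p)) (fun p => (tb n (l (π (ρ p))), C (π (ρ p)))) ≤
      N * (Stk.hc M A.shp (fun p => (tb n (l (π (ρ p))), C (π (ρ p)))) +
        (2 * M.ex (fun p => (Δ₁ p : ℝ)) / K + 2 * M.ex (fun p => (Δ₂ p : ℝ)) / K +
          (2 * Real.log K + 2 * Real.log 4 + Real.log K0))) :=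
    mul_le_mul_of_nonneg_left (by linarith) hN
  rw [b6] at b9
  nlinarith [hNb, hle, hge, hav, b7, b9]

end Lam

end Vale.Agent.P127.U
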