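import Vale.Agent.P127.U.Lam.HUp
import Vale.Agent.P127.U.Lam.HLift
import Vale.Agent.P127.U.Lam.Basic

/-!
# P127 / U / Lam : the window inequality with the softness of the shape (helper864, after helper102)

* `Win.jfk_of_jfg` : `JFG` implies `JFK` for every `K`.
* `Win.winV` : value form, for every label of the level `s` on an extension.
* `Win.winH` : `XFH s ≤ excH + (β + ε) s log 2 + N DF + O(1)`; `Win.winH'` for windows `s ≤ s'`.
* `Win.upV` : extension to the level `0`, value form with the refund of the shape.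
-/

set_option autoImplicit false

namespace Vale.Agent.P127.U.Win

open Finset Filter Topology Vale.Agent.P127 Vale.Agent.P127.Stk Vale.Agent.P127.U Sys HX

variable {lam N : ℝ}

theorem jfk_of_jfg {β : ℝ} (h : JFG N lam β) {K : ℝ} (hK : 1 ≤ K) : JFK N lam K β := by
  intro ε hε
  obtain ⟨c, hc⟩ := h (ε / 2) (by positivity)
  have hlog : 0 < Real.log 2 := Real.log_pos (by norm_num)
  -- the logarithm is absorbed
  obtain ⟨c', hc'⟩ : ∃ c' : ℝ, ∀ n : ℕ, |c| * (1 + Real.log (n + 1)) ≤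
      ε / 2 / K * n * Real.log 2 + c' := by
    have h2 : Tendsto (fun n : ℕ => Real.log ((n : ℝ) + 1) / ((n : ℝ) + 1)) atTop (𝓝 0) := by
      have h3 : Tendsto (fun x : ℝ => Real.log x / x) atTop (𝓝 0) := by
        have := Real.isLittleO_log_id_atTop.tendsto_div_nhds_zero
        simpa using this
      exact h3.comp (tendsto_atTop_add_const_right _ _ tendsto_natCast_atTop_atTop)
    have h4 : 0 < ε / 2 / K * Real.log 2 / (|c| + 1) := by positivity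
    obtain ⟨n₀, hn₀⟩ := Filter.eventually_atTop.1 (h2.eventually_lt_const h4)
    refine ⟨|c| * (1 + Real.log (n₀ + 1)) + |c| + ε / 2 / K * Real.log 2, fun n => ?_⟩
    have hc0 : 0 ≤ |c| := abs_nonneg c
    have hln : 0 ≤ Real.log ((n : ℝ) + 1) :=
      Real.log_nonneg (by linarith [Nat.cast_nonneg (α := ℝ) n])
    have hln0 : 0 ≤ Real.log ((n₀ : ℝ) + 1) :=
      Real.log_nonneg (by linarith [Nat.cast_nonneg (α := ℝ) n₀])
    have h6 : 0 ≤ ε / 2 / K * n * Real.log 2 := by positivity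
    have h7 : 0 ≤ ε / 2 / K * Real.log 2 := by positivity
    by_cases hn : n₀ ≤ n
    · have h8 := hn₀ n hn
      have hn1 : (0 : ℝ) < (n : ℝ) + 1 := by positivity
      rw [div_lt_iff₀ hn1, div_mul_eq_mul_div, lt_div_iff₀ (by positivity)] at h8
      have h9 : |c| * Real.log ((n : ℝ) + 1) ≤ ε / 2 / K * Real.log 2 * ((n : ℝ) + 1) := by
        nlinarith
      nlinarith [mul_nonneg hc0 hln0]
    · have h8 : Real.log ((n : ℝ) + 1) ≤ Real.log ((n₀ : ℝ) + 1) := by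
        refine Real.log_le_log (by positivity) ?_
        have : (n : ℝ) ≤ n₀ := by exact_mod_cast (not_le.1 hn).le
        linarith
      have h9 := mul_le_mul_of_nonneg_left h8 hc0
      nlinarith
  refine ⟨c', fun Ω _ P l t s n hg hsn hn => ?_⟩
  have h1 := hc Ω P l t s n hg hsn
  have h2 := hc' n
  have h3 : c * (1 + Real.log ((n : ℝ) + 1)) ≤ |c| * (1 + Real.log (n + 1)) := by
    refine mul_le_mul_of_nonneg_right (le_abs_self c) ?_
    have : 0 ≤ Real.log ((n : ℝ) + 1) :=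
      Real.log_nonneg (by linarith [Nat.cast_nonneg (α := ℝ) n])
    linarith
  have h4 : ε / 2 / K * n * Real.log 2 ≤ ε / 2 * s * Real.log 2 := by
    refine mul_le_mul_of_nonneg_right ?_ hlog.le
    rw [div_mul_eq_mul_div, div_le_iff₀ (by linarith)]
    calc ε / 2 * n ≤ ε / 2 * (K * s) := mul_le_mul_of_nonneg_left hn (by positivity)
      _ = _ := by ring
  have e : (β + ε) * s * Real.log 2 = (β + ε / 2) * s * Real.log 2 + ε / 2 * s * Real.log 2 := by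
    ring
  rw [e]
  linarith

/-- change of the price of the flatness in the value of a label -/
theorem valX_lam {Ω : Type} [Fintype Ω] {γ : Type*} (lam κ : ℝ) (P : Law Ω) (s n : ℕ)
    (l : Ω → Ln) (t : Ω → ℝ) (W : Bx Ω) (C : Ω → γ) :
    Lam.valX (lam + κ) P s n l t W C = Lam.valX lam P s n l t W C -
      κ * Real.log 2 * P.ex (fun ω => (W.j ω : ℝ) - W.k ω) := by
  unfold Lam.valX
  have h : P.ex (W.szl (lam + κ)) = P.ex (W.szl lam) -
      κ * P.ex (fun ω => (W.j ω : ℝ) - W.k ω) := by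
    rw [← P.ex_const_mul, ← P.ex_sub]
    refine P.ex_congr fun ω _ => ?_
    unfold Bx.szl
    ring
  rw [h]
  ring

/-- **window inequality, value form** -/
theorem winV (hF : PFix) {lam κ : ℝ} (hl : 0 < lam) (hκ : 0 < κ) (h1 : lam + κ ≤ 1) :
    ∃ K : ℝ, 1 ≤ K ∧ ∀ N β : ℝ, 0 ≤ N → 0 ≤ β → JFK N lam K β → ∀ Np ε : ℝ, 0 ≤ Np → 0 < ε →
    ∃ c : ℝ, ∀ (Ω : Type) [Fintype Ω] (γ : Type) (P : Law Ω) (l : Ω → Ln) (t : Ω → ℝ) (s n : ℕ)
      (C : Ω → γ), GoodF P l t → ∀ (Ω' : Type) [Fintype Ω'] (P' : Law Ω') (π : Ω' → Ω)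
      (W : Bx Ω'), (∀ ω, P'.pr π ω = P.w ω) →
      (∀ ω, 0 < P'.w ω → W.l ω = blF s l t (π ω) ∧ |W.θ ω| ≤ 4 ∧ W.k ω ≤ W.j ω ∧
        s + W.j ω ≤ n) →
      Lam.valX (lam + κ) P' s n (fun ω => l (π ω)) (fun ω => t (π ω)) W (fun ω => C (π ω)) +
        Np * Stk.hc P' W.shp (fun ω => (fl1 s (t (π ω)), (tb n (l (π ω)), C (π ω)))) ≤
      excH (lam + κ) Np P n l C + (β + ε + κ) * s * Real.log 2 + N * DF P s n l t C -
        (Np - N) * (Stk.hc P' W.shp (fun ω => (tb n (l (π ω)), C (π ω))) -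
          Stk.hc P' W.shp (fun ω => (fl1 s (t (π ω)), (tb n (l (π ω)), C (π ω))))) + c := by
  obtain ⟨K, hK1, hK⟩ := hF lam hl (by linarith)
  refine ⟨K, hK1, fun N β hN hβ hJ Np ε hNp hε => ?_⟩
  obtain ⟨c₀, hc₀⟩ := hK N β hN hβ hJ ε hε
  have hlog : 0 < Real.log 2 := Real.log_pos (by norm_num)
  -- the constant of the lift
  obtain ⟨K₂, hK₂, hK₃⟩ : ∃ K₂ : ℝ, 1 ≤ K₂ ∧ 2 * Np ≤ κ * Real.log 2 * K₂ := by
    refine ⟨max 1 (2 * Np / (κ * Real.log 2)), le_max_left _ _, ?_⟩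
    have h2 : 2 * Np / (κ * Real.log 2) ≤ max 1 (2 * Np / (κ * Real.log 2)) := le_max_right _ _
    rw [div_le_iff₀ (by positivity)] at h2
    linarith
  refine ⟨c₀ + (Np * (2 * Real.log K₂ + 2 * Real.log 4 + Real.log ((1 : ℕ) : ℝ)) + 1),
    fun Ω _ γ P l t s n C hg Ω' _ P' π W hπ hW => ?_⟩
  classical
  have hg' : GoodF P' (fun ω => l (π ω)) (fun ω => t (π ω)) := by
    intro ω hω
    refine hg (π ω) ?_
    rw [← hπ]
    exact P'.pr_pos π hω
  set X : Ω' → _ := fun ω => tb n (l (π ω)) with hX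
  set D : Ω' → _ := fun ω => C (π ω) with hD
  set T : Ω' → ℤ := fun ω => fl1 s (t (π ω)) with hT
  set Y : Ω' → _ := fun ω => (W.lab ω, (pq s (ptF l t (π ω)), C (π ω))) with hY
  -- the lift
  have hlift := Lam.lift (lam := lam) hl.le hκ h1 hNp hK₂ hK₃ (P := P) (n := n) (l := l) (C := C)
    P' π hπ W.shp (fun e => e.1) (fun e => e.2) s 1 (fun ω hω => (hW ω hω).2.2)
    (fun k j => ⟨{(k, j)}, by simp, fun ω _ e1 e2 => by
      rw [Finset.mem_singleton]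
      exact Prod.ext e1 e2⟩)
  -- fixed shapes
  have hfix : ∀ e : ℕ × ℕ, e ∈ img W.shp →
      P'.pr W.shp e * (Stk.hc (P'.cond W.shp e) X Y -
        Real.log 2 * (2 * ((n : ℝ) - s) - ((1 + lam) * e.1 + (1 - lam) * e.2))) ≤
      P'.pr W.shp e * ((β + ε) * s * Real.log 2 + c₀ +
        excR lam (P'.cond W.shp e) n (fun ω => l (π ω)) D e.1 (s + e.2) +
        N * (s * Real.log 2 - Stk.hc (P'.cond W.shp e) T (fun ω => (X ω, D ω)))) := by
    intro e _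
    rcases (P'.pr_nonneg W.shp e).eq_or_lt with h2 | h2
    · rw [← h2, zero_mul, zero_mul]
    · refine mul_le_mul_of_nonneg_left ?_ h2.le
      have hsh : ∀ ω, 0 < (P'.cond W.shp e).w ω → W.k ω = e.1 ∧ W.j ω = e.2 := by
        intro ω hω
        have h3 := JSB.cond_supp' P' W.shp e h2 hω
        exact ⟨congrArg Prod.fst h3, congrArg Prod.snd h3⟩
      obtain ⟨ω₀, hω₀⟩ : ∃ ω, 0 < (P'.cond W.shp e).w ω := by
        by_contra hcon
        push Not at hcon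
        have h3 := (P'.cond W.shp e).sum_one
        have h4 : ∑ ω, (P'.cond W.shp e).w ω ≤ 0 := Finset.sum_nonpos fun ω _ => hcon ω
        linarith
      have h5 := hsh ω₀ hω₀
      have h6 := hW ω₀ (JSB.cond_supp P' W.shp e hω₀)
      rw [h5.1, h5.2] at h6
      exact hc₀ Ω' γ (P'.cond W.shp e) (fun ω => l (π ω)) (fun ω => t (π ω)) s n e.1 e.2 W D
        (fun ω hω => hg' ω (JSB.cond_supp P' W.shp e hω)) h6.2.2.1 h6.2.2.2
        (fun ω hω => ⟨(hW ω (JSB.cond_supp P' W.shp e hω)).1,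
          (hW ω (JSB.cond_supp P' W.shp e hω)).2.1, hsh ω hω⟩)
  have hsum := Finset.sum_le_sum hfix
  -- averages
  have a1 : ∑ e ∈ img W.shp, P'.pr W.shp e = 1 := P'.sum_pr_image W.shp
  have a2 : Stk.hc P' X Y = ∑ e ∈ img W.shp, P'.pr W.shp e * Stk.hc (P'.cond W.shp e) X Y := by
    rw [← JSB.hc_cond_sum P' X Y W.shp]
    refine Stk.hc_congr P' (fun _ _ _ _ e => congrArg Prod.fst e)
      (fun _ _ _ _ e => congrArg Prod.fst e) (fun _ _ _ _ e => congrArg Prod.fst e) ?_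
    intro ω ω' _ _ e
    have e1 : W.lab ω = W.lab ω' := congrArg Prod.fst e
    have e2 : W.k ω = W.k ω' := congrArg (fun q => q.1) e1
    have e3 : W.j ω = W.j ω' := congrArg (fun q => q.2.1) e1
    exact Prod.ext e (Prod.ext e2 e3)
  have a3 : Stk.hc P' T (fun ω => (W.shp ω, (X ω, D ω))) =
      ∑ e ∈ img W.shp, P'.pr W.shp e * Stk.hc (P'.cond W.shp e) T (fun ω => (X ω, D ω)) := by
    rw [← JSB.hc_cond_sum P' T (fun ω => (X ω, D ω)) W.shp]
    exact Stk.hc_congr P' (fun _ _ _ _ e => congrArg Prod.fst e)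
      (fun _ _ _ _ e => congrArg Prod.fst e) (fun _ _ _ _ e => by
        simp only [Prod.mk.injEq] at e ⊢
        exact ⟨e.2, e.1⟩) (fun _ _ _ _ e => by
        simp only [Prod.mk.injEq] at e ⊢
        exact ⟨e.2, e.1⟩)
  have a4 : P'.ex (W.szl lam) =
      ∑ e ∈ img W.shp, P'.pr W.shp e * ((1 + lam) * e.1 + (1 - lam) * e.2) :=
    P'.ex_comp W.shp (fun e => (1 + lam) * (e.1 : ℝ) + (1 - lam) * e.2)
  -- left side
  have b1 : ∑ e ∈ img W.shp, P'.pr W.shp e * (Stk.hc (P'.cond W.shp e) X Y -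
        Real.log 2 * (2 * ((n : ℝ) - s) - ((1 + lam) * e.1 + (1 - lam) * e.2))) =
      Lam.valX lam P' s n (fun ω => l (π ω)) (fun ω => t (π ω)) W D := by
    have e1 : ∀ e : ℕ × ℕ, P'.pr W.shp e * (Stk.hc (P'.cond W.shp e) X Y -
        Real.log 2 * (2 * ((n : ℝ) - s) - ((1 + lam) * e.1 + (1 - lam) * e.2))) =
        P'.pr W.shp e * Stk.hc (P'.cond W.shp e) X Y -
          (Real.log 2 * (2 * ((n : ℝ) - s))) * P'.pr W.shp e +
          Real.log 2 * (P'.pr W.shp e * ((1 + lam) * e.1 + (1 - lam) * e.2)) := fun e => by ring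
    rw [Finset.sum_congr rfl fun e _ => e1 e, Finset.sum_add_distrib, Finset.sum_sub_distrib,
      ← Finset.mul_sum, ← Finset.mul_sum, a1, ← a2, ← a4]
    unfold Lam.valX
    show _ = Stk.hc P' X Y - Real.log 2 * (2 * ((n : ℝ) - s) - P'.ex (W.szl lam))
    ring
  have b2 : ∑ e ∈ img W.shp, P'.pr W.shp e * ((β + ε) * s * Real.log 2 + c₀ +
        excR lam (P'.cond W.shp e) n (fun ω => l (π ω)) D e.1 (s + e.2) +
        N * (s * Real.log 2 - Stk.hc (P'.cond W.shp e) T (fun ω => (X ω, D ω)))) =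
      (β + ε) * s * Real.log 2 + c₀ + (∑ e ∈ img W.shp, P'.pr W.shp e *
        excR lam (P'.cond W.shp e) n (fun ω => l (π ω)) D e.1 (s + e.2)) +
        N * (s * Real.log 2 - Stk.hc P' T (fun ω => (W.shp ω, (X ω, D ω)))) := by
    have e1 : ∀ e : ℕ × ℕ, P'.pr W.shp e * ((β + ε) * s * Real.log 2 + c₀ +
        excR lam (P'.cond W.shp e) n (fun ω => l (π ω)) D e.1 (s + e.2) +
        N * (s * Real.log 2 - Stk.hc (P'.cond W.shp e) T (fun ω => (X ω, D ω)))) =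
        ((β + ε) * s * Real.log 2 + c₀ + N * (s * Real.log 2)) * P'.pr W.shp e +
        P'.pr W.shp e * excR lam (P'.cond W.shp e) n (fun ω => l (π ω)) D e.1 (s + e.2) -
        N * (P'.pr W.shp e * Stk.hc (P'.cond W.shp e) T (fun ω => (X ω, D ω))) := fun e => by ring
    rw [Finset.sum_congr rfl fun e _ => e1 e, Finset.sum_sub_distrib, Finset.sum_add_distrib,
      ← Finset.mul_sum, ← Finset.mul_sum, a1, ← a3]
    ring
  rw [b1, b2] at hsum
  -- the entropies of the time and of the shape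
  have c1 := Stk.hc_pair P' T W.shp (fun ω => (X ω, D ω))
  have c2 := Stk.hc_pair P' W.shp T (fun ω => (X ω, D ω))
  have c3 : Stk.hc P' (fun ω => (T ω, W.shp ω)) (fun ω => (X ω, D ω)) =
      Stk.hc P' (fun ω => (W.shp ω, T ω)) (fun ω => (X ω, D ω)) :=
    Stk.hc_congr P' (fun _ _ _ _ e => by
      simp only [Prod.mk.injEq] at e ⊢
      exact ⟨e.1.2, e.1.1⟩) (fun _ _ _ _ e => by
      simp only [Prod.mk.injEq] at e ⊢
      exact ⟨e.1.2, e.1.1⟩) (fun _ _ _ _ e => e) (fun _ _ _ _ e => e)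
  have c4 : DF P s n l t C = s * Real.log 2 - Stk.hc P' T (fun ω => (X ω, D ω)) := by
    unfold DF
    rw [← Stk.hc_of_law P' P π hπ (fun ω => fl1 s (t ω)) (fun ω => (tb n (l ω), C ω))]
    rfl
  have c5 : P'.ex (fun ω => ((W.shp ω).2 : ℝ) - (W.shp ω).1) =
      P'.ex (fun ω => (W.j ω : ℝ) - W.k ω) := rfl
  rw [c5] at hlift
  rw [valX_lam, c4]
  have c6 : Stk.hc P' T (fun ω => (W.shp ω, (X ω, D ω))) =
      Stk.hc P' T (fun ω => (X ω, D ω)) + Stk.hc P' W.shp (fun ω => (T ω, (X ω, D ω))) -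
        Stk.hc P' W.shp (fun ω => (X ω, D ω)) := by linarith
  rw [c6] at hsum
  nlinarith [hsum, hlift]

/-- `XFH` is at most the value of a soft label (form with `valX`) -/
theorem XFH_softV (hN : 0 ≤ N) {Ω : Type} [Fintype Ω] {γ : Type} {P : Law Ω} {s n : ℕ}
    (h : s ≤ n) {l : Ω → Ln} {t : Ω → ℝ} (hg : GoodF P l t) (C : Ω → γ) :
    ∃ (Ω' : Type) (_ : Fintype Ω') (P' : Law Ω') (π : Ω' → Ω) (W : Bx Ω'),
      (∀ ω, P'.pr π ω = P.w ω) ∧
      (∀ ω, 0 < P'.w ω → Sub 2 ((tbx (n - s) (blF s l t)).comp π) W ω) ∧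
      (∀ ω, 0 < P'.w ω → W.l ω = blF s l t (π ω) ∧ |W.θ ω| ≤ 4 ∧ W.k ω ≤ W.j ω ∧
        s + W.j ω ≤ n) ∧
      XFH lam N P s n l t C ≤
        Lam.valX lam P' s n (fun ω => l (π ω)) (fun ω => t (π ω)) W (fun ω => C (π ω)) +
        N * Stk.hc P' W.shp (fun ω => (fl1 s (t (π ω)), (tb n (l (π ω)), C (π ω)))) + cS := by
  obtain ⟨Ω', iF, P', π, W, h1, h2, h3⟩ := XFH_soft (lam := lam) hN h hg C
  refine ⟨Ω', iF, P', π, W, h1, h2, fun ω hω => ?_, ?_⟩
  · obtain ⟨b1, b2, b3, b4, b5, -⟩ := h2 ω hω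
    have b5' : W.j ω ≤ n - s := b5
    exact ⟨b1, b2, b3, by omega⟩
  · refine h3.trans (le_of_eq ?_)
    unfold Lam.valX
    rw [P'.ex_sub, P'.ex_const]
    rfl

/-- **WINH** -/
theorem winH (hF : PFix) {lam κ : ℝ} (hl : 0 < lam) (hκ : 0 < κ) (h1 : lam + κ ≤ 1)
    {N β : ℝ} (hN : 0 ≤ N) (hβ : 0 ≤ β) (hJ : JFG N lam β) {Np ε : ℝ} (hNp : N ≤ Np)
    (hε : 0 < ε) :
    ∃ c : ℝ, ∀ (Ω : Type) [Fintype Ω] (γ : Type) (P : Law Ω) (l : Ω → Ln) (t : Ω → ℝ) (s n : ℕ)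
      (C : Ω → γ), GoodF P l t → s ≤ n →
      XFH (lam + κ) Np P s n l t C ≤ excH (lam + κ) Np P n l C +
        (β + ε + κ) * s * Real.log 2 + N * DF P s n l t C + c := by
  obtain ⟨K, hK, hK2⟩ := winV hF hl hκ h1
  obtain ⟨c, hc⟩ := hK2 N β hN hβ (jfk_of_jfg hJ hK) Np ε (hN.trans hNp) hε
  refine ⟨c + cS, fun Ω _ γ P l t s n C hg hsn => ?_⟩
  obtain ⟨Ω', iF, P', π, W, a1, -, a2, a3⟩ := XFH_softV (lam := lam + κ) (hN.trans hNp) hsn hg C
  have a4 := hc Ω γ P l t s n C hg Ω' P' π W a1 a2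
  have a5 : Stk.hc P' W.shp (fun ω => (fl1 s (t (π ω)), (tb n (l (π ω)), C (π ω)))) ≤
      Stk.hc P' W.shp (fun ω => (tb n (l (π ω)), C (π ω))) :=
    Stk.hc_mono_right P' _ fun _ _ _ _ e => congrArg Prod.snd e
  have a6 : 0 ≤ (Np - N) * (Stk.hc P' W.shp (fun ω => (tb n (l (π ω)), C (π ω))) -
      Stk.hc P' W.shp (fun ω => (fl1 s (t (π ω)), (tb n (l (π ω)), C (π ω))))) :=
    mul_nonneg (by linarith) (by linarith)
  linarith

/-- **WINH** for windows `s ≤ s'` -/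
theorem winH' (hF : PFix) {lam κ : ℝ} (hl : 0 < lam) (hκ : 0 < κ) (h1 : lam + κ ≤ 1)
    {N β : ℝ} (hN : 0 ≤ N) (hβ : 0 ≤ β) (hJ : JFG N lam β) {Np ε : ℝ} (hNp : N ≤ Np)
    (hε : 0 < ε) :
    ∃ c : ℝ, ∀ (Ω : Type) [Fintype Ω] (γ : Type) (P : Law Ω) (l : Ω → Ln) (t : Ω → ℝ)
      (s s' n : ℕ) (C : Ω → γ), GoodF P l t → s ≤ s' → s' ≤ n →
      XFH (lam + κ) Np P s' n l t C ≤ XFH (lam + κ) Np P s n l t C +
        (β + ε + κ) * ((s' : ℝ) - s) * Real.log 2 +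
        N * (DF P s' n l t C - DF P s n l t C) + c := by
  obtain ⟨c, hc⟩ := winH hF hl hκ h1 hN hβ hJ hNp hε
  have hl2 : 0 ≤ lam + κ ∧ lam + κ ≤ 1 := ⟨by linarith, h1⟩
  refine ⟨c + (14 + 8 * Np) * Real.log 13 + N * (6 * Real.log 13),
    fun Ω _ γ P l t s s' n C hg h h' => ?_⟩
  have k1 := XFH_ball hl2 (hN.trans hNp) P h h' hg C
  have k2 := DF_ball P h h' hg C
  have k3 := hc Ω _ P (blF s l t) (tfF s t) (s' - s) (n - s)
    (fun ω => (pq s (ptF l t ω), C ω)) (hg.blF s) (Nat.sub_le_sub_right h' s)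
  rw [Nat.cast_sub h] at k3
  have k4 := mul_le_mul_of_nonneg_left k2 hN
  linarith

/-- **extension, value form**, with the refund of the shape -/
theorem upV (hl : 0 ≤ lam ∧ lam ≤ 1) (hN : 0 ≤ N) {Ω : Type} [Fintype Ω] {γ : Type*}
    {P : Law Ω} {s n : ℕ} {l : Ω → Ln} {t : Ω → ℝ} (hg : GoodF P l t) (C : Ω → γ)
    {Ω' : Type} [Fintype Ω'] {P' : Law Ω'} {π : Ω' → Ω} {W : Bx Ω'}
    (hπ : ∀ ω, P'.pr π ω = P.w ω)
    (hW : ∀ ω, 0 < P'.w ω → W.l ω = blF s l t (π ω) ∧ |W.θ ω| ≤ 4 ∧ W.k ω ≤ W.j ω ∧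
      s + W.j ω ≤ n) :
    Lam.valX lam P' s n (fun ω => l (π ω)) (fun ω => t (π ω)) W (fun ω => C (π ω)) +
        N * Stk.hc P' W.shp (fun ω => (fl1 s (t (π ω)), (tb n (l (π ω)), C (π ω)))) ≤
      excH lam N P n l C + 2 * s * Real.log 2 -
        N * (Stk.hc P' W.shp (fun ω => (tb n (l (π ω)), C (π ω))) -
          Stk.hc P' W.shp (fun ω => (fl1 s (t (π ω)), (tb n (l (π ω)), C (π ω))))) +
        (2 * Real.log 9 + 5 * Real.log 7) := by
  have hg' : GoodF P' (fun ω => l (π ω)) (fun ω => t (π ω)) := by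
    intro ω hω
    refine hg (π ω) ?_
    rw [← hπ]
    exact P'.pr_pos π hω
  set V : Bx Ω' := ⟨fun ω => l (π ω), W.θ, W.k, W.j⟩ with hV
  have a1 : ∀ ω, 0 < P'.w ω → Sub 1 ((tbx n l).comp π) V ω := by
    intro ω hω
    obtain ⟨-, b2, b3, b4⟩ := hW ω hω
    have b5 : W.j ω ≤ n := by omega
    refine ⟨rfl, b2, b3, b3.trans b5, b5, ?_⟩
    have c1 := Real.abs_sin_le_one ((0 : ℝ) - W.θ ω)
    have c2 : (1 / 2 : ℝ) ^ n ≤ (1 / 2 : ℝ) ^ W.j ω :=
      pow_le_pow_of_le_one (by norm_num) (by norm_num) b5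
    have c3 : (0 : ℝ) < (1 / 2 : ℝ) ^ n := by positivity
    show |Real.sin ((0 : ℝ) - W.θ ω)| * (1 / 2 : ℝ) ^ n ≤ 1 * (1 / 2 : ℝ) ^ W.j ω
    calc _ ≤ 1 * (1 / 2 : ℝ) ^ n := mul_le_mul_of_nonneg_right c1 c3.le
      _ ≤ _ := mul_le_mul_of_nonneg_left c2 zero_le_one
  have a2 := le_excH hl hN (C := C) hπ a1
  have a3 : Stk.hc P' (fun ω => tb n (l (π ω)))
      (fun ω => (W.lab ω, (pq s (ptF l t (π ω)), C (π ω)))) ≤
      Stk.hc P' (fun ω => tb n (l (π ω))) (fun ω => (V.lab ω, C (π ω))) +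
        (2 * Real.log 9 + 5 * Real.log 7) :=
    ext_value (P := P') (s := s) (n := n) hg' (fun ω => C (π ω)) (W := W) (V := V)
      (fun ω hω => (hW ω hω).1) rfl
  have a4 : exVl lam P' ((tbx n l).comp π) V (fun ω => C (π ω)) =
      Stk.hc P' (fun ω => tb n (l (π ω))) (fun ω => (V.lab ω, C (π ω))) -
        Real.log 2 * (2 * (n : ℝ) - P'.ex (W.szl lam)) := by
    have b1 : Stk.hc P' ((tbx n l).comp π).lab (fun ω => (V.lab ω, C (π ω))) =
        Stk.hc P' (fun ω => tb n (l (π ω))) (fun ω => (V.lab ω, C (π ω))) :=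
      hc_tbx P' n (fun ω => l (π ω)) _
    have b2 : (P'.ex fun ω => ((tbx n l).comp π).szl lam ω - V.szl lam ω) =
        2 * (n : ℝ) - P'.ex (W.szl lam) := by
      rw [← P'.ex_const (2 * (n : ℝ)), ← P'.ex_sub]
      refine P'.ex_congr fun ω _ => ?_
      show (1 + lam) * (n : ℝ) + (1 - lam) * (n : ℝ) - W.szl lam ω = _
      ring
    unfold exVl
    rw [b1, b2]
  have a6 : Stk.hc P' (fun ω => (V.k ω, V.j ω)) (fun ω => (tb n (l (π ω)), C (π ω))) =
      Stk.hc P' W.shp (fun ω => (tb n (l (π ω)), C (π ω))) := rfl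
  rw [a4, a6] at a2
  unfold Lam.valX
  have a7 : Stk.hc P' (fun ω => tb n (l (π ω)))
      (fun ω => (W.lab ω, (pq s (ptF (fun ω => l (π ω)) (fun ω => t (π ω)) ω), C (π ω)))) =
      Stk.hc P' (fun ω => tb n (l (π ω)))
        (fun ω => (W.lab ω, (pq s (ptF l t (π ω)), C (π ω)))) := rfl
  rw [a7]
  nlinarith [a2, a3]

end Vale.Agent.P127.U.Win
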