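import Vale.Agent.P127.U.Lam.PathH
import Vale.Agent.P127.U.Lam.HWin
import Vale.Agent.P127.U.Lam.IncDefs

/-!
# P127 / U / Lam : INC, the fields `start`, `fin`, `win` (helper379)

* `goodS` : the state line is normalised.
* `hc_cell` : given the line, the cell of the state `(a, r)` is the state `(t_a, v_r)`.
* `comp` : one window of `EFH` from one window at the origin.
* `fin` : the end label.
-/

set_option autoImplicit false

namespace Vale.Agent.P127.U.Inc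

open Vale.Agent.P127 Vale.Agent.P127.Stk Vale.Agent.P127.U Pf

variable {Ω : Type} [Fintype Ω] {γ : Type*}

/-- the line is known from its tube -/
def Rnd (Q : Law Ω) (l : Ω → Ln) (n : ℕ) : Prop :=
  ∀ ω ω', 0 < Q.w ω → 0 < Q.w ω' → tb n (l ω) = tb n (l ω') → l ω = l ω'

omit [Fintype Ω] in
theorem tfF_abs (r : ℕ) (v : Ω → ℝ) (ω : Ω) : |tfF r v ω| ≤ 1 := by
  show |Int.fract _| ≤ 1
  rw [abs_of_nonneg (Int.fract_nonneg _)]
  exact (Int.fract_lt_one _).le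

/-- the state line is normalised -/
theorem goodS (Q : Law Ω) (a r : ℕ) (l : Ω → Ln) (t v : Ω → ℝ) :
    GoodF Q (lnS a r l t v) (tfF a t) := fun ω _ =>
  ⟨st1_ok a r (l ω) (t ω) (v ω), Int.fract_nonneg _, (Int.fract_lt_one _).le⟩

/-- given the line, the cell is the state -/
theorem hc_cell {α : Type*} {Q : Law Ω} {l : Ω → Ln} {n : ℕ} (hr : Rnd Q l n) (X : Ω → α)
    (t v : Ω → ℝ) (a r : ℕ) :
    Stk.hc Q X (fun ω => (tb n (l ω), (cell a r l t v ω, ()))) =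
      Stk.hc Q X (fun ω => (tb n (l ω), st t v a r ω)) := by
  refine Stk.hc_congr Q (fun _ _ _ _ e => congrArg Prod.fst e) (fun _ _ _ _ e => congrArg Prod.fst e)
    ?_ ?_
  · intro ω ω' h h' e
    have e1 : tb n (l ω) = tb n (l ω') := congrArg Prod.fst e
    have e3 : fl1 a (t ω) = fl1 a (t ω') := congrArg (fun q => q.2.1) e
    have e4 : fl1 r (v ω) = fl1 r (v ω') := congrArg (fun q => q.2.2) e
    have q1 : qa a (t ω) = qa a (t ω') := by unfold qa; rw [e3]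
    have q2 : ∀ x, shv r (v ω) x = shv r (v ω') x := by
      intro x
      unfold shv qa
      rw [e4]
    have e5 : cell1 a r (l ω) (t ω) (v ω) = cell1 a r (l ω') (t ω') (v ω') := by
      unfold cell1
      rw [hr ω ω' h h' e1, e3, e4, q1, q2, q2]
    exact Prod.ext e1 (Prod.ext e5 rfl)
  · intro ω ω' _ _ e
    have e1 : tb n (l ω) = tb n (l ω') := congrArg Prod.fst e
    have e2 : cell a r l t v ω = cell a r l t v ω' := congrArg (fun q => q.2.1) e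
    have e3 : fl1 a (t ω) = fl1 a (t ω') := congrArg Prod.fst e2
    have e4 : fl1 r (v ω) = fl1 r (v ω') := congrArg (fun q => q.2.1) e2
    exact Prod.ext e1 (Prod.ext e3 e4)

/-- **one window** from a window at the origin with the rate `R` and the price `N₀` of the deficit -/
theorem comp_win {lam Λ N₀ c R : ℝ} (hlam : 0 ≤ lam ∧ lam ≤ 1) (hΛ : 0 ≤ Λ) (hN : 0 ≤ N₀)
    {Q : Law Ω} {l : Ω → Ln} {t v : Ω → ℝ} {n : ℕ} (hg : GoodF Q l t)
    (hv : ∀ ω, 0 < Q.w ω → |v ω| ≤ 1) (hr : Rnd Q l n) (a w r ρ : ℕ) (har : a + r ≤ n)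
    (h0 : EFH Q lam Λ (n - a - r) w ρ (lnS a r l t v) (tfF a t) (tfF r v)
          (fun ω => (cell a r l t v ω, ())) ≤
        excH lam Λ Q (n - a - r) (lnS a r l t v) (fun ω => (cell a r l t v ω, ())) + R +
          N₀ * DF Q w (n - a - r) (lnS a r l t v) (tfF a t) (fun ω => (cell a r l t v ω, ())) + c) :
    EFH Q lam Λ n (a + w) (r + ρ) l t v (fun _ => ()) ≤ EFH Q lam Λ n a r l t v (fun _ => ()) + R +
      N₀ * (w * Real.log 2 -
        Stk.hc Q (fun ω => fl1 (a + w) (t ω)) (fun ω => (tb n (l ω), st t v a r ω))) +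
      (c + (12 + 4 * Λ + 4 * N₀) * Real.log 13) := by
  have k1 := EFH_comp Q hlam hΛ n a w r ρ l t v (fun _ => ())
  have k2 := DF_state Q (w := w) har hg hv (fun _ => ())
  rw [hc_cell hr] at k2
  have k3 := mul_le_mul_of_nonneg_left k2 hN
  linarith

/-! ### the end label -/

omit [Fintype Ω] in
/-- the cell of the state from the label of 652 -/
theorem cell_of_cel {l : Ω → Ln} {t v : Ω → ℝ} {a r : ℕ} {ω ω' : Ω}
    (e : cel l t v a r ω = cel l t v a r ω') : cell a r l t v ω = cell a r l t v ω' := by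
  have e1 : fl1 a (t ω) = fl1 a (t ω') := congrArg Prod.fst e
  have e2 : fl1 r (v ω) = fl1 r (v ω') := congrArg (fun q => q.2.1) e
  have e3 : fl1 0 ((l ω).2 0) = fl1 0 ((l ω').2 0) := congrArg (fun q => q.2.2.1) e
  have e4 : fl1 r ((l ω).2 1 - CellD.rd r (v ω) * (l ω).2 0) =
      fl1 r ((l ω').2 1 - CellD.rd r (v ω') * (l ω').2 0) := congrArg (fun q => q.2.2.2.1) e
  have e5 : fl1 a ((l ω).1 0 + CellD.rd a (t ω) * (l ω).2 0) =
      fl1 a ((l ω').1 0 + CellD.rd a (t ω') * (l ω').2 0) := congrArg (fun q => q.2.2.2.2.1) e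
  have e6 : fl1 (a + r) ((l ω).1 1 + CellD.rd a (t ω) * (l ω).2 1 -
      CellD.rd r (v ω) * ((l ω).1 0 + CellD.rd a (t ω) * (l ω).2 0)) =
      fl1 (a + r) ((l ω').1 1 + CellD.rd a (t ω') * (l ω').2 1 -
      CellD.rd r (v ω') * ((l ω').1 0 + CellD.rd a (t ω') * (l ω').2 0)) :=
    congrArg (fun q => q.2.2.2.2.2) e
  refine Prod.ext e1 (Prod.ext e2 (Prod.ext ?_ ?_))
  · show fl 0 (shv r (v ω) (l ω).2) = fl 0 (shv r (v ω') (l ω').2)
    have k : ∀ ω, fl 0 (shv r (v ω) (l ω).2) = ![fl1 0 ((l ω).2 0),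
        fl1 r ((l ω).2 1 - CellD.rd r (v ω) * (l ω).2 0)] := by
      intro ω
      funext j
      fin_cases j
      · rfl
      · show ⌊(2:ℝ) ^ 0 * (2 ^ r * ((l ω).2 1 - qa r (v ω) * (l ω).2 0))⌋ =
          ⌊(2:ℝ) ^ r * ((l ω).2 1 - CellD.rd r (v ω) * (l ω).2 0)⌋
        rw [pow_zero, one_mul]
        rfl
    rw [k, k, e3, e4]
  · show fl a (shv r (v ω) (pos (l ω) (qa a (t ω)))) = fl a (shv r (v ω') (pos (l ω') (qa a (t ω'))))
    have k : ∀ ω, fl a (shv r (v ω) (pos (l ω) (qa a (t ω)))) =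
        ![fl1 a ((l ω).1 0 + CellD.rd a (t ω) * (l ω).2 0),
          fl1 (a + r) ((l ω).1 1 + CellD.rd a (t ω) * (l ω).2 1 -
            CellD.rd r (v ω) * ((l ω).1 0 + CellD.rd a (t ω) * (l ω).2 0))] := by
      intro ω
      funext j
      fin_cases j
      · rfl
      · show ⌊(2:ℝ) ^ a * (2 ^ r * (((l ω).1 1 + qa a (t ω) * (l ω).2 1) -
            qa r (v ω) * ((l ω).1 0 + qa a (t ω) * (l ω).2 0)))⌋ =
          ⌊(2:ℝ) ^ (a + r) * ((l ω).1 1 + CellD.rd a (t ω) * (l ω).2 1 -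
            CellD.rd r (v ω) * ((l ω).1 0 + CellD.rd a (t ω) * (l ω).2 0))⌋
        rw [pow_add, mul_assoc]
        rfl
    rw [k, k, e5, e6]

omit [Fintype Ω] in
theorem tb_zero_lnS (a r : ℕ) (l : Ω → Ln) (t v : Ω → ℝ) (ω : Ω) :
    tb 0 (lnS a r l t v ω) = (fun _ => 0, fun _ => 0) := by
  have k : ∀ x : ℝ, fl1 0 (Int.fract x) = 0 := by
    intro x
    unfold fl1
    rw [pow_zero, one_mul]
    exact Int.floor_eq_zero_iff.2 ⟨Int.fract_nonneg _, Int.fract_lt_one _⟩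
  refine Prod.ext ?_ ?_
  · funext j
    exact k _
  · funext j
    exact k _

/-- **END** -/
theorem fin_le {lam κ Λ : ℝ} (hlam : 0 ≤ lam + κ ∧ lam + κ ≤ 1) (hΛ : 0 ≤ Λ) (Q : Law Ω)
    (l : Ω → Ln) (t v : Ω → ℝ) {n h q : ℕ} (hn : n = h + q) :
    valE lam Q l t v n h q ≤ EFH Q (lam + κ) Λ n h q l t v (fun _ => ()) + κ * q * Real.log 2 := by
  have h1 : 0 ≤ excH (lam + κ) Λ Q (n - h - q) (lnS h q l t v)
      (fun ω => (cell h q l t v ω, ())) :=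
    HX.excH_nonneg hlam hΛ _ (lnS_ok' Q h q l t v)
  have h2 : Stk.hc Q (fun ω => tb n (l ω)) (cel l t v h q) ≤ RF Q n h q l t v (fun _ => ()) := by
    unfold RF
    refine Stk.hc_mono_right Q _ fun ω ω' _ _ e => ?_
    have e0 : n - h - q = 0 := by omega
    have e1 : tb (n - h - q) (lnS h q l t v ω) = tb (n - h - q) (lnS h q l t v ω') := by
      rw [e0, tb_zero_lnS, tb_zero_lnS]
    exact Prod.ext e1 (Prod.ext (cell_of_cel e) rfl)
  unfold valE EFH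
  have e2 : (n : ℝ) - h = q := by
    rw [hn]
    push_cast
    ring
  rw [e2]
  linarith

/-! ### the labels of level `0` -/

/-- the penalised excess decreases with the price of the flatness -/
theorem excFl_anti {lam κ : ℝ} (hl : 0 ≤ lam ∧ lam ≤ 1) (hκ : 0 ≤ κ) {P : Law Ω} (n : ℕ)
    {l : Ω → Ln} (C : Ω → γ) (h : ∀ ω, 0 < P.w ω → LnOk (l ω)) :
    excFl (lam + κ) P (tbx n l) C ≤ excFl lam P (tbx n l) C := by
  refine csSup_le ⟨0, Lam.zero_mem_exSet (boxOk_tbx h n)⟩ ?_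
  rintro x ⟨Ω', _, P', π, W, h2, h3, rfl⟩
  have h4 := Lam.exV_le_excF hl (C := C) h2 h3
  have h5 := Lam.exVl_lam P' ((tbx n l).comp π) W (fun ω => C (π ω)) lam κ
  have h7 : 0 ≤ P'.ex (fun ω => ((W.j ω : ℝ) - W.k ω) -
      ((((tbx n l).comp π).j ω : ℝ) - ((tbx n l).comp π).k ω)) := by
    refine P'.ex_nonneg fun ω hω => ?_
    obtain ⟨-, -, a3, -⟩ := h3 ω hω
    have a6 : (W.k ω : ℝ) ≤ W.j ω := by exact_mod_cast a3
    have a8 : (((tbx n l).comp π).j ω : ℝ) - ((tbx n l).comp π).k ω = 0 := sub_self _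
    linarith
  have h8 := mul_nonneg (mul_nonneg hκ (Real.log_nonneg (by norm_num : (1:ℝ) ≤ 2))) h7
  linarith

/-- **VIEW** at the origin: the slab of thickness `2^-ρ` against the ball -/
def PView (lam Λ κ c : ℝ) : Prop :=
  ∀ (Ω : Type) [Fintype Ω] (γ : Type) (P : Law Ω) (l : Ω → Ln) (t v : Ω → ℝ) (n w ρ : ℕ)
    (C : Ω → γ), GoodF P l t → (∀ ω, 0 < P.w ω → |v ω| ≤ 1) → w + ρ ≤ n →
    EFH P lam Λ n w ρ l t v C ≤ XFH lam Λ P w n l t C + κ * ρ * Real.log 2 + c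

/-- **WIN** at the origin, rate `b` and price `N` of the deficit -/
def PWinH (lam Λ N b c : ℝ) : Prop :=
  ∀ (Ω : Type) [Fintype Ω] (γ : Type) (P : Law Ω) (l : Ω → Ln) (t : Ω → ℝ) (n w : ℕ)
    (C : Ω → γ), GoodF P l t → w ≤ n →
    XFH lam Λ P w n l t C ≤ excH lam Λ P n l C + b * w * Real.log 2 + N * DF P w n l t C + c

theorem pWinH (hF : PFix) {lam κ : ℝ} (hl : 0 < lam) (hκ : 0 < κ) (h1 : lam + κ ≤ 1)
    {N β : ℝ} (hN : 0 ≤ N) (hβ : 0 ≤ β) (hJ : JFG N lam β) {Λ ε : ℝ} (hΛ : N ≤ Λ)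
    (hε : 0 < ε) : ∃ c : ℝ, PWinH (lam + κ) Λ N (β + ε + κ) c := by
  obtain ⟨c, hc⟩ := Win.winH hF hl hκ h1 hN hβ hJ hΛ hε
  refine ⟨c, fun Ω _ γ P l t n w C hg hw => ?_⟩
  exact hc Ω γ P l t w n C hg hw

/-- constant of `start` -/
noncomputable def cS0 : ℝ := HX.cS + (2 * Real.log 9 + 5 * Real.log 7)

/-- **START** -/
theorem start_le {lam κ Λ κ' c : ℝ} (h0 : 0 ≤ lam) (hκ : 0 ≤ κ) (h1 : lam + κ ≤ 1) (hΛ : 0 ≤ Λ)
    (hV : PView (lam + κ) Λ κ' c) {Ω : Type} [Fintype Ω] {Q : Law Ω}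
    {l : Ω → Ln} {t v : Ω → ℝ} {n r : ℕ} (hg : GoodF Q l t) (hv : ∀ ω, 0 < Q.w ω → |v ω| ≤ 1)
    (hr : r ≤ n) :
    EFH Q (lam + κ) Λ n 0 r l t v (fun _ => ()) ≤ excFl lam Q (tbx n l) (fun _ => ()) +
      κ' * r * Real.log 2 + (c + cS0 + Λ * (2 * Real.log (n + 1))) := by
  have hl : ∀ ω, 0 < Q.w ω → LnOk (l ω) := fun ω hω => (hg ω hω).1
  have k1 := hV Ω Unit Q l t v n 0 r (fun _ => ()) hg hv (by omega)
  have k2 := XFH_up (lam := lam + κ) (N := Λ) ⟨by linarith, h1⟩ hΛ (Nat.zero_le n) hg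
    (fun _ => ())
  have k3 := HX.excH_le_excFl (lam := lam + κ) (N := Λ) ⟨by linarith, h1⟩ hΛ (P := Q) (n := n)
    (l := l) (fun _ => ()) hl
  have k4 := excFl_anti (κ := κ) ⟨h0, by linarith⟩ hκ (P := Q) n (fun _ : Ω => ()) hl
  push_cast at k2
  unfold cS0
  linarith

/-- **WIN** for one window -/
theorem win_le {lam Λ κ c N b c' : ℝ} (hlam : 0 ≤ lam ∧ lam ≤ 1) (hΛ : 0 ≤ Λ) (hN : 0 ≤ N)
    (hV : PView lam Λ κ c) (hW : PWinH lam Λ N b c') {Ω : Type} [Fintype Ω] {Q : Law Ω}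
    {l : Ω → Ln} {t v : Ω → ℝ} {n : ℕ} (hg : GoodF Q l t) (hv : ∀ ω, 0 < Q.w ω → |v ω| ≤ 1)
    (hr : Rnd Q l n) (a w r ρ : ℕ) (har : a + w + (r + ρ) ≤ n) :
    EFH Q lam Λ n (a + w) (r + ρ) l t v (fun _ => ()) ≤ EFH Q lam Λ n a r l t v (fun _ => ()) +
      b * w * Real.log 2 +
      N * (w * Real.log 2 -
        Stk.hc Q (fun ω => fl1 (a + w) (t ω)) (fun ω => (tb n (l ω), st t v a r ω))) +
      (κ * ρ * Real.log 2 + (c + c' + (12 + 4 * Λ + 4 * N) * Real.log 13)) := by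
  have k1 := hV Ω _ Q (lnS a r l t v) (tfF a t) (tfF r v) (n - a - r) w ρ
    (fun ω => (cell a r l t v ω, ())) (goodS Q a r l t v) (fun ω _ => tfF_abs r v ω) (by omega)
  have k2 := hW Ω _ Q (lnS a r l t v) (tfF a t) (n - a - r) w
    (fun ω => (cell a r l t v ω, ())) (goodS Q a r l t v) (by omega)
  have k3 := comp_win (R := b * w * Real.log 2) (c := κ * ρ * Real.log 2 + (c + c')) hlam hΛ hN
    hg hv hr a w r ρ (by omega) (by linarith)
  linarith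

/-- **EXT** for one window -/
theorem ext_le {lam Λ κ c : ℝ} (hlam : 0 ≤ lam ∧ lam ≤ 1) (hΛ : 0 ≤ Λ)
    (hV : PView lam Λ κ c) {Ω : Type} [Fintype Ω] {Q : Law Ω}
    {l : Ω → Ln} {t v : Ω → ℝ} {n : ℕ} (hg : GoodF Q l t) (hv : ∀ ω, 0 < Q.w ω → |v ω| ≤ 1)
    (hr : Rnd Q l n) (a w r ρ : ℕ) (har : a + w + (r + ρ) ≤ n) :
    EFH Q lam Λ n (a + w) (r + ρ) l t v (fun _ => ()) ≤ EFH Q lam Λ n a r l t v (fun _ => ()) +
      2 * w * Real.log 2 + (κ * ρ * Real.log 2 + (c + cS0 + (12 + 4 * Λ) * Real.log 13)) := by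
  have k1 := hV Ω _ Q (lnS a r l t v) (tfF a t) (tfF r v) (n - a - r) w ρ
    (fun ω => (cell a r l t v ω, ())) (goodS Q a r l t v) (fun ω _ => tfF_abs r v ω) (by omega)
  have k2 := XFH_up (lam := lam) (N := Λ) hlam hΛ (s := w) (n := n - a - r) (by omega)
    (goodS Q a r l t v) (fun ω => (cell a r l t v ω, ()))
  have k3 := comp_win (R := 2 * w * Real.log 2) (N₀ := 0) (c := κ * ρ * Real.log 2 + (c + cS0))
    hlam hΛ le_rfl hg hv hr a w r ρ (by omega) (by unfold cS0; linarith)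
  linarith

end Vale.Agent.P127.U.Inc
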