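import Vale.Agent.P127.U.StrG
import Vale.Agent.P127.U.Lam.FinDefs

/-!
# P127 / U / Lam : labels of the slab and labels of the ball system (helper499)

`T` a box around the line in the coordinates of a slab (shear `shv ρ s`), `U` the box around the line
of the ball system.  The labels are equivalent given the cell.

* `view_hc`, `view_hc'` : raw form
* `shv_in` : a box inside the slab, in terms of the angle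
* `exists_unst`, `exists_st` : existence of the box
-/

set_option autoImplicit false

namespace Vale.Agent.P127.U.Pf

open Filter Topology Vale.Agent.P127 Vale.Agent.P127.Stk Vale.Agent.P127.U Sys Str

variable {Ω : Type} [Fintype Ω] {δ : Type*}

/-- the integer part of the second coordinate is known up to five values -/
theorem hc_floor (P : Law Ω) (x : Ω → Fin 2 → ℝ) (s : Ω → ℝ) (ρ : Ω → ℕ) (D : Ω → δ)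
    (hs : ∀ ω, 0 < P.w ω → |s ω| ≤ 1)
    (hD : ∀ ω ω', 0 < P.w ω → 0 < P.w ω' → D ω' = D ω → ρ ω' = ρ ω ∧ s ω' = s ω ∧
      ⌊x ω' 0⌋ = ⌊x ω 0⌋ ∧ ⌊shv (ρ ω') (s ω') (x ω') 1⌋ = ⌊shv (ρ ω) (s ω) (x ω) 1⌋) :
    Stk.hc P (fun ω => ⌊x ω 1⌋) D ≤ Real.log 5 := by
  have key := Stk.hc_le_log P (fun ω => ⌊x ω 1⌋) D 5 (fun ω hω =>
    ⟨Finset.Icc (⌊x ω 1⌋ - 2) (⌊x ω 1⌋ + 2), by simp; omega, fun ω' hω' e => ?_⟩)
  · simpa using key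
  obtain ⟨f1, f2, f3, f4⟩ := hD ω ω' hω hω' e
  rw [shv1, shv1, f1, f2] at f4
  have hs' := hs ω hω
  have p1 : (1:ℝ) ≤ 2 ^ ρ ω := one_le_pow₀ (by norm_num)
  have d0 : |x ω' 0 - x ω 0| < 1 := by
    have h1 := Int.floor_le (x ω 0)
    have h2 := Int.lt_floor_add_one (x ω 0)
    have h3 := Int.floor_le (x ω' 0)
    have h4 := Int.lt_floor_add_one (x ω' 0)
    rw [f3] at h3 h4
    rw [abs_lt]
    constructor <;> linarith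
  have d1 : |(2:ℝ) ^ ρ ω * (x ω' 1 - s ω * x ω' 0) - (2:ℝ) ^ ρ ω * (x ω 1 - s ω * x ω 0)| < 1 := by
    have h1 := Int.floor_le ((2:ℝ) ^ ρ ω * (x ω 1 - s ω * x ω 0))
    have h2 := Int.lt_floor_add_one ((2:ℝ) ^ ρ ω * (x ω 1 - s ω * x ω 0))
    have h3 := Int.floor_le ((2:ℝ) ^ ρ ω * (x ω' 1 - s ω * x ω' 0))
    have h4 := Int.lt_floor_add_one ((2:ℝ) ^ ρ ω * (x ω' 1 - s ω * x ω' 0))
    rw [f4] at h3 h4
    rw [abs_lt]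
    constructor <;> linarith
  have d2 : |(x ω' 1 - s ω * x ω' 0) - (x ω 1 - s ω * x ω 0)| < 1 := by
    rw [← mul_sub, abs_mul, abs_of_pos (show (0:ℝ) < 2 ^ ρ ω by positivity)] at d1
    have := abs_nonneg ((x ω' 1 - s ω * x ω' 0) - (x ω 1 - s ω * x ω 0))
    nlinarith
  have d3 : |s ω * (x ω' 0 - x ω 0)| ≤ 1 := by
    rw [abs_mul]
    have := abs_nonneg (x ω' 0 - x ω 0)
    nlinarith [abs_nonneg (s ω)]
  have d4 : |x ω' 1 - x ω 1| < 2 := by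
    have e1 : x ω' 1 - x ω 1 = ((x ω' 1 - s ω * x ω' 0) - (x ω 1 - s ω * x ω 0)) +
      s ω * (x ω' 0 - x ω 0) := by ring
    rw [e1]
    refine (abs_add_le _ _).trans_lt ?_
    linarith
  rw [abs_lt] at d4
  rw [Finset.mem_Icc]
  constructor
  · have : ⌊x ω 1⌋ - 2 ≤ ⌊x ω' 1⌋ := by
      rw [Int.le_floor]
      push_cast
      have := Int.floor_le (x ω 1)
      linarith
    exact this
  · have : ⌊x ω' 1⌋ < ⌊x ω 1⌋ + 3 := by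
      rw [Int.floor_lt]
      push_cast
      have := Int.lt_floor_add_one (x ω 1)
      linarith
    omega

/-- geometric relation of the two boxes (`m` : the constant of comparison) -/
structure View (P : Law Ω) (U T : Bx Ω) (x y : Ω → Fin 2 → ℝ) (s : Ω → ℝ) (ρ : Ω → ℕ)
    (c : Ω → Fin 2 → ℝ) (m : ℕ) : Prop where
  hs : ∀ ω, 0 < P.w ω → |s ω| ≤ 1
  U1 : ∀ ω, 0 < P.w ω → ∀ i, (U.l ω).1 i = Int.fract (x ω i)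
  U2 : ∀ ω, 0 < P.w ω → ∀ i, (U.l ω).2 i = y ω i
  T1 : ∀ ω, 0 < P.w ω → ∀ i, (T.l ω).1 i = Int.fract (shv (ρ ω) (s ω) (x ω) i)
  T2 : ∀ ω, 0 < P.w ω → ∀ i, (T.l ω).2 i = shv (ρ ω) (s ω) (y ω) i - c ω i
  Uθ : ∀ ω, 0 < P.w ω → |U.θ ω| ≤ 4
  Tθ : ∀ ω, 0 < P.w ω → |T.θ ω| ≤ 4
  Uk : ∀ ω, 0 < P.w ω → U.k ω ≤ U.j ω
  Tk : ∀ ω, 0 < P.w ω → T.k ω ≤ T.j ω
  g1 : ∀ ω, 0 < P.w ω → ∀ v, bg U ω v ≤ ((2:ℝ) ^ m) ^ 2 * bg T ω (shv (ρ ω) (s ω) v)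
  g2 : ∀ ω, 0 < P.w ω → ∀ v, bg T ω (shv (ρ ω) (s ω) v) ≤ ((2:ℝ) ^ m) ^ 2 * bg U ω v

variable {P : Law Ω} {U T : Bx Ω} {x y : Ω → Fin 2 → ℝ} {s : Ω → ℝ} {ρ : Ω → ℕ}
  {c : Ω → Fin 2 → ℝ} {m : ℕ}

/-- the data of the cell -/
def Det (P : Law Ω) (x : Ω → Fin 2 → ℝ) (s : Ω → ℝ) (ρ : Ω → ℕ) (c : Ω → Fin 2 → ℝ)
    (D : Ω → δ) : Prop :=
  ∀ ω ω', 0 < P.w ω → 0 < P.w ω' → D ω' = D ω → ρ ω' = ρ ω ∧ s ω' = s ω ∧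
      ⌊x ω' 0⌋ = ⌊x ω 0⌋ ∧ ⌊shv (ρ ω') (s ω') (x ω') 1⌋ = ⌊shv (ρ ω) (s ω) (x ω) 1⌋ ∧ c ω' = c ω

private theorem aux_eq (h : View P U T x y s ρ c m) {ω : Ω} (hω : 0 < P.w ω) (i : Fin 2) :
    (T.l ω).1 i = shv (ρ ω) (s ω) (U.l ω).1 i -
      ((⌊shv (ρ ω) (s ω) (x ω) i⌋ : ℝ) - shv (ρ ω) (s ω) (fun i => (⌊x ω i⌋ : ℝ)) i) := by
  have e1 : (U.l ω).1 = fun i => x ω i - (⌊x ω i⌋ : ℝ) := by
    funext i
    rw [h.U1 ω hω i]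
    exact (Int.self_sub_floor _).symm
  rw [e1, shv_sub, h.T1 ω hω i]
  have := Int.self_sub_floor (shv (ρ ω) (s ω) (x ω) i)
  rw [← this]
  ring

private theorem aux_D {D : Ω → δ} (hD : Det P x s ρ c D) {ω ω' : Ω} (hω : 0 < P.w ω)
    (hω' : 0 < P.w ω') (e : (⌊x ω' 1⌋, D ω') = (⌊x ω 1⌋, D ω)) :
    (fun v => shv (ρ ω') (s ω') v) = (fun v => shv (ρ ω) (s ω) v) ∧
    (fun i => (⌊shv (ρ ω') (s ω') (x ω') i⌋ : ℝ) - shv (ρ ω') (s ω') (fun i => (⌊x ω' i⌋ : ℝ)) i) =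
      (fun i => (⌊shv (ρ ω) (s ω) (x ω) i⌋ : ℝ) - shv (ρ ω) (s ω) (fun i => (⌊x ω i⌋ : ℝ)) i) ∧
    c ω' = c ω := by
  simp only [Prod.mk.injEq] at e
  obtain ⟨e1, e2⟩ := e
  obtain ⟨f1, f2, f3, f4, f5⟩ := hD ω ω' hω hω' e2
  have k1 : (fun i => (⌊x ω' i⌋ : ℝ)) = fun i => (⌊x ω i⌋ : ℝ) := by
    funext i
    fin_cases i
    · show (⌊x ω' 0⌋ : ℝ) = ⌊x ω 0⌋
      rw [f3]
    · show (⌊x ω' 1⌋ : ℝ) = ⌊x ω 1⌋
      rw [e1]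
  refine ⟨by rw [f1, f2], ?_, f5⟩
  funext i
  rw [k1, f1, f2]
  rw [f1, f2] at f4
  congr 1
  fin_cases i
  · show ((⌊shv (ρ ω) (s ω) (x ω') 0⌋ : ℤ) : ℝ) = ⌊shv (ρ ω) (s ω) (x ω) 0⌋
    rw [shv0, shv0, f3]
  · show ((⌊shv (ρ ω) (s ω) (x ω') 1⌋ : ℤ) : ℝ) = ⌊shv (ρ ω) (s ω) (x ω) 1⌋
    rw [f4]

/-- the constant -/
noncomputable def Kv (m : ℕ) : ℝ := MJ.Kc (2 * m + 2) + Real.log 5

/-- **the label of the ball system is known from the label of the slab and the cell** -/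
theorem view_hc (h : View P U T x y s ρ c m) {D : Ω → δ} (hD : Det P x s ρ c D) :
    Stk.hc P U.lab (fun ω => (T.lab ω, D ω)) ≤ Kv m := by
  have h1 := Str.hc_lin P U T (fun ω v => shv (ρ ω) (s ω) v)
    (fun ω i => (⌊shv (ρ ω) (s ω) (x ω) i⌋ : ℝ) - shv (ρ ω) (s ω) (fun i => (⌊x ω i⌋ : ℝ)) i) c
    (fun ω => (⌊x ω 1⌋, D ω)) m
    (fun ω hω => ⟨h.Uθ ω hω, h.Uk ω hω, h.Tk ω hω, fun i => aux_eq h hω i,
      fun i => by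
        have e2 : (U.l ω).2 = y ω := funext fun i => h.U2 ω hω i
        rw [e2]
        exact h.T2 ω hω i,
      h.g1 ω hω, h.g2 ω hω, fun v w => shv_sub _ _ v w⟩)
    (fun ω ω' hω hω' e => aux_D hD hω hω' e)
  have h2 := hc_floor P x s ρ (fun ω => (T.lab ω, D ω)) h.hs (fun ω ω' hω hω' e => by
    simp only [Prod.mk.injEq] at e
    obtain ⟨f1, f2, f3, f4, -⟩ := hD ω ω' hω hω' e.2
    exact ⟨f1, f2, f3, f4⟩)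
  have h3 := Stk.hc_le_add' P U.lab (fun ω => ⌊x ω 1⌋) (fun ω => (T.lab ω, D ω))
  have h4 : Stk.hc P U.lab (fun ω => (⌊x ω 1⌋, T.lab ω, D ω)) ≤
      Stk.hc P U.lab (fun ω => (T.lab ω, ⌊x ω 1⌋, D ω)) :=
    Stk.hc_mono_right P _ (fun ω ω' _ _ e => by
      simp only [Prod.mk.injEq] at e ⊢
      tauto)
  unfold Kv
  linarith

/-- **the label of the slab is known from the label of the ball system and the cell** -/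
theorem view_hc' (h : View P U T x y s ρ c m) {D : Ω → δ} (hD : Det P x s ρ c D) :
    Stk.hc P T.lab (fun ω => (U.lab ω, D ω)) ≤ Kv m := by
  have h1 := Str.hc_lin' P U T (fun ω v => shv (ρ ω) (s ω) v)
    (fun ω i => (⌊shv (ρ ω) (s ω) (x ω) i⌋ : ℝ) - shv (ρ ω) (s ω) (fun i => (⌊x ω i⌋ : ℝ)) i) c
    (fun ω => (⌊x ω 1⌋, D ω)) m
    (fun ω hω => ⟨h.Tθ ω hω, h.Uk ω hω, h.Tk ω hω, fun i => aux_eq h hω i,
      fun i => by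
        have e2 : (U.l ω).2 = y ω := funext fun i => h.U2 ω hω i
        rw [e2]
        exact h.T2 ω hω i,
      h.g1 ω hω, h.g2 ω hω, fun v w => shv_sub _ _ v w, fun w => shv_surj _ _ w⟩)
    (fun ω ω' hω hω' e => aux_D hD hω hω' e)
  have h2 := hc_floor P x s ρ (fun ω => (U.lab ω, D ω)) h.hs (fun ω ω' hω hω' e => by
    simp only [Prod.mk.injEq] at e
    obtain ⟨f1, f2, f3, f4, -⟩ := hD ω ω' hω hω' e.2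
    exact ⟨f1, f2, f3, f4⟩)
  have h3 := Stk.hc_le_add' P T.lab (fun ω => ⌊x ω 1⌋) (fun ω => (U.lab ω, D ω))
  have h4 : Stk.hc P T.lab (fun ω => (⌊x ω 1⌋, U.lab ω, D ω)) ≤
      Stk.hc P T.lab (fun ω => (U.lab ω, ⌊x ω 1⌋, D ω)) :=
    Stk.hc_mono_right P _ (fun ω ω' _ _ e => by
      simp only [Prod.mk.injEq] at e ⊢
      tauto)
  unfold Kv
  linarith

/-- a box inside the slab, in terms of the angle (`s` the slope of the slab, `2^-ρ` its thickness) -/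
theorem shv_in {ρ k j m : ℕ} {s ψ : ℝ} (hs : |s| ≤ 1) (hj : ρ ≤ j + m)
    (ha : |Real.sin ψ - s * Real.cos ψ| * 2 ^ ρ ≤ 2 ^ m * 2 ^ k) (v : Fin 2 → ℝ) :
    shv ρ s v 0 ^ 2 + shv ρ s v 1 ^ 2 ≤ ((2:ℝ) ^ (m + 2)) ^ 2 * gq ψ k j v := by
  have t := Real.sin_sq_add_cos_sq ψ
  set X := Real.cos ψ * v 0 + Real.sin ψ * v 1 with hX
  set Y := -Real.sin ψ * v 0 + Real.cos ψ * v 1 with hY
  have hg : gq ψ k j v = (2 ^ k * X) ^ 2 + (2 ^ j * Y) ^ 2 := by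
    unfold gq
    rw [co0, co1, ← hX, ← hY]
  have e0 : v 0 = Real.cos ψ * X - Real.sin ψ * Y := by
    rw [hX, hY]
    linear_combination (-(v 0)) * t
  have e1 : v 1 = Real.sin ψ * X + Real.cos ψ * Y := by
    rw [hX, hY]
    linear_combination (-(v 1)) * t
  have e2 : v 1 - s * v 0 = (Real.sin ψ - s * Real.cos ψ) * X + (Real.cos ψ + s * Real.sin ψ) * Y := by
    rw [e0, e1]
    ring
  have pk : (1:ℝ) ≤ 2 ^ k := one_le_pow₀ (by norm_num)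
  have pj : (1:ℝ) ≤ 2 ^ j := one_le_pow₀ (by norm_num)
  have pm : (1:ℝ) ≤ 2 ^ m := one_le_pow₀ (by norm_num)
  have hρ : (2:ℝ) ^ ρ ≤ 2 ^ m * 2 ^ j := by
    rw [← pow_add]
    exact pow_le_pow_right₀ (by norm_num) (by omega)
  have h0 : v 0 ^ 2 ≤ gq ψ k j v := by
    have h1 : v 0 ^ 2 ≤ X ^ 2 + Y ^ 2 := by
      have : X ^ 2 + Y ^ 2 = v 0 ^ 2 + v 1 ^ 2 := by
        rw [hX, hY]
        linear_combination (v 0 ^ 2 + v 1 ^ 2) * t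
      rw [this]
      nlinarith [sq_nonneg (v 1)]
    rw [hg, mul_pow, mul_pow]
    have p2k : (1:ℝ) ≤ (2 ^ k) ^ 2 := one_le_pow₀ pk
    have p2j : (1:ℝ) ≤ (2 ^ j) ^ 2 := one_le_pow₀ pj
    nlinarith [mul_nonneg (sub_nonneg.2 p2k) (sq_nonneg X), mul_nonneg (sub_nonneg.2 p2j) (sq_nonneg Y)]
  have h1 : |shv ρ s v 1| ≤ 2 ^ m * |2 ^ k * X| + 2 * (2 ^ m * |2 ^ j * Y|) := by
    rw [shv1, e2, mul_add]
    refine (abs_add_le _ _).trans (add_le_add ?_ ?_)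
    · rw [← mul_assoc, abs_mul, abs_mul, abs_mul, abs_of_pos (show (0:ℝ) < 2 ^ ρ by positivity),
        abs_of_pos (show (0:ℝ) < 2 ^ k by positivity), mul_comm ((2:ℝ) ^ ρ), ← mul_assoc]
      exact mul_le_mul_of_nonneg_right ha (abs_nonneg _)
    · rw [← mul_assoc, abs_mul, abs_mul, abs_mul, abs_of_pos (show (0:ℝ) < 2 ^ ρ by positivity),
        abs_of_pos (show (0:ℝ) < 2 ^ j by positivity)]
      have h5 : |Real.cos ψ + s * Real.sin ψ| ≤ 2 := by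
        refine (abs_add_le _ _).trans ?_
        rw [abs_mul]
        have := Real.abs_cos_le_one ψ
        have := Real.abs_sin_le_one ψ
        have := abs_nonneg (Real.sin ψ)
        nlinarith [abs_nonneg s]
      calc (2:ℝ) ^ ρ * |Real.cos ψ + s * Real.sin ψ| * |Y| ≤ (2 ^ m * 2 ^ j) * 2 * |Y| := by gcongr
        _ = _ := by ring
  have h2 : shv ρ s v 1 ^ 2 ≤ (2 ^ m * |2 ^ k * X| + 2 * (2 ^ m * |2 ^ j * Y|)) ^ 2 := by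
    rw [← sq_abs (shv ρ s v 1)]
    exact pow_le_pow_left₀ (abs_nonneg _) h1 2
  have h3 : (2 ^ m * |2 ^ k * X| + 2 * (2 ^ m * |2 ^ j * Y|)) ^ 2 ≤ 8 * ((2:ℝ) ^ m) ^ 2 * gq ψ k j v := by
    rw [hg, ← sq_abs (2 ^ k * X), ← sq_abs (2 ^ j * Y)]
    have e : (2 ^ m * |2 ^ k * X| + 2 * (2 ^ m * |2 ^ j * Y|)) ^ 2 =
      ((2:ℝ) ^ m) ^ 2 * (|2 ^ k * X| + 2 * |2 ^ j * Y|) ^ 2 := by ring
    rw [e]
    have h6 : (|2 ^ k * X| + 2 * |2 ^ j * Y|) ^ 2 ≤ 8 * (|2 ^ k * X| ^ 2 + |2 ^ j * Y| ^ 2) := by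
      nlinarith [sq_nonneg (|2 ^ k * X| - 2 * |2 ^ j * Y|), sq_nonneg |2 ^ k * X|]
    calc ((2:ℝ) ^ m) ^ 2 * (|2 ^ k * X| + 2 * |2 ^ j * Y|) ^ 2
        ≤ ((2:ℝ) ^ m) ^ 2 * (8 * (|2 ^ k * X| ^ 2 + |2 ^ j * Y| ^ 2)) := by gcongr
      _ = _ := by ring
  have h4 : (1:ℝ) ≤ ((2:ℝ) ^ m) ^ 2 := one_le_pow₀ pm
  have h5 := gq_nonneg ψ k j v
  rw [shv0, pow_add, mul_pow]
  have h6 : gq ψ k j v ≤ ((2:ℝ) ^ m) ^ 2 * gq ψ k j v := le_mul_of_one_le_left h5 h4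
  rw [shv1] at h2
  rw [shv1]
  have h7 : ((2:ℝ) ^ 2) ^ 2 = 16 := by norm_num
  rw [h7]
  linarith

/-- the box of the ball system (existence, pointwise choice) -/
theorem exists_unst (P : Law Ω) (T : Bx Ω) (x y : Ω → Fin 2 → ℝ) (s : Ω → ℝ) (ρ : Ω → ℕ)
    (c : Ω → Fin 2 → ℝ) (u : Ω → Ln)
    (hs : ∀ ω, 0 < P.w ω → |s ω| ≤ 1)
    (U1 : ∀ ω, 0 < P.w ω → ∀ i, (u ω).1 i = Int.fract (x ω i))
    (U2 : ∀ ω, 0 < P.w ω → ∀ i, (u ω).2 i = y ω i)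
    (T1 : ∀ ω, 0 < P.w ω → ∀ i, (T.l ω).1 i = Int.fract (shv (ρ ω) (s ω) (x ω) i))
    (T2 : ∀ ω, 0 < P.w ω → ∀ i, (T.l ω).2 i = shv (ρ ω) (s ω) (y ω) i - c ω i)
    (Tθ : ∀ ω, 0 < P.w ω → |T.θ ω| ≤ 4) (Tk : ∀ ω, 0 < P.w ω → T.k ω ≤ T.j ω) :
    ∃ U : Bx Ω, U.l = u ∧ View P U T x y s ρ c 1 ∧ ∀ ω, 0 < P.w ω →
      |U.θ ω| ≤ 2 ∧ U.k ω + U.j ω ≤ T.k ω + T.j ω + ρ ω + 2 ∧ T.k ω + T.j ω + ρ ω ≤ U.k ω + U.j ω + 2 ∧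
      T.k ω ≤ U.k ω + 2 ∧ U.k ω ≤ T.k ω + ρ ω + 2 ∧ T.j ω ≤ U.j ω + 2 ∧ U.j ω ≤ T.j ω + ρ ω + 2 := by
  have hex : ∀ ω, ∃ q : ℝ × ℕ × ℕ, 0 < P.w ω → |q.1| ≤ 2 ∧ q.2.1 ≤ q.2.2 ∧
      q.2.1 + q.2.2 ≤ T.k ω + T.j ω + ρ ω + 2 ∧ T.k ω + T.j ω + ρ ω ≤ q.2.1 + q.2.2 + 2 ∧
      T.k ω ≤ q.2.1 + 2 ∧ q.2.1 ≤ T.k ω + ρ ω + 2 ∧ T.j ω ≤ q.2.2 + 2 ∧ q.2.2 ≤ T.j ω + ρ ω + 2 ∧
      (∀ v, gq q.1 q.2.1 q.2.2 v ≤ 4 * gq (T.θ ω) (T.k ω) (T.j ω) (shv (ρ ω) (s ω) v)) ∧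
      (∀ v, gq (T.θ ω) (T.k ω) (T.j ω) (shv (ρ ω) (s ω) v) ≤ 4 * gq q.1 q.2.1 q.2.2 v) := by
    intro ω
    by_cases hω : 0 < P.w ω
    · obtain ⟨ψ, k', j', a1, a2, a3, a4, a5, a6, a7, a8, a9, a10⟩ :=
        vw_box (ρ ω) (hs ω hω) (T.θ ω) (T.k ω) (T.j ω) (Tk ω hω)
      exact ⟨(ψ, k', j'), fun _ => ⟨a1, a2, a3, a4, a5, a6, a7, a8, a9, a10⟩⟩
    · exact ⟨(0, 0, 0), fun h => absurd h hω⟩
  choose q hq using hex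
  refine ⟨⟨u, fun ω => (q ω).1, fun ω => (q ω).2.1, fun ω => (q ω).2.2⟩, rfl, ?_, ?_⟩
  · exact
    { hs := hs
      U1 := U1
      U2 := U2
      T1 := T1
      T2 := T2
      Uθ := fun ω hω => by
        have := (hq ω hω).1
        show |(q ω).1| ≤ 4
        linarith
      Tθ := Tθ
      Uk := fun ω hω => (hq ω hω).2.1
      Tk := Tk
      g1 := fun ω hω v => by
        have := (hq ω hω).2.2.2.2.2.2.2.2.1 v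
        refine this.trans (le_of_eq ?_)
        unfold bg
        norm_num
      g2 := fun ω hω v => by
        have := (hq ω hω).2.2.2.2.2.2.2.2.2 v
        refine this.trans (le_of_eq ?_)
        unfold bg
        norm_num }
  · intro ω hω
    obtain ⟨a1, a2, a3, a4, a5, a6, a7, a8, a9, a10⟩ := hq ω hω
    exact ⟨a1, a3, a4, a5, a6, a7, a8⟩

/-- the box of the slab (existence) for a box of the ball system inside the slab -/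
theorem exists_st (P : Law Ω) (U : Bx Ω) (x y : Ω → Fin 2 → ℝ) (s : Ω → ℝ) (ρ : Ω → ℕ)
    (c : Ω → Fin 2 → ℝ) (u : Ω → Ln) (m : ℕ)
    (hs : ∀ ω, 0 < P.w ω → |s ω| ≤ 1)
    (U1 : ∀ ω, 0 < P.w ω → ∀ i, (U.l ω).1 i = Int.fract (x ω i))
    (U2 : ∀ ω, 0 < P.w ω → ∀ i, (U.l ω).2 i = y ω i)
    (T1 : ∀ ω, 0 < P.w ω → ∀ i, (u ω).1 i = Int.fract (shv (ρ ω) (s ω) (x ω) i))
    (T2 : ∀ ω, 0 < P.w ω → ∀ i, (u ω).2 i = shv (ρ ω) (s ω) (y ω) i - c ω i)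
    (Uθ : ∀ ω, 0 < P.w ω → |U.θ ω| ≤ 4) (Uk : ∀ ω, 0 < P.w ω → U.k ω ≤ U.j ω)
    (hin : ∀ ω, 0 < P.w ω → ∀ v, shv (ρ ω) (s ω) v 0 ^ 2 + shv (ρ ω) (s ω) v 1 ^ 2 ≤
      ((2:ℝ) ^ m) ^ 2 * bg U ω v) :
    ∃ T : Bx Ω, T.l = u ∧ View P U T x y s ρ c (m + 1) ∧ ∀ ω, 0 < P.w ω →
      |T.θ ω| ≤ 2 ∧ U.k ω + U.j ω ≤ T.k ω + T.j ω + ρ ω + 2 ∧
      T.k ω + T.j ω + ρ ω ≤ U.k ω + U.j ω + 2 * m ∧
      T.k ω ≤ U.k ω + (m + 2) ∧ U.k ω ≤ T.k ω + ρ ω + (m + 2) ∧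
      T.j ω ≤ U.j ω + (m + 2) ∧ U.j ω ≤ T.j ω + ρ ω + (m + 2) := by
  have hex : ∀ ω, ∃ q : ℝ × ℕ × ℕ, 0 < P.w ω → |q.1| ≤ 2 ∧ q.2.1 ≤ q.2.2 ∧
      U.k ω + U.j ω ≤ q.2.1 + q.2.2 + ρ ω + 2 ∧ q.2.1 + q.2.2 + ρ ω ≤ U.k ω + U.j ω + 2 * m ∧
      q.2.1 ≤ U.k ω + (m + 2) ∧ U.k ω ≤ q.2.1 + ρ ω + (m + 2) ∧
      q.2.2 ≤ U.j ω + (m + 2) ∧ U.j ω ≤ q.2.2 + ρ ω + (m + 2) ∧
      (∀ v, gq q.1 q.2.1 q.2.2 (shv (ρ ω) (s ω) v) ≤ ((2:ℝ) ^ m) ^ 2 * gq (U.θ ω) (U.k ω) (U.j ω) v) ∧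
      (∀ v, gq (U.θ ω) (U.k ω) (U.j ω) v ≤ 4 * gq q.1 q.2.1 q.2.2 (shv (ρ ω) (s ω) v)) := by
    intro ω
    by_cases hω : 0 < P.w ω
    · obtain ⟨ψ, k', j', a1, a2, a3, a4, a5, a6, a7, a8, a9, a10⟩ :=
        vw_box' (ρ ω) (hs ω hω) (U.θ ω) (U.k ω) (U.j ω) m (Uk ω hω) (hin ω hω)
      exact ⟨(ψ, k', j'), fun _ => ⟨a1, a2, a3, a4, a5, a6, a7, a8, a9, a10⟩⟩
    · exact ⟨(0, 0, 0), fun h => absurd h hω⟩
  choose q hq using hex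
  have p1 : (1:ℝ) ≤ 2 ^ m := one_le_pow₀ (by norm_num)
  refine ⟨⟨u, fun ω => (q ω).1, fun ω => (q ω).2.1, fun ω => (q ω).2.2⟩, rfl, ?_, ?_⟩
  · exact
    { hs := hs
      U1 := U1
      U2 := U2
      T1 := T1
      T2 := T2
      Uθ := Uθ
      Tθ := fun ω hω => by
        have := (hq ω hω).1
        show |(q ω).1| ≤ 4
        linarith
      Uk := Uk
      Tk := fun ω hω => (hq ω hω).2.1
      g1 := fun ω hω v => by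
        refine ((hq ω hω).2.2.2.2.2.2.2.2.2 v).trans ?_
        refine mul_le_mul_of_nonneg_right ?_ (gq_nonneg _ _ _ _)
        rw [pow_succ (2:ℝ) m, mul_pow]
        nlinarith
      g2 := fun ω hω v => by
        refine ((hq ω hω).2.2.2.2.2.2.2.2.1 v).trans ?_
        refine mul_le_mul_of_nonneg_right ?_ (gq_nonneg _ _ _ _)
        rw [pow_succ (2:ℝ) m, mul_pow]
        nlinarith [sq_nonneg ((2:ℝ) ^ m)] }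
  · intro ω hω
    obtain ⟨a1, a2, a3, a4, a5, a6, a7, a8, a9, a10⟩ := hq ω hω
    exact ⟨a1, a3, a4, a5, a6, a7, a8⟩

end Vale.Agent.P127.U.Pf
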