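import Vale.Agent.P127.U.Lam.PathA
import Vale.Agent.P127.U.Lam.PathL
import Vale.Agent.P127.U.Lam.Basic

/-!
# P127 / U / Lam : labels of the states and labels of the ball system (helper499)

* `lab_unst` : a label `A` of the state `(a, r)` gives a box `W` of the ball system `blF a l t`
* `lab_st` : a box of the ball system inside the slab gives a label of the state
* `valS` : value of a label; `valS_le_XF` : `valS ≤ XF + K` (on any extension)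
-/

set_option autoImplicit false

namespace Vale.Agent.P127.U.Pf

open Filter Topology Vale.Agent.P127 Vale.Agent.P127.Stk Vale.Agent.P127.U Sys Str

variable {Ω : Type} [Fintype Ω] {γ δ : Type*}

theorem qa_abs {r : ℕ} {v : ℝ} (h : |v| ≤ 1) : |qa r v| ≤ 1 := by
  rw [abs_le] at h ⊢
  have p : (0:ℝ) < 2 ^ r := by positivity
  unfold qa
  rw [le_div_iff₀ p, div_le_iff₀ p]
  unfold fl1
  constructor
  · have : (-(2:ℤ) ^ r) ≤ ⌊(2:ℝ) ^ r * v⌋ := by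
      rw [Int.le_floor]
      push_cast
      nlinarith [h.1]
    have h2 : ((-(2:ℤ) ^ r : ℤ) : ℝ) ≤ (⌊(2:ℝ) ^ r * v⌋ : ℝ) := by exact_mod_cast this
    push_cast at h2
    linarith
  · have := Int.floor_le ((2:ℝ) ^ r * v)
    nlinarith [h.2]

/-- the position of the ball, unreduced -/
noncomputable def upos (a : ℕ) (l : Ω → Ln) (t : Ω → ℝ) (ω : Ω) : Fin 2 → ℝ :=
  fun i => (2:ℝ) ^ a * pos (l ω) (qa a (t ω)) i

omit [Fintype Ω] in
theorem shv_upos (a r : ℕ) (l : Ω → Ln) (t v : Ω → ℝ) (ω : Ω) (i : Fin 2) :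
    Str.shv r (qa r (v ω)) (upos a l t ω) i =
      (2:ℝ) ^ a * Pf.shv r (v ω) (pos (l ω) (qa a (t ω))) i := by
  fin_cases i
  · rfl
  · show (2:ℝ) ^ r * ((2:ℝ) ^ a * pos (l ω) (qa a (t ω)) 1 - qa r (v ω) * ((2:ℝ) ^ a * pos (l ω) (qa a (t ω)) 0)) =
      (2:ℝ) ^ a * ((2:ℝ) ^ r * (pos (l ω) (qa a (t ω)) 1 - qa r (v ω) * pos (l ω) (qa a (t ω)) 0))
    ring

/-- the cell determines the data of the map -/
theorem det_cell (P : Law Ω) (a r : ℕ) (l : Ω → Ln) (t v : Ω → ℝ) (E : Ω → δ) :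
    Det P (upos a l t) (fun ω => qa r (v ω)) (fun _ => r)
      (fun ω i => (⌊Pf.shv r (v ω) (l ω).2 i⌋ : ℝ)) (fun ω => (cell a r l t v ω, E ω)) := by
  intro ω ω' _ _ e
  have e0 : cell a r l t v ω' = cell a r l t v ω := congrArg Prod.fst e
  have c2 : fl1 r (v ω') = fl1 r (v ω) := congrArg (fun q => q.2.1) e0
  have c3 : fl 0 (Pf.shv r (v ω') (l ω').2) = fl 0 (Pf.shv r (v ω) (l ω).2) := congrArg (fun q => q.2.2.1) e0
  have c4 : fl a (Pf.shv r (v ω') (pos (l ω') (qa a (t ω')))) = fl a (Pf.shv r (v ω) (pos (l ω) (qa a (t ω)))) :=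
    congrArg (fun q => q.2.2.2) e0
  refine ⟨rfl, ?_, ?_, ?_, ?_⟩
  · show qa r (v ω') = qa r (v ω)
    unfold qa
    rw [c2]
  · exact congrFun c4 0
  · show ⌊Str.shv r (qa r (v ω')) (upos a l t ω') 1⌋ = ⌊Str.shv r (qa r (v ω)) (upos a l t ω) 1⌋
    rw [shv_upos, shv_upos]
    exact congrFun c4 1
  · funext i
    have := congrFun c3 i
    have e1 : ∀ ω, fl 0 (Pf.shv r (v ω) (l ω).2) i = ⌊Pf.shv r (v ω) (l ω).2 i⌋ := by
      intro ω
      show ⌊(2:ℝ) ^ 0 * _⌋ = _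
      rw [pow_zero, one_mul]
    rw [e1, e1] at this
    show (⌊Pf.shv r (v ω') (l ω').2 i⌋ : ℝ) = (⌊Pf.shv r (v ω) (l ω).2 i⌋ : ℝ)
    exact_mod_cast this

/-- **label of the state `(a, r)` to a box of the ball system**, exponents at most `M` -/
theorem lab_unst (P : Law Ω) (a r M c0 : ℕ) (l : Ω → Ln) (t v : Ω → ℝ) (E : Ω → δ)
    (hv : ∀ ω, 0 < P.w ω → |v ω| ≤ 1) (A : Bx Ω)
    (hA : ∀ ω, 0 < P.w ω → A.l ω = lnS a r l t v ω ∧ |A.θ ω| ≤ 4 ∧ A.k ω ≤ A.j ω ∧ A.j ω + r ≤ M + c0) :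
    ∃ W : Bx Ω, W.l = blF a l t ∧
      (∀ ω, 0 < P.w ω → |W.θ ω| ≤ 2 ∧ W.k ω ≤ W.j ω ∧ W.j ω ≤ M ∧
        W.k ω + W.j ω ≤ A.k ω + A.j ω + r + 2 ∧ A.k ω + A.j ω + r ≤ W.k ω + W.j ω + (2 * c0 + 6) ∧
        A.k ω ≤ W.k ω + (c0 + 2) ∧ W.k ω ≤ A.k ω + r + 2 ∧ A.j ω ≤ W.j ω + (c0 + 2) ∧
        W.j ω ≤ A.j ω + r + 2) ∧
      Stk.hc P W.lab (fun ω => (A.lab ω, cell a r l t v ω, E ω)) ≤ Kv (c0 + 3) ∧
      Stk.hc P A.lab (fun ω => (W.lab ω, cell a r l t v ω, E ω)) ≤ Kv (c0 + 3) := by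
  have T1 : ∀ ω, 0 < P.w ω → ∀ i, (A.l ω).1 i = Int.fract (Str.shv r (qa r (v ω)) (upos a l t ω) i) := by
    intro ω hω i
    rw [(hA ω hω).1, shv_upos]
    rfl
  have T2 : ∀ ω, 0 < P.w ω → ∀ i, (A.l ω).2 i = Str.shv r (qa r (v ω)) (l ω).2 i -
      (⌊Pf.shv r (v ω) (l ω).2 i⌋ : ℝ) := by
    intro ω hω i
    rw [(hA ω hω).1]
    exact (Int.self_sub_floor _).symm
  obtain ⟨U, u0, u1, u2⟩ := exists_unst P A (upos a l t) (fun ω => (l ω).2) (fun ω => qa r (v ω))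
    (fun _ => r) (fun ω i => (⌊Pf.shv r (v ω) (l ω).2 i⌋ : ℝ)) (blF a l t)
    (fun ω hω => qa_abs (hv ω hω)) (fun _ _ _ => rfl) (fun _ _ _ => rfl) T1 T2
    (fun ω hω => (hA ω hω).2.1) (fun ω hω => (hA ω hω).2.2.1)
  set W : Bx Ω := ⟨blF a l t, U.θ, fun ω => min (U.k ω) M, fun ω => min (U.j ω) M⟩ with hW
  have hex : ∀ ω, 0 < P.w ω → W.k ω ≤ U.k ω ∧ W.j ω ≤ U.j ω ∧ U.k ω ≤ W.k ω + (c0 + 2) ∧
      U.j ω ≤ W.j ω + (c0 + 2) := by
    intro ω hω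
    obtain ⟨b1, b2, b3, b4, b5, b6, b7⟩ := u2 ω hω
    obtain ⟨d1, d2, d3, d4⟩ := hA ω hω
    have d5 := u1.Uk ω hω
    have b7' : U.j ω ≤ A.j ω + r + 2 := b7
    show min (U.k ω) M ≤ U.k ω ∧ min (U.j ω) M ≤ U.j ω ∧ U.k ω ≤ min (U.k ω) M + (c0 + 2) ∧
      U.j ω ≤ min (U.j ω) M + (c0 + 2)
    omega
  have hV : View P W A (upos a l t) (fun ω => (l ω).2) (fun ω => qa r (v ω)) (fun _ => r)
      (fun ω i => (⌊Pf.shv r (v ω) (l ω).2 i⌋ : ℝ)) (c0 + 3) := by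
    have cmp : ∀ ω, 0 < P.w ω → (∀ v, bg W ω v ≤ bg U ω v) ∧
        ∀ v, bg U ω v ≤ ((2:ℝ) ^ (c0 + 2)) ^ 2 * bg W ω v := by
      intro ω hω
      obtain ⟨x1, x2, x3, x4⟩ := hex ω hω
      exact ⟨fun v => Str.gq_mono x1 x2 v, fun v => Str.gq_shift x3 x4 v⟩
    exact
    { hs := u1.hs
      U1 := fun _ _ _ => rfl
      U2 := fun _ _ _ => rfl
      T1 := u1.T1
      T2 := u1.T2
      Uθ := u1.Uθ
      Tθ := u1.Tθ
      Uk := fun ω hω => min_le_min_right _ (u1.Uk ω hω)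
      Tk := u1.Tk
      g1 := fun ω hω v => by
        refine ((cmp ω hω).1 v).trans ((u1.g1 ω hω v).trans ?_)
        refine mul_le_mul_of_nonneg_right ?_ (bg_nonneg _ _ _)
        exact pow_le_pow_left₀ (by positivity) (pow_le_pow_right₀ (by norm_num) (by omega)) 2
      g2 := fun ω hω v => by
        refine (u1.g2 ω hω v).trans ?_
        have := (cmp ω hω).2 v
        calc ((2:ℝ) ^ 1) ^ 2 * bg U ω v ≤ ((2:ℝ) ^ 1) ^ 2 * (((2:ℝ) ^ (c0 + 2)) ^ 2 * bg W ω v) := by gcongr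
          _ = _ := by rw [show c0 + 3 = 1 + (c0 + 2) by omega, pow_add (2:ℝ) 1 (c0 + 2), mul_pow]; ring }
  refine ⟨W, rfl, ?_, ?_, ?_⟩
  · intro ω hω
    obtain ⟨b1, b2, b3, b4, b5, b6, b7⟩ := u2 ω hω
    obtain ⟨x1, x2, x3, x4⟩ := hex ω hω
    obtain ⟨d1, d2, d3, d4⟩ := hA ω hω
    have y1 : W.k ω ≤ W.j ω := min_le_min_right _ (u1.Uk ω hω)
    have y2 : W.j ω ≤ M := min_le_right _ _
    have y3 : |W.θ ω| ≤ 2 := b1
    have z1 : A.k ω ≤ W.k ω + (c0 + 2) := by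
      show A.k ω ≤ min (U.k ω) M + (c0 + 2)
      omega
    have z2 : A.j ω ≤ W.j ω + (c0 + 2) := by
      show A.j ω ≤ min (U.j ω) M + (c0 + 2)
      omega
    exact ⟨y3, y1, y2, by omega, by omega, z1, by omega, z2, by omega⟩
  · exact view_hc hV (det_cell P a r l t v E)
  · exact view_hc' hV (det_cell P a r l t v E)

/-- **box of the ball system inside the slab to a label of the state** -/
theorem lab_st (P : Law Ω) (a r m : ℕ) (l : Ω → Ln) (t v : Ω → ℝ) (E : Ω → δ)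
    (hv : ∀ ω, 0 < P.w ω → |v ω| ≤ 1) (W : Bx Ω)
    (hW : ∀ ω, 0 < P.w ω → W.l ω = blF a l t ω ∧ |W.θ ω| ≤ 4 ∧ W.k ω ≤ W.j ω)
    (hin : ∀ ω, 0 < P.w ω → r ≤ W.j ω + m ∧
      |Real.sin (W.θ ω) - qa r (v ω) * Real.cos (W.θ ω)| * 2 ^ r ≤ 2 ^ m * 2 ^ W.k ω) :
    ∃ A : Bx Ω, A.l = lnS a r l t v ∧
      (∀ ω, 0 < P.w ω → |A.θ ω| ≤ 2 ∧ A.k ω ≤ A.j ω ∧
        W.k ω + W.j ω ≤ A.k ω + A.j ω + r + 2 ∧ A.k ω + A.j ω + r ≤ W.k ω + W.j ω + (2 * m + 4) ∧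
        A.k ω ≤ W.k ω + (m + 4) ∧ W.k ω ≤ A.k ω + r + (m + 4) ∧ A.j ω ≤ W.j ω + (m + 4) ∧
        W.j ω ≤ A.j ω + r + (m + 4)) ∧
      Stk.hc P W.lab (fun ω => (A.lab ω, cell a r l t v ω, E ω)) ≤ Kv (m + 3) ∧
      Stk.hc P A.lab (fun ω => (W.lab ω, cell a r l t v ω, E ω)) ≤ Kv (m + 3) := by
  have U1 : ∀ ω, 0 < P.w ω → ∀ i, (W.l ω).1 i = Int.fract (upos a l t ω i) := by
    intro ω hω i
    rw [(hW ω hω).1]
    rfl
  have U2 : ∀ ω, 0 < P.w ω → ∀ i, (W.l ω).2 i = (l ω).2 i := by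
    intro ω hω i
    rw [(hW ω hω).1]
    rfl
  obtain ⟨A, u0, u1, u2⟩ := exists_st P W (upos a l t) (fun ω => (l ω).2) (fun ω => qa r (v ω))
    (fun _ => r) (fun ω i => (⌊Pf.shv r (v ω) (l ω).2 i⌋ : ℝ)) (lnS a r l t v) (m + 2)
    (fun ω hω => qa_abs (hv ω hω)) U1 U2
    (fun ω _ i => by
      rw [shv_upos]
      rfl)
    (fun ω _ i => (Int.self_sub_floor _).symm)
    (fun ω hω => (hW ω hω).2.1) (fun ω hω => (hW ω hω).2.2)
    (fun ω hω v => shv_in (qa_abs (hv ω hω)) (hin ω hω).1 (hin ω hω).2 v)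
  refine ⟨A, u0, ?_, view_hc u1 (det_cell P a r l t v E), view_hc' u1 (det_cell P a r l t v E)⟩
  intro ω hω
  obtain ⟨b1, b2, b3, b4, b5, b6, b7⟩ := u2 ω hω
  have := u1.Tk ω hω
  exact ⟨b1, this, by omega, by omega, by omega, by omega, by omega, by omega⟩

/-- value of the label `A` of the state `(a, r)` -/
noncomputable def valS (lam : ℝ) (P : Law Ω) (n a r : ℕ) (l : Ω → Ln) (t v : Ω → ℝ) (A : Bx Ω)
    (C : Ω → γ) : ℝ :=
  Stk.hc P (fun ω => tb n (l ω)) (fun ω => (A.lab ω, cell a r l t v ω, C ω)) -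
    Real.log 2 * P.ex fun ω => 2 * ((n : ℝ) - a) - (1 - lam) * r - A.szl lam ω

/-- the point is known from the cell -/
theorem hc_pq_cell (P : Law Ω) (a r : ℕ) (l : Ω → Ln) (t v : Ω → ℝ) (E : Ω → δ)
    (hv : ∀ ω, 0 < P.w ω → |v ω| ≤ 1) (hl : ∀ ω, 0 < P.w ω → LnOk (l ω)) :
    Stk.hc P (fun ω => pq a (ptF l t ω)) (fun ω => (cell a r l t v ω, E ω)) ≤ Real.log 81 := by
  classical
  have key := Stk.hc_le_log P (fun ω => pq a (ptF l t ω)) (fun ω => (cell a r l t v ω, E ω)) 81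
    (fun ω hω => ⟨{fl1 a (t ω)} ×ˢ (Fintype.piFinset fun i : Fin 2 =>
      Finset.Icc (fl a (pos (l ω) (t ω)) i - 4) (fl a (pos (l ω) (t ω)) i + 4)), ?_, fun ω' hω' e => ?_⟩)
  · simpa using key
  · rw [Finset.card_product, Fintype.card_piFinset]
    simp only [Finset.card_singleton, Int.card_Icc, one_mul]
    have : ∀ i : Fin 2, (fl a (pos (l ω) (t ω)) i + 4 + 1 - (fl a (pos (l ω) (t ω)) i - 4)).toNat = 9 := by
      intro i
      have : fl a (pos (l ω) (t ω)) i + 4 + 1 - (fl a (pos (l ω) (t ω)) i - 4) = 9 := by ring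
      rw [this]
      rfl
    rw [Fin.prod_univ_two, this, this]
    norm_num
  · have e0 : cell a r l t v ω' = cell a r l t v ω := congrArg Prod.fst e
    have c1 : fl1 a (t ω') = fl1 a (t ω) := congrArg Prod.fst e0
    have c2 : fl1 r (v ω') = fl1 r (v ω) := congrArg (fun q => q.2.1) e0
    have c4 : fl a (Pf.shv r (v ω') (pos (l ω') (qa a (t ω')))) = fl a (Pf.shv r (v ω) (pos (l ω) (qa a (t ω)))) :=
      congrArg (fun q => q.2.2.2) e0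
    have q1 : qa a (t ω') = qa a (t ω) := by unfold qa; rw [c1]
    have q2 : qa r (v ω') = qa r (v ω) := by unfold qa; rw [c2]
    have pa : (0:ℝ) < 2 ^ a := by positivity
    have pr : (1:ℝ) ≤ 2 ^ r := one_le_pow₀ (by norm_num)
    -- times
    have tm : ∀ u : Ω, 0 < P.w u → ∀ i, |(2:ℝ) ^ a * pos (l u) (t u) i - (2:ℝ) ^ a * pos (l u) (qa a (t u)) i| ≤ 1 := by
      intro u hu i
      have h1 : (2:ℝ) ^ a * pos (l u) (t u) i - (2:ℝ) ^ a * pos (l u) (qa a (t u)) i =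
          ((2:ℝ) ^ a * t u - (2:ℝ) ^ a * qa a (t u)) * (l u).2 i := by
        show (2:ℝ) ^ a * ((l u).1 i + t u * (l u).2 i) - (2:ℝ) ^ a * ((l u).1 i + qa a (t u) * (l u).2 i) = _
        ring
      rw [h1, abs_mul]
      have h2 : |(2:ℝ) ^ a * t u - (2:ℝ) ^ a * qa a (t u)| ≤ 1 := by
        rw [two_qa]
        unfold fl1
        rw [abs_of_nonneg (by linarith [Int.floor_le ((2:ℝ) ^ a * t u)])]
        linarith [Int.lt_floor_add_one ((2:ℝ) ^ a * t u)]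
      exact mul_le_one₀ h2 (abs_nonneg _) ((hl u hu).2 i)
    -- floors
    have ff : ∀ x y : ℝ, ⌊x⌋ = ⌊y⌋ → |x - y| < 1 := by
      intro x y h
      have h1 := Int.floor_le x
      have h2 := Int.lt_floor_add_one x
      have h3 := Int.floor_le y
      have h4 := Int.lt_floor_add_one y
      rw [h] at h1 h2
      rw [abs_lt]
      constructor <;> linarith
    set X := fun i => (2:ℝ) ^ a * pos (l ω) (qa a (t ω)) i with hX
    set X' := fun i => (2:ℝ) ^ a * pos (l ω') (qa a (t ω')) i with hX'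
    have d0 : |X' 0 - X 0| < 1 := ff _ _ (congrFun c4 0)
    have d1 : |(2:ℝ) ^ r * (X' 1 - qa r (v ω) * X' 0) - (2:ℝ) ^ r * (X 1 - qa r (v ω) * X 0)| < 1 := by
      have := ff _ _ (congrFun c4 1)
      have e1 : (2:ℝ) ^ r * (X' 1 - qa r (v ω) * X' 0) =
          (2:ℝ) ^ a * Pf.shv r (v ω') (pos (l ω') (qa a (t ω'))) 1 := by
        rw [Pf.shv1, q2]
        ring
      have e2 : (2:ℝ) ^ r * (X 1 - qa r (v ω) * X 0) =
          (2:ℝ) ^ a * Pf.shv r (v ω) (pos (l ω) (qa a (t ω))) 1 := by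
        rw [Pf.shv1]
        ring
      rw [e1, e2]
      exact this
    have d2 : |(X' 1 - qa r (v ω) * X' 0) - (X 1 - qa r (v ω) * X 0)| < 1 := by
      rw [← mul_sub, abs_mul, abs_of_pos (show (0:ℝ) < 2 ^ r by positivity)] at d1
      have := abs_nonneg ((X' 1 - qa r (v ω) * X' 0) - (X 1 - qa r (v ω) * X 0))
      nlinarith
    have d3 : |qa r (v ω) * (X' 0 - X 0)| ≤ 1 := by
      rw [abs_mul]
      exact mul_le_one₀ (qa_abs (hv ω hω)) (abs_nonneg _) d0.le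
    have d4 : ∀ i, |X' i - X i| < 2 := by
      intro i
      fin_cases i
      · show |X' 0 - X 0| < 2
        linarith
      · show |X' 1 - X 1| < 2
        have e1 : X' 1 - X 1 = ((X' 1 - qa r (v ω) * X' 0) - (X 1 - qa r (v ω) * X 0)) +
          qa r (v ω) * (X' 0 - X 0) := by ring
        rw [e1]
        refine (abs_add_le _ _).trans_lt ?_
        linarith
    rw [Finset.mem_product]
    refine ⟨by rw [Finset.mem_singleton]; exact c1, ?_⟩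
    rw [Fintype.mem_piFinset]
    intro i
    have h1 := tm ω hω i
    have h2 := tm ω' hω' i
    have h3 := d4 i
    rw [abs_le] at h1 h2
    rw [abs_lt] at h3
    have h4 : (2:ℝ) ^ a * pos (l ω') (t ω') i - (2:ℝ) ^ a * pos (l ω) (t ω) i < 4 := by
      simp only [hX, hX'] at h3
      linarith [h1.1, h2.2, h3.2]
    have h5 : -4 < (2:ℝ) ^ a * pos (l ω') (t ω') i - (2:ℝ) ^ a * pos (l ω) (t ω) i := by
      simp only [hX, hX'] at h3
      linarith [h1.2, h2.1, h3.1]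
    rw [Finset.mem_Icc]
    show ⌊(2:ℝ) ^ a * pos (l ω) (t ω) i⌋ - 4 ≤ ⌊(2:ℝ) ^ a * pos (l ω') (t ω') i⌋ ∧
      ⌊(2:ℝ) ^ a * pos (l ω') (t ω') i⌋ ≤ ⌊(2:ℝ) ^ a * pos (l ω) (t ω) i⌋ + 4
    constructor
    · rw [Int.le_floor]
      push_cast
      have := Int.floor_le ((2:ℝ) ^ a * pos (l ω) (t ω) i)
      linarith
    · have : ⌊(2:ℝ) ^ a * pos (l ω') (t ω') i⌋ < ⌊(2:ℝ) ^ a * pos (l ω) (t ω) i⌋ + 5 := by
        rw [Int.floor_lt]
        push_cast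
        have := Int.lt_floor_add_one ((2:ℝ) ^ a * pos (l ω) (t ω) i)
        linarith
      omega

/-- the constant -/
noncomputable def Ks (c0 : ℕ) : ℝ :=
  Kv (c0 + 3) + Real.log 81 + Real.log 2 * (3 * c0 + 10) + (Real.log (((2 * 4 + 1) ^ 4 : ℕ) : ℝ) +
    Real.log 2 * (2 * 1) + 2 * Real.log 9)

/-- **a label of the state is a lower bound for the functional of the ball system** -/
theorem valS_le_XF {Ω' : Type} [Fintype Ω'] {lam : ℝ} (hlam : 0 ≤ lam ∧ lam ≤ 1) (P : Law Ω)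
    {a n : ℕ} (r c0 : ℕ) (h : a ≤ n) {l : Ω → Ln} {t v : Ω → ℝ} (hg : GoodF P l t)
    (hv : ∀ ω, 0 < P.w ω → |v ω| ≤ 1) (C : Ω → γ) {P' : Law Ω'} {π : Ω' → Ω} {A : Bx Ω'}
    (h1 : ∀ ω, P'.pr π ω = P.w ω)
    (hA : ∀ ω, 0 < P'.w ω → A.l ω = lnS a r l t v (π ω) ∧ |A.θ ω| ≤ 4 ∧ A.k ω ≤ A.j ω ∧
      A.j ω + r ≤ (n - a) + c0) :
    valS lam P' n a r (fun ω => l (π ω)) (fun ω => t (π ω)) (fun ω => v (π ω)) A (fun ω => C (π ω)) ≤
      XF lam P a n l t C + Ks c0 := by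
  have hsup : ∀ ω, 0 < P'.w ω → 0 < P.w (π ω) := by
    intro ω hω
    rw [← h1 (π ω)]
    exact P'.pr_pos π hω
  obtain ⟨W, w0, w1, w2, -⟩ := lab_unst P' a r (n - a) c0 (fun ω => l (π ω)) (fun ω => t (π ω))
    (fun ω => v (π ω)) (fun ω => C (π ω)) (fun ω hω => hv _ (hsup ω hω)) A hA
  have k1 := Lam.valX_le hlam P h (t := t) (W := W) (c := 1) (m := 1) hg C (by norm_num) h1 (fun ω hω => by
    obtain ⟨b1, b2, b3, -⟩ := w1 ω hω
    refine ⟨?_, by linarith, b2, b2.trans b3, b3, ?_⟩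
    · show W.l ω = blF a l t (π ω)
      rw [w0]
      rfl
    · show |Real.sin (0 - W.θ ω)| * (1 / 2 : ℝ) ^ (n - a) ≤ 1 * (1 / 2 : ℝ) ^ W.j ω
      exact mul_le_mul (Real.abs_sin_le_one _)
        (pow_le_pow_of_le_one (by norm_num) (by norm_num) b3) (by positivity) zero_le_one)
  -- entropies
  set T : Ω' → _ := fun ω => tb n (l (π ω)) with hT
  set G : Ω' → _ := fun ω => (A.lab ω, cell a r (fun ω => l (π ω)) (fun ω => t (π ω)) (fun ω => v (π ω)) ω,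
    C (π ω)) with hG
  have e1 : Stk.hc P' T G ≤ Stk.hc P' T (fun ω => (W.lab ω, (pq a (ptF l t (π ω)), C (π ω)))) +
      Stk.hc P' (fun ω => (W.lab ω, (pq a (ptF l t (π ω)), C (π ω)))) G := by
    have a1 := Apx.hc_cmp P' T T G (fun ω => (W.lab ω, (pq a (ptF l t (π ω)), C (π ω))))
    have a2 : Stk.hc P' T (fun ω => (T ω, G ω)) = 0 :=
      Stk.hc_zero P' fun _ _ _ _ e => congrArg Prod.fst e
    linarith
  have e2 : Stk.hc P' (fun ω => (W.lab ω, (pq a (ptF l t (π ω)), C (π ω)))) G ≤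
      Kv (c0 + 3) + Real.log 81 := by
    have a1 : Stk.hc P' (fun ω => pq a (ptF l t (π ω))) G ≤ Real.log 81 := by
      have b1 := hc_pq_cell P' a r (fun ω => l (π ω)) (fun ω => t (π ω)) (fun ω => v (π ω))
        (fun ω => (A.lab ω, C (π ω))) (fun ω hω => hv _ (hsup ω hω)) (fun ω hω => (hg _ (hsup ω hω)).1)
      refine le_trans (Stk.hc_mono_right P' _ fun ω ω' _ _ e => ?_) b1
      simp only [hG, Prod.mk.injEq] at e ⊢
      exact ⟨e.2.1, e.1, e.2.2⟩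
    have a2 : Stk.hc P' (fun ω => (W.lab ω, (pq a (ptF l t (π ω)), C (π ω)))) G ≤
        Stk.hc P' (fun ω => (W.lab ω, pq a (ptF l t (π ω)))) G :=
      Stk.hc_mono_left P' fun ω ω' _ _ e => by
        simp only [hG, Prod.mk.injEq] at e ⊢
        exact ⟨e.1.1, e.1.2, e.2.2.2⟩
    have a3 := Stk.hc_pair P' W.lab (fun ω => pq a (ptF l t (π ω))) G
    have a4 : Stk.hc P' (fun ω => pq a (ptF l t (π ω))) (fun ω => (W.lab ω, G ω)) ≤
        Stk.hc P' (fun ω => pq a (ptF l t (π ω))) G :=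
      Stk.hc_mono_right P' _ fun ω ω' _ _ e => congrArg Prod.snd e
    have a5 : Stk.hc P' W.lab G ≤ Kv (c0 + 3) := w2
    linarith
  -- sizes
  have e3 : P'.ex (W.szl lam) ≥ (1 - lam) * r + P'.ex (A.szl lam) - (3 * c0 + 10) := by
    have a1 : P'.ex (fun ω => ((1 - lam) * r + A.szl lam ω) - (3 * (c0:ℝ) + 10)) ≤ P'.ex (W.szl lam) := by
      refine P'.ex_mono fun ω hω => ?_
      obtain ⟨b1, b2, b3, b4, b5, b6, b7, b8, b9⟩ := w1 ω hω
      have c5 : (A.k ω : ℝ) + A.j ω + r ≤ W.k ω + W.j ω + (2 * c0 + 6) := by exact_mod_cast b5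
      have c6 : (A.k ω : ℝ) ≤ W.k ω + (c0 + 2) := by exact_mod_cast b6
      have c9 : (W.j ω : ℝ) ≤ A.j ω + r + 2 := by exact_mod_cast b9
      unfold Bx.szl
      have c0' : (0:ℝ) ≤ c0 := Nat.cast_nonneg _
      nlinarith [hlam.1, hlam.2, mul_nonneg hlam.1 (sub_nonneg.2 c6), mul_nonneg hlam.1 (sub_nonneg.2 c9),
        mul_nonneg (sub_nonneg.2 hlam.2) c0']
    have a2 : P'.ex (fun ω => ((1 - lam) * r + A.szl lam ω) - (3 * (c0:ℝ) + 10)) =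
        ((1 - lam) * r + P'.ex (A.szl lam)) - (3 * c0 + 10) := by
      rw [P'.ex_sub, P'.ex_const, P'.ex_add, P'.ex_const]
    linarith
  have e4 : P'.ex (fun ω => 2 * ((n : ℝ) - a) - (1 - lam) * r - A.szl lam ω) =
      2 * ((n : ℝ) - a) - (1 - lam) * r - P'.ex (A.szl lam) := by
    rw [P'.ex_sub, P'.ex_const]
  have hl2 : 0 ≤ Real.log 2 := Real.log_nonneg (by norm_num)
  have e5 : Real.log 2 * (2 * ((n : ℝ) - a) - P'.ex (W.szl lam)) ≤
      Real.log 2 * (2 * ((n : ℝ) - a) - (1 - lam) * r - P'.ex (A.szl lam)) + Real.log 2 * (3 * c0 + 10) := by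
    rw [← mul_add]
    refine mul_le_mul_of_nonneg_left ?_ hl2
    linarith
  unfold valS
  rw [e4]
  unfold Lam.valX at k1
  unfold Ks
  have k2 : Stk.hc P' T (fun ω => (W.lab ω, (pq a (ptF l t (π ω)), C (π ω)))) -
      Real.log 2 * (2 * ((n : ℝ) - a) - P'.ex (W.szl lam)) ≤ XF lam P a n l t C +
        (Real.log (((2 * 4 + 1) ^ 4 : ℕ) : ℝ) + Real.log 2 * (2 * (1:ℕ)) + 2 * Real.log 9) := k1
  push_cast at k2 ⊢
  show Stk.hc P' T G - _ ≤ _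
  linarith

end Vale.Agent.P127.U.Pf
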