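import Vale.Agent.P127.U.Lam.PathH
import Vale.Agent.P127.U.Lam.PathL
import Vale.Agent.P127.U.Lam.HUp

/-!
# P127 / U / Lam : the state functional is at most the level functional (helper465)

* `XFH_ge` : every label of the balls of level `a` gives a lower bound for `XFH` (direct value);
* `EFH_soft` : `EFH` is at most the direct value of a soft label of the state;
* `EFH_le_XFH` : **VIEW** `EFH a r ≤ XFH a + Λ log (r + 5) + O(1)`.
-/

set_option autoImplicit false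

namespace Vale.Agent.P127.U.Pf

open Filter Topology Vale.Agent.P127 Vale.Agent.P127.Stk Vale.Agent.P127.U Vale.Agent.P127.U.Apx
  Sys ExcB HX

variable {Ω : Type} [Fintype Ω] {γ : Type}

/-- the constant of `XFH_ge` -/
noncomputable def cG (Λ : ℝ) (m : ℕ) : ℝ :=
  Real.log (((2 * 4 + 1) ^ 4 : ℕ) : ℝ) + Real.log 2 * (2 * m) + 2 * Real.log 9 +
    Λ * (2 * Real.log (m + 1) + 6 * Real.log 13)

/-- **direct lower bound for the level functional** -/
theorem XFH_ge {lam Λ : ℝ} (hl : 0 ≤ lam ∧ lam ≤ 1) (hΛ : 0 ≤ Λ) {P : Law Ω} {a n : ℕ} (h : a ≤ n)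
    {l : Ω → Ln} {t : Ω → ℝ} (hg : GoodF P l t) (C : Ω → γ) {Ω' : Type} [Fintype Ω'] {P' : Law Ω'}
    {π : Ω' → Ω} (h1 : ∀ ω, P'.pr π ω = P.w ω) {W : Bx Ω'} (m : ℕ)
    (hW : ∀ ω, 0 < P'.w ω → W.l ω = blF a l t (π ω) ∧ |W.θ ω| ≤ 4 ∧ W.k ω ≤ W.j ω ∧
      W.j ω ≤ n - a + m) :
    Stk.hc P' (fun ω => tb n (l (π ω))) (fun ω => (W.lab ω, (pq a (ptF l t (π ω)), C (π ω)))) -
        Real.log 2 * P'.ex (fun ω => 2 * ((n : ℝ) - a) - W.szl lam ω) +
      Λ * Stk.hc P' (fun ω => (W.k ω, W.j ω))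
          (fun ω => (fl1 a (t (π ω)), (tb n (l (π ω)), C (π ω)))) ≤
      XFH lam Λ P a n l t C + cG Λ m := by
  have hg' : GoodF P' (fun ω => l (π ω)) (fun ω => t (π ω)) := by
    intro ω hω
    refine hg (π ω) ?_
    rw [← h1]
    exact P'.pr_pos π hω
  have hl' : ∀ ω, 0 < P'.w ω → LnOk (l (π ω)) := fun ω hω => (hg' ω hω).1
  set X : Ω' → _ := fun ω => tb n (l (π ω)) with hX
  set B : Ω' → _ := fun ω => tb (n - a) (blF a l t (π ω)) with hB
  set D : Ω' → _ := fun ω => (pq a (ptF l t (π ω)), C (π ω)) with hD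
  -- the coarser box
  have s1 : ∀ ω, 0 < P'.w ω → Sub 1 ((tbx (n - a) (blF a l t)).comp π) (crs m W) ω := by
    intro ω hω
    obtain ⟨b1, b2, b3, b4⟩ := hW ω hω
    have b5 : W.j ω - m ≤ n - a := by omega
    refine ⟨b1, b2, min_le_right _ _, (min_le_right _ _).trans b5, b5, ?_⟩
    show |Real.sin ((0 : ℝ) - W.θ ω)| * (1 / 2 : ℝ) ^ (n - a) ≤ 1 * (1 / 2 : ℝ) ^ (W.j ω - m)
    have c1 := Real.abs_sin_le_one ((0 : ℝ) - W.θ ω)
    have c2 : (1 / 2 : ℝ) ^ (n - a) ≤ (1 / 2 : ℝ) ^ (W.j ω - m) :=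
      pow_le_pow_of_le_one (by norm_num) (by norm_num) b5
    have c3 : (0 : ℝ) < (1 / 2 : ℝ) ^ (n - a) := by positivity
    calc _ ≤ 1 * (1 / 2 : ℝ) ^ (n - a) := mul_le_mul_of_nonneg_right c1 c3.le
      _ ≤ _ := mul_le_mul_of_nonneg_left c2 zero_le_one
  have k1 := le_excH hl hΛ (P := P) (n := n - a) (l := blF a l t)
    (C := fun ω => (pq a (ptF l t ω), C ω)) h1 s1
  have k2 := Lam.exV_crs hl P' ((tbx (n - a) (blF a l t)).comp π) W D m
    fun ω hω => (hW ω hω).2.2.1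
  have k3 : exVl lam P' ((tbx (n - a) (blF a l t)).comp π) W D =
      Stk.hc P' B (fun ω => (W.lab ω, D ω)) -
        Real.log 2 * P'.ex (fun ω => 2 * ((n : ℝ) - a) - W.szl lam ω) := by
    have b1 : Stk.hc P' ((tbx (n - a) (blF a l t)).comp π).lab (fun ω => (W.lab ω, D ω)) =
        Stk.hc P' B (fun ω => (W.lab ω, D ω)) := hc_tbx P' (n - a) (fun ω => blF a l t (π ω)) _
    have b2 : (P'.ex fun ω => ((tbx (n - a) (blF a l t)).comp π).szl lam ω - W.szl lam ω) =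
        P'.ex fun ω => 2 * ((n : ℝ) - a) - W.szl lam ω := by
      refine P'.ex_congr fun ω _ => ?_
      have e1 : ((tbx (n - a) (blF a l t)).comp π).szl lam ω =
          (1 + lam) * ((n - a : ℕ) : ℝ) + (1 - lam) * ((n - a : ℕ) : ℝ) := rfl
      rw [e1, Nat.cast_sub h]
      ring
    unfold exVl
    rw [b1, b2]
  -- the line given the ball and the point
  have k4 : Stk.hc P' X (fun ω => (W.lab ω, D ω)) ≤ Stk.hc P' B (fun ω => (W.lab ω, D ω)) +
      Stk.hc P' X (fun ω => (B ω, D ω)) := by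
    have b1 := Stk.hc_le_add' P' X B (fun ω => (W.lab ω, D ω))
    have b2 : Stk.hc P' X (fun ω => (B ω, (W.lab ω, D ω))) ≤ Stk.hc P' X (fun ω => (B ω, D ω)) :=
      Stk.hc_mono_right P' X fun ω ω' _ _ e => by
        simp only [Prod.mk.injEq] at e ⊢
        exact ⟨e.1, e.2.2⟩
    linarith
  have k5 : Stk.hc P' X (fun ω => (B ω, D ω)) ≤
      Stk.hc P (fun ω => tb n (l ω)) (fun ω => (tlF a n l t ω, C ω)) + 2 * Real.log 9 := by
    have b0 : Stk.hc P (fun ω => tb n (l ω)) (fun ω => (tlF a n l t ω, C ω)) =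
        Stk.hc P' X (fun ω => (tlF a n l t (π ω), C (π ω))) :=
      (Stk.hc_of_law P' P π h1 (fun ω => tb n (l ω)) (fun ω => (tlF a n l t ω, C ω))).symm
    have b1 := hc_cmp P' X X (fun ω => (B ω, D ω)) (fun ω => (tlF a n l t (π ω), C (π ω)))
    have b2 : Stk.hc P' X (fun ω => (X ω, (B ω, D ω))) = 0 :=
      Stk.hc_zero P' fun _ _ _ _ e => congrArg Prod.fst e
    have b3 : Stk.hc P' (fun ω => fl a (pos (l (π ω)) (qa a (t (π ω))))) (fun ω => (B ω, D ω)) ≤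
        2 * Real.log 9 :=
      LocB.cell_le P' a a le_rfl (fun ω => l (π ω)) (fun ω => t (π ω)) hl' _
        fun ω ω' _ _ e => congrArg (fun q => q.2.1.2) e
    have b4 := hc_via P' (fun ω => (tlF a n l t (π ω), C (π ω)))
      (fun ω => fl a (pos (l (π ω)) (qa a (t (π ω))))) (fun ω => (B ω, D ω))
    have b5 : Stk.hc P' (fun ω => (tlF a n l t (π ω), C (π ω)))
        (fun ω => (fl a (pos (l (π ω)) (qa a (t (π ω)))), (B ω, D ω))) = 0 := by
      apply Stk.hc_zero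
      intro ω ω' _ _ e
      have e0 : fl a (pos (l (π ω)) (qa a (t (π ω)))) = fl a (pos (l (π ω')) (qa a (t (π ω')))) :=
        congrArg Prod.fst e
      have e1 : tb (n - a) (blF a l t (π ω)) = tb (n - a) (blF a l t (π ω')) :=
        congrArg (fun q => q.2.1) e
      have e2 : fl1 a (t (π ω)) = fl1 a (t (π ω')) := congrArg (fun q => q.2.2.1.1) e
      have e3 : C (π ω) = C (π ω') := congrArg (fun q => q.2.2.2) e
      have e4 : fl (n - a) (blF a l t (π ω)).1 = fl (n - a) (blF a l t (π ω')).1 :=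
        congrArg Prod.fst e1
      have e5 : fl (n - a) (l (π ω)).2 = fl (n - a) (l (π ω')).2 := congrArg Prod.snd e1
      have e6 : fl n (pos (l (π ω)) (qa a (t (π ω)))) = fl n (pos (l (π ω')) (qa a (t (π ω')))) := by
        funext j
        have f1 := fl_fr a (n - a) (pos (l (π ω)) (qa a (t (π ω)))) j
        have f2 := fl_fr a (n - a) (pos (l (π ω')) (qa a (t (π ω')))) j
        rw [Nat.add_sub_cancel' h] at f1 f2
        have f3 : fl (n - a) (fun i => Int.fract (2 ^ a * pos (l (π ω)) (qa a (t (π ω))) i)) j =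
          fl (n - a) (fun i => Int.fract (2 ^ a * pos (l (π ω')) (qa a (t (π ω'))) i)) j :=
          congrFun e4 j
        have f4 := congrFun e0 j
        rw [f1, f2, f4] at f3
        linarith
      exact Prod.ext (Prod.ext e2 (Prod.ext e6 e5)) e3
    rw [b0]
    linarith
  -- the shape
  have k6 : Stk.hc P' (fun ω => (W.k ω, W.j ω))
      (fun ω => (((crs m W).k ω, (crs m W).j ω), (fl1 a (t (π ω)), (X ω, C (π ω))))) ≤
      2 * Real.log (m + 1) := by
    have g := Stk.hc_le_log P' (fun ω => (W.k ω, W.j ω))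
      (fun ω => (((crs m W).k ω, (crs m W).j ω), (fl1 a (t (π ω)), (X ω, C (π ω))))) ((m + 1) ^ 2)
      fun ω _ => ⟨(Finset.Icc ((crs m W).k ω) ((crs m W).k ω + m)) ×ˢ
        (Finset.Icc ((crs m W).j ω) ((crs m W).j ω + m)), by
          rw [Finset.card_product, Nat.card_Icc, Nat.card_Icc]
          have e1 : (crs m W).k ω + m + 1 - (crs m W).k ω = m + 1 := by omega
          have e2 : (crs m W).j ω + m + 1 - (crs m W).j ω = m + 1 := by omega
          rw [e1, e2]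
          exact (sq (m + 1)).ge, fun ω' hω' e => by
          simp only [Prod.mk.injEq] at e
          have e1 : (crs m W).k ω = min (W.k ω') (W.j ω' - m) := e.1.1.symm
          have e2 : (crs m W).j ω = W.j ω' - m := e.1.2.symm
          have e3 := (hW ω' hω').2.2.1
          rw [e1, e2]
          simp only [Finset.mem_product, Finset.mem_Icc]
          omega⟩
    have e : Real.log (((m + 1) ^ 2 : ℕ) : ℝ) = 2 * Real.log (m + 1) := by
      push_cast
      rw [Real.log_pow]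
      push_cast
      ring
    rwa [e] at g
  have k7 : Stk.hc P' (fun ω => (W.k ω, W.j ω)) (fun ω => (fl1 a (t (π ω)), (X ω, C (π ω)))) ≤
      Stk.hc P' (fun ω => ((crs m W).k ω, (crs m W).j ω)) (fun ω => (B ω, D ω)) +
        (2 * Real.log (m + 1) + 6 * Real.log 13) := by
    have b1 := Stk.hc_le_add' P' (fun ω => (W.k ω, W.j ω))
      (fun ω => ((crs m W).k ω, (crs m W).j ω)) (fun ω => (fl1 a (t (π ω)), (X ω, C (π ω))))
    have b2 := hc_cmp P' (fun ω => ((crs m W).k ω, (crs m W).j ω))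
      (fun ω => ((crs m W).k ω, (crs m W).j ω))
      (fun ω => (fl1 a (t (π ω)), (X ω, C (π ω)))) (fun ω => (B ω, D ω))
    have b3 : Stk.hc P' (fun ω => ((crs m W).k ω, (crs m W).j ω))
        (fun ω => (((crs m W).k ω, (crs m W).j ω), (fl1 a (t (π ω)), (X ω, C (π ω))))) = 0 :=
      Stk.hc_zero P' fun _ _ _ _ e => congrArg Prod.fst e
    have b4 : Stk.hc P' (fun ω => (B ω, D ω)) (fun ω => (fl1 a (t (π ω)), (X ω, C (π ω)))) ≤
        6 * Real.log 13 :=
      Lam.Ball.ball_of_tube P' a n h (fun ω => l (π ω)) (fun ω => t (π ω)) hl'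
        (fun ω hω => (hg' ω hω).2) (fun ω => C (π ω))
    linarith
  have k8 := mul_le_mul_of_nonneg_left k7 hΛ
  rw [mul_add] at k8
  unfold XFH cG
  have k9 : Stk.hc P' (fun ω => ((crs m W).k ω, (crs m W).j ω))
      (fun ω => (tb (n - a) (blF a l t (π ω)), (pq a (ptF l t (π ω)), C (π ω)))) =
      Stk.hc P' (fun ω => ((crs m W).k ω, (crs m W).j ω)) (fun ω => (B ω, D ω)) := rfl
  rw [k9] at k1
  have k10 : exVl lam P' ((tbx (n - a) (blF a l t)).comp π) (crs m W)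
      (fun ω => (pq a (ptF l t (π ω)), C (π ω))) =
      exVl lam P' ((tbx (n - a) (blF a l t)).comp π) (crs m W) D := rfl
  rw [k10] at k1
  linarith

/-- the constant of `EFH_soft` -/
noncomputable def cE : ℝ := 1 + 3 * Real.log (((2 * 5 + 1) ^ 4 : ℕ) : ℝ) + 4 * Real.log 13

/-- **direct value of a soft label of the state** -/
theorem EFH_soft {lam Λ : ℝ} (hΛ : 0 ≤ Λ) {P : Law Ω} {n a r : ℕ} (h : a + r ≤ n)
    {l : Ω → Ln} {t v : Ω → ℝ} (hg : GoodF P l t) (hv : ∀ ω, 0 < P.w ω → |v ω| ≤ 1) (C : Ω → γ) :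
    ∃ (Ω' : Type) (_ : Fintype Ω') (P' : Law Ω') (π : Ω' → Ω) (V : Bx Ω'),
      (∀ ω, P'.pr π ω = P.w ω) ∧
      (∀ ω, 0 < P'.w ω → Sub 2 ((tbx (n - a - r) (lnS a r l t v)).comp π) V ω) ∧
      EFH P lam Λ n a r l t v C ≤
        Stk.hc P' (fun ω => tb n (l (π ω))) (fun ω => (V.lab ω, (cell a r l t v (π ω), C (π ω)))) -
        Real.log 2 * P'.ex (fun ω => 2 * ((n : ℝ) - a) - (1 - lam) * r - V.szl lam ω) +
        Λ * Stk.hc P' (fun ω => (V.k ω, V.j ω))
          (fun ω => (tb n (l (π ω)), (cell a r l t v (π ω), C (π ω)))) + cE := by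
  obtain ⟨Ω', iΩ', P', π, V, h1, h2, h3, h4, h5⟩ := soft (lam := lam) (N := Λ) (P := P)
    (n := n - a - r) (l := lnS a r l t v) (fun ω => (cell a r l t v ω, C ω))
    (lnS_ok' P a r l t v)
  refine ⟨Ω', iΩ', P', π, V, h1, h2, ?_⟩
  have hp : ∀ ω, 0 < P'.w ω → 0 < P.w (π ω) := fun ω hω => by
    rw [← h1]
    exact P'.pr_pos π hω
  have hg' : GoodF P' (fun ω => l (π ω)) (fun ω => t (π ω)) := fun ω hω => hg (π ω) (hp ω hω)
  have hv' : ∀ ω, 0 < P'.w ω → |v (π ω)| ≤ 1 := fun ω hω => hv (π ω) (hp ω hω)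
  set K : ℝ := Real.log (((2 * 5 + 1) ^ 4 : ℕ) : ℝ) with hK
  set X : Ω' → _ := fun ω => tb n (l (π ω)) with hX
  set B : Ω' → _ := fun ω => tb (n - a - r) (lnS a r l t v (π ω)) with hB
  set D : Ω' → _ := fun ω => (cell a r l t v (π ω), C (π ω)) with hD
  have a1 : exVl lam P' ((tbx (n - a - r) (lnS a r l t v)).comp π) V D =
      Stk.hc P' B (fun ω => (V.lab ω, D ω)) -
        Real.log 2 * P'.ex (fun ω => 2 * ((n : ℝ) - a - r) - V.szl lam ω) := by
    have b1 : Stk.hc P' ((tbx (n - a - r) (lnS a r l t v)).comp π).lab (fun ω => (V.lab ω, D ω)) =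
        Stk.hc P' B (fun ω => (V.lab ω, D ω)) :=
      hc_tbx P' (n - a - r) (fun ω => lnS a r l t v (π ω)) _
    have b2 : (P'.ex fun ω => ((tbx (n - a - r) (lnS a r l t v)).comp π).szl lam ω - V.szl lam ω) =
        P'.ex fun ω => 2 * ((n : ℝ) - a - r) - V.szl lam ω := by
      refine P'.ex_congr fun ω _ => ?_
      have e1 : ((tbx (n - a - r) (lnS a r l t v)).comp π).szl lam ω =
          (1 + lam) * ((n - a - r : ℕ) : ℝ) + (1 - lam) * ((n - a - r : ℕ) : ℝ) := rfl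
      rw [e1, Nat.cast_sub (by omega), Nat.cast_sub (by omega)]
      ring
    unfold exVl
    rw [b1, b2]
  have a2 : RF P n a r l t v C = Stk.hc P' X (fun ω => (B ω, D ω)) :=
    (Stk.hc_of_law P' P π h1 (fun ω => tb n (l ω))
      (fun ω => (tb (n - a - r) (lnS a r l t v ω), (cell a r l t v ω, C ω)))).symm
  have a5 := h4 _ (fun ω => tb n (l ω))
  have a6 : Stk.hc P' X (fun ω => (B ω, D ω)) ≤
      Stk.hc P' X (fun ω => (V.lab ω, (B ω, D ω))) + 2 * K := by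
    have b1 := Stk.hc_pair P' X V.lab (fun ω => (B ω, D ω))
    have b2 := Stk.hc_pair P' V.lab X (fun ω => (B ω, D ω))
    have b3 : Stk.hc P' (fun ω => (X ω, V.lab ω)) (fun ω => (B ω, D ω)) =
        Stk.hc P' (fun ω => (V.lab ω, X ω)) (fun ω => (B ω, D ω)) :=
      Stk.hc_congr P' (fun _ _ _ _ e => by
        simp only [Prod.mk.injEq] at e ⊢
        exact ⟨e.1.2, e.1.1⟩) (fun _ _ _ _ e => by
        simp only [Prod.mk.injEq] at e ⊢
        exact ⟨e.1.2, e.1.1⟩) (fun _ _ _ _ e => e) (fun _ _ _ _ e => e)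
    have b4 : Stk.hc P' V.lab (fun ω => (B ω, D ω)) - 2 * K ≤
        Stk.hc P' V.lab (fun ω => (X ω, (B ω, D ω))) := a5
    linarith
  have a7 : Stk.hc P' B (fun ω => (X ω, (V.lab ω, D ω))) ≤ 4 * Real.log 13 := by
    have b1 := tube_of P' h hg' hv' (fun ω => C (π ω))
    refine le_trans (Stk.hc_mono_right P' _ ?_) b1
    intro ω ω' _ _ e
    simp only [Prod.mk.injEq] at e ⊢
    exact ⟨e.1, congrArg Prod.fst e.2.2, congrArg Prod.snd e.2.2⟩
  have a8 : Stk.hc P' B (fun ω => (V.lab ω, D ω)) +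
      Stk.hc P' X (fun ω => (V.lab ω, (B ω, D ω))) ≤
      Stk.hc P' X (fun ω => (V.lab ω, D ω)) + 4 * Real.log 13 := by
    have b1 := Stk.hc_pair P' B X (fun ω => (V.lab ω, D ω))
    have b2 := Stk.hc_pair P' X B (fun ω => (V.lab ω, D ω))
    have b3 : Stk.hc P' (fun ω => (B ω, X ω)) (fun ω => (V.lab ω, D ω)) =
        Stk.hc P' (fun ω => (X ω, B ω)) (fun ω => (V.lab ω, D ω)) :=
      Stk.hc_congr P' (fun _ _ _ _ e => by
        simp only [Prod.mk.injEq] at e ⊢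
        exact ⟨e.1.2, e.1.1⟩) (fun _ _ _ _ e => by
        simp only [Prod.mk.injEq] at e ⊢
        exact ⟨e.1.2, e.1.1⟩) (fun _ _ _ _ e => e) (fun _ _ _ _ e => e)
    have b4 : Stk.hc P' X (fun ω => (B ω, (V.lab ω, D ω))) =
        Stk.hc P' X (fun ω => (V.lab ω, (B ω, D ω))) :=
      Stk.hc_congr P' (fun _ _ _ _ e => congrArg Prod.fst e) (fun _ _ _ _ e => congrArg Prod.fst e)
        (fun _ _ _ _ e => by
          simp only [Prod.mk.injEq] at e ⊢
          exact ⟨e.2.1, e.1, e.2.2⟩) (fun _ _ _ _ e => by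
          simp only [Prod.mk.injEq] at e ⊢
          exact ⟨e.2.1, e.1, e.2.2⟩)
    linarith
  have a9 : Stk.hc P' (fun ω => (V.k ω, V.j ω)) (fun ω => (B ω, D ω)) ≤
      Stk.hc P' (fun ω => (V.k ω, V.j ω)) (fun ω => (X ω, D ω)) := by
    have b1 : Stk.hc P' (fun ω => (V.k ω, V.j ω)) (fun ω => (X ω, (B ω, D ω))) =
        Stk.hc P' (fun ω => (V.k ω, V.j ω)) (fun ω => (B ω, D ω)) := h5 _ (fun ω => tb n (l ω))
    rw [← b1]
    refine Stk.hc_mono_right P' _ fun ω ω' _ _ e => ?_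
    simp only [Prod.mk.injEq] at e ⊢
    exact ⟨e.1, e.2.2⟩
  have a10 := mul_le_mul_of_nonneg_left a9 hΛ
  have a11 : excH lam Λ P (n - a - r) (lnS a r l t v) (fun ω => (cell a r l t v ω, C ω)) - 1 - K ≤
      exVl lam P' ((tbx (n - a - r) (lnS a r l t v)).comp π) V D +
        Λ * Stk.hc P' (fun ω => (V.k ω, V.j ω)) (fun ω => (B ω, D ω)) := h3
  have a12 : P'.ex (fun ω => 2 * ((n : ℝ) - a) - (1 - lam) * r - V.szl lam ω) =
      P'.ex (fun ω => 2 * ((n : ℝ) - a - r) - V.szl lam ω) + (1 + lam) * r := by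
    have e : ((1 + lam) * (r : ℝ)) = P'.ex (fun _ => (1 + lam) * (r : ℝ)) := by rw [P'.ex_const]
    rw [e, ← P'.ex_add]
    refine P'.ex_congr fun ω _ => ?_
    ring
  have e13 : Real.log 2 * ((1 + lam) * (r : ℝ)) = (1 + lam) * r * Real.log 2 := by ring
  unfold EFH
  rw [a1] at a11
  rw [a2, a12, mul_add, e13]
  unfold cE
  rw [← hK]
  linarith

theorem abs_qa_le1 {v : ℝ} (hv : |v| ≤ 1) (r : ℕ) : |qa r v| ≤ 1 := by
  have b1 := abs_le.1 hv
  rw [abs_le]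
  refine ⟨?_, (qa_le _ _).trans b1.2⟩
  unfold qa fl1
  rw [le_div_iff₀ (by positivity)]
  have : -(2 ^ r : ℤ) ≤ ⌊(2 : ℝ) ^ r * v⌋ := by
    rw [Int.le_floor]
    push_cast
    have : (0:ℝ) < 2 ^ r := by positivity
    nlinarith [b1.1]
  have h3 : ((-(2 ^ r : ℤ) : ℤ) : ℝ) ≤ (⌊(2 : ℝ) ^ r * v⌋ : ℝ) := by exact_mod_cast this
  push_cast at h3
  linarith

/-- the point of the balls is known from the cell of the state -/
theorem hc_pq {T : Type*} (P : Law Ω) (a r : ℕ) {l : Ω → Ln} {t v : Ω → ℝ} (hg : GoodF P l t)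
    (hv : ∀ ω, 0 < P.w ω → |v ω| ≤ 1) (Z : Ω → T)
    (hZ : ∀ ω ω', Z ω = Z ω' → cell a r l t v ω = cell a r l t v ω') :
    Stk.hc P (fun ω => pq a (ptF l t ω)) Z ≤ 2 * Real.log 13 := by
  have h1 := hc_fl_apx P (ι := Fin 2) a 5 (fun ω => pos (l ω) (t ω)) Z (by
    intro ω ω' p p' e
    have e0 := hZ ω ω' e
    have e2 : fl1 r (v ω) = fl1 r (v ω') := congrArg (fun q => q.2.1) e0
    have e4 : fl a (shv r (v ω) (pos (l ω) (qa a (t ω)))) =
        fl a (shv r (v ω') (pos (l ω') (qa a (t ω')))) := congrArg (fun q => q.2.2.2) e0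
    have b0 := fl_close e4 0
    have b1 := fl_close e4 1
    rw [shv0, shv0] at b0
    rw [shv1, shv1, qa_congr e2] at b1
    have hq := abs_qa_le1 (hv ω' p') r
    set q := qa r (v ω') with hqd
    set u0 := pos (l ω) (qa a (t ω)) 0 with hu0
    set u1 := pos (l ω) (qa a (t ω)) 1 with hu1
    set w0 := pos (l ω') (qa a (t ω')) 0 with hw0
    set w1 := pos (l ω') (qa a (t ω')) 1 with hw1
    have hr : (1 : ℝ) ≤ 2 ^ r := one_le_pow₀ (by norm_num)
    have c1 : |(u1 - q * u0) - (w1 - q * w0)| ≤ (1 / 2 : ℝ) ^ a := by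
      have e5 : (2 : ℝ) ^ r * (u1 - q * u0) - 2 ^ r * (w1 - q * w0) =
          2 ^ r * ((u1 - q * u0) - (w1 - q * w0)) := by ring
      rw [e5, abs_mul, abs_of_pos (by positivity : (0:ℝ) < 2 ^ r)] at b1
      have := abs_nonneg ((u1 - q * u0) - (w1 - q * w0))
      nlinarith
    have c2 : |u1 - w1| ≤ 2 * (1 / 2 : ℝ) ^ a := by
      have e5 : u1 - w1 = ((u1 - q * u0) - (w1 - q * w0)) + q * (u0 - w0) := by ring
      rw [e5]
      refine (abs_add_le _ _).trans ?_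
      rw [abs_mul]
      have : |q| * |u0 - w0| ≤ 1 * (1 / 2 : ℝ) ^ a := mul_le_mul hq b0 (abs_nonneg _) zero_le_one
      linarith
    have a2 : ∀ (ω : Ω), 0 < P.w ω → ∀ j, |pos (l ω) (t ω) j - pos (l ω) (qa a (t ω)) j| ≤
        (1 / 2 : ℝ) ^ a := by
      intro ω hω j
      rw [pos_sub, abs_mul]
      have d1 := abs_sub_qa a (t ω)
      have d2 := (hg ω hω).1.2 j
      calc |t ω - qa a (t ω)| * |(l ω).2 j| ≤ (1 / 2 : ℝ) ^ a * 1 := by gcongr
        _ = _ := mul_one _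
    have h0 : (0 : ℝ) < (1 / 2) ^ a := by positivity
    have fin : ∀ x y x' y' : ℝ, |x - x'| ≤ (1 / 2 : ℝ) ^ a → |y - y'| ≤ (1 / 2 : ℝ) ^ a →
        |x' - y'| ≤ 2 * (1 / 2 : ℝ) ^ a → |x - y| ≤ ((5 : ℕ) : ℝ) * (1 / 2) ^ a := by
      intro x y x' y' g1 g2 g3
      rw [abs_le] at g1 g2 g3 ⊢
      push_cast
      constructor <;> linarith [g1.1, g1.2, g2.1, g2.2, g3.1, g3.2]
    rw [Fin.forall_fin_two]
    exact ⟨fin _ _ _ _ (a2 ω p 0) (a2 ω' p' 0) (by linarith),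
      fin _ _ _ _ (a2 ω p 1) (a2 ω' p' 1) c2⟩)
  have h2 : Stk.hc P (fun ω => pq a (ptF l t ω)) Z ≤
      Stk.hc P (fun ω => fl a (pos (l ω) (t ω))) Z + Stk.hc P (fun ω => fl1 a (t ω)) Z := by
    have b1 := hc_pair_le P (fun ω => fl1 a (t ω)) (fun ω => fl a (pos (l ω) (t ω))) Z
    have b2 : Stk.hc P (fun ω => pq a (ptF l t ω)) Z =
        Stk.hc P (fun ω => (fl1 a (t ω), fl a (pos (l ω) (t ω)))) Z := rfl
    linarith
  have h3 : Stk.hc P (fun ω => fl1 a (t ω)) Z = 0 :=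
    Stk.hc_zero P fun ω ω' _ _ e => congrArg Prod.fst (hZ ω ω' e)
  rw [Fintype.card_fin] at h1
  have h4 : ((2 : ℕ) : ℝ) * Real.log (2 * ((5 : ℕ) : ℝ) + 3) = 2 * Real.log 13 := by norm_num
  linarith

/-- the constant of `EFH_le_XFH` -/
noncomputable def cV (Λ : ℝ) : ℝ :=
  cE + cG Λ 2 + Kv 1 + 2 * Real.log 13 + 6 * Real.log 2 + Λ * Real.log 5

/-- **VIEW** : the functional of the state is at most the functional of the level -/
theorem EFH_le_XFH {lam Λ : ℝ} (hl : 0 ≤ lam ∧ lam ≤ 1) (hΛ : 0 ≤ Λ) {P : Law Ω} {n a r : ℕ}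
    (h : a + r ≤ n) {l : Ω → Ln} {t v : Ω → ℝ} (hg : GoodF P l t)
    (hv : ∀ ω, 0 < P.w ω → |v ω| ≤ 1) (C : Ω → γ) :
    EFH P lam Λ n a r l t v C ≤ XFH lam Λ P a n l t C + Λ * Real.log (r + 5) + cV Λ := by
  obtain ⟨Ω', iΩ', P', π, V, h1, h2, h3⟩ := EFH_soft (lam := lam) hΛ h hg hv C
  have hp : ∀ ω, 0 < P'.w ω → 0 < P.w (π ω) := fun ω hω => by
    rw [← h1]
    exact P'.pr_pos π hω
  have hg' : GoodF P' (fun ω => l (π ω)) (fun ω => t (π ω)) := fun ω hω => hg (π ω) (hp ω hω)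
  have hv' : ∀ ω, 0 < P'.w ω → |v (π ω)| ≤ 1 := fun ω hω => hv (π ω) (hp ω hω)
  have e0 : ∀ ω i, 2 ^ a * shv r (v (π ω)) (pos (l (π ω)) (qa a (t (π ω)))) i =
      Str.shv r (qa r (v (π ω))) (fun i => 2 ^ a * pos (l (π ω)) (qa a (t (π ω))) i) i := by
    intro ω i
    fin_cases i
    · rfl
    · show 2 ^ a * (2 ^ r * (pos (l (π ω)) (qa a (t (π ω))) 1 -
        qa r (v (π ω)) * pos (l (π ω)) (qa a (t (π ω))) 0)) =
        2 ^ r * (2 ^ a * pos (l (π ω)) (qa a (t (π ω))) 1 -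
          qa r (v (π ω)) * (2 ^ a * pos (l (π ω)) (qa a (t (π ω))) 0))
      ring
  have e1 : ∀ ω i, shv r (v (π ω)) (l (π ω)).2 i = Str.shv r (qa r (v (π ω))) (l (π ω)).2 i := by
    intro ω i
    fin_cases i <;> rfl
  obtain ⟨U, hU, hview, hsh⟩ := exists_unst P' V
    (fun ω i => 2 ^ a * pos (l (π ω)) (qa a (t (π ω))) i) (fun ω => (l (π ω)).2)
    (fun ω => qa r (v (π ω))) (fun _ => r)
    (fun ω i => (⌊Str.shv r (qa r (v (π ω))) (l (π ω)).2 i⌋ : ℝ)) (fun ω => blF a l t (π ω))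
    (fun ω hω => abs_qa_le1 (hv' ω hω) r) (fun _ _ _ => rfl) (fun _ _ _ => rfl)
    (fun ω hω i => by
      have b1 : V.l ω = lnS a r l t v (π ω) := (h2 ω hω).1
      rw [b1, ← e0]
      rfl)
    (fun ω hω i => by
      have b1 : V.l ω = lnS a r l t v (π ω) := (h2 ω hω).1
      rw [b1]
      show Int.fract (shv r (v (π ω)) (l (π ω)).2 i) = _
      rw [e1, Int.fract])
    (fun ω hω => (h2 ω hω).2.1) (fun ω hω => (h2 ω hω).2.2.1)
  set X : Ω' → _ := fun ω => tb n (l (π ω)) with hX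
  set D : Ω' → _ := fun ω => (cell a r l t v (π ω), C (π ω)) with hD
  set D' : Ω' → _ := fun ω => (pq a (ptF l t (π ω)), C (π ω)) with hD'
  have hdet : Det P' (fun ω i => 2 ^ a * pos (l (π ω)) (qa a (t (π ω))) i)
      (fun ω => qa r (v (π ω))) (fun _ => r)
      (fun ω i => (⌊Str.shv r (qa r (v (π ω))) (l (π ω)).2 i⌋ : ℝ)) D := by
    intro ω ω' _ _ e
    have c0 : cell a r l t v (π ω') = cell a r l t v (π ω) := congrArg Prod.fst e
    have c2 : fl1 r (v (π ω')) = fl1 r (v (π ω)) := congrArg (fun q => q.2.1) c0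
    have c3 : fl 0 (shv r (v (π ω')) (l (π ω')).2) = fl 0 (shv r (v (π ω)) (l (π ω)).2) :=
      congrArg (fun q => q.2.2.1) c0
    have c4 : fl a (shv r (v (π ω')) (pos (l (π ω')) (qa a (t (π ω'))))) =
        fl a (shv r (v (π ω)) (pos (l (π ω)) (qa a (t (π ω))))) :=
      congrArg (fun q => q.2.2.2) c0
    refine ⟨rfl, qa_congr c2, congrFun c4 0, ?_, ?_⟩
    · have d1 := congrFun c4 1
      have d2 : ⌊2 ^ a * shv r (v (π ω')) (pos (l (π ω')) (qa a (t (π ω')))) 1⌋ =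
        ⌊2 ^ a * shv r (v (π ω)) (pos (l (π ω)) (qa a (t (π ω)))) 1⌋ := d1
      rw [e0, e0] at d2
      exact d2
    · funext i
      have d1 := congrFun c3 i
      have d2 : ⌊(2:ℝ) ^ 0 * shv r (v (π ω')) (l (π ω')).2 i⌋ =
        ⌊(2:ℝ) ^ 0 * shv r (v (π ω)) (l (π ω)).2 i⌋ := d1
      rw [pow_zero, one_mul, one_mul, e1, e1] at d2
      show ((⌊Str.shv r (qa r (v (π ω'))) (l (π ω')).2 i⌋ : ℤ) : ℝ) =
        ((⌊Str.shv r (qa r (v (π ω))) (l (π ω)).2 i⌋ : ℤ) : ℝ)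
      rw [d2]
  have k1 : Stk.hc P' U.lab (fun ω => (V.lab ω, D ω)) ≤ Kv 1 := view_hc hview hdet
  -- the value
  have k2 : Stk.hc P' X (fun ω => (V.lab ω, D ω)) ≤
      Stk.hc P' X (fun ω => (U.lab ω, D' ω)) + (Kv 1 + 2 * Real.log 13) := by
    have b1 := hc_cmp P' X X (fun ω => (V.lab ω, D ω)) (fun ω => (U.lab ω, D' ω))
    have b2 : Stk.hc P' X (fun ω => (X ω, (V.lab ω, D ω))) = 0 :=
      Stk.hc_zero P' fun _ _ _ _ e => congrArg Prod.fst e
    have b3 := hc_pair_le P' U.lab D' (fun ω => (V.lab ω, D ω))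
    have b4 : Stk.hc P' D' (fun ω => (V.lab ω, D ω)) ≤ 2 * Real.log 13 := by
      have c1 : Stk.hc P' (fun ω => pq a (ptF l t (π ω))) (fun ω => (V.lab ω, D ω)) ≤
          2 * Real.log 13 :=
        hc_pq P' a r (l := fun ω => l (π ω)) (t := fun ω => t (π ω)) (v := fun ω => v (π ω))
          hg' hv' (fun ω => (V.lab ω, D ω)) fun ω ω' e => congrArg (fun q => q.2.1) e
      have c2 := hc_pair_le P' (fun ω => pq a (ptF l t (π ω))) (fun ω => C (π ω))
        (fun ω => (V.lab ω, D ω))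
      have c3 : Stk.hc P' (fun ω => C (π ω)) (fun ω => (V.lab ω, D ω)) = 0 :=
        Stk.hc_zero P' fun _ _ _ _ e => congrArg (fun q => q.2.2) e
      linarith
    linarith
  -- the sizes
  have k3 : P'.ex (fun ω => 2 * ((n : ℝ) - a) - U.szl lam ω) ≤
      P'.ex (fun ω => 2 * ((n : ℝ) - a) - (1 - lam) * r - V.szl lam ω) + 6 := by
    have e6 : (6 : ℝ) = P'.ex (fun _ => (6 : ℝ)) := by rw [P'.ex_const]
    rw [e6, ← P'.ex_add]
    refine P'.ex_mono fun ω hω => ?_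
    obtain ⟨-, c1, c2, c3, c4, c5, c6⟩ := hsh ω hω
    have d1 : (U.k ω : ℝ) + U.j ω ≤ V.k ω + V.j ω + r + 2 := by exact_mod_cast c1
    have d2 : (V.k ω : ℝ) + V.j ω + r ≤ U.k ω + U.j ω + 2 := by exact_mod_cast c2
    have d3 : (V.k ω : ℝ) ≤ U.k ω + 2 := by exact_mod_cast c3
    have d6 : (U.j ω : ℝ) ≤ V.j ω + r + 2 := by exact_mod_cast c6
    unfold Bx.szl
    nlinarith [hl.1, hl.2, mul_nonneg hl.1 (sub_nonneg.2 d3), mul_nonneg hl.1 (sub_nonneg.2 d6)]
  have k4 := mul_le_mul_of_nonneg_left k3 (Real.log_nonneg (by norm_num : (1:ℝ) ≤ 2))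
  rw [mul_add] at k4
  -- the shapes
  have k5 : Stk.hc P' (fun ω => (V.k ω, V.j ω)) (fun ω => (X ω, D ω)) ≤
      Stk.hc P' (fun ω => (U.k ω, U.j ω)) (fun ω => (fl1 a (t (π ω)), (X ω, C (π ω)))) +
        (Real.log (r + 5) + Real.log 5) := by
    have b1 := hc_via P' (fun ω => (V.k ω, V.j ω)) (fun ω => (U.k ω, U.j ω))
      (fun ω => (X ω, D ω))
    have b2 : Stk.hc P' (fun ω => (U.k ω, U.j ω)) (fun ω => (X ω, D ω)) ≤
        Stk.hc P' (fun ω => (U.k ω, U.j ω)) (fun ω => (fl1 a (t (π ω)), (X ω, C (π ω)))) :=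
      Stk.hc_mono_right P' _ fun ω ω' _ _ e => by
        have g1 : cell a r l t v (π ω) = cell a r l t v (π ω') := congrArg (fun q => q.2.1) e
        have g2 : fl1 a (t (π ω)) = fl1 a (t (π ω')) := congrArg Prod.fst g1
        have g3 : X ω = X ω' := congrArg Prod.fst e
        have g4 : C (π ω) = C (π ω') := congrArg (fun q => q.2.2) e
        exact Prod.ext g2 (Prod.ext g3 g4)
    have b3 : Stk.hc P' V.k (fun ω => ((U.k ω, U.j ω), (X ω, D ω))) ≤ Real.log (r + 5) := by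
      have g := Stk.hc_le_log P' V.k (fun ω => ((U.k ω, U.j ω), (X ω, D ω))) (r + 5)
        fun ω hω => ⟨Finset.Icc (U.k ω - (r + 2)) (U.k ω + 2), by
          rw [Nat.card_Icc]
          omega, fun ω' hω' e => by
          have e1 : U.k ω' = U.k ω := congrArg (fun q => q.1.1) e
          obtain ⟨-, -, -, c3, c4, -, -⟩ := hsh ω' hω'
          rw [Finset.mem_Icc]
          omega⟩
      push_cast at g
      exact g
    have b4 : Stk.hc P' V.j (fun ω => (V.k ω, ((U.k ω, U.j ω), (X ω, D ω)))) ≤ Real.log 5 := by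
      have g := Stk.hc_le_log P' V.j (fun ω => (V.k ω, ((U.k ω, U.j ω), (X ω, D ω)))) 5
        fun ω hω => ⟨Finset.Icc (U.k ω + U.j ω - (V.k ω + r + 2)) (U.k ω + U.j ω + 2 - (V.k ω + r)), by
          obtain ⟨-, c1, c2, c3, c4, -, -⟩ := hsh ω hω
          rw [Nat.card_Icc]
          omega, fun ω' hω' e => by
          have e1 : U.k ω' = U.k ω := congrArg (fun q => q.2.1.1) e
          have e2 : U.j ω' = U.j ω := congrArg (fun q => q.2.1.2) e
          have e3 : V.k ω' = V.k ω := congrArg Prod.fst e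
          obtain ⟨-, c1, c2, c3, c4, -, -⟩ := hsh ω' hω'
          rw [Finset.mem_Icc]
          omega⟩
      push_cast at g
      exact g
    have b5 : Stk.hc P' (fun ω => (V.k ω, V.j ω)) (fun ω => ((U.k ω, U.j ω), (X ω, D ω))) =
        Stk.hc P' V.k (fun ω => ((U.k ω, U.j ω), (X ω, D ω))) +
        Stk.hc P' V.j (fun ω => (V.k ω, ((U.k ω, U.j ω), (X ω, D ω)))) :=
      Stk.hc_pair P' V.k V.j (fun ω => ((U.k ω, U.j ω), (X ω, D ω)))
    linarith
  have k6 := mul_le_mul_of_nonneg_left k5 hΛ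
  rw [mul_add, mul_add] at k6
  -- the level functional
  have k7 := XFH_ge hl hΛ (show a ≤ n by omega) hg C h1 (W := U) 2 (fun ω hω => by
    obtain ⟨c0, -, -, -, -, -, c6⟩ := hsh ω hω
    have c7 : V.j ω ≤ n - a - r := (h2 ω hω).2.2.2.2.1
    refine ⟨by rw [hU], by linarith, hview.Uk ω hω, by omega⟩)
  unfold cV
  linarith

end Vale.Agent.P127.U.Pf
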