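import Vale.Agent.P127.U.Lam.FixDefs
import Vale.Agent.P127.U.Lam.ExcB
import Vale.Agent.P127.U.SubF
import Vale.Agent.P127.U.StrE

/-!
# P127 / U / Lam : reduction, part A (helper624)

* `LR` comparable boxes around close lines, `hc_lab_le` : few labels
* `ext_le` : the label of the level `0` from the label of the level `s`
* `val_le_exR` : the trivial bound `H(l | W, Z_s) - .. ≤ excR + 2 s + C`
-/

set_option autoImplicit false

namespace Vale.Agent.P127.U.Red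

open Filter Topology Vale.Agent.P127 Vale.Agent.P127.Stk Vale.Agent.P127.U Sys Str

/-! ### gauges -/

theorem gq_add_le (θ : ℝ) (k j : ℕ) (u v : Fin 2 → ℝ) :
    gq θ k j (fun i => u i + v i) ≤ 2 * gq θ k j u + 2 * gq θ k j v := by
  have e : ∀ i, co θ (fun i => u i + v i) i = co θ u i + co θ v i := by
    intro i
    fin_cases i <;> simp [co] <;> ring
  unfold gq
  rw [e, e]
  nlinarith [sq_nonneg ((2:ℝ) ^ k * co θ u 0 - 2 ^ k * co θ v 0),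
    sq_nonneg ((2:ℝ) ^ j * co θ u 1 - 2 ^ j * co θ v 1)]

theorem gq_smul (θ : ℝ) (k j : ℕ) (c : ℝ) (v : Fin 2 → ℝ) :
    gq θ k j (fun i => c * v i) = c ^ 2 * gq θ k j v := by
  have e : ∀ i, co θ (fun i => c * v i) i = c * co θ v i := by
    intro i
    fin_cases i <;> simp [co] <;> ring
  unfold gq
  rw [e, e]
  ring

/-- the gauge of a coarser box -/
theorem gq_coarse {θ θ' : ℝ} {k j k' j' m : ℕ} {c : ℝ} (hm : c ≤ 2 ^ m) (hkj : k ≤ j)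
    (h3 : |θ'| ≤ 4) (hkj' : k' ≤ j') (hk : k' ≤ k) (hj : j' ≤ j)
    (hs : |Real.sin (θ - θ')| * (1 / 2 : ℝ) ^ k ≤ c * (1 / 2 : ℝ) ^ j') (v : Fin 2 → ℝ) :
    gq θ' k' j' v ≤ ((2:ℝ) ^ (m + 1)) ^ 2 * gq θ k j v := by
  let B : Bx Unit := ⟨fun _ => (0, 0), fun _ => θ, fun _ => k, fun _ => j⟩
  let T : Bx Unit := ⟨fun _ => (0, 0), fun _ => θ', fun _ => k', fun _ => j'⟩
  exact gq_of_sub (B := B) (T := T) (ω := ()) hm hkj ⟨rfl, h3, hkj', hk, hj, hs⟩ v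

/-- change of the frame -/
theorem gq_frame {θ θ' : ℝ} {k j m : ℕ} {c : ℝ} (hm : c ≤ 2 ^ m) (hkj : k ≤ j)
    (h3 : |θ'| ≤ 4) (hs : |Real.sin (θ - θ')| ≤ c * (1 / 2 : ℝ) ^ (j - k)) (v : Fin 2 → ℝ) :
    gq θ' k j v ≤ ((2:ℝ) ^ (m + 1)) ^ 2 * gq θ k j v := by
  refine gq_coarse hm hkj h3 hkj le_rfl le_rfl ?_ v
  have e : (1 / 2 : ℝ) ^ j = (1 / 2) ^ (j - k) * (1 / 2) ^ k := by
    rw [← pow_add]; congr 1; omega
  rw [e, ← mul_assoc]
  exact mul_le_mul_of_nonneg_right hs (by positivity)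

/-! ### comparable boxes -/

section

variable {Ω : Type} {γ : Type*}

/-- the boxes at `ω'` and `ω` are comparable and the lines are close -/
def LR (m : ℕ) (B : Bx Ω) (ω ω' : Ω) : Prop :=
  (∀ v, gq (B.θ ω') (B.k ω') (B.j ω') v ≤ ((2:ℝ) ^ m) ^ 2 * gq (B.θ ω) (B.k ω) (B.j ω) v) ∧
  (∀ v, gq (B.θ ω) (B.k ω) (B.j ω) v ≤ ((2:ℝ) ^ m) ^ 2 * gq (B.θ ω') (B.k ω') (B.j ω') v) ∧
  gq (B.θ ω) (B.k ω) (B.j ω) (fun i => (B.l ω').1 i - (B.l ω).1 i) ≤ ((2:ℝ) ^ m) ^ 2 ∧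
  gq (B.θ ω) (B.k ω) (B.j ω) (fun i => (B.l ω').2 i - (B.l ω).2 i) ≤ ((2:ℝ) ^ m) ^ 2

/-- the constant for the number of labels -/
noncomputable def cL (m : ℕ) : ℝ :=
  Real.log (((2 * m + 1) * ((2 * m + 1) * (7 * ((2 * (2 ^ (2 * m + 1) + 1) + 1) *
    (2 * (2 ^ (2 * m + 1) + 1) + 1) ^ 4))) : ℕ) : ℝ)

theorem cL_nonneg (m : ℕ) : 0 ≤ cL m := by
  unfold cL
  apply Real.log_nonneg
  have : 1 ≤ (2 * m + 1) * ((2 * m + 1) * (7 * ((2 * (2 ^ (2 * m + 1) + 1) + 1) *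
    (2 * (2 ^ (2 * m + 1) + 1) + 1) ^ 4))) := Nat.succ_le_of_lt (by positivity)
  exact_mod_cast this

/-- boundedly many labels -/
theorem hc_lab_le [Fintype Ω] (P : Law Ω) (B : Bx Ω) (Y : Ω → γ) (m : ℕ)
    (hB : ∀ ω, 0 < P.w ω → |B.θ ω| ≤ 4 ∧ B.k ω ≤ B.j ω)
    (h : ∀ ω ω', 0 < P.w ω → 0 < P.w ω' → Y ω' = Y ω → LR m B ω ω') :
    Stk.hc P B.lab Y ≤ cL m := by
  refine Stk.hc_le_log P _ _ _ fun ω hω => ?_
  refine ⟨labF m (2 ^ (2 * m + 1) + 1) (B.θ ω) (B.k ω) (B.j ω) (B.l ω), card_labF _ _ _ _ _ _, ?_⟩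
  intro ω' hω' e
  obtain ⟨h1, h2, h3, h4⟩ := h ω ω' hω hω' e
  exact lab_mem (hB ω hω).1 (hB ω' hω').1 (hB ω hω).2 (hB ω' hω').2 h1 h2 h3 h4

theorem two_pow_sq_mono {m m' : ℕ} (h : m ≤ m') : ((2:ℝ) ^ m) ^ 2 ≤ ((2:ℝ) ^ m') ^ 2 :=
  pow_le_pow_left₀ (by positivity) (pow_le_pow_right₀ (by norm_num) h) 2

/-- same label -/
theorem LR_of_lab {B : Bx Ω} {ω ω' : Ω} (hk : B.k ω ≤ B.j ω) (e : B.lab ω' = B.lab ω) :
    LR 2 B ω ω' := by
  have e' := e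
  unfold Bx.lab lab at e'
  simp only [Prod.mk.injEq] at e'
  obtain ⟨e1, e2, e3, e4, e5⟩ := e'
  rw [e1, e2] at e3 e4 e5
  have eq' : qa (B.j ω - B.k ω) (B.θ ω') = qa (B.j ω - B.k ω) (B.θ ω) := by unfold qa; rw [e3]
  rw [eq'] at e4 e5
  have r1 : ∀ w, gq (B.θ ω') (B.k ω) (B.j ω) w ≤ 4 * gq (B.θ ω) (B.k ω) (B.j ω) w :=
    gq_rot hk (sin_of_fl1 e3)
  have r2 : ∀ w, gq (B.θ ω) (B.k ω) (B.j ω) w ≤ 4 * gq (B.θ ω') (B.k ω) (B.j ω) w :=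
    gq_rot hk (sin_of_fl1 e3.symm)
  unfold LR
  rw [e1, e2]
  have n1 : ∀ v, 0 ≤ gq (B.θ ω) (B.k ω) (B.j ω) v := fun v => gq_nonneg _ _ _ _
  have n2 : ∀ v, 0 ≤ gq (B.θ ω') (B.k ω) (B.j ω) v := fun v => gq_nonneg _ _ _ _
  refine ⟨fun v => (r1 v).trans ?_, fun v => (r2 v).trans ?_, ?_, ?_⟩
  · have := n1 v
    norm_num
    linarith
  · have := n2 v
    norm_num
    linarith
  · refine (gq_dig hk e4).trans (by norm_num)
  · refine (gq_dig hk e5).trans (by norm_num)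

/-- the box of level `0` of a box `W` of level `s` -/
def lev0 (l : Ω → Ln) (W : Bx Ω) : Bx Ω := ⟨l, W.θ, W.k, W.j⟩

/-- integer part of the position at the time `t_s` -/
noncomputable def ipF (s : ℕ) (l : Ω → Ln) (t : Ω → ℝ) : Ω → Fin 2 → ℤ :=
  fun ω => fl s (pos (l ω) (qa s (t ω)))

theorem qa_mem {s : ℕ} {t : ℝ} (h0 : 0 ≤ t) (h1 : t ≤ 1) : 0 ≤ qa s t ∧ qa s t ≤ 1 := by
  unfold qa fl1
  have h2 : (0 : ℝ) < 2 ^ s := by positivity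
  constructor
  · apply div_nonneg _ h2.le
    exact_mod_cast Int.floor_nonneg.2 (mul_nonneg h2.le h0)
  · rw [div_le_one h2]
    refine (Int.floor_le _).trans ?_
    nlinarith

theorem hc_ip [Fintype Ω] (P : Law Ω) {s : ℕ} {l : Ω → Ln} {t : Ω → ℝ} (h : GoodF P l t)
    (Y : Ω → γ) : Stk.hc P (ipF s l t) (fun ω => (pq s (ptF l t ω), Y ω)) ≤ 2 * Real.log 5 := by
  have h1 := hc_fl_close P (s := s) 1 (fun ω => pos (l ω) (qa s (t ω))) (fun ω => pos (l ω) (t ω))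
    (fun ω => (fl1 s (t ω), Y ω)) (fun ω hω i => by
      have h2 := qa_close s (t ω)
      have e : pos (l ω) (qa s (t ω)) i - pos (l ω) (t ω) i = -((t ω - qa s (t ω)) * (l ω).2 i) := by
        unfold pos; ring
      rw [e, abs_neg, abs_mul]
      push_cast
      calc |t ω - qa s (t ω)| * |(l ω).2 i| ≤ (1 / 2 : ℝ) ^ s * 1 :=
            mul_le_mul h2 ((h ω hω).1.2 i) (abs_nonneg _) (by positivity)
        _ = 1 * (1 / 2 : ℝ) ^ s := by ring)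
  simp only [Fintype.card_fin, Nat.cast_one, Nat.cast_ofNat] at h1
  norm_num at h1
  refine le_trans (Stk.hc_mono_right P _ ?_) h1
  intro ω ω' _ _ e
  simp only [Prod.mk.injEq, pq, ptF] at e ⊢
  exact ⟨e.1.2, e.1.1, e.2⟩

/-- the position at the time `t_s` from the integer part and the fractional part -/
theorem pos_split (s : ℕ) (l : Ω → Ln) (t : Ω → ℝ) (ω : Ω) (i : Fin 2) :
    pos (l ω) (qa s (t ω)) i =
      (1 / 2 : ℝ) ^ s * ((ipF s l t ω i : ℝ) + (blF s l t ω).1 i) := by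
  show pos (l ω) (qa s (t ω)) i = (1 / 2 : ℝ) ^ s * ((⌊(2 : ℝ) ^ s * pos (l ω) (qa s (t ω)) i⌋ : ℝ) +
    Int.fract ((2 : ℝ) ^ s * pos (l ω) (qa s (t ω)) i))
  rw [Int.floor_add_fract, ← mul_assoc, ← mul_pow]
  norm_num

/-- the label of the level `0` from the label of the level `s` -/
theorem lev0_LR {s : ℕ} {l : Ω → Ln} {t : Ω → ℝ} {W : Bx Ω} {ω ω' : Ω}
    (ht : 0 ≤ t ω ∧ t ω ≤ 1) (hk : W.k ω ≤ W.j ω)
    (hW : W.l ω = blF s l t ω) (hW' : W.l ω' = blF s l t ω')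
    (e : W.lab ω' = W.lab ω) (eI : ipF s l t ω' = ipF s l t ω) (et : fl1 s (t ω') = fl1 s (t ω)) :
    LR 4 (lev0 l W) ω ω' := by
  obtain ⟨a1, a2, a3, a4⟩ := LR_of_lab hk e
  have eq : qa s (t ω') = qa s (t ω) := by unfold qa; rw [et]
  set G := gq (W.θ ω) (W.k ω) (W.j ω) with hG
  have n1 : ∀ v, 0 ≤ gq (W.θ ω) (W.k ω) (W.j ω) v := fun v => gq_nonneg _ _ _ _
  have n2 : ∀ v, 0 ≤ gq (W.θ ω') (W.k ω') (W.j ω') v := fun v => gq_nonneg _ _ _ _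
  rw [hW, hW'] at a3 a4
  have a4' : G (fun i => (l ω').2 i - (l ω).2 i) ≤ 16 := by
    refine a4.trans (by norm_num)
  have a3' : G (fun i => (blF s l t ω').1 i - (blF s l t ω).1 i) ≤ 16 := a3.trans (by norm_num)
  have hx : G (fun i => (l ω').1 i - (l ω).1 i) ≤ 64 := by
    have e1 : (fun i => (l ω').1 i - (l ω).1 i) = fun i =>
        (1 / 2 : ℝ) ^ s * ((blF s l t ω').1 i - (blF s l t ω).1 i) +
          (-(qa s (t ω))) * ((l ω').2 i - (l ω).2 i) := by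
      funext i
      have p1 := pos_split s l t ω i
      have p2 := pos_split s l t ω' i
      rw [eI, eq] at p2
      have q1 : (l ω).1 i = pos (l ω) (qa s (t ω)) i - qa s (t ω) * (l ω).2 i := by
        unfold pos; ring
      have q2 : (l ω').1 i = pos (l ω') (qa s (t ω)) i - qa s (t ω) * (l ω').2 i := by
        unfold pos; ring
      rw [q1, q2, p1, p2]
      ring
    rw [e1]
    have h1 := gq_add_le (W.θ ω) (W.k ω) (W.j ω)
      (fun i => (1 / 2 : ℝ) ^ s * ((blF s l t ω').1 i - (blF s l t ω).1 i))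
      (fun i => (-(qa s (t ω))) * ((l ω').2 i - (l ω).2 i))
    have h2 := gq_smul (W.θ ω) (W.k ω) (W.j ω) ((1 / 2 : ℝ) ^ s)
      (fun i => (blF s l t ω').1 i - (blF s l t ω).1 i)
    have h3 := gq_smul (W.θ ω) (W.k ω) (W.j ω) (-(qa s (t ω)))
      (fun i => (l ω').2 i - (l ω).2 i)
    rw [h2, h3] at h1
    have c1 : ((1 / 2 : ℝ) ^ s) ^ 2 ≤ 1 :=
      pow_le_one₀ (by positivity) (pow_le_one₀ (by norm_num) (by norm_num))
    have c2 : (-(qa s (t ω))) ^ 2 ≤ 1 := by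
      rw [neg_sq]
      obtain ⟨u1, u2⟩ := qa_mem (s := s) ht.1 ht.2
      exact pow_le_one₀ u1 u2
    have g1 := n1 (fun i => (blF s l t ω').1 i - (blF s l t ω).1 i)
    have g2 := n1 (fun i => (l ω').2 i - (l ω).2 i)
    have d1 := mul_le_mul_of_nonneg_right c1 g1
    have d2 := mul_le_mul_of_nonneg_right c2 g2
    have b1 : gq (W.θ ω) (W.k ω) (W.j ω) (fun i => (blF s l t ω').1 i - (blF s l t ω).1 i) ≤ 16 := a3'
    have b2 : gq (W.θ ω) (W.k ω) (W.j ω) (fun i => (l ω').2 i - (l ω).2 i) ≤ 16 := a4'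
    refine h1.trans ?_
    linarith
  refine ⟨fun v => (a1 v).trans ?_, fun v => (a2 v).trans ?_, ?_, ?_⟩
  · exact mul_le_mul_of_nonneg_right (two_pow_sq_mono (by norm_num)) (n1 v)
  · exact mul_le_mul_of_nonneg_right (two_pow_sq_mono (by norm_num)) (n2 v)
  · refine le_trans (show _ ≤ (64:ℝ) from hx) (by norm_num)
  · refine le_trans (show _ ≤ (16:ℝ) from a4') (by norm_num)

theorem ext_le [Fintype Ω] (P : Law Ω) {s : ℕ} {l : Ω → Ln} {t : Ω → ℝ} {W : Bx Ω}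
    (h : GoodF P l t) (hW : ∀ ω, 0 < P.w ω → W.l ω = blF s l t ω ∧ |W.θ ω| ≤ 4 ∧ W.k ω ≤ W.j ω)
    (Y : Ω → γ) :
    Stk.hc P (lev0 l W).lab (fun ω => (W.lab ω, pq s (ptF l t ω), Y ω)) ≤
      cL 4 + 2 * Real.log 5 := by
  have h1 := Stk.hc_le_add' P (lev0 l W).lab (ipF s l t)
    (fun ω => (W.lab ω, pq s (ptF l t ω), Y ω))
  have h2 : Stk.hc P (ipF s l t) (fun ω => (W.lab ω, pq s (ptF l t ω), Y ω)) ≤ 2 * Real.log 5 := by
    refine le_trans (Stk.hc_mono_right P _ ?_) (hc_ip P h (fun ω => (W.lab ω, Y ω)))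
    intro ω ω' _ _ e
    simp only [Prod.mk.injEq] at e ⊢
    exact ⟨e.2.1, e.1, e.2.2⟩
  have h3 : Stk.hc P (lev0 l W).lab (fun ω => (ipF s l t ω, W.lab ω, pq s (ptF l t ω), Y ω)) ≤
      cL 4 := by
    refine hc_lab_le P _ _ 4 (fun ω hω => ⟨(hW ω hω).2.1, (hW ω hω).2.2⟩) ?_
    intro ω ω' p p' e
    simp only [Prod.mk.injEq, pq, ptF] at e
    exact lev0_LR (h ω p).2 (hW ω p).2.2 (hW ω p).1 (hW ω' p').1 e.2.1 e.1 e.2.2.1.1
  linarith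

end

end Vale.Agent.P127.U.Red
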