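import Vale.Agent.P127.U.Lam.HStep
import Vale.Agent.P127.U.Lam.HUp
import Vale.Agent.P127.U.Mic.Colp

/-!
# P127 / U / Lam : LIFT with a fine variable (helper864)

* `cq_cond`, `colp_cond_sum`, `colp_jensen` : collision probability as an average over the values of
  a variable.
* `mi_cond_cmp` : mutual information under a finer condition.
* `liftT` : labels for the laws conditioned on the shape data `E`, measured by a fine variable `T`,
  give one label for `excH`.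
-/

set_option autoImplicit false

namespace Vale.Agent.P127.U.LiftT

open Vale.Agent.P127 Vale.Agent.P127.Stk Vale.Agent.P127.U Mic Sys

section gen

variable {Ω : Type} [Fintype Ω] {S S' T T' U ι : Type*}

theorem cq_cond (P : Law Ω) (X : Ω → S) (Z : Ω → T) (E : Ω → ι) {e : ι} (he : 0 < P.pr E e)
    (x : S) (z : T) :
    cq (P.cond E e) X Z x z = cq P X (fun ω => (Z ω, E ω)) x (z, e) := by
  unfold cq
  rw [P.cond_pr E e he, P.cond_pr E e he, div_div_div_cancel_right₀ he.ne']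
  congr 1
  refine le_antisymm (Pin.pr_le_pr P fun ω h => ?_) (Pin.pr_le_pr P fun ω h => ?_)
  · simp only [Prod.mk.injEq] at h ⊢
    tauto
  · simp only [Prod.mk.injEq] at h ⊢
    tauto

/-- collision probability as an average over the values of `E` -/
theorem colp_cond_sum (P : Law Ω) (X : Ω → S) (Z : Ω → T) (E : Ω → ι) :
    ∑ e ∈ img E, P.pr E e * colp (P.cond E e) X Z = colp P X (fun ω => (Z ω, E ω)) := by
  have h1 : ∀ e ∈ img E, P.pr E e * colp (P.cond E e) X Z =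
      P.pr E e * (P.cond E e).ex (fun ω => cq P X (fun ω => (Z ω, E ω)) (X ω) (Z ω, E ω)) := by
    intro e _
    rcases (P.pr_nonneg E e).eq_or_lt with h0 | h0
    · rw [← h0, zero_mul, zero_mul]
    congr 1
    refine (P.cond E e).ex_congr fun ω hω => ?_
    rw [cq_cond P X Z E h0, JSB.cond_supp' P E e h0 hω]
  rw [Finset.sum_congr rfl h1, Lam.ex_cond_sum]
  rfl

/-- convexity -/
theorem colp_jensen (P : Law Ω) (X : Ω → S) (Z : Ω → T) (E : Ω → ι) :
    max 0 (1 - 3 * colp P X (fun ω => (Z ω, E ω))) ≤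
      ∑ e ∈ img E, P.pr E e * max 0 (1 - 3 * colp (P.cond E e) X Z) := by
  refine max_le (Finset.sum_nonneg fun e _ =>
    mul_nonneg (P.pr_nonneg E e) (le_max_left _ _)) ?_
  have h1 : ∑ e ∈ img E, P.pr E e * (1 - 3 * colp (P.cond E e) X Z) =
      1 - 3 * colp P X (fun ω => (Z ω, E ω)) := by
    rw [← colp_cond_sum P X Z E]
    simp only [mul_sub, Finset.sum_sub_distrib, mul_one, P.sum_pr_image E]
    rw [Finset.mul_sum]
    congr 1
    exact Finset.sum_congr rfl fun e _ => by ring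
  rw [← h1]
  exact Finset.sum_le_sum fun e _ =>
    mul_le_mul_of_nonneg_left (le_max_right _ _) (P.pr_nonneg E e)

/-- the mutual information under a finer condition -/
theorem mi_cond_cmp (P : Law Ω) (X : Ω → S) (Y : Ω → T) {Z : Ω → U} {Z' : Ω → T'}
    (hZ : Stk.Fn P Z Z') : Stk.mi P X Y Z' ≤ Stk.mi P X Y Z + Stk.hc P Z' Z := by
  unfold Stk.mi
  have h1 : Stk.hc P X Z' ≤ Stk.hc P X Z := Stk.hc_mono_right P X hZ
  have h2 := Stk.hc_le_add' P X Z' (fun ω => (Y ω, Z ω))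
  have h3 : Stk.hc P Z' (fun ω => (Y ω, Z ω)) ≤ Stk.hc P Z' Z :=
    Stk.hc_mono_right P Z' fun _ _ _ _ e => congrArg Prod.snd e
  have h4 : Stk.hc P X (fun ω => (Z' ω, (Y ω, Z ω))) ≤ Stk.hc P X (fun ω => (Y ω, Z' ω)) :=
    Stk.hc_mono_right P X fun ω ω' _ _ e => by
      simp only [Prod.mk.injEq] at e ⊢
      exact ⟨e.2.1, e.1⟩
  linarith

end gen

section lift

variable {lam Np : ℝ} {Ω : Type} [Fintype Ω] {γ : Type*} {Ω' : Type} [Fintype Ω']

/-- **LIFT** with a fine variable `T` -/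
theorem liftT {τ : Type*} {ι : Type} (hl : 0 ≤ lam) {κ : ℝ} (hκ : 0 < κ) (h1 : lam + κ ≤ 1)
    (hNp : 0 ≤ Np) {K : ℝ} (hK : 1 ≤ K) (hK2 : 2 * Np ≤ κ * Real.log 2 * K)
    {P : Law Ω} {n1 : ℕ} {l1 : Ω → Ln} {C1 : Ω → γ} {T : Ω → τ} {P' : Law Ω'} {π : Ω' → Ω}
    (hπ : ∀ ω, P'.pr π ω = P.w ω) (E : Ω' → ι) (kk JJ : ι → ℕ) (b : ι → ℝ) (K0 : ℕ)
    (hE : ∀ ω, 0 < P'.w ω → kk (E ω) ≤ JJ (E ω) ∧ JJ (E ω) ≤ n1)
    (hK0 : ∀ k j : ℕ, ∃ F : Finset ι, F.card ≤ K0 ∧
      ∀ ω, 0 < P'.w ω → kk (E ω) = k → JJ (E ω) = j → E ω ∈ F)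
    (hF : ∀ e, 0 < P'.pr E e → ∃ (Ω'' : Type) (_ : Fintype Ω'') (R : Law Ω'') (q : Ω'' → Ω')
      (A : Bx Ω''), (∀ w, R.pr q w = (P'.cond E e).w w) ∧
      (∀ w, 0 < R.w w → A.l w = l1 (π (q w)) ∧ |A.θ w| ≤ 4 ∧ A.k w ≤ A.j w ∧ kk e ≤ A.k w ∧
        A.j w ≤ JJ e) ∧
      b e ≤ Stk.hc R (fun w => T (π (q w))) (fun w => (A.lab w, C1 (π (q w)))) +
        Real.log 2 * R.ex (A.szl lam)) :
    ∑ e ∈ img E, P'.pr E e * b e +
        Np * Stk.hc P' E (fun ω => (tb n1 (l1 (π ω)), C1 (π ω))) ≤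
      excH (lam + κ) Np P n1 l1 C1 + Stk.hc P T (fun ω => (tb n1 (l1 ω), C1 ω)) +
        2 * n1 * Real.log 2 + κ * Real.log 2 * P'.ex (fun ω => (JJ (E ω) : ℝ) - kk (E ω)) +
        Np * (2 * Real.log K + 2 * Real.log 4 + Real.log K0) + 1 := by
  classical
  have hlam : 0 ≤ lam ∧ lam ≤ 1 := ⟨hl, by linarith⟩
  have hlift := Lam.lift hl hκ h1 hNp hK hK2 (P := P) (l := l1) (C := C1) (n := n1) P' π hπ E kk
    JJ 0 K0 (fun ω hω => by
      obtain ⟨a1, a2⟩ := hE ω hω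
      exact ⟨a1, by omega⟩) hK0
  simp only [zero_add, Nat.cast_zero, add_zero] at hlift
  -- every value
  have hb : ∀ e ∈ img E, P'.pr E e * b e ≤ P'.pr E e *
      (excR lam (P'.cond E e) n1 (fun ω => l1 (π ω)) (fun ω => C1 (π ω)) (kk e) (JJ e) +
        2 * n1 * Real.log 2 + Stk.hc (P'.cond E e) (fun ω => T (π ω))
          (fun ω => (tb n1 (l1 (π ω)), C1 (π ω)))) := by
    intro e _
    rcases (P'.pr_nonneg E e).eq_or_lt with h0 | h0
    · rw [← h0, zero_mul, zero_mul]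
    refine mul_le_mul_of_nonneg_left ?_ h0.le
    obtain ⟨Ω'', i, R, q, A, g1, g2, g3⟩ := hF e h0
    have hJ : JJ e ≤ n1 := by
      obtain ⟨ω, hω⟩ : ∃ ω, 0 < (P'.cond E e).w ω := by
        by_contra hcon
        push Not at hcon
        have h2 := (P'.cond E e).sum_one
        have h3 : ∑ ω, (P'.cond E e).w ω ≤ 0 := Finset.sum_nonpos fun ω _ => hcon ω
        linarith
      have h3 := JSB.cond_supp' P' E e h0 hω
      have h4 := hE ω (JSB.cond_supp P' E e hω)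
      rw [h3] at h4
      exact h4.2
    have k1 := Lam.exVl_le_excR hlam (P := P'.cond E e) (n := n1) (l := fun ω => l1 (π ω))
      (C := fun ω => C1 (π ω)) (k := kk e) (J := JJ e) g1 (A := A) (fun w hw => by
        obtain ⟨c1, c2, c3, c4, c5⟩ := g2 w hw
        have c6 : A.j w ≤ n1 := c5.trans hJ
        refine ⟨⟨c1, c2, c3, c3.trans c6, c6, ?_⟩, c4, c5⟩
        show |Real.sin ((0 : ℝ) - A.θ w)| * (1 / 2 : ℝ) ^ n1 ≤ 1 * (1 / 2 : ℝ) ^ (A.j w)
        have d1 := Real.abs_sin_le_one ((0 : ℝ) - A.θ w)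
        have d2 : (1 / 2 : ℝ) ^ n1 ≤ (1 / 2 : ℝ) ^ (A.j w) :=
          pow_le_pow_of_le_one (by norm_num) (by norm_num) c6
        have d3 : (0 : ℝ) < (1 / 2 : ℝ) ^ n1 := by positivity
        calc _ ≤ 1 * (1 / 2 : ℝ) ^ n1 := mul_le_mul_of_nonneg_right d1 d3.le
          _ ≤ _ := mul_le_mul_of_nonneg_left d2 zero_le_one)
    set X : Ω'' → _ := fun w => tb n1 (l1 (π (q w))) with hX
    have k3 : exVl lam R ((tbx n1 (fun ω => l1 (π ω))).comp q) A (fun w => C1 (π (q w))) =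
        Stk.hc R X (fun w => (A.lab w, C1 (π (q w)))) -
          Real.log 2 * (2 * n1 - R.ex (A.szl lam)) := by
      have b1 : Stk.hc R ((tbx n1 (fun ω => l1 (π ω))).comp q).lab
          (fun w => (A.lab w, C1 (π (q w)))) = Stk.hc R X (fun w => (A.lab w, C1 (π (q w)))) :=
        HX.hc_tbx R n1 (fun w => l1 (π (q w))) _
      have b2 : (R.ex fun w => ((tbx n1 (fun ω => l1 (π ω))).comp q).szl lam w - A.szl lam w) =
          2 * n1 - R.ex (A.szl lam) := by
        rw [R.ex_sub]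
        congr 1
        have : R.ex (((tbx n1 (fun ω => l1 (π ω))).comp q).szl lam) =
            R.ex fun _ => (2 * n1 : ℝ) := by
          refine R.ex_congr fun w _ => ?_
          show (1 + lam) * (n1 : ℝ) + (1 - lam) * (n1 : ℝ) = _
          ring
        rw [this, R.ex_const]
      unfold exVl
      rw [b1, b2]
    have k4 : Stk.hc R (fun w => T (π (q w))) (fun w => (A.lab w, C1 (π (q w)))) ≤
        Stk.hc R X (fun w => (A.lab w, C1 (π (q w)))) +
          Stk.hc (P'.cond E e) (fun ω => T (π ω)) (fun ω => (tb n1 (l1 (π ω)), C1 (π ω))) := by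
      have b1 := Stk.hc_le_add' R (fun w => T (π (q w))) X (fun w => (A.lab w, C1 (π (q w))))
      have b2 : Stk.hc R (fun w => T (π (q w))) (fun w => (X w, (A.lab w, C1 (π (q w))))) ≤
          Stk.hc R (fun w => T (π (q w))) (fun w => (X w, C1 (π (q w)))) :=
        Stk.hc_mono_right R _ fun w w' _ _ e => by
          simp only [Prod.mk.injEq] at e ⊢
          exact ⟨e.1, e.2.2⟩
      have b3 : Stk.hc R (fun w => T (π (q w))) (fun w => (X w, C1 (π (q w)))) =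
          Stk.hc (P'.cond E e) (fun ω => T (π ω)) (fun ω => (tb n1 (l1 (π ω)), C1 (π ω))) :=
        Stk.hc_of_law R (P'.cond E e) q g1 (fun ω => T (π ω))
          (fun ω => (tb n1 (l1 (π ω)), C1 (π ω)))
      linarith
    rw [k3] at k1
    nlinarith
  have hsum := Finset.sum_le_sum hb
  -- the fine variable
  have e3 := JSB.hc_cond_sum P' (fun ω => T (π ω)) (fun ω => (tb n1 (l1 (π ω)), C1 (π ω))) E
  have e4 : Stk.hc P' (fun ω => T (π ω)) (fun ω => ((tb n1 (l1 (π ω)), C1 (π ω)), E ω)) ≤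
      Stk.hc P' (fun ω => T (π ω)) (fun ω => (tb n1 (l1 (π ω)), C1 (π ω))) :=
    Stk.hc_mono_right P' _ fun _ _ _ _ e => congrArg Prod.fst e
  have e5 : Stk.hc P' (fun ω => T (π ω)) (fun ω => (tb n1 (l1 (π ω)), C1 (π ω))) =
      Stk.hc P T (fun ω => (tb n1 (l1 ω), C1 ω)) :=
    Stk.hc_of_law P' P π hπ T (fun ω => (tb n1 (l1 ω), C1 ω))
  have e6 : ∑ e ∈ img E, P'.pr E e *
      (excR lam (P'.cond E e) n1 (fun ω => l1 (π ω)) (fun ω => C1 (π ω)) (kk e) (JJ e) +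
        2 * n1 * Real.log 2 + Stk.hc (P'.cond E e) (fun ω => T (π ω))
          (fun ω => (tb n1 (l1 (π ω)), C1 (π ω)))) =
      ∑ e ∈ img E, P'.pr E e *
        excR lam (P'.cond E e) n1 (fun ω => l1 (π ω)) (fun ω => C1 (π ω)) (kk e) (JJ e) +
      2 * n1 * Real.log 2 + Stk.hc P' (fun ω => T (π ω))
        (fun ω => ((tb n1 (l1 (π ω)), C1 (π ω)), E ω)) := by
    rw [e3]
    simp only [mul_add, Finset.sum_add_distrib]
    rw [← Finset.sum_mul, P'.sum_pr_image E, one_mul]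
  rw [e6] at hsum
  linarith

end lift

end Vale.Agent.P127.U.LiftT
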