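import Vale.Agent.P127.U.Lam.RedB

/-!
# P127 / U / Lam : FIX-UP (helper420)

The trivial bound (no inequality used) for a label `W` of the level `s` of fixed shape `(k, j)`: the
box of the same frame and shape at level `0`.  Side information `C`.
-/

set_option autoImplicit false

namespace Vale.Agent.P127.U.Red

open Finset Vale.Agent.P127 Vale.Agent.P127.Stk Vale.Agent.P127.U

/-- the trivial bound for one law -/
theorem fix_up_one {lam : ℝ} (hl : 0 ≤ lam ∧ lam ≤ 1) {Ω : Type} [Fintype Ω] {γ : Type}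
    {P : Law Ω} {l : Ω → Ln} {t : Ω → ℝ} {s n k j : ℕ} {W : Bx Ω} (C : Ω → γ)
    (h : OkS P l t s n k j W) :
    Stk.hc P (fun ω => tb n (l ω)) (fun ω => (W.lab ω, pq s (ptF l t ω), C ω)) -
        Real.log 2 * (2 * ((n : ℝ) - s) - ((1 + lam) * k + (1 - lam) * j)) ≤
      2 * s * Real.log 2 + cE + excR lam P n l C k (s + j) := by
  have h1 := ext_le P (W := W) h.g (fun ω hω => by
    obtain ⟨a1, a2, a3, a4⟩ := h.w ω hω
    exact ⟨a1, a2, by rw [a3, a4]; exact h.kj⟩) C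
  have h2 := Stk.hc_le_add' P (fun ω => tb n (l ω)) (lev0 l W).lab
    (fun ω => (W.lab ω, pq s (ptF l t ω), C ω))
  have h3 : Stk.hc P (fun ω => tb n (l ω))
      (fun ω => ((lev0 l W).lab ω, (W.lab ω, pq s (ptF l t ω), C ω))) ≤
      Stk.hc P (fun ω => tb n (l ω)) (fun ω => ((lev0 l W).lab ω, C ω)) := by
    refine Stk.hc_mono_right P _ fun ω ω' _ _ e => ?_
    simp only [Prod.mk.injEq] at e ⊢
    exact ⟨e.1, e.2.2.2⟩
  have h4 : (P.ex fun ω => (lev0 l W).szl lam ω) = (1 + lam) * k + (1 - lam) * j := by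
    rw [← P.ex_const ((1 + lam) * (k : ℝ) + (1 - lam) * j)]
    refine P.ex_congr fun ω hω => ?_
    obtain ⟨-, -, a3, a4⟩ := h.w ω hω
    show (1 + lam) * ((W.k ω : ℕ) : ℝ) + (1 - lam) * ((W.j ω : ℕ) : ℝ) = _
    rw [a3, a4]
  have h5 : exVl lam P (tbx n l) (lev0 l W) C =
      Stk.hc P (fun ω => tb n (l ω)) (fun ω => ((lev0 l W).lab ω, C ω)) -
        Real.log 2 * (2 * (n : ℝ) - ((1 + lam) * k + (1 - lam) * j)) := by
    unfold exVl
    rw [hc_tbx]
    have e : (P.ex fun ω => (tbx n l).szl lam ω - (lev0 l W).szl lam ω) =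
        2 * (n : ℝ) - ((1 + lam) * k + (1 - lam) * j) := by
      rw [P.ex_sub, h4]
      have : (P.ex fun ω => (tbx n l).szl lam ω) = 2 * (n : ℝ) := by
        rw [show (fun ω => (tbx n l).szl lam ω) = fun _ => 2 * (n : ℝ) from by
          funext ω
          show (1 + lam) * (n : ℝ) + (1 - lam) * (n : ℝ) = 2 * n
          ring]
        exact P.ex_const _
      rw [this]
    rw [e]
  have h6 : exVl lam P (tbx n l) (lev0 l W) C ≤ excR lam P n l C k (s + j) := by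
    refine exV_le_excR hl (π := id) (C := C) (Stk.pr_id P) fun ω hω => ?_
    obtain ⟨-, a2, a3, a4⟩ := h.w ω hω
    have hkj : W.k ω ≤ W.j ω := by rw [a3, a4]; exact h.kj
    have hjn : W.j ω ≤ n := by
      rw [a4]
      have := h.sn
      omega
    refine ⟨sub_tbx (A := lev0 l W) rfl a2 hkj hjn, ?_, ?_⟩
    · show k ≤ W.k ω
      rw [a3]
    · show W.j ω ≤ s + j
      rw [a4]
      omega
  rw [h5] at h6
  unfold cE
  have e : Real.log 2 * (2 * ((n : ℝ) - s) - ((1 + lam) * k + (1 - lam) * j)) =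
    Real.log 2 * (2 * (n : ℝ) - ((1 + lam) * k + (1 - lam) * j)) - 2 * s * Real.log 2 := by ring
  rw [e]
  linarith

/-- **FIX-UP** : labels of the level `s` of fixed shape, without the inequality -/
theorem fix_up {lam : ℝ} (hl : 0 ≤ lam ∧ lam ≤ 1) :
    ∃ c : ℝ, ∀ (Ω : Type) [Fintype Ω] (γ : Type) (P : Law Ω) (l : Ω → Ln)
      (t : Ω → ℝ) (s n k j : ℕ) (W : Bx Ω) (C : Ω → γ),
      GoodF P l t → k ≤ j → s + j ≤ n →
      (∀ ω, 0 < P.w ω → W.l ω = blF s l t ω ∧ |W.θ ω| ≤ 4 ∧ W.k ω = k ∧ W.j ω = j) →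
      Stk.hc P (fun ω => tb n (l ω)) (fun ω => (W.lab ω, pq s (ptF l t ω), C ω)) -
          Real.log 2 * (2 * ((n : ℝ) - s) - ((1 + lam) * k + (1 - lam) * j)) ≤
        2 * s * Real.log 2 + c + excR lam P n l C k (s + j) :=
  ⟨cE, fun _ _ _ _ _ _ _ _ _ _ _ C hg hkj hsn hW => fix_up_one hl C ⟨hg, hkj, hsn, hW⟩⟩

end Vale.Agent.P127.U.Red
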