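import Vale.Agent.P127.U.Lam.LipE
import Vale.Agent.P127.U.Lam.FixUp
import Vale.Agent.P127.U.Mic.Colp

/-!
# P127 / U / Lam : LIP for a label of fixed shape at the origin (helper513)

* `LD` : data: `U` a box of the ball system of level `w` (`U.l = blF w l t`) of fixed shape `(k2, j2)`,
  in the slab of slope `v` and depth `ρ` (`k, j` the exponents of the stretched label).
* `lipF` : its value is at most `excR` at the origin `+ 2 w log 2 - lam (ρ - d) log 2 (1 - 3 colp)^+`,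
  where `colp` is the collision probability of `fl1 d v` given `(tb n l, C)`.
-/

set_option autoImplicit false

namespace Vale.Agent.P127.U.Lip

open Vale.Agent.P127 Vale.Agent.P127.Stk Vale.Agent.P127.U Apx C2 SubF

theorem two_floor {d ρ : ℕ} (h : d ≤ ρ) (v : ℝ) :
    (fl1 d v : ℝ) ≤ 2 ^ d * qa ρ v ∧ (2 : ℝ) ^ d * qa ρ v < fl1 d v + 1 := by
  have hρ : (0 : ℝ) < 2 ^ ρ := by positivity
  have hd : (0 : ℝ) < 2 ^ d := by positivity
  have e : (2 : ℝ) ^ ρ = 2 ^ (ρ - d) * 2 ^ d := by rw [← pow_add, Nat.sub_add_cancel h]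
  have a1 : (fl1 d v : ℝ) ≤ 2 ^ d * v := Int.floor_le _
  have a2 : (2 : ℝ) ^ d * v < fl1 d v + 1 := Int.lt_floor_add_one _
  have hq : (0 : ℝ) < 2 ^ (ρ - d) := by positivity
  constructor
  · have h1 : (2 ^ (ρ - d) * fl1 d v : ℤ) ≤ fl1 ρ v := by
      unfold fl1
      rw [Int.le_floor]
      push_cast
      rw [e, mul_assoc]
      exact mul_le_mul_of_nonneg_left a1 hq.le
    have h2 : (2 : ℝ) ^ (ρ - d) * fl1 d v ≤ fl1 ρ v := by exact_mod_cast h1
    unfold qa
    rw [e, mul_div_assoc', mul_comm ((2 : ℝ) ^ d), mul_div_mul_right _ _ hd.ne', le_div_iff₀ hq]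
    linarith
  · have h1 : qa ρ v ≤ v := qa_le ρ v
    have h2 := mul_le_mul_of_nonneg_left h1 hd.le
    linarith

/-- distance of two directions in terms of the slopes -/
theorem sin_arctan (s s' : ℝ) (h : |s| ≤ 1) (h' : |s'| ≤ 1) :
    |s' - s| / 2 ≤ |Real.sin (Real.arctan s' - Real.arctan s)| := by
  rw [Real.sin_sub]
  have e1 : Real.sin (Real.arctan s) = s * Real.cos (Real.arctan s) := by
    have := Real.tan_mul_cos (Real.cos_arctan_pos s).ne'
    rw [Real.tan_arctan] at this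
    exact this.symm
  have e2 : Real.sin (Real.arctan s') = s' * Real.cos (Real.arctan s') := by
    have := Real.tan_mul_cos (Real.cos_arctan_pos s').ne'
    rw [Real.tan_arctan] at this
    exact this.symm
  rw [e1, e2]
  have e3 : s' * Real.cos (Real.arctan s') * Real.cos (Real.arctan s) -
      Real.cos (Real.arctan s') * (s * Real.cos (Real.arctan s)) =
      (s' - s) * (Real.cos (Real.arctan s') * Real.cos (Real.arctan s)) := by ring
  rw [e3, abs_mul]
  have g : ∀ x : ℝ, |x| ≤ 1 → 1 / 2 ≤ Real.cos (Real.arctan x) ^ 2 := by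
    intro x hx
    rw [Real.cos_sq_arctan]
    have : x ^ 2 ≤ 1 := by
      rw [← sq_abs]
      exact pow_le_one₀ (abs_nonneg _) hx
    rw [div_le_div_iff₀ (by norm_num) (by positivity)]
    linarith
  have c1 := Real.cos_arctan_pos s
  have c2 := Real.cos_arctan_pos s'
  have g1 := g s h
  have g2 := g s' h'
  have g3 : 1 / 2 ≤ Real.cos (Real.arctan s') * Real.cos (Real.arctan s) := by
    have : (1 / 2 : ℝ) ^ 2 ≤ (Real.cos (Real.arctan s') * Real.cos (Real.arctan s)) ^ 2 := by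
      rw [mul_pow]
      nlinarith
    exact abs_le_of_sq_le_sq' this (by positivity) |>.2
  rw [abs_of_pos (mul_pos c2 c1)]
  have := abs_nonneg (s' - s)
  nlinarith

/-- the angle to the direction of the slab -/
theorem sin_sub_arctan (θ s : ℝ) :
    |Real.sin (θ - Real.arctan s)| ≤ |Real.sin θ - s * Real.cos θ| := by
  rw [Real.sin_sub]
  have e1 : Real.sin (Real.arctan s) = s * Real.cos (Real.arctan s) := by
    have := Real.tan_mul_cos (Real.cos_arctan_pos s).ne'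
    rw [Real.tan_arctan] at this
    exact this.symm
  rw [e1]
  have e3 : Real.sin θ * Real.cos (Real.arctan s) - Real.cos θ * (s * Real.cos (Real.arctan s)) =
      (Real.sin θ - s * Real.cos θ) * Real.cos (Real.arctan s) := by ring
  rw [e3, abs_mul]
  exact mul_le_of_le_one_right (abs_nonneg _) (Real.abs_cos_le_one _)

variable {Ω : Type} [Fintype Ω] {γ : Type} {V : Type*}

/-- data: `U` a box of the ball system of fixed shape, in the slab -/
structure LD (P : Law Ω) (l : Ω → Ln) (t v : Ω → ℝ) (n w ρ k j k2 j2 : ℕ) (U : Bx Ω) : Prop where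
  g : GoodF P l t
  v1 : ∀ ω, 0 < P.w ω → |v ω| ≤ 1
  n1 : w + j2 ≤ n
  kj2 : k2 ≤ j2
  kj : k ≤ j
  e1 : k + j + ρ ≤ k2 + j2 + 6
  e2 : k ≤ k2 + 2
  e3 : k2 ≤ j + 3
  u : ∀ ω, 0 < P.w ω → U.l ω = blF w l t ω ∧ |U.θ ω| ≤ 4 ∧ U.k ω = k2 ∧ U.j ω = j2 ∧
      |Real.sin (U.θ ω) - qa ρ (v ω) * Real.cos (U.θ ω)| * (2:ℝ) ^ (ρ + k) ≤ 2 ^ 3 * 2 ^ k2

/-- the constant -/
noncomputable def cF : ℝ := Red.cE + 53 + 24

/-- **LIP for a label of fixed shape at the origin** -/
def PLipF : Prop :=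
  ∀ lam : ℝ, 0 ≤ lam ∧ lam ≤ 1 → ∀ (Ω : Type) [Fintype Ω] (γ V : Type) (P : Law Ω) (l : Ω → Ln)
    (t v : Ω → ℝ) (n w ρ d k j k2 j2 : ℕ) (U : Bx Ω) (C : Ω → γ) (Y : Ω → V),
    LD P l t v n w ρ k j k2 j2 U → d ≤ ρ →
    Stk.hc P (fun ω => tb n (l ω)) Y -
        Real.log 2 * (2 * ((n : ℝ) - w) - (1 - lam) * ρ - ((1 + lam) * k + (1 - lam) * j)) ≤
      2 * w * Real.log 2 + (cF + 2 * Real.log (d + 6)) +
        Stk.hc P (fun ω => (U.lab ω, pq w (ptF l t ω), C ω)) Y + excR lam P n l C k2 j2 -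
        Real.log 2 * (lam * (((ρ : ℝ) - d) *
          max 0 (1 - 3 * Mic.colp P (fun ω => fl1 d (v ω)) (fun ω => (tb n (l ω), C ω)))))

end Vale.Agent.P127.U.Lip
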