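import Vale.Agent.P127.U.H560.LipO
import Vale.Agent.P127.U.Lam.LipF
import Vale.Agent.P127.U.Lam.IncA
import Vale.Agent.P127.U.Lam.PathM

/-!
# P127 / U / Lam : the data of LIP in a state (helper513, for helper560)

* `fx_state` : a box of fixed shape around the line of the state `(a, r)`, in the slab of depth `R`.
-/

set_option autoImplicit false

namespace Vale.Agent.P127.U.LipS

open Vale.Agent.P127 Vale.Agent.P127.Stk Vale.Agent.P127.U Pf LipO Inc

/-- far integers give far slopes -/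
theorem far_qa {d R : ℕ} (hd : d ≤ R) {v v' : ℝ} (hz : 2 ≤ |fl1 d v' - fl1 d v|) :
    (1 / 2 : ℝ) ^ d ≤ |qa R v' - qa R v| := by
  obtain ⟨f1, f2⟩ := Lip.two_floor hd v
  obtain ⟨g1, g2⟩ := Lip.two_floor hd v'
  have hd0 : (0 : ℝ) < 2 ^ d := by positivity
  have h1 : 1 ≤ 2 ^ d * |qa R v' - qa R v| := by
    rcases le_abs'.1 hz with h | h
    · have h' : (fl1 d v' : ℝ) - fl1 d v ≤ -2 := by exact_mod_cast h
      have h2 : 2 ^ d * (qa R v' - qa R v) ≤ -1 := by
        rw [mul_sub]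
        linarith
      have h3 := neg_abs_le (qa R v' - qa R v)
      have h4 := mul_le_mul_of_nonneg_left h3 hd0.le
      linarith
    · have h' : (2 : ℝ) ≤ (fl1 d v' : ℝ) - fl1 d v := by exact_mod_cast h
      have h2 : 1 ≤ 2 ^ d * (qa R v' - qa R v) := by
        rw [mul_sub]
        linarith
      have h3 := le_abs_self (qa R v' - qa R v)
      have h4 := mul_le_mul_of_nonneg_left h3 hd0.le
      linarith
  rw [one_div, inv_pow, inv_eq_one_div, div_le_iff₀ hd0]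
  linarith

variable {Ω : Type} [Fintype Ω] {P : Law Ω} {l : Ω → Ln} {t v : Ω → ℝ}

/-- **the data of LIP in a state** -/
theorem fx_state {n a r R d x z q : ℕ} {B : Bx Ω}
    (hr : ∀ ω ω', 0 < P.w ω → 0 < P.w ω' → tb n (l ω) = tb n (l ω') → l ω = l ω') (hd : d ≤ R)
    (hB : ∀ ω, 0 < P.w ω → B.l ω = lnS a r l t v ω ∧ |B.θ ω| ≤ 4 ∧ B.k ω = z ∧ B.j ω = q ∧
      |Real.sin (B.θ ω) - qa R (tfF r v ω) * Real.cos (B.θ ω)| * (2:ℝ) ^ (R + x) ≤ 2 ^ 3 * 2 ^ z)
    (hzq : z ≤ q) (h1 : x ≤ z + 2) (h2 : 2 * x + R ≤ z + q + 6) :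
    LipO.Fx P (fun ω => tb n (l ω)) (fun ω => (cell a r l t v ω, ())) B
      (fun ω => qa R (tfF r v ω)) (fun ω => fl1 (r + d) (v ω)) z q x R d 6 where
  kj := hzq
  shp := fun ω hω => ⟨(hB ω hω).2.2.1, (hB ω hω).2.2.2.1, (hB ω hω).2.1⟩
  line := fun ω ω' p p' e e' => by
    have e0 : l ω' = l ω := hr ω' ω p' p e
    have e1 : cell a r l t v ω' = cell a r l t v ω := congrArg Prod.fst e'
    have c1 : fl1 a (t ω') = fl1 a (t ω) := congrArg Prod.fst e1
    have c2 : fl1 r (v ω') = fl1 r (v ω) := congrArg (fun q => q.2.1) e1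
    have q1 : qa a (t ω') = qa a (t ω) := by unfold qa; rw [c1]
    have q2 : qa r (v ω') = qa r (v ω) := by unfold qa; rw [c2]
    rw [(hB ω p).1, (hB ω' p').1]
    show st1 a r (l ω') (t ω') (v ω') = st1 a r (l ω) (t ω) (v ω)
    unfold st1 Pf.shv
    rw [e0, q1, q2]
  kpk := by omega
  sum := by omega
  hδ := hd
  u1 := fun ω _ => qa_abs (tfF_abs r v ω)
  dir := fun ω hω => by
    refine (hB ω hω).2.2.2.2.trans ?_
    exact mul_le_mul_of_nonneg_right (pow_le_pow_right₀ (by norm_num) (by norm_num)) (by positivity)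
  far := fun ω ω' _ _ _ e' hz => by
    have e1 : cell a r l t v ω' = cell a r l t v ω := congrArg Prod.fst e'
    have c2 : fl1 r (v ω') = fl1 r (v ω) := congrArg (fun q => q.2.1) e1
    refine far_qa hd ?_
    have f1 : fl1 d (tfF r v ω) = fl1 (r + d) (v ω) - 2 ^ d * fl1 r (v ω) := fl1_fr r d (v ω)
    have f2 : fl1 d (tfF r v ω') = fl1 (r + d) (v ω') - 2 ^ d * fl1 r (v ω') := fl1_fr r d (v ω')
    rw [f1, f2, c2]
    have e3 : fl1 (r + d) (v ω') - 2 ^ d * fl1 r (v ω) - (fl1 (r + d) (v ω) - 2 ^ d * fl1 r (v ω)) =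
        fl1 (r + d) (v ω') - fl1 (r + d) (v ω) := by ring
    rw [e3]
    exact hz

end Vale.Agent.P127.U.LipS
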