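import Vale.Agent.P127.U.Lam.IncA

/-!
# P127 / U / Lam : LIP, the refund (helper864)

`refund` : the price of the entropy of the shape at the fine state, minus the reward at the coarse
state, is at most minus the mutual information of the state and the shape.
-/

set_option autoImplicit false

namespace Vale.Agent.P127.U.LipS

open Vale.Agent.P127 Vale.Agent.P127.Stk Vale.Agent.P127.U Vale.Agent.P127.U.Apx Pf Inc

/-- the coarse state line is a function of the line and of the state -/
theorem coarse_of {Ω : Type} [Fintype Ω] {P : Law Ω} {l : Ω → Ln} {t v : Ω → ℝ} {n a r : ℕ}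
    (hr : Inc.Rnd P l n) {ω ω' : Ω} (hω : 0 < P.w ω) (hω' : 0 < P.w ω')
    (e : tb n (l ω) = tb n (l ω')) (e' : st t v a r ω = st t v a r ω') :
    lnS a r l t v ω = lnS a r l t v ω' ∧ cell a r l t v ω = cell a r l t v ω' := by
  have h1 : l ω = l ω' := hr ω ω' hω hω' e
  have h2 : fl1 a (t ω) = fl1 a (t ω') := congrArg Prod.fst e'
  have h3 : fl1 r (v ω) = fl1 r (v ω') := congrArg Prod.snd e'
  have q1 : qa a (t ω) = qa a (t ω') := by unfold qa; rw [h2]
  have s1 : ∀ x : Fin 2 → ℝ, shv r (v ω) x = shv r (v ω') x := fun x => by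
    unfold shv qa
    rw [h3]
  constructor
  · show st1 a r (l ω) (t ω) (v ω) = st1 a r (l ω') (t ω') (v ω')
    unfold st1
    rw [h1, q1]
    simp only [s1]
  · show cell1 a r (l ω) (t ω) (v ω) = cell1 a r (l ω') (t ω') (v ω')
    unfold cell1
    rw [h1, h2, h3, q1]
    simp only [s1]

theorem refund {Ω : Type} [Fintype Ω] {P : Law Ω} {l : Ω → Ln} {t v : Ω → ℝ} {n a w r R : ℕ}
    (hr : Inc.Rnd P l n) {α β : Type*} (S : Ω → α) (S0 : Ω → β)
    (h0 : ∀ ω ω', S ω = S ω' → S0 ω = S0 ω') :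
    Stk.hc P S0 (fun ω => (tb n (l ω), (cell (a + w) (r + R) l t v ω, ()))) -
        Stk.hc P S (fun ω => (tb (n - a - r) (lnS a r l t v ω), (cell a r l t v ω, ()))) ≤
      -mi P (st t v (a + w) (r + R)) S (fun ω => (tb n (l ω), st t v a r ω)) := by
  rw [Stk.mi_symm]
  unfold Stk.mi
  have h1 : Stk.hc P S (fun ω => (tb n (l ω), st t v a r ω)) ≤
      Stk.hc P S (fun ω => (tb (n - a - r) (lnS a r l t v ω), (cell a r l t v ω, ()))) :=
    Stk.hc_mono_right P S fun ω ω' hω hω' e => by
      obtain ⟨c1, c2⟩ := coarse_of (a := a) (r := r) (t := t) (v := v) hr hω hω'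
        (congrArg Prod.fst e) (congrArg Prod.snd e)
      rw [c1, c2]
  have h2 : Stk.hc P S0 (fun ω => (tb n (l ω), (cell (a + w) (r + R) l t v ω, ()))) ≤
      Stk.hc P S (fun ω => (st t v (a + w) (r + R) ω, (tb n (l ω), st t v a r ω))) := by
    refine (Stk.hc_mono_left P fun ω ω' _ _ e => ?_ :
      Stk.hc P S0 (fun ω => (tb n (l ω), (cell (a + w) (r + R) l t v ω, ()))) ≤
      Stk.hc P S (fun ω => (tb n (l ω), (cell (a + w) (r + R) l t v ω, ())))).trans
      (Stk.hc_mono_right P S fun ω ω' _ _ e => ?_)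
    · exact h0 ω ω' (congrArg Prod.fst e)
    · have e1 : tb n (l ω) = tb n (l ω') := congrArg Prod.fst e
      have e2 : cell (a + w) (r + R) l t v ω = cell (a + w) (r + R) l t v ω' :=
        congrArg (fun q => q.2.1) e
      have e3 : fl1 (a + w) (t ω) = fl1 (a + w) (t ω') := congrArg Prod.fst e2
      have e4 : fl1 (r + R) (v ω) = fl1 (r + R) (v ω') := congrArg (fun q => q.2.1) e2
      exact Prod.ext (Prod.ext e3 e4) (Prod.ext e1
        (Prod.ext (fl1_of_fl1 (Nat.le_add_right a w) e3) (fl1_of_fl1 (Nat.le_add_right r R) e4)))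
  linarith

end Vale.Agent.P127.U.LipS
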