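import Vale.Agent.P127.U.Lam.CoreB
import Vale.Agent.P127.U.H824.CoreT

/-!
# P127 / U / Lam : cost of the path and activity (helper565)

* `cost_core` : cost of the path before the exit.
* `cost_shift`, `cost_sp` : the path after the first steps of the slope.
* `ct_core` : activity (field `ct` of `Mic.Hyp`).
-/

set_option autoImplicit false

namespace Vale.Agent.P127.U.Core

open Finset Vale.Agent.P127 Vale.Agent.P127.Stk Vale.Agent.P127.U Vale.Agent.P127.U.Inc
  Vale.Agent.P127.U.PathS Vale.Agent.P127.U.Bud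

variable {Ω : Type} [Fintype Ω]

/-- **the path after the first steps of the slope** -/
theorem cost_shift (Q : Law Ω) (l : Ω → Ln) (t v : Ω → ℝ) (n : ℕ) (α ρ : ℕ → ℕ) (i₀ k : ℕ)
    (h0 : ∀ j ≤ i₀, α j = α 0) :
    cost Q l t v n (fun i => α (i₀ + i)) (fun i => ρ (i₀ + i)) k ≤ cost Q l t v n α ρ (i₀ + k) := by
  unfold cost
  have h1 : ∀ i, i ≤ i₀ → hc Q (st t v (α i) (ρ i)) (fun ω => tb n (l ω)) ≤
      hc Q (st t v (α 0) (ρ 0)) (fun ω => tb n (l ω)) +
        ∑ j ∈ range i, hc Q (fun ω => fl1 (ρ (j + 1)) (v ω))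
          (fun ω => (tb n (l ω), st t v (α j) (ρ j) ω)) := by
    intro i
    induction i with
    | zero => intro _; simp
    | succ i ih =>
      intro hi
      have h2 := ih (by omega)
      rw [Finset.sum_range_succ]
      have h3 := Apx.hc_via Q (st t v (α (i + 1)) (ρ (i + 1))) (st t v (α i) (ρ i))
        (fun ω => tb n (l ω))
      have h4 : hc Q (st t v (α (i + 1)) (ρ (i + 1))) (fun ω => (st t v (α i) (ρ i) ω, tb n (l ω))) ≤
          hc Q (fun ω => fl1 (ρ (i + 1)) (v ω)) (fun ω => (tb n (l ω), st t v (α i) (ρ i) ω)) := by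
        refine (hc_mono_left Q ?_).trans (hc_mono_right Q _ ?_)
        · intro ω ω' _ _ e
          have e1 : α (i + 1) = α i := by rw [h0 (i + 1) hi, h0 i (by omega)]
          simp only [st, Prod.mk.injEq] at e ⊢
          rw [e1]
          exact ⟨e.2.1.1, e.1⟩
        · intro ω ω' _ _ e
          simp only [Prod.mk.injEq] at e ⊢
          exact ⟨e.2, e.1⟩
      linarith
  have h2 := h1 i₀ le_rfl
  have h3 : ∑ j ∈ range (i₀ + k), hc Q (fun ω => fl1 (ρ (j + 1)) (v ω))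
        (fun ω => (tb n (l ω), st t v (α j) (ρ j) ω)) =
      ∑ j ∈ range i₀, hc Q (fun ω => fl1 (ρ (j + 1)) (v ω))
        (fun ω => (tb n (l ω), st t v (α j) (ρ j) ω)) +
      ∑ j ∈ range k, hc Q (fun ω => fl1 (ρ (i₀ + (j + 1))) (v ω))
        (fun ω => (tb n (l ω), st t v (α (i₀ + j)) (ρ (i₀ + j)) ω)) :=
    Finset.sum_range_add (fun j => hc Q (fun ω => fl1 (ρ (j + 1)) (v ω))
        (fun ω => (tb n (l ω), st t v (α j) (ρ j) ω))) i₀ k
  have h4 : hc Q (st t v (α (i₀ + 0)) (ρ (i₀ + 0))) (fun ω => tb n (l ω)) =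
      hc Q (st t v (α i₀) (ρ i₀)) (fun ω => tb n (l ω)) := rfl
  rw [h3]
  simp only [Nat.add_zero]
  linarith

/-- the cost depends only on the levels before the end -/
theorem cost_congr (Q : Law Ω) (l : Ω → Ln) (t v : Ω → ℝ) (n : ℕ) {α ρ α' ρ' : ℕ → ℕ} {k : ℕ}
    (ha : ∀ i ≤ k, α i = α' i) (hr : ∀ i ≤ k, ρ i = ρ' i) :
    cost Q l t v n α ρ k = cost Q l t v n α' ρ' k := by
  unfold cost
  rw [ha 0 (Nat.zero_le _), hr 0 (Nat.zero_le _)]
  congr 1
  refine Finset.sum_congr rfl fun j hj => ?_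
  have h1 := mem_range.1 hj
  rw [ha j h1.le, hr j h1.le, hr (j + 1) h1]

variable {N lam β δ ε Λ B K d c lam' ε₁ θ Lp Del : ℝ} {P Q : Law Ω} {l : Ω → Ln} {t v : Ω → ℝ}
  {n h q m A R J b1 b2 M : ℕ} {G : Finset ℕ} {Ef : ℕ → ℕ → ℝ} {E : List Lt} {p : ℝ}
  {i₀ k : ℕ} {α ρ : ℕ → ℕ}

/-- **cost of the path before the exit** -/
theorem cost_core (D : CoreD N lam β δ ε Λ B K d c lam' ε₁ Lp P Q l t v n h q m A R J b1 b2 G Ef E p)
    (Nn : CoreN N lam β δ ε Λ B d c ε₁ θ Lp Del n h q m J b2 M) {k : ℕ} (hk : k ≤ A + R)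
    (hkA : ∀ j < k, (expl n m A R J c l t v).ai E j < A) :
    cost Q l t v n (fun i => m * (expl n m A R J c l t v).ai E i)
      (fun i => m * (expl n m A R J c l t v).ri E i) k ≤
      c * q * Real.log 2 + (h : ℝ) / J * Real.log 2 + Real.log 6 := by
  classical
  set e := expl n m A R J c l t v with he
  have hcd : Cnd e P Q E p := D.cnd
  have hd := D.nd
  have hc0 := Nn.c0.le
  have hl : 0 < Real.log 2 := Real.log_pos (by norm_num)
  have hthr0 : 0 < e.thr := Real.exp_pos _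
  have hlog : Real.log (1 / e.thr) = c * (m * Real.log 2) := PathD.log_th c m
  have hthr1 : e.thr ≤ 1 := by
    have h1 : 0 ≤ c * (m * Real.log 2) := by positivity
    have h2 : e.thr = Real.exp (-(c * (m * Real.log 2))) := rfl
    rw [h2]
    exact Real.exp_le_one_iff.2 (by linarith)
  have hblk : ∀ a r, hc Q (e.vv (r + 1)) (e.K a r) ≤ m * Real.log 2 := fun a r =>
    PathD.hc_blk_le Q l t v n m A R J c a r
  have h1 := hcd.cost_cut (M := m * Real.log 2) Nn.J1 hthr0 hthr1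
    (by positivity) hblk hk hkA
  have h2 : ∑ j ∈ range k, hc Q (fun ω => fl1 (m * e.ri E (j + 1)) (v ω))
      (fun ω => (tb n (l ω), st t v (m * e.ai E j) (m * e.ri E j) ω)) ≤
      ∑ j ∈ range k, (if e.ri E (j + 1) = e.ri E j + 1 then
        hc Q (e.vv (e.ri E j + 1)) (e.K (e.ai E j) (e.ri E j)) else 0) := by
    refine Finset.sum_le_sum fun j hj => ?_
    have hj' := mem_range.1 hj
    rcases hcd.step_cases (i := j) (by have : e.A + e.R = A + R := rfl; omega) with h3 | h3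
    · rw [if_neg (by rw [h3.2]; omega), h3.2]
      refine le_of_eq (hc_zero Q ?_)
      intro ω ω' _ _ e'
      simp only [st, Prod.mk.injEq] at e'
      exact e'.2.2
    · rw [if_pos h3.2, h3.2]
      exact le_rfl
  have h3 : hc Q (st t v (m * e.ai E 0) (m * e.ri E 0))
      (fun ω => tb n (l ω)) ≤ Real.log 6 := by
    rw [hcd.ai_zero, hcd.ri_zero, Nat.mul_zero]
    have h4 := hc_le_log Q (st t v 0 0) (fun ω => tb n (l ω)) 6 (fun ω _ => by
      refine ⟨(Finset.Icc (0 : ℤ) 1) ×ˢ (Finset.Icc (-1 : ℤ) 1), by simp, ?_⟩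
      intro ω' hω' _
      have ht := hd.good ω' hω'
      have hv := abs_le.1 (hd.sl ω' hω')
      simp only [st, fl1, pow_zero, one_mul, mem_product, mem_Icc]
      refine ⟨⟨Int.floor_nonneg.2 ht.2.1, ?_⟩, ?_, ?_⟩
      · have h2 : ((⌊t ω'⌋ : ℤ) : ℝ) ≤ t ω' := Int.floor_le _
        have h3 : ((⌊t ω'⌋ : ℤ) : ℝ) ≤ 1 := h2.trans ht.2.2
        exact_mod_cast h3
      · exact Int.le_floor.2 (by push_cast; exact hv.1)
      · have h2 : ((⌊v ω'⌋ : ℤ) : ℝ) ≤ v ω' := Int.floor_le _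
        have h3 : ((⌊v ω'⌋ : ℤ) : ℝ) ≤ 1 := h2.trans hv.2
        exact_mod_cast h3)
    exact_mod_cast h4
  have h4 : (e.R : ℝ) * Real.log (1 / e.thr) ≤ c * q * Real.log 2 := by
    have e2 : (e.R : ℝ) = R := rfl
    rw [hlog, e2]
    have e3 : (m : ℝ) * R ≤ q := by
      have := D.hR
      exact_mod_cast (by omega : m * R ≤ q)
    have e4 : c * (m * R) ≤ c * q := mul_le_mul_of_nonneg_left e3 hc0
    calc (R : ℝ) * (c * (m * Real.log 2)) = c * (m * R) * Real.log 2 := by ring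
      _ ≤ c * q * Real.log 2 := mul_le_mul_of_nonneg_right e4 hl.le
  have h5 : (e.A / e.J : ℝ) * (m * Real.log 2) ≤ (h : ℝ) / J * Real.log 2 := by
    have e1 : (e.A : ℝ) = A := rfl
    have e2 : (e.J : ℝ) = J := rfl
    rw [e1, e2]
    have e3 : (m : ℝ) * A ≤ h := by
      have := D.hA
      exact_mod_cast (by omega : m * A ≤ h)
    have hJ' : (0 : ℝ) < J := by exact_mod_cast Nn.J1
    calc (A / J : ℝ) * (m * Real.log 2) = (m * A) / J * Real.log 2 := by ring
      _ ≤ h / J * Real.log 2 :=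
        mul_le_mul_of_nonneg_right (div_le_div_of_nonneg_right e3 hJ'.le) hl.le
  unfold cost
  have h1' : ∑ j ∈ range k, (if e.ri E (j + 1) = e.ri E j + 1 then
        hc Q (e.vv (e.ri E j + 1)) (e.K (e.ai E j) (e.ri E j)) else 0) ≤
      e.R * Real.log (1 / e.thr) + (e.A / e.J : ℝ) * (m * Real.log 2) := h1
  linarith

/-- cost of the shifted path -/
theorem cost_sp (D : CoreD N lam β δ ε Λ B K d c lam' ε₁ Lp P Q l t v n h q m A R J b1 b2 G Ef E p)
    (Nn : CoreN N lam β δ ε Λ B d c ε₁ θ Lp Del n h q m J b2 M)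
    (hs : SP (expl n m A R J c l t v) E m i₀ k α ρ) :
    cost Q l t v n α ρ k ≤ c * q * Real.log 2 + (h : ℝ) / J * Real.log 2 + Real.log 6 := by
  set e := expl n m A R J c l t v with he
  have hcd : Cnd e P Q E p := D.cnd
  rw [cost_congr Q l t v n (α' := fun i => m * e.ai E (i₀ + i)) (ρ' := fun i => m * e.ri E (i₀ + i))
    hs.eqa hs.eqr]
  refine (cost_shift Q l t v n (fun i => m * e.ai E i) (fun i => m * e.ri E i) i₀ k ?_).trans
    (cost_core D Nn hs.kn fun j hj => (hs.lt j hj).1)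
  intro j hj
  have h1 : e.ai E j ≤ e.ai E i₀ := hcd.ai_mono' hj
  have h2 := hs.ai0
  have h3 := hcd.ai_zero
  show m * e.ai E j = m * e.ai E 0
  rw [h3]
  congr 1
  omega

/-- **activity** -/
theorem ct_core (D : CoreD N lam β δ ε Λ B K d c lam' ε₁ Lp P Q l t v n h q m A R J b1 b2 G Ef E p)
    (Nn : CoreN N lam β δ ε Λ B d c ε₁ θ Lp Del n h q m J b2 M)
    (hs : SP (expl n m A R J c l t v) E m i₀ k α ρ) (htail : (h : ℝ) - α k ≤ θ * h) :
    ∑ i ∈ (range k).filter (fun i => α i < α (i + 1)),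
      Mic.colp Q (fun ω => fl1 (α i + m) (t ω)) (fun ω => (tb n (l ω), st t v (α i) (ρ i) ω)) ≤
        ε₁ * k := by
  set e := expl n m A R J c l t v with he
  have hcd : Cnd e P Q E p := D.cnd
  have hl : 0 < Real.log 2 := Real.log_pos (by norm_num)
  have hN0 : 0 ≤ N := by linarith [Nn.N2]
  have hβ : 0 < β := by linarith [Nn.lam0, Nn.lamβ]
  have hmA : m * e.A ≤ h := by
    have := D.hA
    have e1 : e.A = A := rfl
    rw [e1]
    omega
  have hmR : m * e.R ≤ q := by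
    have := D.hR
    have e1 : e.R = R := rfl
    rw [e1]
    omega
  have hp := hs.pl hcd hmA hmR
  have hb := hs.blks hcd
  have hcost := cost_sp D Nn hs
  have hkn : k ≤ A + R := by
    have h1 := hs.kn
    have h2 : e.A + e.R = A + R := rfl
    omega
  have h1 := hT_of hN0 Nn.ε0 D.inc D.vc hb hp
  have h2 := DELp_core D Nn hkn hcost
  -- the number of steps
  have hkm : (h : ℝ) / 2 ≤ k * m := by
    have e1 := hs.add hcd (i := k) le_rfl
    have e2 : ρ 0 ≤ ρ k := hs.mr (Nat.zero_le k)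
    have e3 : α k ≤ k * m := by rw [Nat.mul_comm]; omega
    have e4 : (α k : ℝ) ≤ k * m := by exact_mod_cast e3
    have e5 : θ * h ≤ 1 / 2 * (h : ℝ) := mul_le_mul_of_nonneg_right Nn.θ1 (Nat.cast_nonneg _)
    linarith
  refine ActI.ct_le D.inc Nn.N2 hβ Nn.m1 hb hp.ah hp.rq (Δ := Del) ?_ Nn.a1 ?_ Nn.a3 Nn.a4
    Nn.ε₁0.le
  · linarith
  · refine Nn.a2.trans ?_
    have h3 : 0 ≤ ε₁ * β / 16 * Real.log 2 := by
      have := Nn.ε₁0
      positivity
    have h4 := mul_le_mul_of_nonneg_left hkm h3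
    calc ε₁ * β / 32 * (h * Real.log 2) = ε₁ * β / 16 * Real.log 2 * (h / 2) := by ring
      _ ≤ ε₁ * β / 16 * Real.log 2 * (k * m) := h4
      _ = ε₁ * β / 16 * (k * (m * Real.log 2)) := by ring

end Vale.Agent.P127.U.Core
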