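import Vale.Agent.P127.U.Lam.CoreDef

/-!
# P127 / U / Lam : the shifted and cut path (helper336)

* `SP e E m i₀ k α ρ` : the levels `α`, `ρ` are those of the path from its first step of the time `i₀` to
  its exit `i₀ + k`, continued by steps of the time.
* `exists_sp` : existence.
* `hyp_of` : all the fields of `Mic.Hyp` except `ct`, `runs`, given `cv`.
-/

set_option autoImplicit false

namespace Vale.Agent.P127.U.Core

open Finset Vale.Agent.P127 Vale.Agent.P127.Stk Vale.Agent.P127.U Vale.Agent.P127.U.Inc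
  Vale.Agent.P127.U.PathS

section sp

variable {Ω : Type} {α₀ β₀ γ₀ : Type*}

/-- the shifted and cut path -/
structure SP (e : Expl Ω α₀ β₀ γ₀) (E : List Lt) (m i₀ k : ℕ) (α ρ : ℕ → ℕ) : Prop where
  k0 : 0 < k
  kn : i₀ + k ≤ e.A + e.R
  ai0 : e.ai E i₀ = 0
  ri0 : e.ri E i₀ = i₀
  first : e.ai E (i₀ + 1) = 1
  ma : Monotone α
  mr : Monotone ρ
  eqa : ∀ i ≤ k, α i = m * e.ai E (i₀ + i)
  eqr : ∀ i ≤ k, ρ i = m * e.ri E (i₀ + i)
  topa : ∀ i, k ≤ i → α (i + 1) = α i + m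
  topr : ∀ i, k ≤ i → ρ (i + 1) = ρ i
  lt : ∀ i < i₀ + k, e.ai E i < e.A ∧ e.ri E i < e.R
  exit : (e.ai E (i₀ + k) = e.A ∧ e.ai E (i₀ + k - 1) + 1 = e.A) ∨ e.ri E (i₀ + k) = e.R

variable [Fintype Ω] {e : Expl Ω α₀ β₀ γ₀} {P Q : Law Ω} {E : List Lt} {p : ℝ}

/-- **the shifted and cut path exists**, or there is no step of the time before the exit -/
theorem exists_sp (h : Cnd e P Q E p) (hA : 0 < e.A) (m : ℕ) :
    (∃ i₀ k α ρ, SP e E m i₀ k α ρ) ∨ (e.ai E e.R = 0 ∧ e.ri E e.R = e.R) := by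
  classical
  obtain ⟨i₀, h1, h2, h3, h4, -⟩ := h.exists_start hA
  rw [h2, zero_add] at h4
  have hex : ∃ j, e.ai E j = e.A ∨ e.ri E j = e.R := ⟨e.A + e.R, Or.inl h.ai_top⟩
  set k₁ := Nat.find hex with hk₁
  have hk : e.ai E k₁ = e.A ∨ e.ri E k₁ = e.R := Nat.find_spec hex
  have hle : k₁ ≤ e.A + e.R := Nat.find_min' hex (Or.inl h.ai_top)
  have hlt : ∀ j < k₁, e.ai E j < e.A ∧ e.ri E j < e.R := by
    intro j hj
    have g1 := Nat.find_min hex hj
    have g2 := h.ai_le (show j ≤ e.A + e.R by omega)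
    have g3 := h.ri_le (show j ≤ e.A + e.R by omega)
    push Not at g1
    exact ⟨lt_of_le_of_ne g2 g1.1, lt_of_le_of_ne g3 g1.2⟩
  rcases lt_or_ge i₀ k₁ with hi | hi
  · left
    obtain ⟨k, hkk⟩ : ∃ k, k₁ = i₀ + k := ⟨k₁ - i₀, by omega⟩
    have hk0 : 0 < k := by omega
    have mna := h.ai_mono'
    have mnr := h.ri_mono'
    refine ⟨i₀, k, fun i => if i ≤ k then m * e.ai E (i₀ + i) else m * e.ai E (i₀ + k) + m * (i - k),
      fun i => if i ≤ k then m * e.ri E (i₀ + i) else m * e.ri E (i₀ + k), hk0, by omega, h2, h3, h4,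
      ?_, ?_, fun i hi => if_pos hi, fun i hi => if_pos hi, ?_, ?_, fun i hi => hlt i (by omega), ?_⟩
    · refine monotone_nat_of_le_succ fun i => ?_
      show (if i ≤ k then m * e.ai E (i₀ + i) else m * e.ai E (i₀ + k) + m * (i - k)) ≤
        (if i + 1 ≤ k then m * e.ai E (i₀ + (i + 1)) else m * e.ai E (i₀ + k) + m * (i + 1 - k))
      rcases Nat.lt_or_ge i k with g | g
      · rw [if_pos g.le, if_pos (show i + 1 ≤ k by omega)]
        exact Nat.mul_le_mul_left _ (mna (by omega))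
      · rw [if_neg (show ¬ i + 1 ≤ k by omega)]
        split_ifs with g2
        · have : i = k := by omega
          subst this
          exact Nat.le_add_right _ _
        · exact Nat.add_le_add_left (Nat.mul_le_mul_left _ (by omega)) _
    · refine monotone_nat_of_le_succ fun i => ?_
      show (if i ≤ k then m * e.ri E (i₀ + i) else m * e.ri E (i₀ + k)) ≤
        (if i + 1 ≤ k then m * e.ri E (i₀ + (i + 1)) else m * e.ri E (i₀ + k))
      rcases Nat.lt_or_ge i k with g | g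
      · rw [if_pos g.le, if_pos (show i + 1 ≤ k by omega)]
        exact Nat.mul_le_mul_left _ (mnr (by omega))
      · rw [if_neg (show ¬ i + 1 ≤ k by omega)]
        split_ifs with g2
        · exact Nat.mul_le_mul_left _ (mnr (by omega))
        · exact le_rfl
    · intro i g
      show (if i + 1 ≤ k then m * e.ai E (i₀ + (i + 1)) else m * e.ai E (i₀ + k) + m * (i + 1 - k)) =
        (if i ≤ k then m * e.ai E (i₀ + i) else m * e.ai E (i₀ + k) + m * (i - k)) + m
      rw [if_neg (show ¬ i + 1 ≤ k by omega)]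
      split_ifs with g2
      · have : i = k := by omega
        subst this
        rw [Nat.add_sub_cancel_left, Nat.mul_one]
      · have : i + 1 - k = (i - k) + 1 := by omega
        rw [this]
        ring
    · intro i g
      show (if i + 1 ≤ k then m * e.ri E (i₀ + (i + 1)) else m * e.ri E (i₀ + k)) =
        (if i ≤ k then m * e.ri E (i₀ + i) else m * e.ri E (i₀ + k))
      rw [if_neg (show ¬ i + 1 ≤ k by omega)]
      split_ifs with g2
      · have : i = k := by omega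
        subst this
        rfl
      · rfl
    · rw [← hkk]
      rcases hk with g | g
      · left
        refine ⟨g, ?_⟩
        have g1 := hlt (k₁ - 1) (by omega)
        have g2 := h.step_cases (i := k₁ - 1) (by omega)
        rw [Nat.sub_add_cancel (by omega)] at g2
        rcases g2 with g2 | g2 <;> omega
      · exact Or.inr g
  · right
    have g1 : e.ai E k₁ = 0 := by
      have := h.ai_mono' hi
      omega
    have g2 : e.ri E k₁ = e.R := by
      rcases hk with g | g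
      · omega
      · exact g
    have g3 := h.ai_add_ri hle
    have g4 : k₁ = e.R := by omega
    rw [← g4]
    exact ⟨g1, by omega⟩

variable {m i₀ k : ℕ} {α ρ : ℕ → ℕ}

omit [Fintype Ω] in
theorem SP.a0 (hs : SP e E m i₀ k α ρ) : α 0 = 0 := by
  rw [hs.eqa 0 (Nat.zero_le _), Nat.add_zero, hs.ai0, Nat.mul_zero]

omit [Fintype Ω] in
theorem SP.r0 (hs : SP e E m i₀ k α ρ) : ρ 0 = m * i₀ := by
  rw [hs.eqr 0 (Nat.zero_le _), Nat.add_zero, hs.ri0]

omit [Fintype Ω] in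
theorem SP.a1 (hs : SP e E m i₀ k α ρ) (hm : 0 < m) : α 0 < α 1 := by
  rw [hs.a0, hs.eqa 1 hs.k0, hs.first, Nat.mul_one]
  exact hm

/-- blocks -/
theorem SP.blks (hs : SP e E m i₀ k α ρ) (h : Cnd e P Q E p) : ActI.Blks α ρ m k := by
  intro i hi
  rw [hs.eqa i hi.le, hs.eqr i hi.le, hs.eqa (i + 1) hi, hs.eqr (i + 1) hi]
  have h1 := hs.kn
  rw [← Nat.add_assoc]
  rcases h.step_cases (i := i₀ + i) (by omega) with ⟨h2, h3⟩ | ⟨h2, h3⟩
  · left
    rw [h2, h3]
    exact ⟨rfl, rfl⟩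
  · right
    rw [h2, h3]
    exact ⟨rfl, rfl⟩

/-- a step of the time -/
theorem SP.astep (hs : SP e E m i₀ k α ρ) (h : Cnd e P Q E p) {i : ℕ} (hi : i < k)
    (ha : α i < α (i + 1)) : e.ai E (i₀ + i + 1) = e.ai E (i₀ + i) + 1 := by
  rw [hs.eqa i hi.le, hs.eqa (i + 1) hi] at ha
  have h3 : e.ai E (i₀ + i) < e.ai E (i₀ + (i + 1)) := lt_of_mul_lt_mul_left ha (Nat.zero_le m)
  rw [← Nat.add_assoc] at h3
  have h1 := hs.kn
  rcases h.step_cases (i := i₀ + i) (by omega) with ⟨h5, _⟩ | ⟨h5, _⟩ <;> omega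

theorem SP.ak (hs : SP e E m i₀ k α ρ) (h : Cnd e P Q E p) : α k ≤ m * e.A := by
  rw [hs.eqa k le_rfl]
  exact Nat.mul_le_mul_left _ (h.ai_le hs.kn)

theorem SP.rk (hs : SP e E m i₀ k α ρ) (h : Cnd e P Q E p) : ρ k ≤ m * e.R := by
  rw [hs.eqr k le_rfl]
  exact Nat.mul_le_mul_left _ (h.ri_le hs.kn)

theorem SP.pl (hs : SP e E m i₀ k α ρ) (h : Cnd e P Q E p) {hh q : ℕ} (hA : m * e.A ≤ hh)
    (hR : m * e.R ≤ q) : Bud.Pl hh q k α ρ :=
  ⟨hs.ma, hs.mr, hs.a0, (hs.ak h).trans hA, (hs.rk h).trans hR⟩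

theorem SP.add (hs : SP e E m i₀ k α ρ) (h : Cnd e P Q E p) {i : ℕ} (hi : i ≤ k) :
    α i + ρ i = ρ 0 + m * i := by
  have h1 := hs.kn
  have h2 := h.ai_add_ri (i := i₀ + i) (by omega)
  rw [hs.eqa i hi, hs.eqr i hi, hs.r0, ← Nat.mul_add, ← Nat.mul_add, h2]

/-- forced steps -/
theorem SP.forced (hs : SP e E m i₀ k α ρ) (h : Cnd e P Q E p) (hm : 0 < m) {i : ℕ}
    (hi : i + (e.J + 1) ≤ k) : ρ i < ρ (i + (e.J + 1)) := by
  have h1 := hs.kn
  rw [hs.eqr i (by omega), hs.eqr _ hi, ← Nat.add_assoc]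
  exact Nat.mul_lt_mul_of_pos_left (h.ri_step (by omega) (hs.lt _ (by omega)).2) hm

end sp

section hyp

variable {Ω : Type} [Fintype Ω] {P Q : Law Ω} {l : Ω → Ln} {t v : Ω → ℝ} {n m A R J : ℕ} {c p : ℝ}
  {E : List Lt} {i₀ k : ℕ} {α ρ : ℕ → ℕ}

omit [Fintype Ω] in
theorem thr_pos (n m A R J : ℕ) (c : ℝ) (l : Ω → Ln) (t v : Ω → ℝ) :
    0 < (expl n m A R J c l t v).thr := Real.exp_pos _

/-- collisions of the blocks of the slope -/
theorem SP.cv (hs : SP (expl n m A R J c l t v) E m i₀ k α ρ)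
    (h : Cnd (expl n m A R J c l t v) P Q E p) {ε : ℝ} (hε : PathD.th c m < ε) :
    ∑ i ∈ (range k).filter (fun i => α i < α (i + 1)),
      Mic.colp Q (fun ω => fl1 (ρ i + m) (v ω)) (fun ω => (tb n (l ω), st t v (α i) (ρ i) ω)) ≤
    (A + R : ℕ) * ε + ((J + 1) * Real.log (1 / p) + (A + R : ℕ)) /
      Real.log (ε / PathD.th c m) := by
  classical
  set e := expl n m A R J c l t v with he
  have hth0 : 0 < e.thr := thr_pos n m A R J c l t v
  have h1 := h.coll_total hth0 hε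
  refine le_trans ?_ h1
  have hnn : ∀ i, 0 ≤ (if e.ai E (i + 1) = e.ai E i + 1 ∧ e.ri E i < e.R then
      Path.coll Q (e.vv (e.ri E i + 1)) (e.K (e.ai E i) (e.ri E i)) else 0) := by
    intro i
    split_ifs
    · exact Path.coll_nonneg _ _ _
    · exact le_rfl
  have hkn := hs.kn
  have h2 : ∑ i ∈ range k, (if e.ai E (i₀ + i + 1) = e.ai E (i₀ + i) + 1 ∧ e.ri E (i₀ + i) < e.R then
      Path.coll Q (e.vv (e.ri E (i₀ + i) + 1)) (e.K (e.ai E (i₀ + i)) (e.ri E (i₀ + i))) else 0) ≤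
      ∑ i ∈ range (e.A + e.R), (if e.ai E (i + 1) = e.ai E i + 1 ∧ e.ri E i < e.R then
      Path.coll Q (e.vv (e.ri E i + 1)) (e.K (e.ai E i) (e.ri E i)) else 0) := by
    rw [← Finset.sum_image (s := range k) (g := fun i => i₀ + i) (f := fun i =>
      if e.ai E (i + 1) = e.ai E i + 1 ∧ e.ri E i < e.R then
      Path.coll Q (e.vv (e.ri E i + 1)) (e.K (e.ai E i) (e.ri E i)) else 0)
      (fun i _ j _ hij => Nat.add_left_cancel hij)]
    refine Finset.sum_le_sum_of_subset_of_nonneg ?_ fun i _ _ => hnn i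
    intro j hj
    obtain ⟨i, hi, rfl⟩ := mem_image.1 hj
    have := mem_range.1 hi
    exact mem_range.2 (by omega)
  refine le_trans ?_ h2
  rw [Finset.sum_filter]
  refine Finset.sum_le_sum fun i hi => ?_
  have hik : i < k := mem_range.1 hi
  by_cases ha : α i < α (i + 1)
  · rw [if_pos ha, if_pos ⟨hs.astep h hik ha, (hs.lt _ (by omega)).2⟩, hs.eqa i hik.le,
      hs.eqr i hik.le]
    have h6 : m * e.ri E (i₀ + i) + m = m * (e.ri E (i₀ + i) + 1) := by ring
    rw [h6]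
    exact le_rfl
  · rw [if_neg ha]
    exact hnn _

/-- **the hypotheses of the micro part** except activity and runs -/
theorem hyp_of {N lam β δ ε Λ B K d lam' ε₁ θ Lp Del : ℝ} {h q b1 b2 M : ℕ} {G : Finset ℕ}
    {Ef : ℕ → ℕ → ℝ}
    (hD : CoreD N lam β δ ε Λ B K d c lam' ε₁ Lp P Q l t v n h q m A R J b1 b2 G Ef E p)
    (hN : CoreN N lam β δ ε Λ B d c ε₁ θ Lp Del n h q m J b2 M)
    (hs : SP (expl n m A R J c l t v) E m i₀ k α ρ) (htail : (h : ℝ) - α k ≤ θ * h)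
    (hct : ∑ i ∈ (range k).filter (fun i => α i < α (i + 1)),
      Mic.colp Q (fun ω => fl1 (α i + m) (t ω)) (fun ω => (tb n (l ω), st t v (α i) (ρ i) ω)) ≤
        ε₁ * k)
    (hruns : (((range k).filter fun i => α (i + M) = α i).card : ℝ) ≤ ε₁ * k) :
    Mic.Hyp Q (mkP l t v α ρ hs.ma hs.mr) m k h q M (J + 1) b1 b2 lam' ε₁ G := by
  have hm0 : 0 < m := hN.m1
  have hmr : (0 : ℝ) < m := by exact_mod_cast hm0
  have hak : α k ≤ m * A := hs.ak hD.cnd
  have hrk : ρ k ≤ m * R := hs.rk hD.cnd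
  have hA := hD.hA
  have hR := hD.hR
  have hnq := hD.nd.nq
  -- the number of steps
  have hk1 : (h : ℝ) / (2 * m) ≤ k := by
    have e1 := hs.add hD.cnd (i := k) le_rfl
    have e2 : ρ 0 ≤ ρ k := hs.mr (Nat.zero_le k)
    have e3 : α k ≤ m * k := by omega
    have e4 : (α k : ℝ) ≤ m * k := by exact_mod_cast e3
    have e5 : θ * h ≤ 1 / 2 * (h : ℝ) := mul_le_mul_of_nonneg_right hN.θ1 (Nat.cast_nonneg _)
    rw [div_le_iff₀ (by positivity)]
    linarith
  have hAR : ((A + R : ℕ) : ℝ) ≤ (n : ℝ) / m := by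
    rw [le_div_iff₀ hmr]
    have e1 : (A + R) * m ≤ n := by
      have : (A + R) * m = m * A + m * R := by ring
      omega
    exact_mod_cast e1
  refine ⟨?_, ?_, ?_, ActI.ct_hyp hD.nd hs.ma hs.mr hct, ?_, hruns, hD.hB, hD.cardB, hD.cy, ?_⟩
  · intro ω hω
    obtain ⟨⟨g1, g2⟩, g3, g4⟩ := hD.nd.good ω hω
    exact ⟨g1 0, g1 1, g2 0, g2 1, g3, g4, hD.nd.sl ω hω⟩
  · intro i hi
    exact hs.blks hD.cnd i hi
  · intro i hi
    exact hs.forced hD.cnd hm0 hi
  · -- cv
    obtain ⟨x, hx, hx2⟩ := hN.v1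
    have h1 := hs.cv hD.cnd hx
    have hlog : 0 < Real.log (x / PathD.th c m) := by
      refine Real.log_pos ?_
      have hth : 0 < PathD.th c m := Real.exp_pos _
      rwa [lt_div_iff₀ hth, one_mul]
    have hx0 : 0 < x := lt_trans (Real.exp_pos _) hx
    have h2 : ((A + R : ℕ) : ℝ) * x + ((J + 1) * Real.log (1 / p) + (A + R : ℕ)) /
        Real.log (x / PathD.th c m) ≤ (n : ℝ) / m * x +
        ((J + 1) * Lp + (n : ℝ) / m) / Real.log (x / PathD.th c m) := by
      refine add_le_add (mul_le_mul_of_nonneg_right hAR hx0.le)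
        (div_le_div_of_nonneg_right (add_le_add ?_ hAR) hlog.le)
      exact mul_le_mul_of_nonneg_left hD.lp (by positivity)
    have h3 : ε₁ * ((h : ℝ) / (2 * m)) ≤ ε₁ * k := mul_le_mul_of_nonneg_left hk1 hN.ε₁0.le
    refine le_trans (le_of_eq ?_) (h1.trans (h2.trans (hx2.trans h3)))
    exact Finset.sum_congr rfl fun i _ => ActI.colp_ln hD.nd α ρ hs.ma hs.mr i _
  · exact ⟨by show α k + b2 + m ≤ h; omega, by show ρ k + b2 + m ≤ q; omega⟩

/-- the state after `k` steps of the slope -/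
theorem hc_st_le_cost (Q : Law Ω) (l : Ω → Ln) (t v : Ω → ℝ) (n : ℕ) {α ρ : ℕ → ℕ}
    (hα : Monotone α) {k : ℕ} (h0 : α k = α 0) :
    hc Q (st t v (α k) (ρ k)) (fun ω => tb n (l ω)) ≤ Bud.cost Q l t v n α ρ k := by
  have h1 := Bud.win_le Q (fun ω => tb n (l ω)) t v ρ hα (Nat.zero_le k)
  have h2 := hc_le_add Q (st t v (α k) (ρ k)) (st t v (α 0) (ρ 0)) (fun ω => tb n (l ω))
  have h3 : hc Q (st t v (α k) (ρ k)) (fun ω => (st t v (α 0) (ρ 0) ω, tb n (l ω))) ≤
      hc Q (Bud.TT t v (α k, ρ k)) (fun ω => (tb n (l ω), Bud.TT t v (α 0, ρ 0) ω)) :=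
    hc_mono_right Q _ fun ω ω' _ _ e => by
      simp only [Prod.mk.injEq] at e
      exact Prod.ext e.2 e.1
  have h4 : hc Q (fun ω => fl1 (α k) (t ω)) (fun ω => (tb n (l ω), Bud.TT t v (α 0, ρ 0) ω)) = 0 := by
    rw [h0]
    exact hc_zero Q fun ω ω' _ _ e => congrArg (fun x => x.2.1) e
  rw [h4, zero_add, ← Finset.range_eq_Ico] at h1
  unfold Bud.cost
  have h5 : ∑ j ∈ range k, hc Q (fun ω => fl1 (ρ (j + 1)) (v ω))
      (fun ω => (tb n (l ω), Bud.TT t v (α j, ρ j) ω)) = ∑ j ∈ range k,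
      hc Q (fun ω => fl1 (ρ (j + 1)) (v ω)) (fun ω => (tb n (l ω), st t v (α j) (ρ j) ω)) := rfl
  rw [h5] at h1
  linarith

/-- there is a step of the time before the exit -/
theorem no_case {N lam β δ ε Λ B K d lam' ε₁ θ Lp Del : ℝ} {h q b1 b2 M : ℕ} {G : Finset ℕ}
    {Ef : ℕ → ℕ → ℝ}
    (hD : CoreD N lam β δ ε Λ B K d c lam' ε₁ Lp P Q l t v n h q m A R J b1 b2 G Ef E p)
    (hN : CoreN N lam β δ ε Λ B d c ε₁ θ Lp Del n h q m J b2 M)
    (hcost : Bud.cost Q l t v n (fun i => m * (expl n m A R J c l t v).ai E i)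
      (fun i => m * (expl n m A R J c l t v).ri E i) R ≤
        c * q * Real.log 2 + (h : ℝ) / J * Real.log 2 + Real.log 6)
    (h1 : (expl n m A R J c l t v).ai E R = 0) (h2 : (expl n m A R J c l t v).ri E R = R) : False := by
  have hl : 0 < Real.log 2 := Real.log_pos (by norm_num)
  have hN0 : 0 ≤ N := by linarith [hN.N2]
  have hm1 : (1 : ℝ) ≤ m := by exact_mod_cast hN.m1
  have hb2 : (0 : ℝ) ≤ b2 := Nat.cast_nonneg _
  have hh : (0 : ℝ) < h := by
    by_contra hcon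
    have e1 : (h : ℝ) = 0 := le_antisymm (not_lt.1 hcon) (Nat.cast_nonneg _)
    have e2 := hN.t2
    rw [e1, mul_zero, mul_zero] at e2
    linarith
  have hmR : m * R ≤ q := by have := hD.hR; omega
  have hp : Bud.Pl h q 0 (fun _ => 0) (fun _ => m * R) :=
    ⟨monotone_const, monotone_const, rfl, Nat.zero_le _, hmR⟩
  have hc1 : Bud.cost Q l t v n (fun _ => 0) (fun _ => m * R) 0 ≤
      c * q * Real.log 2 + (h : ℝ) / J * Real.log 2 + Real.log 6 := by
    refine le_trans ?_ hcost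
    have e1 := hc_st_le_cost Q l t v n (α := fun i => m * (expl n m A R J c l t v).ai E i)
      (ρ := fun i => m * (expl n m A R J c l t v).ri E i) (k := R)
      (fun i j hij => Nat.mul_le_mul_left _ (hD.cnd.ai_mono' hij)) (by
        show m * (expl n m A R J c l t v).ai E R = m * (expl n m A R J c l t v).ai E 0
        rw [h1, hD.cnd.ai_zero])
    refine le_trans (le_of_eq ?_) e1
    unfold Bud.cost
    rw [Finset.sum_range_zero, add_zero]
    show hc Q (st t v 0 (m * R)) _ = hc Q (st t v (m * (expl n m A R J c l t v).ai E R)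
      (m * (expl n m A R J c l t v).ri E R)) _
    rw [h1, h2, Nat.mul_zero]
  have hB0 := hN.B0
  have hnm : 0 ≤ (n : ℝ) / m := by positivity
  have e5 : 0 ≤ 2 * ((n : ℝ) / m) * B := by positivity
  have e6 : 0 ≤ ε * (h + q) * Real.log 2 := mul_nonneg (mul_nonneg hN.ε0 (by positivity)) hl.le
  have e7 : ε * h * Real.log 2 ≤ ε * (h + q) * Real.log 2 :=
    mul_le_mul_of_nonneg_right (mul_le_mul_of_nonneg_left (by
      have : (0 : ℝ) ≤ q := Nat.cast_nonneg _
      linarith) hN.ε0) hl.le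
  have e8 : δ * (θ * h) ≤ δ * (1 / 2 * h) :=
    mul_le_mul_of_nonneg_left (mul_le_mul_of_nonneg_right hN.θ1 hh.le) hN.δ0.le
  have e9 : 0 < δ * h := mul_pos hN.δ0 hh
  have h5 := Bud.start_inc hN0 hN.ε0 hB0 hD.inc hD.vc hp (by
    have e3 := mul_le_mul_of_nonneg_left hc1 hN0
    have e4 := hN.del
    have e10 := hN.t1
    have e11 : δ * (θ * h) * Real.log 2 ≤ δ * (1 / 2 * h) * Real.log 2 :=
      mul_le_mul_of_nonneg_right e8 hl.le
    have e12 : 0 < δ * h * Real.log 2 := mul_pos e9 hl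
    unfold Bud.DEL
    push_cast
    linarith)
  have e13 : (q : ℝ) ≤ m * R + b2 + 2 * m := by exact_mod_cast hD.hR'
  have e14 := hN.t2
  push_cast at h5
  linarith

end hyp

end Vale.Agent.P127.U.Core
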