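import Vale.Agent.P127.U.Lam.CoreA
import Vale.Agent.P127.U.H736.RiseE

/-!
# P127 / U / Lam : long runs (helper565)

* `path_cnd'` : 823's `PathD.path_cnd` with the normalisations on the support of `Q` only.
* `runs_cor` : the field `runs` of `Mic.Hyp`.
-/

set_option autoImplicit false

namespace Vale.Agent.P127.U.PathD

open Finset Vale.Agent.P127 Vale.Agent.P127.Stk Vale.Agent.P127.U Vale.Agent.P127.U.Inc
  Vale.Agent.P127.U.Mic Vale.Agent.P127.U.PathS

variable {Ω : Type} [Fintype Ω]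

theorem path_cnd' {P Q : Law Ω} {l : Ω → Ln} {t v : Ω → ℝ} {n m A R J : ℕ} {c p : ℝ} {E : List Lt}
    (hC : Cnd (dgx l t v n m A R J c) P Q E p) (hm : 1 ≤ m) (hJ : 1 ≤ J) (hc0 : 0 < c)
    (ht : ∀ ω, 0 < Q.w ω → 0 ≤ t ω ∧ t ω ≤ 1) (hv : ∀ ω, 0 < Q.w ω → |v ω| ≤ 1) :
    Pd P Q l t v n m A R J c p (fun i => m * (dgx l t v n m A R J c).ai E i)
      (fun i => m * (dgx l t v n m A R J c).ri E i)
      (fun i => (dgx l t v n m A R J c).kk ((dgx l t v n m A R J c).pat P i)) := by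
  classical
  set e := dgx l t v n m A R J c with he
  have hl2 : 0 < Real.log 2 := Real.log_pos (by norm_num)
  have hm0 : 0 < m := hm
  have hmr : (0 : ℝ) < m := by exact_mod_cast hm0
  have hth0 : 0 < e.thr := Real.exp_pos _
  have hth1 : e.thr ≤ 1 := by
    show Real.exp _ ≤ 1
    rw [Real.exp_le_one_iff]
    have : 0 < c * (m * Real.log 2) := by positivity
    linarith
  have hAR : e.A + e.R = A + R := rfl
  have hac := hC.ac
  refine ⟨hC.hp, ?_, ?_, ?_, ?_, ?_, ?_, ?_, ?_, ?_, ?_, ?_, ?_, ?_, ?_, ?_, ?_⟩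
  · intro ω
    have h1 := hC.hw ω
    rw [le_div_iff₀ hC.hp] at h1
    linarith
  · intro i i' hi
    exact Nat.mul_le_mul_left m (na_drop_anti E (by omega))
  · intro i i' hi
    exact Nat.mul_le_mul_left m (nr_drop_anti E (by omega))
  · show m * e.ai E 0 = 0
    rw [hC.ai_zero, Nat.mul_zero]
  · show m * e.ri E 0 = 0
    rw [hC.ri_zero, Nat.mul_zero]
  · show m * e.ai E (e.A + e.R) = m * A
    rw [hC.ai_top]
    rfl
  · show m * e.ri E (e.A + e.R) = m * R
    rw [hC.ri_top]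
    rfl
  · intro i hi
    show m * e.ai E i + m * e.ri E i = m * i
    rw [← Nat.mul_add, hC.ai_add_ri hi]
  · intro i hi
    show (m * e.ai E (i + 1) = m * e.ai E i + m ∧ m * e.ri E (i + 1) = m * e.ri E i) ∨
      (m * e.ai E (i + 1) = m * e.ai E i ∧ m * e.ri E (i + 1) = m * e.ri E i + m)
    rcases hC.step_cases hi with ⟨h1, h2⟩ | ⟨h1, h2⟩
    · left
      rw [h1, h2]
      exact ⟨by ring, rfl⟩
    · right
      rw [h1, h2]
      exact ⟨rfl, by ring⟩
  · intro i hi hr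
    have h1 : e.ri E i < e.R := lt_of_mul_lt_mul_left hr (Nat.zero_le m)
    exact Nat.mul_lt_mul_of_pos_left (hC.ri_step hi h1) hm0
  · intro i i' hi ω ω' h
    obtain ⟨k, rfl⟩ := Nat.exists_eq_add_of_le hi
    exact Expl.kk_mono i k h
  · -- hk
    intro i hi ω ω' hω h
    obtain ⟨h1, h5⟩ := Prod.mk.inj h
    have h2 : na (e.pat P i ω) = e.ai E i := hC.ai_eq hω hi
    have h3 : nr (e.pat P i ω) = e.ri E i := hC.ri_eq hω hi
    rw [← h1, h2, h3] at h5
    exact Prod.mk.inj h5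
  · -- HQ
    intro i hi ω ω' hω hω' h1 h2
    exact hC.fn_kk hi ω ω' hω hω' (Prod.ext h1 h2)
  · -- thin
    intro i hi ha j hj hR ω hω
    have hi' : i < e.A + e.R := hi
    have h1 : e.ai E i < e.ai E (i + 1) := lt_of_mul_lt_mul_left ha (Nat.zero_le m)
    have h2 : e.ai E (i + 1) = e.ai E i + 1 := by
      rcases hC.step_cases hi' with ⟨h3, _⟩ | ⟨h3, _⟩ <;> omega
    have h3 : e.ri E i + j ≤ e.R := by
      have h4 : m * (e.ri E i + j) ≤ m * R := by
        rw [Nat.mul_add, Nat.mul_comm m j]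
        exact hR
      exact le_of_mul_le_mul_left h4 hm0
    have h4 := hC.thin_lt hi' (hC.thin_of_a hi' h2) hj h3 hω
    have h5 : e.thr ^ j = Real.exp (-(c * (j * m * Real.log 2))) := by
      show Real.exp (-(c * (m * Real.log 2))) ^ j = _
      rw [← Real.exp_nat_mul]
      congr 1
      ring
    rw [h5] at h4
    refine le_trans (le_of_eq ?_) h4.le
    -- the variable is the same where the past is the same
    unfold Nonat.cp Path.cp
    congr 1
    refine pr_event P _ _ _ _ fun ω' => ?_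
    simp only [Prod.mk.injEq]
    have key : ∀ ω', e.kk (e.pat P i) ω' = e.kk (e.pat P i) ω →
        e.vx (e.pat P i) j ω' = fl1 (m * e.ri E i + j * m) (v ω') := by
      intro ω' h6
      have h7 : e.pat P i ω' = e.pat P i ω := (Prod.mk.inj h6).1
      unfold Expl.vx
      rw [h7, hC.ri_eq hω hi'.le]
      show fl1 (m * (e.ri E i + j)) (v ω') = _
      rw [Nat.mul_add, Nat.mul_comm m j]
    constructor
    · rintro ⟨h6, h7⟩
      rw [key ω' h7, key ω rfl]
      exact ⟨h6, h7⟩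
    · rintro ⟨h6, h7⟩
      rw [key ω' h7, key ω rfl] at h6
      exact ⟨h6, h7⟩
  · -- cv
    intro k hk hR ε hε
    have h1 := hC.coll_total hth0 hε
    refine le_trans ?_ h1
    rw [Finset.sum_filter]
    have h2 : ∀ i ∈ range (e.A + e.R), 0 ≤ (if e.ai E (i + 1) = e.ai E i + 1 ∧ e.ri E i < e.R then
        Path.coll Q (e.vv (e.ri E i + 1)) (e.K (e.ai E i) (e.ri E i)) else 0) := by
      intro i _
      split_ifs
      · exact Path.coll_nonneg _ _ _
      · exact le_rfl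
    refine le_trans (Finset.sum_le_sum fun i hi => ?_)
      (Finset.sum_le_sum_of_subset_of_nonneg (Finset.range_mono hk) fun i hi _ => h2 i hi)
    have hik : i < k := Finset.mem_range.1 hi
    have hi' : i < e.A + e.R := lt_of_lt_of_le hik hk
    by_cases hs : m * e.ai E i < m * e.ai E (i + 1)
    · rw [if_pos hs]
      have h3 : e.ai E i < e.ai E (i + 1) := lt_of_mul_lt_mul_left hs (Nat.zero_le m)
      have h4 : e.ai E (i + 1) = e.ai E i + 1 := by
        rcases hC.step_cases hi' with ⟨h5, _⟩ | ⟨h5, _⟩ <;> omega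
      have h5 : e.ri E i < e.R := lt_of_mul_lt_mul_left (hR i hik) (Nat.zero_le m)
      rw [if_pos ⟨h4, h5⟩]
      have h6 : m * e.ri E i + m = m * (e.ri E i + 1) := by ring
      rw [h6]
      exact le_rfl
    · rw [if_neg hs]
      exact h2 i (Finset.mem_range.2 hi')
  · -- cost
    intro k hk hA
    have h1 := hC.cost_upto hJ hth0 hth1 (m * Real.log 2) (by positivity)
      (fun a r => hc_blk_le Q l t v n m A R J c a r) hk
      (fun j hj => lt_of_mul_lt_mul_left (hA j hj) (Nat.zero_le m))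
    have h2 : hc Q (st t v (m * e.ai E 0) (m * e.ri E 0)) (fun ω => tb n (l ω)) ≤ Real.log 6 := by
      rw [hC.ai_zero, hC.ri_zero]
      exact hc_start_le Q l t v n ht hv
    have h3 : ∑ j ∈ range k, hc Q (fun ω => fl1 (m * e.ri E (j + 1)) (v ω))
        (fun ω => (tb n (l ω), st t v (m * e.ai E j) (m * e.ri E j) ω)) ≤
        ∑ j ∈ Finset.range k, (if e.ri E (j + 1) = e.ri E j + 1 then
        hc Q (e.vv (e.ri E j + 1)) (e.K (e.ai E j) (e.ri E j)) else 0) := by
      refine Finset.sum_le_sum fun j hj => ?_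
      have hj' : j < e.A + e.R := lt_of_lt_of_le (Finset.mem_range.1 hj) hk
      rcases hC.step_cases hj' with ⟨h4, h5⟩ | ⟨h4, h5⟩
      · rw [if_neg (by omega), h5]
        refine le_of_eq (hc_zero Q fun ω ω' _ _ h6 => ?_)
        exact congrArg (fun x => x.2.2) h6
      · rw [if_pos h5, h5]
        exact le_rfl
    unfold Bud.cost
    have h4 : Real.log (1 / e.thr) = c * (m * Real.log 2) := log_th c m
    rw [h4] at h1
    have h5 : (e.R : ℝ) = R := rfl
    have h6 : (e.A : ℝ) = A := rfl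
    have h7 : (e.J : ℝ) = J := rfl
    rw [h5, h6, h7] at h1
    linarith


end Vale.Agent.P127.U.PathD

namespace Vale.Agent.P127.U.Core

open Finset Vale.Agent.P127 Vale.Agent.P127.Stk Vale.Agent.P127.U Vale.Agent.P127.U.Inc
  Vale.Agent.P127.U.PathS Vale.Agent.P127.U.Bud

variable {Ω : Type} [Fintype Ω] {N lam β δ ε Λ B K d c lam' ε₁ θ Lp Del : ℝ} {P Q : Law Ω}
  {l : Ω → Ln} {t v : Ω → ℝ} {n h q m A R J b1 b2 M : ℕ} {G : Finset ℕ} {Ef : ℕ → ℕ → ℝ}
  {E : List Lt} {p : ℝ} {i₀ k : ℕ} {α ρ : ℕ → ℕ}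

/-- **long runs** -/
theorem runs_cor (D : CoreD N lam β δ ε Λ B K d c lam' ε₁ Lp P Q l t v n h q m A R J b1 b2 G Ef E p)
    (Nn : CoreN N lam β δ ε Λ B d c ε₁ θ Lp Del n h q m J b2 M)
    (hs : SP (expl n m A R J c l t v) E m i₀ k α ρ)
    (hkm : (h : ℝ) / (2 * m) ≤ k) :
    (((range k).filter fun i => α (i + M) = α i).card : ℝ) ≤ ε₁ * k := by
  set e := expl n m A R J c l t v with he
  have hcd : Cnd e P Q E p := D.cnd
  have hl : 0 < Real.log 2 := Real.log_pos (by norm_num)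
  have hN0 : 0 ≤ N := by linarith [Nn.N2]
  have hβ : 0 ≤ β := by linarith [Nn.lam0, Nn.lamβ]
  have hΛ : 0 < Λ := by linarith [Nn.N2, Nn.NΛ]
  have hkn : k ≤ A + R := by
    have h1 := hs.kn
    have h2 : e.A + e.R = A + R := rfl
    omega
  have hPd := PathD.path_cnd' (l := l) (t := t) (v := v) (n := n) (m := m) (A := A) (R := R) (J := J)
    (c := c) hcd Nn.m1 Nn.J1 Nn.c0 (fun ω hω => (D.nd.good ω hω).2) D.nd.sl
  have hcost := cost_sp D Nn hs
  have hD1 := DEL_core D Nn hkn hcost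
  have hM2 : (2 : ℝ) ≤ M := by exact_mod_cast Nn.M2
  have hm1 : (1 : ℝ) ≤ m := by exact_mod_cast Nn.m1
  have r2 := Nn.r2
  have r3 := Nn.r3
  have hS : 0 < (m : ℝ) * Real.log 2 := mul_pos (by linarith) hl
  refine Rise.runs_pd hN0 Nn.ε0 Nn.B0 hβ hΛ Nn.lam0 D.inc D.vc hPd Nn.m1 Nn.c0 hs.kn
    (fun i hi => hs.eqa i hi) (fun i hi => hs.eqr i hi) (hs.pl hcd ?_ ?_) ?_ Nn.M2 Nn.r1 ?_ ?_ ?_
    Nn.r5 Nn.r6 Nn.lam1.le (X := Del) ?_ D.lp ?_
  · have := D.hA
    show m * A ≤ h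
    omega
  · have := D.hR
    show m * R ≤ q
    omega
  · show m * e.ai E i₀ < m * e.ai E (i₀ + 1)
    rw [hs.ai0, hs.first]
    have := Nn.m1
    omega
  · have := Nn.lam1
    linarith
  · have h1 : Λ * c * 2 ≤ Λ * c * M := mul_le_mul_of_nonneg_left hM2 (by linarith)
    linarith
  · have h1 : c * (m * Real.log 2) * 2 ≤ c * (m * Real.log 2) * M :=
      mul_le_mul_of_nonneg_left hM2 (by linarith)
    have h2 : c * M * (m * Real.log 2) = c * (m * Real.log 2) * M := by ring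
    linarith
  · have h2 : 0 ≤ ε * (q : ℝ) * Real.log 2 :=
      mul_nonneg (mul_nonneg Nn.ε0 (Nat.cast_nonneg _)) hl.le
    have h3 : 0 ≤ ε * (h : ℝ) * Real.log 2 :=
      mul_nonneg (mul_nonneg Nn.ε0 (Nat.cast_nonneg _)) hl.le
    have h4 : 0 ≤ (k : ℝ) * B := mul_nonneg (Nat.cast_nonneg _) Nn.B0
    have h5 := Nn.B0
    unfold DELp
    linarith
  · exact Nn.r4.trans (mul_le_mul_of_nonneg_left hkm Nn.ε₁0.le)

end Vale.Agent.P127.U.Core
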