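import Vale.Agent.P127.U.Lam.CoreA
import Vale.Agent.P127.U.Lam.CoreB
import Vale.Agent.P127.U.H824.CoreT
import Vale.Agent.P127.U.H736.RiseE

/-!
# P127 / U / Lam : the core of the macro part, second proof (helper336; the chain uses `CoreP.pCore` of 565)
-/

set_option autoImplicit false

namespace Vale.Agent.P127.U.Core

open Finset Vale.Agent.P127 Vale.Agent.P127.Stk Vale.Agent.P127.U Vale.Agent.P127.U.Inc
  Vale.Agent.P127.U.PathS Vale.Agent.P127.U.Bud

/-- **the core of the macro part** -/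
theorem pCore_z : PCore := by
  intro Ω _ N lam β δ ε Λ B K d c lam' ε₁ θ Lp Del P Q l t v n h q m A R J b1 b2 M G Ef E p D Nn
  have hl : 0 < Real.log 2 := Real.log_pos (by norm_num)
  have hm1 : (1 : ℝ) ≤ m := by exact_mod_cast Nn.m1
  have hm0 : (0 : ℝ) < m := by linarith
  have hb2 : (0 : ℝ) ≤ b2 := Nat.cast_nonneg _
  have hN0 : 0 ≤ N := by linarith [Nn.N2]
  have hδh : δ * (θ * h) ≤ 1 / 2 * h := by
    have e1 : θ * h ≤ 1 / 2 * h := mul_le_mul_of_nonneg_right Nn.θ1 (Nat.cast_nonneg _)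
    have e2 : 0 ≤ θ * (h : ℝ) := mul_nonneg Nn.θ0.le (Nat.cast_nonneg _)
    have e3 : δ * (θ * h) ≤ 1 * (θ * h) := mul_le_mul_of_nonneg_right Nn.δ1 e2
    linarith
  have hA0 : 0 < A := by
    rcases Nat.eq_zero_or_pos A with hA | hA
    · exfalso
      have e1 := D.hA'
      rw [hA, Nat.mul_zero, Nat.zero_add] at e1
      have e2 : (h : ℝ) ≤ b2 + 2 * m := by exact_mod_cast e1
      have e3 := Nn.t2
      linarith
    · exact hA
  set e := expl n m A R J c l t v with he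
  have hcd : Cnd e P Q E p := D.cnd
  have hd := D.nd
  rcases exists_sp hcd hA0 m with ⟨i₀, k, α, ρ, hs⟩ | ⟨h1, h2⟩
  swap
  · exfalso
    refine no_case D Nn (cost_core D Nn (Nat.le_add_left _ _) fun j hj => ?_) h1 h2
    have g1 : e.ai E j ≤ e.ai E e.R := hcd.ai_mono' hj.le
    rw [h1] at g1
    exact lt_of_le_of_lt g1 hA0
  have hcost := cost_sp D Nn hs
  have htail := SP.tail D Nn hs hcost
  have hct := ct_core D Nn hs htail.1
  have hkn : k ≤ A + R := by
    have := hs.kn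
    have e1 : e.A = A := rfl
    have e2 : e.R = R := rfl
    omega
  have hmA : m * e.A ≤ h := by
    have := D.hA
    have e1 : e.A = A := rfl
    rw [e1]
    omega
  have hmR : m * e.R ≤ q := by
    have := D.hR
    have e1 : e.R = R := rfl
    rw [e1]
    omega
  have hpl := hs.pl hcd hmA hmR
  -- the number of steps
  have hk1 : (h : ℝ) / (2 * m) ≤ k := by
    have e1 := hs.add hcd (i := k) le_rfl
    have e2 : ρ 0 ≤ ρ k := hs.mr (Nat.zero_le k)
    have e3 : α k ≤ m * k := by omega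
    have e4 : (α k : ℝ) ≤ m * k := by exact_mod_cast e3
    have e5 : θ * h ≤ 1 / 2 * (h : ℝ) := mul_le_mul_of_nonneg_right Nn.θ1 (Nat.cast_nonneg _)
    rw [div_le_iff₀ (by positivity)]
    linarith [htail.1]
  -- long runs
  have hΛc : 4000 ≤ Λ * c := by
    have := Nn.r2
    rwa [mul_comm] at this
  have hM2 : (2 : ℝ) ≤ M := by exact_mod_cast Nn.M2
  have hruns : (((range k).filter fun i => α (i + M) = α i).card : ℝ) ≤ ε₁ * k := by
    have hPd := PathD.path_cnd_q hcd Nn.m1 Nn.J1 Nn.c0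
      (fun ω hω => (hd.good ω hω).2) (fun ω hω => hd.sl ω hω)
    have hfirst : m * e.ai E i₀ < m * e.ai E (i₀ + 1) := by
      rw [hs.ai0, hs.first]
      have := Nn.m1
      omega
    refine Rise.runs_pd hN0 Nn.ε0 Nn.B0 (by linarith [Nn.lam0, Nn.lamβ])
      (by linarith [Nn.N2, Nn.NΛ]) Nn.lam0 D.inc D.vc hPd Nn.m1 Nn.c0 hs.kn hs.eqa hs.eqr hpl hfirst
      Nn.M2 Nn.r1 ?_ ?_ ?_ Nn.r5 Nn.r6 Nn.lam1.le (X := Del) (Lp := Lp) ?_ D.lp
      (Nn.r4.trans (mul_le_mul_of_nonneg_left hk1 Nn.ε₁0.le))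
    · linarith [Nn.lam1]
    · nlinarith
    · have e1 := Nn.r3
      have e2 : c * M * (m * Real.log 2) = c * (m * Real.log 2) * M := by ring
      rw [e2]
      nlinarith
    · have e1 := DEL_core D Nn hkn hcost
      have e2 : 0 ≤ (k : ℝ) * B := mul_nonneg (Nat.cast_nonneg _) Nn.B0
      have e3 : 0 ≤ ε * (q : ℝ) * Real.log 2 :=
        mul_nonneg (mul_nonneg Nn.ε0 (Nat.cast_nonneg _)) hl.le
      have e4 : 0 ≤ ε * (h : ℝ) * Real.log 2 :=
        mul_nonneg (mul_nonneg Nn.ε0 (Nat.cast_nonneg _)) hl.le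
      have e5 := Nn.B0
      unfold DELp
      linarith
  refine ⟨mkP l t v α ρ hs.ma hs.mr, k, fun ω => ⟨rfl, rfl, rfl, rfl, rfl, rfl⟩, hs.a0, ?_,
    hyp_of D Nn hs htail.1 hct hruns, htail.1, htail.2⟩
  exact (hs.mr (Nat.zero_le k)).trans hpl.rq

end Vale.Agent.P127.U.Core
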