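import Vale.Agent.P127.U.ExcBase

/-!
# P127 / U / Lam : the penalised excess (helper624)

* `B.szl lam` penalised size `(1 + lam) k + (1 - lam) j = k + j - lam (j - k)` (the size for tubes)
* `exVl`, `exSetl`, `excFl`, `S.excl lam B C`, `S.vall lam B W C` : the excess with the penalised size,
  `sup H(B | W, C) - log 2 E (szl B - szl W)`.
-/

set_option autoImplicit false

namespace Vale.Agent.P127.U

open Filter Topology Vale.Agent.P127 Vale.Agent.P127.Stk Sys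

/-- penalised size -/
noncomputable def Bx.szl {Ω : Type} (lam : ℝ) (B : Bx Ω) (ω : Ω) : ℝ :=
  (1 + lam) * (B.k ω : ℝ) + (1 - lam) * (B.j ω : ℝ)

section finite

variable {Ω : Type} [Fintype Ω] {γ : Type*}

/-- `H(B | W, C) - log 2 * E (szl B - szl W)` -/
noncomputable def exVl (lam : ℝ) (P : Law Ω) (B W : Bx Ω) (C : Ω → γ) : ℝ :=
  Stk.hc P B.lab (fun ω => (W.lab ω, C ω)) - Real.log 2 * P.ex fun ω => B.szl lam ω - W.szl lam ω

/-- the penalised values of all boxes containing `B`, on all extensions of `P` -/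
def exSetl (lam : ℝ) (P : Law Ω) (B : Bx Ω) (C : Ω → γ) : Set ℝ :=
  {v | ∃ (Ω' : Type) (_ : Fintype Ω') (P' : Law Ω') (π : Ω' → Ω) (W : Bx Ω'),
    (∀ ω, P'.pr π ω = P.w ω) ∧ (∀ ω, 0 < P'.w ω → Sub 1 (B.comp π) W ω) ∧
    v = exVl lam P' (B.comp π) W fun ω => C (π ω)}

/-- the penalised excess of `B` given `C` -/
noncomputable def excFl (lam : ℝ) (P : Law Ω) (B : Bx Ω) (C : Ω → γ) : ℝ := sSup (exSetl lam P B C)

end finite

namespace Sys

variable {S : Sys} {γ δ : Type}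

/-- the penalised size of a sequence of random boxes -/
noncomputable def BX.szl (lam : ℝ) (B : S.BX) : S.RV ℝ := fun i => (B i).szl lam

/-- normalised penalised excess -/
noncomputable def excl (lam : ℝ) (B : S.BX) (C : S.RV γ) : ℝ :=
  ulim fun i => excFl lam (S.P i) (B i) (C i) / S.nm i

/-- penalised value of the box `W` : `h(B | W, C) - E(szl B - szl W)` -/
noncomputable def vall (lam : ℝ) (B W : S.BX) (C : S.RV γ) : ℝ :=
  S.hc B.lab (Sys.pr W.lab C) - S.av fun i ω => B.szl lam i ω - W.szl lam i ω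

end Sys

namespace Lam

variable {lam : ℝ}

theorem szl_nonneg (h0 : 0 ≤ lam) (h1 : lam ≤ 1) {Ω : Type} {c : ℝ} {B W : Bx Ω} {ω : Ω}
    (h : Sub c B W ω) : 0 ≤ B.szl lam ω - W.szl lam ω := by
  obtain ⟨-, -, -, h4, h5, -⟩ := h
  have h4' : (W.k ω : ℝ) ≤ B.k ω := by exact_mod_cast h4
  have h5' : (W.j ω : ℝ) ≤ B.j ω := by exact_mod_cast h5
  unfold Bx.szl
  nlinarith

section finite

variable {Ω : Type} [Fintype Ω] {γ : Type*}

/-! ### finite facts on the excess -/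

theorem exV_le_H (hl : 0 ≤ lam ∧ lam ≤ 1) {P : Law Ω} {B W : Bx Ω} {C : Ω → γ} {c : ℝ}
    (h : ∀ ω, 0 < P.w ω → Sub c B W ω) : exVl lam P B W C ≤ P.H B.lab := by
  unfold exVl
  have h1 := Stk.hc_le_H P B.lab (fun ω => (W.lab ω, C ω))
  have h2 : 0 ≤ P.ex fun ω => B.szl lam ω - W.szl lam ω := by
    have := P.ex_mono (f := fun _ => (0:ℝ)) (g := fun ω => B.szl lam ω - W.szl lam ω)
      (fun ω hω => szl_nonneg hl.1 hl.2 (h ω hω))
    rwa [P.ex_const] at this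
  have h3 : 0 ≤ Real.log 2 * P.ex fun ω => B.szl lam ω - W.szl lam ω :=
    mul_nonneg (Real.log_nonneg (by norm_num)) h2
  linarith

theorem exSet_bddAbove (hl : 0 ≤ lam ∧ lam ≤ 1) (P : Law Ω) (B : Bx Ω) (C : Ω → γ) : BddAbove (exSetl lam P B C) := by
  refine ⟨P.H B.lab, ?_⟩
  rintro v ⟨Ω', _, P', π, W, h1, h2, rfl⟩
  have h3 := exV_le_H hl (C := fun ω => C (π ω)) h2
  have h4 := Stk.H_law_aux P' P π h1 B.lab
  refine h3.trans (le_of_eq ?_)
  rw [← h4]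
  rfl

theorem exV_self (P : Law Ω) (B : Bx Ω) (C : Ω → γ) : exVl lam P B B C = 0 := by
  unfold exVl
  have h1 : Stk.hc P B.lab (fun ω => (B.lab ω, C ω)) = 0 :=
    Stk.hc_zero P fun _ _ _ _ e => congrArg Prod.fst e
  have h2 : P.ex (fun ω => B.szl lam ω - B.szl lam ω) = 0 := by
    simp only [sub_self]
    exact P.ex_const 0
  rw [h1, h2]
  ring

theorem mem_exSet {P : Law Ω} {B W : Bx Ω} {C : Ω → γ} (h : ∀ ω, 0 < P.w ω → Sub 1 B W ω) :
    exVl lam P B W C ∈ exSetl lam P B C :=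
  ⟨Ω, inferInstance, P, id, W, Stk.pr_id P, h, rfl⟩

theorem zero_mem_exSet {P : Law Ω} {B : Bx Ω} {C : Ω → γ} (h : ∀ ω, 0 < P.w ω → BxOk B ω) :
    (0:ℝ) ∈ exSetl lam P B C := by
  have := mem_exSet (lam := lam) (C := C) (fun ω hω => sub_self_of_ok (h ω hω) zero_le_one)
  rwa [exV_self] at this

theorem excF_nonneg (hl : 0 ≤ lam ∧ lam ≤ 1) {P : Law Ω} {B : Bx Ω} {C : Ω → γ} (h : ∀ ω, 0 < P.w ω → BxOk B ω) :
    0 ≤ excFl lam P B C := le_csSup (exSet_bddAbove hl P B C) (zero_mem_exSet h)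

theorem excF_le_H (hl : 0 ≤ lam ∧ lam ≤ 1) {P : Law Ω} {B : Bx Ω} {C : Ω → γ} (h : ∀ ω, 0 < P.w ω → BxOk B ω) :
    excFl lam P B C ≤ P.H B.lab := by
  refine csSup_le ⟨0, zero_mem_exSet h⟩ ?_
  rintro v ⟨Ω', _, P', π, W, h1, h2, rfl⟩
  have h3 := exV_le_H hl (C := fun ω => C (π ω)) h2
  have h4 := Stk.H_law_aux P' P π h1 B.lab
  refine h3.trans (le_of_eq ?_)
  rw [← h4]
  rfl

/-- every box on an extension gives a lower bound -/
theorem exV_le_excF (hl : 0 ≤ lam ∧ lam ≤ 1) {P : Law Ω} {B : Bx Ω} {C : Ω → γ} {Ω' : Type} [Fintype Ω'] {P' : Law Ω'}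
    {π : Ω' → Ω} {W : Bx Ω'} (h1 : ∀ ω, P'.pr π ω = P.w ω)
    (h2 : ∀ ω, 0 < P'.w ω → Sub 1 (B.comp π) W ω) :
    exVl lam P' (B.comp π) W (fun ω => C (π ω)) ≤ excFl lam P B C :=
  le_csSup (exSet_bddAbove hl P B C) ⟨Ω', inferInstance, P', π, W, h1, h2, rfl⟩

/-- boxes on extensions: the set of values does not change -/
theorem exSet_ext {Ω' : Type} [Fintype Ω'] (P' : Law Ω') (P : Law Ω) (π : Ω' → Ω)
    (h : ∀ ω, P'.pr π ω = P.w ω) (B : Bx Ω) (C : Ω → γ) :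
    exSetl lam P' (B.comp π) (fun ω => C (π ω)) = exSetl lam P B C := by
  ext v
  constructor
  · rintro ⟨Ω'', _, P'', π', W, h1, h2, rfl⟩
    refine ⟨Ω'', inferInstance, P'', fun ω => π (π' ω), W, ?_, h2, rfl⟩
    intro ω
    have := Stk.pr_law_aux P'' P' π' h1 π ω
    rw [← h ω, ← this]
    rfl
  · rintro ⟨Ω'', _, P'', π', W, h1, h2, rfl⟩
    obtain ⟨Ω₃, _, Q, π₁, π₂, g1, g2, g3, g4⟩ := Stk.glue_exists P'' P' π' π
      (fun s => (h1 s).trans (h s).symm)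
    have hB : (B.comp π).comp π₂ = (B.comp π').comp π₁ := by
      have : ∀ ω, π (π₂ ω) = π' (π₁ ω) := fun ω => (g1 ω).symm
      show (⟨fun ω => B.l (π (π₂ ω)), fun ω => B.θ (π (π₂ ω)), fun ω => B.k (π (π₂ ω)),
        fun ω => B.j (π (π₂ ω))⟩ : Bx Ω₃) = ⟨fun ω => B.l (π' (π₁ ω)), fun ω => B.θ (π' (π₁ ω)),
        fun ω => B.k (π' (π₁ ω)), fun ω => B.j (π' (π₁ ω))⟩
      simp only [this]
    refine ⟨Ω₃, inferInstance, Q, π₂, W.comp π₁, g3, ?_, ?_⟩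
    · intro ω hω
      rw [hB]
      have hpos : 0 < P''.w (π₁ ω) := by
        rw [← g2]
        exact Q.pr_pos π₁ hω
      exact h2 (π₁ ω) hpos
    · rw [hB]
      have hC : (fun ω => C (π (π₂ ω))) = fun ω => C (π' (π₁ ω)) := by
        funext ω
        rw [g1]
      rw [hC]
      unfold exVl
      have e1 := Stk.hc_of_law Q P'' π₁ g2 (B.comp π').lab (fun ω => (W.lab ω, C (π' ω)))
      have e2 := Stk.ex_law_aux Q P'' π₁ g2 (fun ω => (B.comp π').szl lam ω - W.szl lam ω)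
      rw [← e1, ← e2]
      rfl

theorem excF_ext {Ω' : Type} [Fintype Ω'] (P' : Law Ω') (P : Law Ω) (π : Ω' → Ω)
    (h : ∀ ω, P'.pr π ω = P.w ω) (B : Bx Ω) (C : Ω → γ) :
    excFl lam P' (B.comp π) (fun ω => C (π ω)) = excFl lam P B C := by
  unfold excFl
  rw [exSet_ext P' P π h]

/-- more conditions, less excess -/
theorem excF_cond (hl : 0 ≤ lam ∧ lam ≤ 1) {δ : Type*} {P : Law Ω} {B : Bx Ω} (C : Ω → γ) (C' : Ω → δ)
    (h : ∀ ω, 0 < P.w ω → BxOk B ω) : excFl lam P B (fun ω => (C' ω, C ω)) ≤ excFl lam P B C := by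
  refine csSup_le ⟨0, zero_mem_exSet h⟩ ?_
  rintro v ⟨Ω', _, P', π, W, h1, h2, rfl⟩
  refine le_trans ?_ (exV_le_excF hl (C := C) h1 h2)
  unfold exVl
  have := Stk.hc_mono_right P' (B.comp π).lab (Y := fun ω => (W.lab ω, C (π ω)))
    (Y' := fun ω => (W.lab ω, (C' (π ω), C (π ω)))) (fun ω ω' _ _ e => by
      simp only [Prod.mk.injEq] at e ⊢
      exact ⟨e.1, e.2.2⟩)
  linarith

/-- a nearly optimal box -/
theorem exists_near {P : Law Ω} {B : Bx Ω} {C : Ω → γ} (h : ∀ ω, 0 < P.w ω → BxOk B ω) :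
    ∃ (Ω' : Type) (_ : Fintype Ω') (P' : Law Ω') (π : Ω' → Ω) (W : Bx Ω'),
      (∀ ω, P'.pr π ω = P.w ω) ∧ (∀ ω, 0 < P'.w ω → Sub 1 (B.comp π) W ω) ∧
      excFl lam P B C - 1 ≤ exVl lam P' (B.comp π) W fun ω => C (π ω) := by
  obtain ⟨v, ⟨Ω', i, P', π, W, h1, h2, rfl⟩, h3⟩ := exists_lt_of_lt_csSup
    (s := exSetl lam P B C) ⟨0, zero_mem_exSet h⟩ (sub_one_lt (sSup (exSetl lam P B C)))
  exact ⟨Ω', i, P', π, W, h1, h2, h3.le⟩

end finite

/-! ### systems -/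

variable {S : Sys} {γ δ : Type}

theorem ub_exc (hl : 0 ≤ lam ∧ lam ≤ 1) {B : S.BX} (h : BxA B) (C : S.RV γ) :
    UB fun i => excFl lam (S.P i) (B i) (C i) / S.nm i := by
  obtain ⟨c, hc⟩ := h.tame
  refine UB.of_le (C := c) ?_ ?_
  · filter_upwards [S.nm_pos, h.1] with i hi h1
    exact div_nonneg (excF_nonneg hl h1) hi.le
  · filter_upwards [S.nm_pos, hc, h.1] with i hi h1 h2
    rw [div_le_iff₀ hi]
    exact (excF_le_H hl h2).trans h1

/-- sizes are `O(L)` -/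
theorem ol_szl (hl : 0 ≤ lam ∧ lam ≤ 1) {B : S.BX} (h : BxA B) : OL (BX.szl lam B) := by
  obtain ⟨h1, c, hc⟩ := h
  refine ⟨2 * c, ?_⟩
  filter_upwards [h1, hc] with i g1 g2 ω hω
  have h2 := g2 ω hω
  have h3 : ((B i).k ω : ℝ) ≤ (B i).j ω := by exact_mod_cast (g1 ω hω).2.2
  have h4 : (0:ℝ) ≤ (B i).k ω := Nat.cast_nonneg _
  have h5 : (0:ℝ) ≤ (B i).j ω := Nat.cast_nonneg _
  show |(1 + lam) * ((B i).k ω : ℝ) + (1 - lam) * ((B i).j ω : ℝ)| ≤ _
  have h6 : 0 ≤ (1 + lam) * ((B i).k ω : ℝ) := mul_nonneg (by linarith [hl.1]) h4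
  have h7 : 0 ≤ (1 - lam) * ((B i).j ω : ℝ) := mul_nonneg (by linarith [hl.2]) h5
  rw [abs_of_nonneg (by linarith)]
  have h8 : lam * ((B i).k ω : ℝ) ≤ lam * ((B i).j ω : ℝ) := mul_le_mul_of_nonneg_left h3 hl.1
  nlinarith

/-- the value as a limit -/
theorem vall_eq (hl : 0 ≤ lam ∧ lam ≤ 1) {B W : S.BX} (hB : BxA B) (hW : BxA W) (C : S.RV γ) :
    S.vall lam B W C = ulim fun i => exVl lam (S.P i) (B i) (W i) (C i) / S.nm i := by
  unfold Sys.vall Sys.hc Sys.av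
  have h1 : UB fun i => (S.P i).ex (fun ω => (B i).szl lam ω - (W i).szl lam ω) / S.L i :=
    UB.av ((ol_szl hl hB).sub (ol_szl hl hW))
  have h2 := UB.hc hB.tame (Sys.pr (BX.lab W) C)
  have e := (ulim_sub h2 h1).symm
  refine Eq.trans e ?_
  refine ulim_congr ?_
  filter_upwards [S.L_pos] with i hi
  have hL : (0:ℝ) < S.L i := by exact_mod_cast hi
  have hl : 0 < Real.log 2 := Real.log_pos (by norm_num)
  unfold exVl nm
  rw [sub_div]
  congr 1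
  field_simp

theorem ub_exV (hl : 0 ≤ lam ∧ lam ≤ 1) {B W : S.BX} (hB : BxA B) (hW : BxA W) (C : S.RV γ) :
    UB fun i => exVl lam (S.P i) (B i) (W i) (C i) / S.nm i := by
  have h1 : UB fun i => (S.P i).ex (fun ω => (B i).szl lam ω - (W i).szl lam ω) / S.L i :=
    UB.av ((ol_szl hl hB).sub (ol_szl hl hW))
  have h2 := UB.hc hB.tame (Sys.pr (BX.lab W) C)
  obtain ⟨c, hc⟩ := h2.sub h1
  refine ⟨c, ?_⟩
  filter_upwards [hc, S.L_pos] with i h3 hi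
  have hL : (0:ℝ) < S.L i := by exact_mod_cast hi
  have hl : 0 < Real.log 2 := Real.log_pos (by norm_num)
  refine le_trans (le_of_eq ?_) h3
  congr 1
  unfold exVl nm
  rw [sub_div]
  congr 1
  field_simp

end Lam

end Vale.Agent.P127.U
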