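import Vale.Agent.P127.U.SubF
import Vale.Agent.P127.U.Fill
import Vale.Agent.P127.U.Coarse
import Vale.Agent.P127.U.Lam.ExcB
import Vale.Agent.P127.U.Lam.FinDefs

/-!
# P127 / U / Lam : extension of a label from the level `s` to the level `0` (helper404)

`ext0 : X(s) ≤ X(0) + 2 ν(s)` for systems, every side information.
-/

set_option autoImplicit false

namespace Vale.Agent.P127.U.LamEx

open Finset Filter Topology Vale.Agent.P127 Vale.Agent.P127.Stk Vale.Agent.P127.U Sys Lam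
open Vale.Agent.P127.U.SubF (df co_df lab_apx lab_eq)

/-- linear combination in a frame -/
theorem co_lin {φ a b A B : ℝ} {u v w : Fin 2 → ℝ} (h : ∀ i, w i = a * u i - b * v i) (i : Fin 2)
    (hu : |co φ u i| ≤ A) (hv : |co φ v i| ≤ B) : |co φ w i| ≤ |a| * A + |b| * B := by
  have e : co φ w i = a * co φ u i - b * co φ v i := by
    fin_cases i
    · show Real.cos φ * w 0 + Real.sin φ * w 1 = a * (Real.cos φ * u 0 + Real.sin φ * u 1) -
        b * (Real.cos φ * v 0 + Real.sin φ * v 1)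
      rw [h, h]
      ring
    · show -Real.sin φ * w 0 + Real.cos φ * w 1 = a * (-Real.sin φ * u 0 + Real.cos φ * u 1) -
        b * (-Real.sin φ * v 0 + Real.cos φ * v 1)
      rw [h, h]
      ring
  rw [e]
  have h1 := abs_sub (a * co φ u i) (b * co φ v i)
  rw [abs_mul, abs_mul] at h1
  have h2 := mul_le_mul_of_nonneg_left hu (abs_nonneg a)
  have h3 := mul_le_mul_of_nonneg_left hv (abs_nonneg b)
  linarith

/-- finite form : the box of shape `(k, j)` of the line is a function of the box of shape `(k, j)` of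
the line seen in the ball, of the cell of time, and of the integer part of the position -/
theorem ext_lab {Ω : Type} [Fintype Ω] {γ : Type*} (P : Law Ω) (s : ℕ) (l : Ω → Ln) (t : Ω → ℝ)
    (W : Bx Ω) (Z : Ω → γ)
    (hW : ∀ ω, 0 < P.w ω → W.l ω =
      (fun j => Int.fract ((2 : ℝ) ^ s * pos (l ω) (qa s (t ω)) j), (l ω).2) ∧ |qa s (t ω)| ≤ 1)
    (hZ : ∀ ω ω', 0 < P.w ω → 0 < P.w ω' → Z ω = Z ω' → W.lab ω = W.lab ω' ∧
      fl1 s (t ω) = fl1 s (t ω') ∧
      fl s (pos (l ω) (qa s (t ω))) = fl s (pos (l ω') (qa s (t ω')))) :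
    Stk.hc P (fun ω => lab (W.θ ω) (W.k ω) (W.j ω) (l ω)) Z ≤ 5 * Real.log (2 * (2 : ℕ) + 3) := by
  have hL : ∀ ω ω', 0 < P.w ω → 0 < P.w ω' → Z ω = Z ω' →
      W.k ω = W.k ω' ∧ W.j ω = W.j ω' ∧ fl1 (W.j ω - W.k ω) (W.θ ω) = fl1 (W.j ω - W.k ω) (W.θ ω') ∧
      (|co (qa (W.j ω - W.k ω) (W.θ ω)) (df (W.l ω).1 (W.l ω').1) 0| ≤ (1 / 2 : ℝ) ^ W.k ω ∧
        |co (qa (W.j ω - W.k ω) (W.θ ω)) (df (W.l ω).1 (W.l ω').1) 1| ≤ (1 / 2 : ℝ) ^ W.j ω) ∧
      (|co (qa (W.j ω - W.k ω) (W.θ ω)) (df (W.l ω).2 (W.l ω').2) 0| ≤ (1 / 2 : ℝ) ^ W.k ω ∧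
        |co (qa (W.j ω - W.k ω) (W.θ ω)) (df (W.l ω).2 (W.l ω').2) 1| ≤ (1 / 2 : ℝ) ^ W.j ω) :=
    fun ω ω' p p' e => lab_eq (hZ ω ω' p p' e).1
  refine lab_apx P 2 W.θ W.k W.j l Z (fun ω ω' p p' e => ⟨(hL ω ω' p p' e).1, (hL ω ω' p p' e).2.1⟩)
    ?_ ?_
  · intro ω ω' p p' e
    have h1 := Apx.fl1_close (hL ω ω' p p' e).2.2.1
    have hp : (0 : ℝ) < (1 / 2 : ℝ) ^ (W.j ω - W.k ω) := by positivity
    push_cast
    linarith
  · intro ω ω' p p' e
    obtain ⟨-, -, -, h1, h2⟩ := hL ω ω' p p' e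
    obtain ⟨-, et, eF⟩ := hZ ω ω' p p' e
    have w1 := (hW ω p).1
    have w2 := (hW ω' p').1
    have y1 : (W.l ω).2 = (l ω).2 := by rw [w1]
    have y2 : (W.l ω').2 = (l ω').2 := by rw [w2]
    rw [y1, y2] at h2
    have ht := (hW ω p).2
    have eq : qa s (t ω') = qa s (t ω) := (Apx.qa_congr et).symm
    have h2s : (0 : ℝ) < 2 ^ s := by positivity
    have hx : ∀ i, df (l ω).1 (l ω').1 i = ((2 : ℝ) ^ s)⁻¹ * df (W.l ω).1 (W.l ω').1 i -
        qa s (t ω) * df (l ω).2 (l ω').2 i := by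
      intro i
      have f1 : (W.l ω).1 i = (2 : ℝ) ^ s * pos (l ω) (qa s (t ω)) i -
          fl s (pos (l ω) (qa s (t ω))) i := by
        rw [w1]
        rfl
      have f2 : (W.l ω').1 i = (2 : ℝ) ^ s * pos (l ω') (qa s (t ω')) i -
          fl s (pos (l ω') (qa s (t ω'))) i := by
        rw [w2]
        rfl
      have f3 : (fl s (pos (l ω) (qa s (t ω))) i : ℝ) = fl s (pos (l ω') (qa s (t ω'))) i := by
        rw [eF]
      unfold df
      rw [f1, f2, f3, eq]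
      unfold pos
      field_simp
      ring
    have hinv : |((2 : ℝ) ^ s)⁻¹| ≤ 1 := by
      rw [abs_of_pos (by positivity)]
      exact inv_le_one_of_one_le₀ (one_le_pow₀ (by norm_num))
    have hk : (0 : ℝ) < (1 / 2 : ℝ) ^ W.k ω := by positivity
    have hj : (0 : ℝ) < (1 / 2 : ℝ) ^ W.j ω := by positivity
    have r0 := co_lin hx 0 h1.1 h2.1
    have r1 := co_lin hx 1 h1.2 h2.2
    have q0 : |((2 : ℝ) ^ s)⁻¹| * (1 / 2 : ℝ) ^ W.k ω ≤ 1 * (1 / 2 : ℝ) ^ W.k ω :=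
      mul_le_mul_of_nonneg_right hinv hk.le
    have q1 : |((2 : ℝ) ^ s)⁻¹| * (1 / 2 : ℝ) ^ W.j ω ≤ 1 * (1 / 2 : ℝ) ^ W.j ω :=
      mul_le_mul_of_nonneg_right hinv hj.le
    have q2 : |qa s (t ω)| * (1 / 2 : ℝ) ^ W.k ω ≤ 1 * (1 / 2 : ℝ) ^ W.k ω :=
      mul_le_mul_of_nonneg_right ht hk.le
    have q3 : |qa s (t ω)| * (1 / 2 : ℝ) ^ W.j ω ≤ 1 * (1 / 2 : ℝ) ^ W.j ω :=
      mul_le_mul_of_nonneg_right ht hj.le
    push_cast
    exact ⟨⟨by linarith, by linarith⟩, ⟨by linarith [h2.1], by linarith [h2.2]⟩⟩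

section sys

variable {S : Sys} {γ : Type} {lam : ℝ}

/-- average of a deterministic scale -/
theorem av_szl_tubes {m : ℕ → ℕ} (hm : S.Bd m) (l : S.RV Ln) :
    S.av (BX.szl lam (tubes m l)) = 2 * S.nu m := by
  have e : BX.szl lam (tubes m l) = fun i _ => 2 * (m i : ℝ) := by
    funext i ω
    show (1 + lam) * ((m i : ℕ) : ℝ) + (1 - lam) * ((m i : ℕ) : ℝ) = _
    ring
  rw [e, Fi.av_const]
  unfold nu
  rw [← ulim_const_mul 2 (Apx.UB.nu hm)]
  refine ulim_congr (Eventually.of_forall fun i => ?_)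
  ring

/-- **extension of labels to the level `0`** -/
theorem ext0 (hl : 0 ≤ lam ∧ lam ≤ 1) {s n : ℕ → ℕ} {l : S.RV Ln} {t : S.RV ℝ} (C : S.RV γ)
    (hn : S.Bd n) (hln : LnA l) (ht : T01 t) (hsn : ∀ i, s i ≤ n i) :
    Xl lam s n l t C ≤ 2 * S.nu s + S.excl lam (tubes n l) C := by
  set m : ℕ → ℕ := fun i => n i - s i with hm
  have hpar : Fi.Par S n s m := ⟨fun i => Nat.add_sub_cancel' (hsn i), hn⟩
  have hB : BxA (tubes m (bl s l t)) := Fi.tubes_bxA hpar.bdm (Fi.bl_ok hln)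
  obtain ⟨S', e, W, hWA, hWS, hWv, hWi⟩ := excl_att hl (Sys.pr (pqs s (pt l t)) C) hB
  have h' : Fi.Par S' n s m := hpar.ext e
  have hn' : S'.Bd n := h'.bd
  have hl' : LnA (e.pull l) := Fi.ext_lnA e hln
  have ht' : T01 (e.pull t) := Fi.ext_t01 e ht
  have hB' : BxA (tubes m (bl s (e.pull l) (e.pull t))) := e.bxA hB
  have hWS' : SubA (tubes m (bl s (e.pull l) (e.pull t))) W := hWS
  -- the extended label
  let V : S'.BX := fun i => ⟨e.pull l i, (W i).θ, (W i).k, (W i).j⟩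
  have hVS : SubA (tubes n (e.pull l)) V := by
    obtain ⟨c, hc⟩ := hWS'
    refine ⟨1, ?_⟩
    filter_upwards [hc] with i hi ω hω
    obtain ⟨-, a2, a3, a4, a5, -⟩ := hi ω hω
    have a4' : (W i).k ω ≤ n i := le_trans a4 (Nat.sub_le _ _)
    have a5' : (W i).j ω ≤ n i := le_trans a5 (Nat.sub_le _ _)
    refine ⟨rfl, a2, a3, a4', a5', ?_⟩
    have b1 := Real.abs_sin_le_one ((0 : ℝ) - (W i).θ ω)
    have b2 : (1 / 2 : ℝ) ^ n i ≤ (1 / 2 : ℝ) ^ (W i).j ω :=
      pow_le_pow_of_le_one (by norm_num) (by norm_num) a5'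
    have b3 : (0 : ℝ) < (1 / 2 : ℝ) ^ n i := by positivity
    show |Real.sin ((0 : ℝ) - (W i).θ ω)| * (1 / 2 : ℝ) ^ n i ≤ 1 * (1 / 2 : ℝ) ^ (W i).j ω
    calc _ ≤ 1 * (1 / 2 : ℝ) ^ n i := mul_le_mul_of_nonneg_right b1 b3.le
      _ ≤ _ := mul_le_mul_of_nonneg_left b2 zero_le_one
  have hT : BxA (tubes n l) := Fi.tubes_bxA hn hln
  have hT' : BxA (tubes n (e.pull l)) := e.bxA hT
  have hVA : BxA V := bxA_of_sub hT' hVS
  have key := excl_ge hl e C hT hVA hVS
  -- names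
  set X := BX.lab (tubes n (e.pull l)) with hX
  set B := BX.lab (tubes m (bl s (e.pull l) (e.pull t))) with hBl
  set Wl := BX.lab W with hWl
  set Vl := BX.lab V with hVl
  set p := pqs s (pt (e.pull l) (e.pull t)) with hp
  set C' := e.pull C with hC'
  set F := dgv s (Fi.ps s (e.pull l) (e.pull t)) with hF
  set TL := tl s n (e.pull l) (e.pull t) with hTL
  have tX : Tame X := hT'.tame
  have tB : Tame B := hB'.tame
  have tW : Tame Wl := hWA.tame
  have tV : Tame Vl := hVA.tame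
  have tp : Tame p := Fi.tame_pqs h'.bds hl' ht'
  have tF : Tame F := Fi.tame_ps h'.bds hl' ht'
  -- the integer part of the position
  have zF : S'.hc F p = 0 := by
    refine Fi.hc_zero_fl s 5 (Fi.ps s (e.pull l) (e.pull t)) _ ?_
    filter_upwards [hl', ht'] with i h1 h2 ω ω' hω hω' e' j
    have e1 : |pos (e.pull l i ω') (e.pull t i ω') j - pos (e.pull l i ω) (e.pull t i ω) j| ≤
        (1 / 2 : ℝ) ^ s i := Fi.fl_close1 (congrArg Prod.snd e') j
    have e2 : ∀ ω, 0 < (S'.P i).w ω →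
        |pos (e.pull l i ω) (e.pull t i ω) j - Fi.ps s (e.pull l) (e.pull t) i ω j| ≤
          (1 / 2 : ℝ) ^ s i := by
      intro ω hω
      have b1 := Apx.abs_sub_qa (s i) (e.pull t i ω)
      have b2 := (h1 ω hω).2 j
      unfold Fi.ps
      rw [Apx.pos_sub, abs_mul]
      calc _ ≤ (1 / 2 : ℝ) ^ s i * 1 := mul_le_mul b1 b2 (abs_nonneg _) (by positivity)
        _ = _ := mul_one _
    have a1 := e2 ω hω
    have a2 := e2 ω' hω'
    have e3 : Fi.ps s (e.pull l) (e.pull t) i ω' j - Fi.ps s (e.pull l) (e.pull t) i ω j =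
        (pos (e.pull l i ω') (e.pull t i ω') j - pos (e.pull l i ω) (e.pull t i ω) j) +
        (-(pos (e.pull l i ω') (e.pull t i ω') j - Fi.ps s (e.pull l) (e.pull t) i ω' j)) +
        (pos (e.pull l i ω) (e.pull t i ω) j - Fi.ps s (e.pull l) (e.pull t) i ω j) := by ring
    rw [e3]
    rw [← abs_neg] at a2
    have := Fi.abs_add3 e1 a2 a1
    have hp' : (0 : ℝ) < (1 / 2 : ℝ) ^ s i := by positivity
    push_cast
    linarith
  -- the extended label is a function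
  have zV : S'.hc Vl (Sys.pr Wl (Sys.pr F (Sys.pr p C'))) = 0 := by
    obtain ⟨c, hc⟩ := hWS'
    refine hc_zero_of_le (5 * Real.log (2 * (2 : ℕ) + 3)) ?_
    filter_upwards [hc, ht'] with i h1 h2
    refine ext_lab (S'.P i) (s i) (e.pull l i) (e.pull t i) (W i) _ ?_ ?_
    · intro ω hω
      exact ⟨(h1 ω hω).1, Fi.abs_qa_le (h2 ω hω).1 (h2 ω hω).2⟩
    · intro ω ω' _ _ e'
      simp only [pr_apply, Prod.mk.injEq] at e'
      obtain ⟨g1, g2, g3, -⟩ := e'
      exact ⟨g1, congrArg Prod.fst g3, g2⟩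
  -- softness
  have soft : S'.hc X (Sys.pr Wl (Sys.pr B (Sys.pr p C'))) = S'.hc X (Sys.pr B (Sys.pr p C')) := by
    have k1 := Fi.hc_swap tX tW (Sys.pr B (Sys.pr p C'))
    have k2 : S'.hc Wl (Sys.pr X (Sys.pr B (Sys.pr p C'))) = S'.hc Wl (Sys.pr B (Sys.pr p C')) :=
      hWi _ (BX.lab (tubes n l))
    linarith
  -- tubelets
  have zTL : S'.hc (Sys.pr B p) TL = 0 := by
    refine Fi.hc_zero_pair tB tp ?_ ?_
    · refine hc_fn ?_
      filter_upwards [Fi.fn_tubelet (l := e.pull l) (t := e.pull t) h'] with i hi ω ω' a b e'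
      refine hi ω ω' a b ?_
      simp only [pr_apply, Prod.mk.injEq]
      exact ⟨congrArg (fun q => q.2.1) e', congrArg (fun q => q.2.2) e'⟩
    · refine Fi.hc_zero_pair (X := dg s (e.pull t)) (Fi.t01_tame ht' h'.bds)
        (Fi.tame_posv h'.bds hl' (Fi.t01_abs ht')) ?_ ?_
      · exact hc_fn (Eventually.of_forall fun _ _ _ _ _ e' => congrArg Prod.fst e')
      · refine Fi.hc_zero_fl s 5 (fun i ω => pos (e.pull l i ω) (e.pull t i ω)) _ ?_
        filter_upwards [hl', ht'] with i h1 h2 ω ω' hω hω' e' j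
        have e1 : |Fi.ps s (e.pull l) (e.pull t) i ω' j - Fi.ps s (e.pull l) (e.pull t) i ω j| ≤
            (1 / 2 : ℝ) ^ n i := Fi.fl_close1 (congrArg (fun q => q.2.1) e') j
        have e2 : ∀ ω, 0 < (S'.P i).w ω →
            |pos (e.pull l i ω) (e.pull t i ω) j - Fi.ps s (e.pull l) (e.pull t) i ω j| ≤
              (1 / 2 : ℝ) ^ s i := by
          intro ω hω
          have b1 := Apx.abs_sub_qa (s i) (e.pull t i ω)
          have b2 := (h1 ω hω).2 j
          unfold Fi.ps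
          rw [Apx.pos_sub, abs_mul]
          calc _ ≤ (1 / 2 : ℝ) ^ s i * 1 := mul_le_mul b1 b2 (abs_nonneg _) (by positivity)
            _ = _ := mul_one _
        have a1 := e2 ω hω
        have a2 := e2 ω' hω'
        have a3 := Fi.hp_anti (hsn i)
        have e3 : pos (e.pull l i ω') (e.pull t i ω') j - pos (e.pull l i ω) (e.pull t i ω) j =
            (Fi.ps s (e.pull l) (e.pull t) i ω' j - Fi.ps s (e.pull l) (e.pull t) i ω j) +
            (pos (e.pull l i ω') (e.pull t i ω') j - Fi.ps s (e.pull l) (e.pull t) i ω' j) +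
            (-(pos (e.pull l i ω) (e.pull t i ω) j - Fi.ps s (e.pull l) (e.pull t) i ω j)) := by
          ring
        rw [e3]
        rw [← abs_neg] at a1
        have := Fi.abs_add3 e1 a2 a1
        have hp' : (0 : ℝ) < (1 / 2 : ℝ) ^ s i := by positivity
        push_cast
        linarith
  have tTL : Tame TL := by
    have h1 : Tame (Sys.pr (dg s (e.pull t)) (Sys.pr (dgv n (Fi.ps s (e.pull l) (e.pull t)))
        (dgv m (dir (e.pull l))))) :=
      (Fi.t01_tame ht' h'.bds).pr ((Fi.tame_ps h'.bd hl' ht').pr (Fi.tame_dirv h'.bdm hl'))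
    exact h1.mono (Eventually.of_forall fun i ω ω' _ _ e' => e')
  have k1 : S'.hc X (Sys.pr TL C') ≤ S'.hc X (Sys.pr B (Sys.pr p C')) := by
    have a1 : S'.hc (Sys.pr B p) (Sys.pr TL C') = 0 :=
      Fi.hc_zero_mono (tB.pr tp) zTL (Eventually.of_forall fun _ _ _ _ _ e' => congrArg Prod.fst e')
    have a2 := hc_cond_zero tX (tB.pr tp) a1
    rw [← a2]
    exact hc_mono_right tX (Eventually.of_forall fun _ _ _ _ _ e' => by
      simp only [pr_apply, Prod.mk.injEq] at e' ⊢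
      exact ⟨e'.1.1, e'.1.2, e'.2.2⟩)
  -- the tubelet is a function of the line and of the point
  have zB : S'.hc B (Sys.pr X (Sys.pr Wl (Sys.pr p C'))) = 0 := by
    have a1 := Fi.zero_tubelet_tb (l := e.pull l) (t := e.pull t) h' hl' ht'
    refine Fi.hc_zero_mono tB a1 ?_
    filter_upwards [Coa.fn_lab' n (e.pull l)] with i hi ω ω' a b e'
    simp only [pr_apply, Prod.mk.injEq] at e' ⊢
    exact ⟨congrArg Prod.fst e'.2.2.1, hi ω ω' a b e'.1⟩
  have k2 : S'.hc B (Sys.pr Wl (Sys.pr p C')) + S'.hc X (Sys.pr B (Sys.pr Wl (Sys.pr p C'))) =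
      S'.hc X (Sys.pr Wl (Sys.pr p C')) := by
    have a1 := Fi.hc_swap tB tX (Sys.pr Wl (Sys.pr p C'))
    rw [zB] at a1
    linarith
  have k3 : S'.hc X (Sys.pr B (Sys.pr Wl (Sys.pr p C'))) =
      S'.hc X (Sys.pr Wl (Sys.pr B (Sys.pr p C'))) :=
    hc_congr (Eventually.of_forall fun _ _ _ _ _ e' => congrArg Prod.fst e')
      (Eventually.of_forall fun _ _ _ _ _ e' => congrArg Prod.fst e')
      (Eventually.of_forall fun _ _ _ _ _ e' => by
        simp only [pr_apply, Prod.mk.injEq] at e' ⊢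
        exact ⟨e'.2.1, e'.1, e'.2.2⟩)
      (Eventually.of_forall fun _ _ _ _ _ e' => by
        simp only [pr_apply, Prod.mk.injEq] at e' ⊢
        exact ⟨e'.2.1, e'.1, e'.2.2⟩)
  have k4 : S'.hc X (Sys.pr Wl (Sys.pr p C')) ≤ S'.hc X (Sys.pr Vl C') := by
    have a1 : S'.hc F (Sys.pr Wl (Sys.pr p C')) = 0 :=
      Fi.hc_zero_mono tF zF (Eventually.of_forall fun _ _ _ _ _ e' => by
        simp only [pr_apply, Prod.mk.injEq] at e'
        exact e'.2.1)
    have a2 := hc_cond_zero tX tF a1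
    have a3 : S'.hc Vl (Sys.pr F (Sys.pr Wl (Sys.pr p C'))) = 0 :=
      Fi.hc_zero_mono tV zV (Eventually.of_forall fun _ _ _ _ _ e' => by
        simp only [pr_apply, Prod.mk.injEq] at e' ⊢
        exact ⟨e'.2.1, e'.1, e'.2.2⟩)
    have a4 := hc_cond_zero tX tV a3
    rw [← a2, ← a4]
    exact hc_mono_right tX (Eventually.of_forall fun _ _ _ _ _ e' => by
      simp only [pr_apply, Prod.mk.injEq] at e' ⊢
      exact ⟨e'.1, e'.2.2.2.2⟩)
  -- sizes
  have v1 : S'.vall lam (e.pullB (tubes m (bl s l t))) W (e.pull (Sys.pr (pqs s (pt l t)) C)) =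
      S'.hc B (Sys.pr Wl (Sys.pr p C')) - (2 * S'.nu m - S'.av (BX.szl lam W)) := by
    have e1 : S'.av (fun i ω => ((tubes m (bl s (e.pull l) (e.pull t))) i).szl lam ω -
        (W i).szl lam ω) = 2 * S'.nu m - S'.av (BX.szl lam W) := by
      have e2 := av_sub (ol_szl hl hB') (ol_szl hl hWA)
      rw [← av_szl_tubes (lam := lam) h'.bdm (bl s (e.pull l) (e.pull t))]
      exact e2
    rw [← e1]
    rfl
  have v2 : S'.vall lam (e.pullB (tubes n l)) V (e.pull C) =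
      S'.hc X (Sys.pr Vl C') - (2 * S'.nu n - S'.av (BX.szl lam V)) := by
    have e1 : S'.av (fun i ω => ((tubes n (e.pull l)) i).szl lam ω -
        (V i).szl lam ω) = 2 * S'.nu n - S'.av (BX.szl lam V) := by
      have e2 := av_sub (ol_szl hl hT') (ol_szl hl hVA)
      rw [← av_szl_tubes (lam := lam) hn' (e.pull l)]
      exact e2
    rw [← e1]
    rfl
  have v3 : S'.av (BX.szl lam V) = S'.av (BX.szl lam W) := rfl
  have v4 : S.hc (tbs n l) (Sys.pr (tl s n l t) C) = S'.hc X (Sys.pr TL C') := by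
    rw [← e.hc (tbs n l) (Sys.pr (tl s n l t) C)]
    refine hc_congr ?_ ?_ (Eventually.of_forall fun _ _ _ _ _ e' => e')
      (Eventually.of_forall fun _ _ _ _ _ e' => e')
    · filter_upwards [Coa.fn_lab' n (e.pull l)] with i hi ω ω' a b e'
      exact hi ω ω' a b (congrArg Prod.fst e')
    · filter_upwards [Coa.fn_lab n (e.pull l)] with i hi ω ω' a b e'
      exact hi ω ω' a b (congrArg Prod.fst e')
  have v5 := Fi.nu_add h'
  have v6 := Fi.nu_ext e s
  unfold Xl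
  rw [v4]
  rw [v2] at key
  rw [v1] at hWv
  have hexc : S.excl lam (tubes (fun i => n i - s i) (bl s l t)) (Sys.pr (pqs s (pt l t)) C) =
      S'.hc B (Sys.pr Wl (Sys.pr p C')) - (2 * S'.nu m - S'.av (BX.szl lam W)) := hWv.symm
  rw [hexc]
  linarith

end sys

end Vale.Agent.P127.U.LamEx
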