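import Vale.Agent.P127.U.Lam.TopB
import Vale.Agent.P127.U.Lam.JL

/-!
# P127 / U / Lam : the saturation of the end label as a finite statement (helper723)

* `rootF r W l` : the box of the root of shape `(0, r)` in the frame of `W`.
* `NEx N lam β d P l t W L q n` : `P` is near-extremal at the scale `L` for the end label `(W, p_L)`,
  `W` of shape `(0, q)` in the coordinates of the ball of radius `2^-L`, error `d L`.
* `FSat` : (SAT) for finite laws with explicit errors.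
* `xtrV_nex`, `nex_xtrV` : systems and finite laws.
* `psat_of : FSat → PSat`.
-/

set_option autoImplicit false

namespace Vale.Agent.P127.U

open Filter Topology Vale.Agent.P127 Vale.Agent.P127.Stk Sys

/-- the box of the root of shape `(0, r)` in the frame of `W` -/
def rootF {Ω : Type} (r : ℕ) (W : Bx Ω) (l : Ω → Ln) : Bx Ω := ⟨l, W.θ, fun _ => 0, fun _ => r⟩

/-- `P` is near-extremal (error `d L`) at the scale `L` with the end label `(W, p_L)`, lines of
precision `n = L + q`, `W` of shape `(0, q)` -/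
structure NEx (N lam β d : ℝ) {Ω : Type} [Fintype Ω] (P : Law Ω) (l : Ω → Ln) (t : Ω → ℝ)
    (W : Bx Ω) (L q n : ℕ) : Prop where
  nq : n = L + q
  good : GoodF P l t
  lab : ∀ ω, 0 < P.w ω → W.l ω = blF L l t ω ∧ |W.θ ω| ≤ Real.pi / 4 ∧ W.k ω = 0 ∧ W.j ω = q
  rnd : Stk.Fn P l (fun ω => tb n (l ω))
  ge : (β - d) * L * Real.log 2 + excFl lam P (tbx n l) (fun _ => ()) +
      N * DF P L n l t (fun _ => ()) ≤
    Stk.hc P (fun ω => tb n (l ω)) (fun ω => (W.lab ω, pq L (ptF l t ω))) -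
      (2 * ((n : ℝ) - L) - (1 - lam) * q) * Real.log 2

/-- **finite (SAT)** -/
def FSat : Prop :=
  ∀ N lam β : ℝ, 2 ≤ N → 0 < lam → lam < 1 → lam < β → β ≤ 2 → JFG N lam β → JL N lam β →
    ∀ K ε : ℝ, 0 < ε → ∃ δ : ℝ, 0 < δ ∧ ∃ L₀ : ℕ, ∀ (Ω : Type) [Fintype Ω] (P : Law Ω)
      (l : Ω → Ln) (t : Ω → ℝ) (W : Bx Ω) (L q n : ℕ), L₀ ≤ L → (n : ℝ) ≤ K * L →
      NEx N lam β δ P l t W L q n →
      ∃ Q : Law Ω, (∀ ω, 0 < Q.w ω → 0 < P.w ω) ∧ NEx N lam β ε Q l t W L q n ∧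
        ∃ r : ℕ, r ≤ q ∧ (2 * (L : ℝ) + ((q : ℝ) - r) - ε * L) * Real.log 2 ≤
          Stk.hc Q (fun ω => tb n (l ω)) (rootF r W l).lab -
            Stk.hc Q (fun ω => tb n (l ω)) (fun ω => (W.lab ω, pq L (ptF l t ω)))

/-- the structural part of `NEx` is inherited by absolutely continuous laws -/
theorem NEx.of_ac {N lam β d d' : ℝ} {Ω : Type} [Fintype Ω] {P Q : Law Ω} {l : Ω → Ln} {t : Ω → ℝ}
    {W : Bx Ω} {L q n : ℕ} (h : NEx N lam β d P l t W L q n) (hQ : ∀ ω, 0 < Q.w ω → 0 < P.w ω)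
    (hge : (β - d') * L * Real.log 2 + excFl lam Q (tbx n l) (fun _ => ()) +
      N * DF Q L n l t (fun _ => ()) ≤
      Stk.hc Q (fun ω => tb n (l ω)) (fun ω => (W.lab ω, pq L (ptF l t ω))) -
      (2 * ((n : ℝ) - L) - (1 - lam) * q) * Real.log 2) : NEx N lam β d' Q l t W L q n :=
  ⟨h.nq, fun ω hω => h.good ω (hQ ω hω), fun ω hω => h.lab ω (hQ ω hω),
    fun ω ω' hω hω' e => h.rnd ω ω' (hQ ω hω) (hQ ω' hω') e, hge⟩

theorem alg1 {b x c d N m L n q p : ℝ} (hm : 0 < m) (hL : 0 < L)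
    (h : b < (x / m - 2 * (n / L - 1) + p * (q / L)) - (c / m + N * (L / L - d / m))) (l2 : ℝ)
    (hml : m = L * l2) :
    b * L * l2 + c + N * (m - d) ≤ x - (2 * (n - L) - p * q) * l2 := by
  have hL0 := hL.ne'
  have hl2 : l2 ≠ 0 := by
    rintro rfl
    rw [mul_zero] at hml
    exact hm.ne' hml
  rw [div_self hL0] at h
  have h1 := mul_lt_mul_of_pos_right h hm
  have h2 : ((x / m - 2 * (n / L - 1) + p * (q / L)) - (c / m + N * (1 - d / m))) * m =
      x - (2 * (n - L) - p * q) * l2 - (c + N * (m - d)) := by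
    rw [hml]
    field_simp
    ring
  rw [h2, hml] at h1
  rw [hml]
  linarith

theorem alg2 {q r L l2 ε a b : ℝ} (hL : 0 < L) (hl : 0 < l2)
    (h : (2 * L + (q - r) - ε * L) * l2 ≤ a - b) :
    2 + (q / L - r / L) - ε ≤ a / (L * l2) - b / (L * l2) := by
  rw [← sub_div, ← sub_div, le_div_iff₀ (mul_pos hL hl)]
  refine le_trans (le_of_eq ?_) h
  field_simp

theorem alg3 {b x c d N m L n q p : ℝ} (hm : 0 < m) (hL : 0 < L) (l2 : ℝ) (hml : m = L * l2)
    (h : b * L * l2 + c + N * (m - d) ≤ x - (2 * (n - L) - p * q) * l2) :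
    b + (c / m + N * (L / L - d / m)) ≤ x / m - 2 * (n / L - 1) + p * (q / L) := by
  have hL0 := hL.ne'
  have hl2 : l2 ≠ 0 := by
    rintro rfl
    rw [mul_zero] at hml
    exact hm.ne' hml
  rw [div_self hL0]
  refine le_of_mul_le_mul_right ?_ hm
  have h2 : (x / m - 2 * (n / L - 1) + p * (q / L)) * m = x - (2 * (n - L) - p * q) * l2 := by
    rw [hml]
    field_simp
    ring
  have h3 : (b + (c / m + N * (1 - d / m))) * m = b * L * l2 + c + N * (m - d) := by
    rw [hml]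
    field_simp
    ring
  rw [h2, h3]
  exact h

/-- an extremal system with an end label consists of near-extremal laws -/
theorem xtrV_nex {N lam β : ℝ} (hlam : 0 ≤ lam ∧ lam ≤ 1) {S : Sys} {n q : ℕ → ℕ} {l : S.RV Ln}
    {t : S.RV ℝ} {W : S.BX} (hw : XtrV N lam β S n l t W q) {δ : ℝ} (hδ : 0 < δ) :
    ∀ᶠ i in (uf : Filter ℕ), NEx N lam β δ (S.P i) (l i) (t i) (W i) (S.L i) (q i) (n i) := by
  have hn := hw.bd
  have hl := hw.ln
  have ht := hw.t01
  have hWok := hw.ok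
  have hq : S.Bd q := Lam.bd_of_le hn fun i => by have := hw.qn i; omega
  have Ttb := tame_tbs hn hl
  have Tdg := tame_dg_t (Bd_L (S := S)) ht
  have U1 := UB.hc Ttb (Sys.pr W.lab (pqs S.L (pt l t)))
  have U3 := Lam.ub_exc hlam (tubes_ok hn hl) (one (S := S))
  have U4 := UB.hc Tdg (Sys.pr (tbs n l) (one (S := S)))
  have U5 := (Bd_L (S := S)).ub
  have U9 : UB fun i => 2 * ((n i : ℝ) / S.L i - 1) := UB.const_mul 2 (hn.ub.sub (UB.const 1))
  have U10 : UB fun i => (1 - lam) * ((q i : ℝ) / S.L i) := UB.const_mul (1 - lam) hq.ub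
  have E1 : ∀ᶠ i in (uf : Filter ℕ), β - δ <
      ((Stk.hc (S.P i) (tbs n l i) (Sys.pr W.lab (pqs S.L (pt l t)) i) / S.nm i -
        2 * ((n i : ℝ) / S.L i - 1)) + (1 - lam) * ((q i : ℝ) / S.L i)) -
      (excFl lam (S.P i) (tubes n l i) (one (S := S) i) / S.nm i +
      N * ((S.L i : ℝ) / S.L i - Stk.hc (S.P i) (dg S.L t i)
        (Sys.pr (tbs n l) (one (S := S)) i) / S.nm i)) := by
    refine lt_ulim_eventually (((U1.sub U9).add U10).sub (U3.add (UB.const_mul N (U5.sub U4)))) ?_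
    rw [ulim_sub ((U1.sub U9).add U10) (U3.add (UB.const_mul N (U5.sub U4))),
      ulim_add (U1.sub U9) U10, ulim_sub U1 U9,
      ulim_add U3 (UB.const_mul N (U5.sub U4)), ulim_const_mul N (U5.sub U4), ulim_sub U5 U4,
      ulim_const_mul 2 (hn.ub.sub (UB.const 1)), ulim_sub hn.ub (UB.const 1), ulim_const,
      ulim_const_mul (1 - lam) hq.ub]
    have e := hw.ge
    have e1 : S.hc (tbs n l) (Sys.pr W.lab (pqs S.L (pt l t))) - 2 * (S.nu n - 1) +
        (1 - lam) * S.nu q =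
      ulim (fun i => Stk.hc (S.P i) (tbs n l i) (Sys.pr W.lab (pqs S.L (pt l t)) i) / S.nm i) -
        2 * (ulim (fun i => (n i : ℝ) / S.L i) - 1) +
        (1 - lam) * ulim (fun i => (q i : ℝ) / S.L i) := rfl
    have e2 : S.excl lam (tubes n l) (one (S := S)) + N * Dl S.L n l t (one (S := S)) =
      ulim (fun i => excFl lam (S.P i) (tubes n l i) (one (S := S) i) / S.nm i) +
      N * (ulim (fun i => (S.L i : ℝ) / S.L i) - ulim (fun i => Stk.hc (S.P i) (dg S.L t i)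
        (Sys.pr (tbs n l) (one (S := S)) i) / S.nm i)) := rfl
    rw [← e1, ← e2]
    linarith
  obtain ⟨cW, hcW⟩ := hw.sub
  filter_upwards [E1, S.L_pos, S.nm_pos, hl, ht, hcW, hw.sh, hw.ang, hw.rnd] with
    i g1 g2 g3 g4 g5 g6 g7 g8 g9
  have hLr : (0 : ℝ) < S.L i := by exact_mod_cast g2
  refine ⟨hw.qn i, fun ω hω => ⟨g4 ω hω, g5 ω hω⟩,
    fun ω hω => ⟨(g6 ω hω).1, g8 ω hω, (g7 ω hω).1, (g7 ω hω).2⟩, g9, ?_⟩
  exact alg1 g3 hLr g1 (Real.log 2) rfl

/-- near-extremal laws give an extremal system with an end label -/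
theorem nex_xtrV {N lam β d : ℝ} (hlam : 0 ≤ lam ∧ lam ≤ 1) {S : Sys} {n q : ℕ → ℕ} {l : S.RV Ln}
    {t : S.RV ℝ} {W : S.BX} (hn : S.Bd n) (hq0 : ∀ i, n i = S.L i + q i)
    (h : ∀ᶠ i in (uf : Filter ℕ), NEx N lam β d (S.P i) (l i) (t i) (W i) (S.L i) (q i) (n i)) :
    XtrV N lam (β - d) S n l t W q := by
  have hq : S.Bd q := Lam.bd_of_le hn fun i => by have := hq0 i; omega
  have hl : LnA l := by
    filter_upwards [h] with i hi ω hω
    exact (hi.good ω hω).1
  have ht : T01 t := by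
    filter_upwards [h] with i hi ω hω
    exact (hi.good ω hω).2
  have hang : S.Ae fun i ω => |(W i).θ ω| ≤ Real.pi / 4 := by
    filter_upwards [h] with i hi ω hω
    exact (hi.lab ω hω).2.1
  have hpi : Real.pi / 4 ≤ 4 := by linarith [Real.pi_le_four]
  have hsh : Shape W (fun _ => 0) q := by
    filter_upwards [h] with i hi ω hω
    exact (hi.lab ω hω).2.2
  have hlb : LnA (bl S.L l t) := Lam.bl_lnA hl S.L t
  have hok : BxA W := by
    constructor
    · filter_upwards [h, hlb, hang] with i hi h1 h2 ω hω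
      obtain ⟨a1, a2, a3, a4⟩ := hi.lab ω hω
      refine ⟨?_, a2.trans hpi, ?_⟩
      · rw [a1]
        exact h1 ω hω
      · rw [a3]
        exact Nat.zero_le _
    · obtain ⟨c, hc⟩ := hq
      refine ⟨c, ?_⟩
      filter_upwards [h, hc] with i hi h1 ω hω
      rw [(hi.lab ω hω).2.2.2]
      exact h1
  have hsub : SubA (tubes (fun i => n i - S.L i) (bl S.L l t)) W := by
    refine ⟨1, ?_⟩
    filter_upwards [h] with i hi ω hω
    obtain ⟨a1, a2, a3, a4⟩ := hi.lab ω hω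
    have e : n i - S.L i = q i := by have := hq0 i; omega
    refine ⟨a1, a2.trans hpi, ?_, ?_, ?_, ?_⟩
    · rw [a3]
      exact Nat.zero_le _
    · rw [a3]
      exact Nat.zero_le _
    · rw [a4]
      exact e.ge
    · show |Real.sin (0 - (W i).θ ω)| * (1 / 2 : ℝ) ^ (n i - S.L i) ≤ 1 * (1 / 2 : ℝ) ^ (W i).j ω
      rw [a4, e]
      exact mul_le_mul_of_nonneg_right (Real.abs_sin_le_one _) (by positivity)
  have hrnd : Sys.Fn l (tbs n l) := by
    filter_upwards [h] with i hi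
    exact hi.rnd
  refine ⟨hn, hq0, hl, ht, hrnd, hok, hsh, hang, hsub, ?_⟩
  have Ttb := tame_tbs hn hl
  have Tdg := tame_dg_t (Bd_L (S := S)) ht
  have U1 := UB.hc Ttb (Sys.pr W.lab (pqs S.L (pt l t)))
  have U3 := Lam.ub_exc hlam (tubes_ok hn hl) (one (S := S))
  have U4 := UB.hc Tdg (Sys.pr (tbs n l) (one (S := S)))
  have U5 := (Bd_L (S := S)).ub
  have U9 : UB fun i => 2 * ((n i : ℝ) / S.L i - 1) := UB.const_mul 2 (hn.ub.sub (UB.const 1))
  have U10 : UB fun i => (1 - lam) * ((q i : ℝ) / S.L i) := UB.const_mul (1 - lam) hq.ub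
  have fin := ulim_le ((UB.const (β - d)).add (U3.add (UB.const_mul N (U5.sub U4))))
    ((U1.sub U9).add U10) (by
      filter_upwards [h, S.L_pos, S.nm_pos] with i g1 g2 g3
      have hLr : (0 : ℝ) < S.L i := by exact_mod_cast g2
      exact alg3 g3 hLr (Real.log 2) rfl g1.ge)
  rw [ulim_add (UB.const (β - d)) (U3.add (UB.const_mul N (U5.sub U4))), ulim_const,
    ulim_add (U1.sub U9) U10, ulim_sub U1 U9,
    ulim_add U3 (UB.const_mul N (U5.sub U4)), ulim_const_mul N (U5.sub U4), ulim_sub U5 U4,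
    ulim_const_mul 2 (hn.ub.sub (UB.const 1)), ulim_sub hn.ub (UB.const 1), ulim_const,
    ulim_const_mul (1 - lam) hq.ub] at fin
  have e1 : S.hc (tbs n l) (Sys.pr W.lab (pqs S.L (pt l t))) - 2 * (S.nu n - 1) +
        (1 - lam) * S.nu q =
      ulim (fun i => Stk.hc (S.P i) (tbs n l i) (Sys.pr W.lab (pqs S.L (pt l t)) i) / S.nm i) -
        2 * (ulim (fun i => (n i : ℝ) / S.L i) - 1) +
        (1 - lam) * ulim (fun i => (q i : ℝ) / S.L i) := rfl
  have e2 : S.excl lam (tubes n l) (one (S := S)) + N * Dl S.L n l t (one (S := S)) =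
      ulim (fun i => excFl lam (S.P i) (tubes n l i) (one (S := S) i) / S.nm i) +
      N * (ulim (fun i => (S.L i : ℝ) / S.L i) - ulim (fun i => Stk.hc (S.P i) (dg S.L t i)
        (Sys.pr (tbs n l) (one (S := S)) i) / S.nm i)) := rfl
  rw [← e1, ← e2] at fin
  linarith

/-- **the saturation of the end label from its finite form** -/
theorem psat_of (hF : FSat) : PSat := by
  classical
  intro N lam β hN h0 h1 h2 h3 hG hJ S n l t W q hw ε hε
  have hlam : 0 ≤ lam ∧ lam ≤ 1 := ⟨h0.le, h1.le⟩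
  have hlog : 0 < Real.log 2 := Real.log_pos (by norm_num)
  have hn := hw.bd
  obtain ⟨K, hK⟩ := id hn
  obtain ⟨δ, hδ, L₀, hmain⟩ := hF N lam β hN h0 h1 h2 h3 hG hJ K ε hε
  have hbig : ∀ᶠ i in (uf : Filter ℕ), L₀ ≤ S.L i := S.Ltop.eventually_ge_atTop L₀
  let G : ∀ i : ℕ, Law (S.Ω i) → ℕ → Prop := fun i Q r =>
    (∀ ω, 0 < Q.w ω → 0 < (S.P i).w ω) ∧
      NEx N lam β ε Q (l i) (t i) (W i) (S.L i) (q i) (n i) ∧ r ≤ q i ∧
      (2 * (S.L i : ℝ) + ((q i : ℝ) - r) - ε * S.L i) * Real.log 2 ≤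
          Stk.hc Q (fun ω => tb (n i) (l i ω)) (rootF r (W i) (l i)).lab -
            Stk.hc Q (fun ω => tb (n i) (l i ω))
              (fun ω => ((W i).lab ω, pq (S.L i) (ptF (l i) (t i) ω)))
  have key : ∀ᶠ i in (uf : Filter ℕ), ∃ Q r, G i Q r := by
    filter_upwards [xtrV_nex hlam hw hδ, hbig, hK] with i g1 g2 g3
    obtain ⟨Q, a1, a2, r, a3, a4⟩ := hmain (S.Ω i) (S.P i) (l i) (t i) (W i) (S.L i) (q i) (n i)
      g2 g3 g1
    exact ⟨Q, r, a1, a2, a3, a4⟩
  let Q : ∀ i, Law (S.Ω i) := fun i => if h : ∃ Q r, G i Q r then h.choose else S.P i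
  let r : ℕ → ℕ := fun i => if h : ∃ Q r, G i Q r then h.choose_spec.choose else q i
  have hQr : ∀ i, (∃ Q r, G i Q r) → G i (Q i) (r i) := by
    intro i h
    have e1 : Q i = h.choose := by
      simp only [Q]
      rw [dif_pos h]
    have e2 : r i = h.choose_spec.choose := by
      simp only [r]
      rw [dif_pos h]
    rw [e1, e2]
    exact h.choose_spec.choose_spec
  have hr : ∀ i, r i ≤ q i := by
    intro i
    by_cases h : ∃ Q r, G i Q r
    · exact (hQr i h).2.2.1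
    · have e2 : r i = q i := by
        simp only [r]
        rw [dif_neg h]
      exact e2.le
  let S' : Sys := ⟨S.Ω, S.fin, Q, S.L, S.Ltop⟩
  have hn' : S'.Bd n := hn
  have hx : XtrV N lam (β - ε) S' n l t W q := by
    refine nex_xtrV (S := S') hlam hn' hw.qn ?_
    filter_upwards [key] with i hi
    exact (hQr i hi).2.1
  refine ⟨S', n, l, t, W, q, r, hx, hr, ?_⟩
  have hq : S'.Bd q := Lam.bd_of_le hn' fun i => by have := hw.qn i; omega
  have hrb : S'.Bd r := Lam.bd_of_le hq hr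
  have Ttb := tame_tbs (S := S') hn' hx.ln
  have V1 := UB.hc Ttb (rootB (S := S') W r l).lab
  have V2 := UB.hc Ttb (Sys.pr (BX.lab (S := S') W) (pqs S'.L (pt (S := S') l t)))
  have V3 : UB fun i => 2 + ((q i : ℝ) / S'.L i - (r i : ℝ) / S'.L i) - ε :=
    ((UB.const 2).add (hq.ub.sub hrb.ub)).sub (UB.const ε)
  have fin := ulim_le V3 (V1.sub V2) (by
    filter_upwards [key, S'.L_pos, S'.nm_pos] with i g1 g2 g3
    have hLr : (0 : ℝ) < S'.L i := by exact_mod_cast g2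
    have enm : S'.nm i = S'.L i * Real.log 2 := rfl
    rw [enm]
    exact alg2 hLr hlog (hQr i g1).2.2.2)
  rw [ulim_sub V1 V2, ulim_sub ((UB.const 2).add (hq.ub.sub hrb.ub)) (UB.const ε),
    ulim_add (UB.const 2) (hq.ub.sub hrb.ub), ulim_sub hq.ub hrb.ub, ulim_const, ulim_const] at fin
  exact fin

end Vale.Agent.P127.U
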