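import Vale.Agent.P127.U.Lam.FinDefs
import Vale.Agent.P127.U.Lam.ExcB

/-!
# P127 / U / Lam : GROW, branching of a maximiser (helper480)

`W` nearly maximal for the penalised excess, `W'` a box between `B` and `W`: then
`H(W' | W, C) ≥ szl W' - szl W` (finite form `growF`, systems `grow`).  For `W' = W` with the width
exponent increased by `b` the right side is `(1 + lam) b` (`growF_width`, `grow_width`).
-/

set_option autoImplicit false

namespace Vale.Agent.P127.U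

open Filter Topology Vale.Agent.P127 Vale.Agent.P127.Stk Sys

/-- the box `W` with the width exponent increased by `b` -/
def Bx.wid {Ω : Type} (W : Bx Ω) (b : Ω → ℕ) : Bx Ω := ⟨W.l, W.θ, fun ω => W.k ω + b ω, W.j⟩

namespace Lam

variable {lam : ℝ}

theorem szl_wid {Ω : Type} (W : Bx Ω) (b : Ω → ℕ) (ω : Ω) :
    (W.wid b).szl lam ω = W.szl lam ω + (1 + lam) * b ω := by
  unfold Bx.szl Bx.wid
  push_cast
  ring

theorem sub_wid {Ω : Type} {c : ℝ} {B W : Bx Ω} {b : Ω → ℕ} {ω : Ω} (h : Sub c B W ω)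
    (h1 : W.k ω + b ω ≤ W.j ω) (h2 : W.k ω + b ω ≤ B.k ω) : Sub c B (W.wid b) ω := by
  obtain ⟨a1, a2, a3, a4, a5, a6⟩ := h
  exact ⟨a1, a2, h1, h2, a5, a6⟩

theorem sub_wid_self {Ω : Type} {c : ℝ} {B W : Bx Ω} {b : Ω → ℕ} {ω : Ω} (h : Sub c B W ω) :
    Sub 1 (W.wid b) W ω := by
  obtain ⟨a1, a2, a3, a4, a5, a6⟩ := h
  refine ⟨rfl, a2, a3, Nat.le_add_right _ _, le_rfl, ?_⟩
  show |Real.sin (W.θ ω - W.θ ω)| * _ ≤ _
  rw [sub_self, Real.sin_zero, abs_zero, zero_mul]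
  positivity

section finite

variable {Ω : Type} [Fintype Ω] {γ : Type*}

/-- **GROW, finite form** -/
theorem growF (hl : 0 ≤ lam ∧ lam ≤ 1) {P : Law Ω} {B W W' : Bx Ω} {C : Ω → γ} {eta c : ℝ} {m : ℕ}
    (hm : c ≤ 2 ^ m) (hs : ∀ ω, 0 < P.w ω → Sub c B W' ω)
    (hopt : excFl lam P B C ≤ exVl lam P B W C + eta) :
    Real.log 2 * (P.ex fun ω => W'.szl lam ω - W.szl lam ω) ≤
      Stk.hc P W'.lab (fun ω => (W.lab ω, C ω)) + eta +
        (Real.log (((2 * 4 + 1) ^ 4 : ℕ) : ℝ) + Real.log 2 * (2 * m)) := by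
  have h1 := exV_le_excF' hl (C := C) (π := id) hm (Stk.pr_id P) hs
  have h2 : Stk.hc P B.lab (fun ω => (W.lab ω, C ω)) ≤
      Stk.hc P B.lab (fun ω => (W'.lab ω, W.lab ω, C ω)) +
        Stk.hc P W'.lab (fun ω => (W.lab ω, C ω)) :=
    Stk.hc_le_add' P B.lab W'.lab (fun ω => (W.lab ω, C ω))
  have h3 : Stk.hc P B.lab (fun ω => (W'.lab ω, W.lab ω, C ω)) ≤
      Stk.hc P B.lab (fun ω => (W'.lab ω, C ω)) :=
    Stk.hc_mono_right P _ fun ω ω' _ _ e => by
      simp only [Prod.mk.injEq] at e ⊢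
      exact ⟨e.1, e.2.2⟩
  have e1 : P.ex (fun ω => B.szl lam ω - W.szl lam ω) =
      P.ex (fun ω => B.szl lam ω - W'.szl lam ω) + P.ex (fun ω => W'.szl lam ω - W.szl lam ω) := by
    rw [← P.ex_add]
    congr 1
    funext ω
    ring
  have h1' : exVl lam P B W' C ≤ excFl lam P B C +
      (Real.log (((2 * 4 + 1) ^ 4 : ℕ) : ℝ) + Real.log 2 * (2 * m)) := h1
  unfold exVl at h1' hopt
  rw [e1, mul_add] at hopt
  linarith

/-- **GROW, finite form, width increased by `b`** -/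
theorem growF_width (hl : 0 ≤ lam ∧ lam ≤ 1) {P : Law Ω} {B W : Bx Ω} {C : Ω → γ} {eta c : ℝ} {m : ℕ}
    (hm : c ≤ 2 ^ m) (hs : ∀ ω, 0 < P.w ω → Sub c B W ω) (b : Ω → ℕ)
    (hb : ∀ ω, 0 < P.w ω → W.k ω + b ω ≤ W.j ω ∧ W.k ω + b ω ≤ B.k ω)
    (hopt : excFl lam P B C ≤ exVl lam P B W C + eta) :
    (1 + lam) * Real.log 2 * (P.ex fun ω => (b ω : ℝ)) ≤
      Stk.hc P (W.wid b).lab (fun ω => (W.lab ω, C ω)) + eta +
        (Real.log (((2 * 4 + 1) ^ 4 : ℕ) : ℝ) + Real.log 2 * (2 * m)) := by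
  have h1 := growF hl (W' := W.wid b) hm
    (fun ω hω => sub_wid (hs ω hω) (hb ω hω).1 (hb ω hω).2) hopt
  have e1 : (P.ex fun ω => (W.wid b).szl lam ω - W.szl lam ω) =
      (1 + lam) * (P.ex fun ω => (b ω : ℝ)) := by
    rw [← P.ex_const_mul]
    congr 1
    funext ω
    rw [szl_wid]
    ring
  rw [e1] at h1
  linarith

end finite

/-! ### systems -/

variable {S : Sys} {γ : Type}

/-- **GROW for systems** -/
theorem grow (hl : 0 ≤ lam ∧ lam ≤ 1) {S' : Sys} (e : Ext S' S) {C : S.RV γ} {B : S.BX}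
    {W W' : S'.BX} (hB : BxA B) (hW : BxA W) (hW' : BxA W') (hs : SubA (e.pullB B) W')
    (hopt : S'.vall lam (e.pullB B) W (e.pull C) = S.excl lam B C) :
    S'.av (fun i ω => W'.szl lam i ω - W.szl lam i ω) ≤
      S'.hc W'.lab (Sys.pr W.lab (e.pull C)) := by
  have hB' := e.bxA hB
  have h1 := excl_ge hl e C hB hW' hs
  rw [← hopt] at h1
  unfold Sys.vall at h1
  have oB := ol_szl hl hB'
  have oW := ol_szl hl hW
  have oW' := ol_szl hl hW'
  have a1 : S'.av (fun i ω => (e.pullB B).szl lam i ω - W.szl lam i ω) =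
      S'.av (BX.szl lam (e.pullB B)) - S'.av (BX.szl lam W) := av_sub oB oW
  have a2 : S'.av (fun i ω => (e.pullB B).szl lam i ω - W'.szl lam i ω) =
      S'.av (BX.szl lam (e.pullB B)) - S'.av (BX.szl lam W') := av_sub oB oW'
  have a3 : S'.av (fun i ω => W'.szl lam i ω - W.szl lam i ω) =
      S'.av (BX.szl lam W') - S'.av (BX.szl lam W) := av_sub oW' oW
  have h2 : S'.hc (BX.lab (e.pullB B)) (Sys.pr W.lab (e.pull C)) ≤
      S'.hc (BX.lab (e.pullB B)) (Sys.pr W'.lab (Sys.pr W.lab (e.pull C))) +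
        S'.hc W'.lab (Sys.pr W.lab (e.pull C)) :=
    hc_le_add hB'.tame hW'.tame (Sys.pr W.lab (e.pull C))
  have h3 : S'.hc (BX.lab (e.pullB B)) (Sys.pr W'.lab (Sys.pr W.lab (e.pull C))) ≤
      S'.hc (BX.lab (e.pullB B)) (Sys.pr W'.lab (e.pull C)) :=
    hc_mono_right hB'.tame (Eventually.of_forall fun _ _ _ _ _ q => by
      simp only [pr_apply, Prod.mk.injEq] at q ⊢
      exact ⟨q.1, q.2.2⟩)
  linarith

/-- the box `W` with the width exponent increased by `b` -/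
def _root_.Vale.Agent.P127.U.Sys.widB (W : S.BX) (b : S.RV ℕ) : S.BX := fun i => (W i).wid (b i)

/-- **GROW for systems, width increased by `b`** -/
theorem grow_width (hl : 0 ≤ lam ∧ lam ≤ 1) {S' : Sys} (e : Ext S' S) {C : S.RV γ} {B : S.BX}
    {W : S'.BX} (hB : BxA B) (hW : BxA W) (hs : SubA (e.pullB B) W) (b : S'.RV ℕ)
    (hb : S'.Ae fun i ω => (W i).k ω + b i ω ≤ (W i).j ω ∧ (W i).k ω + b i ω ≤ ((e.pullB B) i).k ω)
    (hopt : S'.vall lam (e.pullB B) W (e.pull C) = S.excl lam B C) :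
    (1 + lam) * S'.av (fun i ω => (b i ω : ℝ)) ≤
      S'.hc (widB W b).lab (Sys.pr W.lab (e.pull C)) := by
  have hs' : SubA (e.pullB B) (widB W b) := by
    obtain ⟨c, hc⟩ := hs
    refine ⟨c, ?_⟩
    filter_upwards [hc, hb] with i h1 h2 ω hω
    exact sub_wid (h1 ω hω) (h2 ω hω).1 (h2 ω hω).2
  have hW' : BxA (widB W b) := by
    obtain ⟨h1, c, hc⟩ := hW
    refine ⟨?_, c, hc⟩
    filter_upwards [h1, hb] with i h1 h2 ω hω
    exact ⟨(h1 ω hω).1, (h1 ω hω).2.1, (h2 ω hω).1⟩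
  have h1 := grow hl e hB hW hW' hs' hopt
  have e1 : S'.av (fun i ω => (widB W b).szl lam i ω - W.szl lam i ω) =
      (1 + lam) * S'.av (fun i ω => (b i ω : ℝ)) := by
    have hob : OL (S := S') fun i ω => (b i ω : ℝ) := by
      obtain ⟨h1, c, hc⟩ := hW
      refine ⟨c, ?_⟩
      filter_upwards [hc, hb] with i h1 h2 ω hω
      have g1 := h1 ω hω
      have g2 : b i ω ≤ (W i).j ω := le_trans (Nat.le_add_left _ _) (h2 ω hω).1
      have g3 : (b i ω : ℝ) ≤ (W i).j ω := by exact_mod_cast g2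
      rw [abs_of_nonneg (Nat.cast_nonneg _)]
      linarith
    unfold Sys.av
    rw [← ulim_const_mul _ (UB.av hob)]
    congr 1
    funext i
    rw [mul_div_assoc', ← (S'.P i).ex_const_mul]
    congr 2
    funext ω
    show ((W i).wid (b i)).szl lam ω - (W i).szl lam ω = _
    rw [szl_wid]
    ring
  rw [e1] at h1
  exact h1

end Lam

end Vale.Agent.P127.U
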