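import Vale.Agent.P127.U.Lam.HBall
import Vale.Agent.P127.U.Lam.Ext0

/-!
# P127 / U / Lam : soft labels for the functional `excH` (helper864)

* `HX.tbx_lab` : the label of a tube and its digits are equivalent.
* `HX.le_excH'` : boxes containing the tube up to a factor `2 ^ m`.
* `HX.soft` : a nearly optimal label, independent of everything given the tube and `C`.
-/

set_option autoImplicit false

namespace Vale.Agent.P127.U.HX

open Filter Topology Vale.Agent.P127 Vale.Agent.P127.Stk Vale.Agent.P127.U.Apx Vale.Agent.P127.U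
  Sys ExcB

variable {lam N : ℝ}

section geo

variable {Ω Ω' : Type}

theorem tbx_lab_eq (n : ℕ) (l : Ω → Ln) (ω : Ω) :
    (tbx n l).lab ω = (n, n, fl1 (n - n) 0, fkj n n (l ω).1, fkj n n (l ω).2) := by
  show U.lab 0 n n (l ω) = _
  unfold U.lab
  rw [Coa.qa_zero, Coa.co_zero, Coa.co_zero]

/-- tubes with the same digits have the same label -/
theorem tbx_lab {n : ℕ} {l : Ω → Ln} {l' : Ω' → Ln} {ω : Ω} {ω' : Ω'}
    (e : tb n (l ω) = tb n (l' ω')) : (tbx n l).lab ω = (tbx n l').lab ω' := by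
  rw [tbx_lab_eq, tbx_lab_eq]
  simp only [tb, Prod.mk.injEq] at e
  have h1 := fun j => congrFun e.1 j
  have h2 := fun j => congrFun e.2 j
  simp only [fl] at h1 h2
  simp only [fkj, fl1, h1, h2]

theorem tb_of_lab {n : ℕ} {l : Ω → Ln} {l' : Ω' → Ln} {ω : Ω} {ω' : Ω'}
    (e : (tbx n l).lab ω = (tbx n l').lab ω') : tb n (l ω) = tb n (l' ω') := by
  rw [tbx_lab_eq, tbx_lab_eq] at e
  simp only [Prod.mk.injEq, fkj, true_and] at e
  obtain ⟨⟨a1, a2⟩, b1, b2⟩ := e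
  simp only [tb, Prod.mk.injEq]
  constructor
  · funext j
    fin_cases j
    · exact a1
    · exact a2
  · funext j
    fin_cases j
    · exact b1
    · exact b2

end geo

section finite

variable {Ω : Type} [Fintype Ω]

/-- the entropy of the label of a tube -/
theorem hc_tbx {Ω : Type} [Fintype Ω] {T : Type*} (P : Law Ω) (n : ℕ) (l : Ω → Ln) (Y : Ω → T) :
    Stk.hc P (tbx n l).lab Y = Stk.hc P (fun ω => tb n (l ω)) Y :=
  Stk.hc_congr P (fun _ _ _ _ e => tbx_lab (congrArg Prod.fst e))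
    (fun _ _ _ _ e => tb_of_lab (congrArg Prod.fst e)) (fun _ _ _ _ e => e) (fun _ _ _ _ e => e)

/-- boxes which contain the tube up to a factor `2 ^ m` -/
theorem le_excH' (hl : 0 ≤ lam ∧ lam ≤ 1) (hN : 0 ≤ N) {γ : Type*} {P : Law Ω} {n : ℕ}
    {l : Ω → Ln} {C : Ω → γ} {Ω' : Type} [Fintype Ω'] {P' : Law Ω'} {π : Ω' → Ω} {A : Bx Ω'}
    {c : ℝ} {m : ℕ} (hm : c ≤ 2 ^ m) (h1 : ∀ ω, P'.pr π ω = P.w ω)
    (h2 : ∀ ω, 0 < P'.w ω → Sub c ((tbx n l).comp π) A ω) :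
    exVl lam P' ((tbx n l).comp π) A (fun ω => C (π ω)) +
      N * Stk.hc P' (fun ω => (A.k ω, A.j ω)) (fun ω => (tb n (l (π ω)), C (π ω))) ≤
      excH lam N P n l C + (Real.log (((2 * 4 + 1) ^ 4 : ℕ) : ℝ) + Real.log 2 * (2 * m)) +
        N * (2 * Real.log (m + 1)) := by
  have h3 := Lam.exV_crs hl P' ((tbx n l).comp π) A (fun ω => C (π ω)) m
    fun ω hω => (h2 ω hω).2.2.1
  have h4 := le_excH hl hN (C := C) h1 fun ω hω => crs_sub hm (h2 ω hω)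
  -- the shape
  have h5 : Stk.hc P' (fun ω => (A.k ω, A.j ω))
      (fun ω => (((crs m A).k ω, (crs m A).j ω), (tb n (l (π ω)), C (π ω)))) ≤
      2 * Real.log (m + 1) := by
    have g := Stk.hc_le_log P' (fun ω => (A.k ω, A.j ω))
      (fun ω => (((crs m A).k ω, (crs m A).j ω), (tb n (l (π ω)), C (π ω)))) ((m + 1) ^ 2)
      fun ω _ => ⟨(Finset.Icc ((crs m A).k ω) ((crs m A).k ω + m)) ×ˢ
        (Finset.Icc ((crs m A).j ω) ((crs m A).j ω + m)), by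
          rw [Finset.card_product, Nat.card_Icc, Nat.card_Icc]
          have e1 : (crs m A).k ω + m + 1 - (crs m A).k ω = m + 1 := by omega
          have e2 : (crs m A).j ω + m + 1 - (crs m A).j ω = m + 1 := by omega
          rw [e1, e2]
          exact (sq (m + 1)).ge, fun ω' hω' e => by
          simp only [Prod.mk.injEq] at e
          have e1 : (crs m A).k ω = min (A.k ω') (A.j ω' - m) := e.1.1.symm
          have e2 : (crs m A).j ω = A.j ω' - m := e.1.2.symm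
          have e3 := (h2 ω' hω').2.2.1
          rw [e1, e2]
          simp only [Finset.mem_product, Finset.mem_Icc]
          omega⟩
    have e : Real.log (((m + 1) ^ 2 : ℕ) : ℝ) = 2 * Real.log (m + 1) := by
      push_cast
      rw [Real.log_pow]
      push_cast
      ring
    rwa [e] at g
  have h6 := Stk.hc_le_add' P' (fun ω => (A.k ω, A.j ω))
    (fun ω => ((crs m A).k ω, (crs m A).j ω)) (fun ω => (tb n (l (π ω)), C (π ω)))
  have h7 := mul_le_mul_of_nonneg_left (h6.trans (add_le_add_left h5 _)) hN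
  rw [mul_add] at h7
  linarith

/-- a nearly optimal soft label -/
theorem soft {γ : Type} {P : Law Ω} {n : ℕ}
    {l : Ω → Ln} (C : Ω → γ) (h : ∀ ω, 0 < P.w ω → LnOk (l ω)) :
    ∃ (Ω' : Type) (_ : Fintype Ω') (P' : Law Ω') (π : Ω' → Ω) (V : Bx Ω'),
      (∀ ω, P'.pr π ω = P.w ω) ∧ (∀ ω, 0 < P'.w ω → Sub 2 ((tbx n l).comp π) V ω) ∧
      excH lam N P n l C - 1 - Real.log (((2 * 5 + 1) ^ 4 : ℕ) : ℝ) ≤
        exVl lam P' ((tbx n l).comp π) V (fun ω => C (π ω)) +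
          N * Stk.hc P' (fun ω => (V.k ω, V.j ω)) (fun ω => (tb n (l (π ω)), C (π ω))) ∧
      (∀ (δ : Type) (R : Ω → δ),
        Stk.hc P' V.lab (fun ω => (tb n (l (π ω)), C (π ω))) -
            2 * Real.log (((2 * 5 + 1) ^ 4 : ℕ) : ℝ) ≤
          Stk.hc P' V.lab (fun ω => (R (π ω), (tb n (l (π ω)), C (π ω))))) ∧
      (∀ (δ : Type) (R : Ω → δ),
        Stk.hc P' (fun ω => (V.k ω, V.j ω)) (fun ω => (R (π ω), (tb n (l (π ω)), C (π ω)))) =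
          Stk.hc P' (fun ω => (V.k ω, V.j ω)) (fun ω => (tb n (l (π ω)), C (π ω)))) := by
  classical
  obtain ⟨v, ⟨Ω₁, i₁, P₁, π₁, W, h1, h2, rfl⟩, h3⟩ := exists_lt_of_lt_csSup
    (s := exSetH lam N P n l C) (exSetH_ne C h) (sub_one_lt (sSup (exSetH lam N P n l C)))
  -- glue an independent copy of the configuration over the tube and `C`
  have hlaw : ∀ s, P₁.pr (fun ω => (tb n (l (π₁ ω)), C (π₁ ω))) s =
      P.pr (fun ω => (tb n (l ω), C ω)) s := fun s =>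
    Stk.pr_law_aux P₁ P π₁ h1 (fun ω => (tb n (l ω), C ω)) s
  obtain ⟨Ω₃, i₃, Q, ρ₁, ρ₂, g1, g2, g3, g4⟩ := Stk.glue_exists P₁ P
    (fun ω => (tb n (l (π₁ ω)), C (π₁ ω))) (fun ω => (tb n (l ω), C ω)) hlaw
  have gt : ∀ ω, tb n (l (π₁ (ρ₁ ω))) = tb n (l (ρ₂ ω)) := fun ω => congrArg Prod.fst (g1 ω)
  have gC : ∀ ω, C (π₁ (ρ₁ ω)) = C (ρ₂ ω) := fun ω => congrArg Prod.snd (g1 ω)
  let V : Bx Ω₃ := ⟨fun ω => l (ρ₂ ω), fun ω => W.θ (ρ₁ ω), fun ω => W.k (ρ₁ ω),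
    fun ω => W.j (ρ₁ ω)⟩
  have key : ∀ ω, 0 < Q.w ω → Sub 2 ((tbx n l).comp ρ₂) V ω ∧
      LabCl 5 (V.lab ω) (W.lab (ρ₁ ω)) := by
    intro ω hω
    have p1 : 0 < P₁.w (ρ₁ ω) := by rw [← g2]; exact Q.pr_pos ρ₁ hω
    have p2 : 0 < P.w (ρ₂ ω) := by rw [← g3]; exact Q.pr_pos ρ₂ hω
    have p3 : 0 < P.w (π₁ (ρ₁ ω)) := by rw [← h1]; exact P₁.pr_pos π₁ p1
    exact sub_change (B₁ := (tbx n l).comp π₁) (B := (tbx n l).comp ρ₂) (W₁ := W) (ω₁ := ρ₁ ω)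
      (ω := ω) (W := V) (boxOk_tbx h n (ρ₂ ω) p2) (boxOk_tbx h n (π₁ (ρ₁ ω)) p3)
      (tbx_lab (gt ω)).symm (h2 _ p1) rfl rfl rfl rfl
  set K : ℝ := Real.log (((2 * 5 + 1) ^ 4 : ℕ) : ℝ) with hK
  have c1 : ∀ {T : Type} (Y : Ω₃ → T), Stk.hc Q V.lab (fun ω => (W.lab (ρ₁ ω), Y ω)) ≤ K :=
    fun Y => hc_labCl Q V.lab (fun ω => W.lab (ρ₁ ω)) Y 5 fun ω hω => (key ω hω).2
  have c2 : ∀ {T : Type} (Y : Ω₃ → T), Stk.hc Q (fun ω => W.lab (ρ₁ ω)) (fun ω => (V.lab ω, Y ω)) ≤ K :=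
    fun Y => hc_labCl Q (fun ω => W.lab (ρ₁ ω)) V.lab Y 5 fun ω hω => (key ω hω).2.symm
  -- the condition seen from the two sides
  have hcond : (fun ω => (tb n (l (ρ₂ ω)), C (ρ₂ ω))) =
      fun ω => (tb n (l (π₁ (ρ₁ ω))), C (π₁ (ρ₁ ω))) := by
    funext ω
    rw [gt, gC]
  refine ⟨Ω₃, i₃, Q, ρ₂, V, g3, fun ω hω => (key ω hω).1, ?_, ?_, ?_⟩
  · -- the value
    have a1 : Stk.hc P₁ ((tbx n l).comp π₁).lab (fun ω => (W.lab ω, C (π₁ ω))) =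
        Stk.hc Q (fun ω => tb n (l (ρ₂ ω))) (fun ω => (W.lab (ρ₁ ω), C (ρ₂ ω))) := by
      have b1 := Stk.hc_of_law Q P₁ ρ₁ g2 (fun ω => tb n (l (π₁ ω)))
        (fun ω => (W.lab ω, C (π₁ ω)))
      have b2 : Stk.hc P₁ ((tbx n l).comp π₁).lab (fun ω => (W.lab ω, C (π₁ ω))) =
          Stk.hc P₁ (fun ω => tb n (l (π₁ ω))) (fun ω => (W.lab ω, C (π₁ ω))) :=
        hc_tbx P₁ n (fun ω => l (π₁ ω)) _
      rw [b2, ← b1]
      have b3 : (fun ω => tb n (l (π₁ (ρ₁ ω)))) = fun ω => tb n (l (ρ₂ ω)) := by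
        funext ω
        rw [gt]
      have b4 : (fun ω => (W.lab (ρ₁ ω), C (π₁ (ρ₁ ω)))) =
          fun ω => (W.lab (ρ₁ ω), C (ρ₂ ω)) := by
        funext ω
        rw [gC]
      show Stk.hc Q (fun ω => tb n (l (π₁ (ρ₁ ω)))) (fun ω => (W.lab (ρ₁ ω), C (π₁ (ρ₁ ω)))) = _
      rw [b3, b4]
    have a2 : Stk.hc Q (fun ω => tb n (l (ρ₂ ω))) (fun ω => (W.lab (ρ₁ ω), C (ρ₂ ω))) ≤
        Stk.hc Q (fun ω => tb n (l (ρ₂ ω))) (fun ω => (V.lab ω, C (ρ₂ ω))) + K := by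
      have b1 := Stk.hc_le_add' Q (fun ω => tb n (l (ρ₂ ω))) V.lab
        (fun ω => (W.lab (ρ₁ ω), C (ρ₂ ω)))
      have b2 := c1 (fun ω => C (ρ₂ ω))
      have b3 : Stk.hc Q (fun ω => tb n (l (ρ₂ ω))) (fun ω => (V.lab ω, (W.lab (ρ₁ ω), C (ρ₂ ω)))) ≤
          Stk.hc Q (fun ω => tb n (l (ρ₂ ω))) (fun ω => (V.lab ω, C (ρ₂ ω))) :=
        Stk.hc_mono_right Q _ fun ω ω' _ _ e => by
          simp only [Prod.mk.injEq] at e ⊢
          exact ⟨e.1, e.2.2⟩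
      linarith
    have a3 : Stk.hc Q ((tbx n l).comp ρ₂).lab (fun ω => (V.lab ω, C (ρ₂ ω))) =
        Stk.hc Q (fun ω => tb n (l (ρ₂ ω))) (fun ω => (V.lab ω, C (ρ₂ ω))) :=
      hc_tbx Q n (fun ω => l (ρ₂ ω)) _
    have a4 : (P₁.ex fun ω => ((tbx n l).comp π₁).szl lam ω - W.szl lam ω) =
        Q.ex fun ω => ((tbx n l).comp ρ₂).szl lam ω - V.szl lam ω :=
      (Stk.ex_law_aux Q P₁ ρ₁ g2
        (fun ω => ((tbx n l).comp π₁).szl lam ω - W.szl lam ω)).symm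
    have a5 : Stk.hc P₁ (fun ω => (W.k ω, W.j ω)) (fun ω => (tb n (l (π₁ ω)), C (π₁ ω))) =
        Stk.hc Q (fun ω => (V.k ω, V.j ω)) (fun ω => (tb n (l (ρ₂ ω)), C (ρ₂ ω))) := by
      rw [hcond]
      exact (Stk.hc_of_law Q P₁ ρ₁ g2 (fun ω => (W.k ω, W.j ω))
        (fun ω => (tb n (l (π₁ ω)), C (π₁ ω)))).symm
    have a6 : excH lam N P n l C - 1 < exVl lam P₁ ((tbx n l).comp π₁) W (fun ω => C (π₁ ω)) +
        N * Stk.hc P₁ (fun ω => (W.k ω, W.j ω)) (fun ω => (tb n (l (π₁ ω)), C (π₁ ω))) := h3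
    unfold exVl at a6 ⊢
    rw [a3]
    rw [a1, a4, a5] at a6
    linarith
  · -- the label
    intro δ R
    have b1 : Stk.hc Q (fun ω => W.lab (ρ₁ ω))
        (fun ω => (R (ρ₂ ω), (tb n (l (ρ₂ ω)), C (ρ₂ ω)))) =
        Stk.hc Q (fun ω => W.lab (ρ₁ ω)) (fun ω => (tb n (l (ρ₂ ω)), C (ρ₂ ω))) := by
      have e1 := (g4 W.lab R).1
      have e2 := Stk.hc_of_law Q P₁ ρ₁ g2 W.lab (fun ω => (tb n (l (π₁ ω)), C (π₁ ω)))
      have e3 : (fun ω => (R (ρ₂ ω), (tb n (l (ρ₂ ω)), C (ρ₂ ω)))) =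
          fun ω => (R (ρ₂ ω), (tb n (l (π₁ (ρ₁ ω))), C (π₁ (ρ₁ ω)))) := by
        funext ω
        rw [gt, gC]
      rw [e3, hcond]
      exact e1.trans e2.symm
    have b2 : Stk.hc Q V.lab (fun ω => (tb n (l (ρ₂ ω)), C (ρ₂ ω))) ≤
        Stk.hc Q (fun ω => W.lab (ρ₁ ω)) (fun ω => (tb n (l (ρ₂ ω)), C (ρ₂ ω))) + K := by
      have e1 := Stk.hc_le_add Q V.lab (fun ω => W.lab (ρ₁ ω))
        (fun ω => (tb n (l (ρ₂ ω)), C (ρ₂ ω)))
      have e2 := c1 (fun ω => (tb n (l (ρ₂ ω)), C (ρ₂ ω)))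
      linarith
    have b3 : Stk.hc Q (fun ω => W.lab (ρ₁ ω)) (fun ω => (R (ρ₂ ω), (tb n (l (ρ₂ ω)), C (ρ₂ ω)))) ≤
        Stk.hc Q V.lab (fun ω => (R (ρ₂ ω), (tb n (l (ρ₂ ω)), C (ρ₂ ω)))) + K := by
      have e1 := Stk.hc_le_add Q (fun ω => W.lab (ρ₁ ω)) V.lab
        (fun ω => (R (ρ₂ ω), (tb n (l (ρ₂ ω)), C (ρ₂ ω))))
      have e2 := c2 (fun ω => (R (ρ₂ ω), (tb n (l (ρ₂ ω)), C (ρ₂ ω))))
      linarith
    linarith
  · -- the shape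
    intro δ R
    have e1 := (g4 (fun ω => (W.k ω, W.j ω)) R).1
    have e2 := Stk.hc_of_law Q P₁ ρ₁ g2 (fun ω => (W.k ω, W.j ω))
      (fun ω => (tb n (l (π₁ ω)), C (π₁ ω)))
    have e3 : (fun ω => (R (ρ₂ ω), (tb n (l (ρ₂ ω)), C (ρ₂ ω)))) =
        fun ω => (R (ρ₂ ω), (tb n (l (π₁ (ρ₁ ω))), C (π₁ (ρ₁ ω)))) := by
      funext ω
      rw [gt, gC]
    rw [e3, hcond]
    exact e1.trans e2.symm

end finite

end Vale.Agent.P127.U.HX
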