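import Vale.Agent.P127.U.Lam.HSoft
import Vale.Agent.P127.U.Lam.HAux

/-!
# P127 / U / Lam : soft labels, general form (helper864)

* `HX.softG` : arbitrary line variable `l`, precision `n`, side information `C`, and an arbitrary fine
  variable `T` (which determines the tube given `C`, up to the error `hc P (tb n l) (T, C)`).
-/

set_option autoImplicit false

namespace Vale.Agent.P127.U.HX

open Filter Topology Vale.Agent.P127 Vale.Agent.P127.Stk Vale.Agent.P127.U.Apx Vale.Agent.P127.U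
  Sys ExcB

variable {lam N : ℝ}

/-- **soft labels, general form** -/
theorem softG {Ω : Type} [Fintype Ω] {γ τ : Type} {P : Law Ω} {n : ℕ}
    {l : Ω → Ln} (C : Ω → γ) (T : Ω → τ) (h : ∀ ω, 0 < P.w ω → LnOk (l ω)) :
    ∃ (Ω' : Type) (_ : Fintype Ω') (P' : Law Ω') (π : Ω' → Ω) (A : Bx Ω'),
      (∀ ω, P'.pr π ω = P.w ω) ∧
      (∀ ω, 0 < P'.w ω → Sub 2 ((tbx n l).comp π) A ω) ∧
      (∀ ω, 0 < P'.w ω → A.l ω = l (π ω) ∧ |A.θ ω| ≤ 4 ∧ A.k ω ≤ A.j ω ∧ A.j ω ≤ n) ∧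
      excH lam N P n l C + Stk.hc P T (fun ω => (tb n (l ω), C ω)) ≤
        Stk.hc P' (fun ω => T (π ω)) (fun ω => (A.lab ω, C (π ω))) -
          Real.log 2 * (2 * (n : ℝ) - P'.ex (A.szl lam)) +
        N * Stk.hc P' A.shp (fun ω => (T (π ω), (tb n (l (π ω)), C (π ω)))) +
        (1 + 3 * Real.log (((2 * 5 + 1) ^ 4 : ℕ) : ℝ) +
          Stk.hc P (fun ω => tb n (l ω)) (fun ω => (T ω, C ω))) := by
  obtain ⟨Ω', iΩ', P', π, W, h1, h2, h3, h4, h5⟩ := soft (lam := lam) (N := N) (P := P)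
    (n := n) (l := l) C h
  refine ⟨Ω', iΩ', P', π, W, h1, h2, fun ω hω => ?_, ?_⟩
  · obtain ⟨b1, b2, b3, b4, b5, -⟩ := h2 ω hω
    exact ⟨b1, b2, b3, b5⟩
  set K : ℝ := Real.log (((2 * 5 + 1) ^ 4 : ℕ) : ℝ) with hK
  set X : Ω' → _ := fun ω => T (π ω) with hX
  set B : Ω' → _ := fun ω => tb n (l (π ω)) with hB
  set D : Ω' → _ := fun ω => C (π ω) with hD
  -- the value of `W`
  have a1 : exVl lam P' ((tbx n l).comp π) W D =
      Stk.hc P' B (fun ω => (W.lab ω, D ω)) -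
        Real.log 2 * (2 * (n : ℝ) - P'.ex (W.szl lam)) := by
    have b1 : Stk.hc P' ((tbx n l).comp π).lab (fun ω => (W.lab ω, D ω)) =
        Stk.hc P' B (fun ω => (W.lab ω, D ω)) := hc_tbx P' n (fun ω => l (π ω)) _
    have b2 : (P'.ex fun ω => ((tbx n l).comp π).szl lam ω - W.szl lam ω) =
        2 * (n : ℝ) - P'.ex (W.szl lam) := by
      rw [← P'.ex_const (2 * (n : ℝ)), ← P'.ex_sub]
      refine P'.ex_congr fun ω _ => ?_
      show (1 + lam) * (n : ℝ) + (1 - lam) * (n : ℝ) - W.szl lam ω = _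
      ring
    unfold exVl
    rw [b1, b2]
  have a2 : Stk.hc P T (fun ω => (tb n (l ω), C ω)) = Stk.hc P' X (fun ω => (B ω, D ω)) :=
    (Stk.hc_of_law P' P π h1 T (fun ω => (tb n (l ω), C ω))).symm
  have a3 : Stk.hc P (fun ω => tb n (l ω)) (fun ω => (T ω, C ω)) =
      Stk.hc P' B (fun ω => (X ω, D ω)) :=
    (Stk.hc_of_law P' P π h1 (fun ω => tb n (l ω)) (fun ω => (T ω, C ω))).symm
  -- softness of the label
  have a5 := h4 _ T
  have a6 : Stk.hc P' X (fun ω => (B ω, D ω)) ≤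
      Stk.hc P' X (fun ω => (W.lab ω, (B ω, D ω))) + 2 * K := by
    have b1 := Stk.hc_pair P' X W.lab (fun ω => (B ω, D ω))
    have b2 := Stk.hc_pair P' W.lab X (fun ω => (B ω, D ω))
    have b3 : Stk.hc P' (fun ω => (X ω, W.lab ω)) (fun ω => (B ω, D ω)) =
        Stk.hc P' (fun ω => (W.lab ω, X ω)) (fun ω => (B ω, D ω)) :=
      Stk.hc_congr P' (fun _ _ _ _ e => by
        simp only [Prod.mk.injEq] at e ⊢
        exact ⟨e.1.2, e.1.1⟩) (fun _ _ _ _ e => by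
        simp only [Prod.mk.injEq] at e ⊢
        exact ⟨e.1.2, e.1.1⟩) (fun _ _ _ _ e => e) (fun _ _ _ _ e => e)
    have b4 : Stk.hc P' W.lab (fun ω => (B ω, D ω)) - 2 * K ≤
        Stk.hc P' W.lab (fun ω => (X ω, (B ω, D ω))) := a5
    linarith
  -- the tube is a function of `T` and `C`
  have a7 : Stk.hc P' B (fun ω => (X ω, (W.lab ω, D ω))) ≤ Stk.hc P' B (fun ω => (X ω, D ω)) :=
    Stk.hc_mono_right P' B fun ω ω' _ _ e => by
      simp only [Prod.mk.injEq] at e ⊢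
      exact ⟨e.1, e.2.2⟩
  have a8 : Stk.hc P' B (fun ω => (W.lab ω, D ω)) +
      Stk.hc P' X (fun ω => (W.lab ω, (B ω, D ω))) ≤
      Stk.hc P' X (fun ω => (W.lab ω, D ω)) + Stk.hc P' B (fun ω => (X ω, D ω)) := by
    have b1 := Stk.hc_pair P' B X (fun ω => (W.lab ω, D ω))
    have b2 := Stk.hc_pair P' X B (fun ω => (W.lab ω, D ω))
    have b3 : Stk.hc P' (fun ω => (B ω, X ω)) (fun ω => (W.lab ω, D ω)) =
        Stk.hc P' (fun ω => (X ω, B ω)) (fun ω => (W.lab ω, D ω)) :=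
      Stk.hc_congr P' (fun _ _ _ _ e => by
        simp only [Prod.mk.injEq] at e ⊢
        exact ⟨e.1.2, e.1.1⟩) (fun _ _ _ _ e => by
        simp only [Prod.mk.injEq] at e ⊢
        exact ⟨e.1.2, e.1.1⟩) (fun _ _ _ _ e => e) (fun _ _ _ _ e => e)
    have b4 : Stk.hc P' X (fun ω => (B ω, (W.lab ω, D ω))) =
        Stk.hc P' X (fun ω => (W.lab ω, (B ω, D ω))) :=
      Stk.hc_congr P' (fun _ _ _ _ e => congrArg Prod.fst e) (fun _ _ _ _ e => congrArg Prod.fst e)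
        (fun _ _ _ _ e => by
          simp only [Prod.mk.injEq] at e ⊢
          exact ⟨e.2.1, e.1, e.2.2⟩) (fun _ _ _ _ e => by
          simp only [Prod.mk.injEq] at e ⊢
          exact ⟨e.2.1, e.1, e.2.2⟩)
    linarith
  -- the shape
  have a9 : Stk.hc P' (fun ω => (W.k ω, W.j ω)) (fun ω => (X ω, (B ω, D ω))) =
      Stk.hc P' (fun ω => (W.k ω, W.j ω)) (fun ω => (B ω, D ω)) := h5 _ T
  have a11 : excH lam N P n l C - 1 - K ≤
      exVl lam P' ((tbx n l).comp π) W D +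
        N * Stk.hc P' (fun ω => (W.k ω, W.j ω)) (fun ω => (B ω, D ω)) := h3
  have a12 : Stk.hc P' W.shp (fun ω => (X ω, (B ω, D ω))) =
      Stk.hc P' (fun ω => (W.k ω, W.j ω)) (fun ω => (B ω, D ω)) := a9
  rw [a1] at a11
  rw [a2, a3, a12]
  linarith

end Vale.Agent.P127.U.HX
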