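import Vale.Agent.P127.U.Lam.HLift
import Vale.Agent.P127.U.Lam.JL

/-!
# P127 / U / Lam : the chain step for a soft label (helper420)

* `valH lam Np P' π W s n l t C` : value, with the price of the shape, of a label of level `s`.
* `step` : the inequalities for the laws conditioned on a variable `E` which determines the shape of
  the label give the inequality for `excH`; the price of the shape is refunded at the base.
* `step_const` : the same constant `N` for all values.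
* `step_event` : the constant `N` on an event, nothing outside.
-/

set_option autoImplicit false

namespace Vale.Agent.P127.U

open Filter Topology Vale.Agent.P127 Vale.Agent.P127.Stk Sys

namespace Lam

section step

variable {lam Np : ℝ} {Ω : Type} [Fintype Ω] {γ : Type*} {Ω' : Type} [Fintype Ω']

/-- value of a label of the level `s`, with the price of the shape -/
noncomputable def valH (lam Np : ℝ) (P' : Law Ω') (π : Ω' → Ω) (W : Bx Ω') (s n : ℕ)
    (l : Ω → Ln) (t : Ω → ℝ) (C : Ω → γ) : ℝ :=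
  Stk.hc P' (fun ω => tb n (l (π ω))) (fun ω => (W.lab ω, pq s (ptF l t (π ω)), C (π ω))) -
    Real.log 2 * (2 * ((n : ℝ) - s) -
      P'.ex (fun ω => (1 + lam) * (W.k ω : ℝ) + (1 - lam) * W.j ω)) +
    Np * Stk.hc P' W.shp (fun ω => (fl1 s (t (π ω)), tb n (l (π ω)), C (π ω)))

theorem lab_shp (W : Bx Ω') {ω ω' : Ω'} (h : W.lab ω = W.lab ω') : W.shp ω = W.shp ω' := by
  have h1 : W.k ω = W.k ω' := congrArg (fun z => z.1) h
  have h2 : W.j ω = W.j ω' := congrArg (fun z => z.2.1) h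
  exact Prod.ext h1 h2

/-- the constants of the chain step -/
noncomputable def cSt (Np K : ℝ) (K0 : ℕ) : ℝ :=
  Real.log K0 + Np * (2 * Real.log K + 2 * Real.log 4 + Real.log K0) + 1

/-- **CHAIN STEP**, general form : arbitrary coarse data `Y`, sizes `a`, bounds `kk ≤ JJ ≤ n` of the
exponents, right sides `R` -/
theorem step_gen {V : Type*} (hl : 0 ≤ lam) {κ : ℝ} (hκ : 0 < κ) (h1 : lam + κ ≤ 1) (hNp : 0 ≤ Np)
    {K : ℝ} (hK : 1 ≤ K) (hK2 : 2 * Np ≤ κ * Real.log 2 * K)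
    {P : Law Ω} {n : ℕ} {l : Ω → Ln} {C : Ω → γ} {P' : Law Ω'}
    {π : Ω' → Ω} (hπ : ∀ ω, P'.pr π ω = P.w ω) {ι : Type} (E : Ω' → ι) (kk JJ : ι → ℕ)
    (a R : ι → ℝ) (Y : Ω' → V) (K0 : ℕ)
    (hE : ∀ ω, 0 < P'.w ω → kk (E ω) ≤ JJ (E ω) ∧ JJ (E ω) ≤ n)
    (hK0 : ∀ k j : ℕ, ∃ F : Finset ι, F.card ≤ K0 ∧
      ∀ ω, 0 < P'.w ω → kk (E ω) = k → JJ (E ω) = j → E ω ∈ F)
    (hF : ∀ e, 0 < P'.pr E e →
      Stk.hc (P'.cond E e) (fun ω => tb n (l (π ω))) Y - Real.log 2 * a e ≤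
        R e + excR lam (P'.cond E e) n (fun ω => l (π ω)) (fun ω => C (π ω)) (kk e) (JJ e)) :
    Stk.hc P' (fun ω => tb n (l (π ω))) Y - Real.log 2 * P'.ex (fun ω => a (E ω)) ≤
      excH (lam + κ) Np P n l C + ∑ e ∈ img E, P'.pr E e * R e +
        κ * Real.log 2 * P'.ex (fun ω => (JJ (E ω) : ℝ) - kk (E ω)) -
        Np * Stk.hc P' E (fun ω => (tb n (l (π ω)), C (π ω))) + Stk.hc P' E Y +
        Np * (2 * Real.log K + 2 * Real.log 4 + Real.log K0) + 1 := by
  classical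
  have hlift := lift hl hκ h1 hNp hK hK2 (P := P) (l := l) (C := C) (n := n) P' π hπ E kk JJ 0 K0
    (fun ω hω => by
      obtain ⟨a1, a2⟩ := hE ω hω
      exact ⟨a1, by omega⟩) hK0
  simp only [zero_add, Nat.cast_zero, add_zero] at hlift
  set Z : Ω' → (Fin 2 → ℤ) × (Fin 2 → ℤ) := fun ω => tb n (l (π ω)) with hZ
  -- the entropy of the line
  have e1 : Stk.hc P' Z Y ≤ ∑ e ∈ img E, P'.pr E e * Stk.hc (P'.cond E e) Z Y +
      Stk.hc P' E Y := by
    have a1 := Stk.hc_le_add' P' Z E Y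
    have a3 := JSB.hc_cond_sum P' Z Y E
    have a4 : Stk.hc P' Z (fun ω => (E ω, Y ω)) ≤ Stk.hc P' Z (fun ω => (Y ω, E ω)) := by
      refine Stk.hc_mono_right P' _ fun ω ω' _ _ e => ?_
      simp only [Prod.mk.injEq] at e ⊢
      exact ⟨e.2, e.1⟩
    linarith
  have hsz : P'.ex (fun ω => a (E ω)) = ∑ e ∈ img E, P'.pr E e * a e := by
    rw [← ex_cond_sum P' (fun ω => a (E ω)) E]
    refine Finset.sum_congr rfl fun e _ => ?_
    rcases (P'.pr_nonneg E e).eq_or_lt with h0 | h0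
    · rw [← h0, zero_mul, zero_mul]
    congr 1
    rw [← (P'.cond E e).ex_const (a e)]
    refine (P'.cond E e).ex_congr fun ω hω => ?_
    rw [JSB.cond_supp' P' E e h0 hω]
  -- sum of the inequalities
  have hsum : ∑ e ∈ img E, P'.pr E e * Stk.hc (P'.cond E e) Z Y -
      Real.log 2 * ∑ e ∈ img E, P'.pr E e * a e ≤
      ∑ e ∈ img E, P'.pr E e * R e + ∑ e ∈ img E, P'.pr E e *
        excR lam (P'.cond E e) n (fun ω => l (π ω)) (fun ω => C (π ω)) (kk e) (JJ e) := by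
    rw [Finset.mul_sum, ← Finset.sum_sub_distrib, ← Finset.sum_add_distrib]
    refine Finset.sum_le_sum fun e _ => ?_
    rcases (P'.pr_nonneg E e).eq_or_lt with h0 | h0
    · rw [← h0]
      simp
    · have := mul_le_mul_of_nonneg_left (hF e h0) h0.le
      linarith
  rw [hsz]
  linarith

/-- **CHAIN STEP** -/
theorem step {ι : Type} (hl : 0 ≤ lam) {κ : ℝ} (hκ : 0 < κ) (h1 : lam + κ ≤ 1) (hNp : 0 ≤ Np)
    {K : ℝ} (hK : 1 ≤ K) (hK2 : 2 * Np ≤ κ * Real.log 2 * K)
    {P : Law Ω} {n s : ℕ} {l : Ω → Ln} {t : Ω → ℝ} {C : Ω → γ} {P' : Law Ω'}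
    {π : Ω' → Ω} (hπ : ∀ ω, P'.pr π ω = P.w ω) {W : Bx Ω'} (E : Ω' → ι) (kk jj : ι → ℕ)
    (R D : ι → ℝ) (K0 : ℕ)
    (hW : ∀ ω, 0 < P'.w ω → W.k ω ≤ W.j ω ∧ s + W.j ω ≤ n)
    (hE : ∀ ω, 0 < P'.w ω → W.k ω = kk (E ω) ∧ W.j ω = jj (E ω))
    (hK0 : ∀ k j : ℕ, ∃ F : Finset ι, F.card ≤ K0 ∧
      ∀ ω, 0 < P'.w ω → kk (E ω) = k → jj (E ω) = j → E ω ∈ F)
    (hF : ∀ e, 0 < P'.pr E e →
      Stk.hc (P'.cond E e) (fun ω => tb n (l (π ω)))
          (fun ω => (W.lab ω, pq s (ptF l t (π ω)), C (π ω))) -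
        Real.log 2 * (2 * ((n : ℝ) - s) - ((1 + lam) * kk e + (1 - lam) * jj e)) ≤
        R e + excR lam (P'.cond E e) n (fun ω => l (π ω)) (fun ω => C (π ω)) (kk e) (s + jj e) +
          D e) :
    valH (lam + κ) Np P' π W s n l t C ≤
      excH (lam + κ) Np P n l C + κ * s * Real.log 2 + ∑ e ∈ img E, P'.pr E e * R e +
        ∑ e ∈ img E, P'.pr E e * D e -
        Np * Stk.mi P' (fun ω => fl1 s (t (π ω))) E (fun ω => (tb n (l (π ω)), C (π ω))) +
        cSt Np K K0 := by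
  classical
  have hlog : 0 < Real.log 2 := Real.log_pos (by norm_num)
  have hlift := lift hl hκ h1 hNp hK hK2 (P := P) (l := l) (C := C) (n := n) P' π hπ E kk jj s K0
    (fun ω hω => by
      obtain ⟨a1, a2⟩ := hE ω hω
      rw [← a1, ← a2]
      exact hW ω hω) hK0
  set Z : Ω' → (Fin 2 → ℤ) × (Fin 2 → ℤ) := fun ω => tb n (l (π ω)) with hZ
  set Y : Ω' → _ := fun ω => (W.lab ω, pq s (ptF l t (π ω)), C (π ω)) with hY
  -- the entropy of the line
  have e1 : Stk.hc P' Z Y ≤ ∑ e ∈ img E, P'.pr E e * Stk.hc (P'.cond E e) Z Y + Real.log K0 := by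
    have a1 := Stk.hc_le_add' P' Z E Y
    have a3 := JSB.hc_cond_sum P' Z Y E
    have a4 : Stk.hc P' Z (fun ω => (E ω, Y ω)) ≤ Stk.hc P' Z (fun ω => (Y ω, E ω)) := by
      refine Stk.hc_mono_right P' _ fun ω ω' _ _ e => ?_
      simp only [Prod.mk.injEq] at e ⊢
      exact ⟨e.2, e.1⟩
    have a5 : Stk.hc P' E Y ≤ Real.log K0 := by
      refine Stk.hc_le_log P' _ _ _ fun ω hω => ?_
      obtain ⟨F, f1, f2⟩ := hK0 (kk (E ω)) (jj (E ω))
      refine ⟨F, f1, fun ω' hω' e => ?_⟩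
      have e2 : W.shp ω' = W.shp ω := lab_shp W (congrArg Prod.fst e)
      obtain ⟨b1, b2⟩ := hE ω hω
      obtain ⟨b3, b4⟩ := hE ω' hω'
      have e3 : W.k ω' = W.k ω := congrArg Prod.fst e2
      have e4 : W.j ω' = W.j ω := congrArg Prod.snd e2
      exact f2 ω' hω' (by rw [← b3, ← b1, e3]) (by rw [← b4, ← b2, e4])
    linarith
  -- the sizes
  have hz : ∀ e ∈ img E, P'.pr E e * (Real.log 2 *
      (2 * ((n : ℝ) - s) - ((1 + lam) * kk e + (1 - lam) * jj e))) =
      Real.log 2 * (2 * ((n : ℝ) - s)) * P'.pr E e -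
        Real.log 2 * (P'.pr E e * (P'.cond E e).ex
          (fun ω => (1 + lam) * (W.k ω : ℝ) + (1 - lam) * W.j ω)) := by
    intro e _
    rcases (P'.pr_nonneg E e).eq_or_lt with h0 | h0
    · rw [← h0]
      ring
    · have : (P'.cond E e).ex (fun ω => (1 + lam) * (W.k ω : ℝ) + (1 - lam) * W.j ω) =
          (1 + lam) * kk e + (1 - lam) * jj e := by
        rw [← (P'.cond E e).ex_const ((1 + lam) * (kk e : ℝ) + (1 - lam) * jj e)]
        refine (P'.cond E e).ex_congr fun ω hω => ?_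
        obtain ⟨b1, b2⟩ := hE ω (JSB.cond_supp P' E e hω)
        rw [JSB.cond_supp' P' E e h0 hω] at b1 b2
        rw [b1, b2]
      rw [this]
      ring
  have hsz : ∑ e ∈ img E, P'.pr E e * (Real.log 2 *
      (2 * ((n : ℝ) - s) - ((1 + lam) * kk e + (1 - lam) * jj e))) =
      Real.log 2 * (2 * ((n : ℝ) - s) -
        P'.ex (fun ω => (1 + lam) * (W.k ω : ℝ) + (1 - lam) * W.j ω)) := by
    rw [Finset.sum_congr rfl hz, Finset.sum_sub_distrib, ← Finset.mul_sum, ← Finset.mul_sum,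
      P'.sum_pr_image E, ex_cond_sum]
    ring
  -- sum of the inequalities
  have hsum : ∑ e ∈ img E, P'.pr E e * Stk.hc (P'.cond E e) Z Y -
      ∑ e ∈ img E, P'.pr E e * (Real.log 2 *
        (2 * ((n : ℝ) - s) - ((1 + lam) * kk e + (1 - lam) * jj e))) ≤
      ∑ e ∈ img E, P'.pr E e * R e + ∑ e ∈ img E, P'.pr E e *
        excR lam (P'.cond E e) n (fun ω => l (π ω)) (fun ω => C (π ω)) (kk e) (s + jj e) +
        ∑ e ∈ img E, P'.pr E e * D e := by
    rw [← Finset.sum_sub_distrib, ← Finset.sum_add_distrib, ← Finset.sum_add_distrib]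
    refine Finset.sum_le_sum fun e _ => ?_
    rcases (P'.pr_nonneg E e).eq_or_lt with h0 | h0
    · rw [← h0]
      simp
    · have := mul_le_mul_of_nonneg_left (hF e h0) h0.le
      linarith
  rw [hsz] at hsum
  -- the price of the flatness
  have hval : P'.ex (fun ω => (1 + (lam + κ)) * (W.k ω : ℝ) + (1 - (lam + κ)) * W.j ω) =
      P'.ex (fun ω => (1 + lam) * (W.k ω : ℝ) + (1 - lam) * W.j ω) -
        κ * P'.ex (fun ω => (jj (E ω) : ℝ) - kk (E ω)) := by
    rw [← P'.ex_const_mul, ← P'.ex_sub]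
    refine P'.ex_congr fun ω hω => ?_
    obtain ⟨b1, b2⟩ := hE ω hω
    rw [b1, b2]
    ring
  -- the price of the shape
  have hsh : Stk.hc P' W.shp (fun ω => (fl1 s (t (π ω)), tb n (l (π ω)), C (π ω))) +
      Stk.mi P' (fun ω => fl1 s (t (π ω))) E (fun ω => (tb n (l (π ω)), C (π ω))) ≤
      Stk.hc P' E (fun ω => (tb n (l (π ω)), C (π ω))) := by
    rw [Stk.mi_symm]
    unfold Stk.mi
    have b1 : Stk.hc P' W.shp (fun ω => (fl1 s (t (π ω)), tb n (l (π ω)), C (π ω))) ≤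
        Stk.hc P' E (fun ω => (fl1 s (t (π ω)), tb n (l (π ω)), C (π ω))) := by
      refine Stk.hc_mono_left P' fun ω ω' hω hω' e => ?_
      simp only [Prod.mk.injEq] at e
      obtain ⟨b1, b2⟩ := hE ω hω
      obtain ⟨b3, b4⟩ := hE ω' hω'
      exact Prod.ext (by show W.k ω = W.k ω'; rw [b1, b3, e.1])
        (by show W.j ω = W.j ω'; rw [b2, b4, e.1])
    linarith
  have hsh2 := mul_le_mul_of_nonneg_left hsh hNp
  unfold valH cSt
  rw [hval]
  nlinarith

/-- average of the time deficits over the values of `E` -/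
theorem def_avg {ι : Type} {T V : Type*} (P : Law Ω) (X : Ω → T) (Z : Ω → V) (E : Ω → ι) (a : ℝ) :
    ∑ e ∈ img E, P.pr E e * (a - Stk.hc (P.cond E e) X Z) =
      a - Stk.hc P X Z + Stk.mi P X E Z := by
  have e1 := JSB.hc_cond_sum P X Z E
  have e2 : Stk.hc P X (fun ω => (Z ω, E ω)) = Stk.hc P X (fun ω => (E ω, Z ω)) :=
    Stk.hc_congr P (fun _ _ _ _ e => congrArg Prod.fst e) (fun _ _ _ _ e => congrArg Prod.fst e)
      (fun _ _ _ _ e => by simp only [Prod.mk.injEq] at e ⊢; exact ⟨e.2, e.1⟩)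
      (fun _ _ _ _ e => by simp only [Prod.mk.injEq] at e ⊢; exact ⟨e.2, e.1⟩)
  simp only [mul_sub, Finset.sum_sub_distrib]
  rw [← Finset.sum_mul, P.sum_pr_image E, ← e1, e2]
  unfold Stk.mi
  ring

/-- the mutual information given an event which is a function of `E` -/
theorem mi_event {ι : Type} {T V : Type*} (P : Law Ω) (X : Ω → T) (Z : Ω → V) (E : Ω → ι)
    (g : Ω → Bool) (hg : ∀ ω ω', 0 < P.w ω → 0 < P.w ω' → E ω = E ω' → g ω = g ω') :
    P.pr g true * Stk.mi (P.cond g true) X E Z ≤ Stk.mi P X E Z := by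
  classical
  -- `∑ pr(g) mi(P|g)(X ; E | Z) = mi P X E (Z, g)`
  have e1 := JSB.hc_cond_sum P X Z g
  have e2 := JSB.hc_cond_sum P X (fun ω => (E ω, Z ω)) g
  have e3 : Stk.hc P X (fun ω => (Z ω, g ω)) - Stk.hc P X (fun ω => ((E ω, Z ω), g ω)) =
      ∑ z ∈ img g, P.pr g z * Stk.mi (P.cond g z) X E Z := by
    rw [e1, e2, ← Finset.sum_sub_distrib]
    refine Finset.sum_congr rfl fun z _ => ?_
    unfold Stk.mi
    ring
  have e4 : P.pr g true * Stk.mi (P.cond g true) X E Z ≤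
      ∑ z ∈ img g, P.pr g z * Stk.mi (P.cond g z) X E Z := by
    by_cases ht : true ∈ img g
    · exact Finset.single_le_sum (f := fun z => P.pr g z * Stk.mi (P.cond g z) X E Z)
        (fun z _ => mul_nonneg (P.pr_nonneg g z) (Stk.mi_nonneg _ _ _ _)) ht
    · have h0 : P.pr g true = 0 := by
        unfold Law.pr
        refine Finset.sum_eq_zero fun ω hω => ?_
        exact absurd (mem_img.2 ⟨ω, by simpa using hω⟩) ht
      rw [h0, zero_mul]
      exact Finset.sum_nonneg fun z _ => mul_nonneg (P.pr_nonneg g z) (Stk.mi_nonneg _ _ _ _)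
  have e5 : Stk.hc P X (fun ω => (Z ω, g ω)) ≤ Stk.hc P X Z :=
    Stk.hc_mono_right P _ fun _ _ _ _ e => congrArg Prod.fst e
  have e6 : Stk.hc P X (fun ω => (E ω, Z ω)) ≤ Stk.hc P X (fun ω => ((E ω, Z ω), g ω)) := by
    refine Stk.hc_mono_right P _ fun ω ω' hω hω' e => ?_
    simp only [Prod.mk.injEq] at e ⊢
    exact ⟨e, hg ω ω' hω hω' e.1⟩
  unfold Stk.mi at e3 ⊢
  unfold Stk.mi at e4
  linarith

/-- **CHAIN STEP**, the same constant for all the values -/
theorem step_const {ι : Type} (hl : 0 ≤ lam) {κ : ℝ} (hκ : 0 < κ) (h1 : lam + κ ≤ 1)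
    (hNp : 0 ≤ Np) {K : ℝ} (hK : 1 ≤ K) (hK2 : 2 * Np ≤ κ * Real.log 2 * K)
    {P : Law Ω} {n s : ℕ} {l : Ω → Ln} {t : Ω → ℝ} {C : Ω → γ} {P' : Law Ω'}
    {π : Ω' → Ω} (hπ : ∀ ω, P'.pr π ω = P.w ω) {W : Bx Ω'} (E : Ω' → ι) (kk jj : ι → ℕ)
    (R : ι → ℝ) (N : ℝ) (K0 : ℕ)
    (hW : ∀ ω, 0 < P'.w ω → W.k ω ≤ W.j ω ∧ s + W.j ω ≤ n)
    (hE : ∀ ω, 0 < P'.w ω → W.k ω = kk (E ω) ∧ W.j ω = jj (E ω))
    (hK0 : ∀ k j : ℕ, ∃ F : Finset ι, F.card ≤ K0 ∧
      ∀ ω, 0 < P'.w ω → kk (E ω) = k → jj (E ω) = j → E ω ∈ F)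
    (hF : ∀ e, 0 < P'.pr E e →
      Stk.hc (P'.cond E e) (fun ω => tb n (l (π ω)))
          (fun ω => (W.lab ω, pq s (ptF l t (π ω)), C (π ω))) -
        Real.log 2 * (2 * ((n : ℝ) - s) - ((1 + lam) * kk e + (1 - lam) * jj e)) ≤
        R e + excR lam (P'.cond E e) n (fun ω => l (π ω)) (fun ω => C (π ω)) (kk e) (s + jj e) +
          N * DF (P'.cond E e) s n (fun ω => l (π ω)) (fun ω => t (π ω)) (fun ω => C (π ω))) :
    valH (lam + κ) Np P' π W s n l t C ≤
      excH (lam + κ) Np P n l C + κ * s * Real.log 2 + ∑ e ∈ img E, P'.pr E e * R e +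
        N * DF P s n l t C -
        (Np - N) * Stk.mi P' (fun ω => fl1 s (t (π ω))) E (fun ω => (tb n (l (π ω)), C (π ω))) +
        cSt Np K K0 := by
  have h2 := step hl hκ h1 hNp hK hK2 hπ E kk jj R
    (fun e => N * DF (P'.cond E e) s n (fun ω => l (π ω)) (fun ω => t (π ω)) (fun ω => C (π ω)))
    K0 hW hE hK0 hF
  have h3 := def_avg P' (fun ω => fl1 s (t (π ω))) (fun ω => (tb n (l (π ω)), C (π ω))) E
    (s * Real.log 2)
  have h4 : ∑ e ∈ img E, P'.pr E e *
      (N * DF (P'.cond E e) s n (fun ω => l (π ω)) (fun ω => t (π ω)) (fun ω => C (π ω))) =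
      N * ∑ e ∈ img E, P'.pr E e * (s * Real.log 2 - Stk.hc (P'.cond E e)
        (fun ω => fl1 s (t (π ω))) (fun ω => (tb n (l (π ω)), C (π ω)))) := by
    rw [Finset.mul_sum]
    refine Finset.sum_congr rfl fun e _ => ?_
    unfold DF
    ring
  have h5 : Stk.hc P' (fun ω => fl1 s (t (π ω))) (fun ω => (tb n (l (π ω)), C (π ω))) =
      Stk.hc P (fun ω => fl1 s (t ω)) (fun ω => (tb n (l ω), C ω)) :=
    Stk.hc_of_law P' P π hπ (fun ω => fl1 s (t ω)) (fun ω => (tb n (l ω), C ω))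
  rw [h4, h3, h5] at h2
  unfold DF
  linarith

/-- conditional entropy on an event : average over the values of `E` -/
theorem ev_avg {ι : Type} {T V : Type*} (P : Law Ω) (X : Ω → T) (Z : Ω → V) (E : Ω → ι)
    (g : ι → Bool) (G : Ω → Bool) (hG : ∀ ω, 0 < P.w ω → g (E ω) = G ω) :
    P.pr G true * Stk.hc (P.cond G true) X Z ≤
      ∑ e ∈ img E, P.pr E e * (if g e = true then Stk.hc (P.cond E e) X Z else 0) +
        Stk.mi P X E Z := by
  classical
  set X1 : Ω → Option T := fun ω => if G ω = true then some (X ω) else none with hX1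
  -- conditioned on `E`
  have e1 : ∑ e ∈ img E, P.pr E e * (if g e = true then Stk.hc (P.cond E e) X Z else 0) =
      Stk.hc P X1 (fun ω => (Z ω, E ω)) := by
    rw [JSB.hc_cond_sum P X1 Z E]
    refine Finset.sum_congr rfl fun e _ => ?_
    rcases (P.pr_nonneg E e).eq_or_lt with h0 | h0
    · rw [← h0, zero_mul, zero_mul]
    congr 1
    have hs : ∀ ω, 0 < (P.cond E e).w ω → G ω = g e := fun ω hω => by
      rw [← hG ω (JSB.cond_supp P E e hω), JSB.cond_supp' P E e h0 hω]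
    cases hge : g e with
    | true =>
      rw [if_pos rfl]
      refine le_antisymm (Stk.hc_mono_left _ fun ω ω' hω hω' e2 => ?_)
        (Stk.hc_mono_left _ fun ω ω' hω hω' e2 => ?_)
      · simp only [Prod.mk.injEq, hX1, hs ω hω, hs ω' hω', hge, if_true, Option.some.injEq] at e2
        exact e2.1
      · simp only [Prod.mk.injEq] at e2
        simp only [hX1, hs ω hω, hs ω' hω', hge, if_true, e2.1]
    | false =>
      rw [if_neg (by simp)]
      refine (Stk.hc_zero _ fun ω ω' hω hω' _ => ?_).symm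
      simp only [hX1, hs ω hω, hs ω' hω', hge, Bool.false_eq_true, if_false]
  -- conditioned on `G`
  have e2 : P.pr G true * Stk.hc (P.cond G true) X Z ≤ Stk.hc P X1 (fun ω => (Z ω, G ω)) := by
    rw [JSB.hc_cond_sum P X1 Z G]
    by_cases ht : true ∈ img G
    · refine le_trans ?_ (Finset.single_le_sum
        (f := fun z => P.pr G z * Stk.hc (P.cond G z) X1 Z)
        (fun z _ => mul_nonneg (P.pr_nonneg G z) (Stk.hc_nonneg _ _ _)) ht)
      rcases (P.pr_nonneg G true).eq_or_lt with h0 | h0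
      · rw [← h0, zero_mul, zero_mul]
      refine mul_le_mul_of_nonneg_left (Stk.hc_mono_left _ fun ω ω' hω hω' e2 => ?_) h0.le
      have b1 := JSB.cond_supp' P G true h0 hω
      have b2 := JSB.cond_supp' P G true h0 hω'
      simp only [Prod.mk.injEq, hX1, b1, b2, if_true, Option.some.injEq] at e2
      exact e2.1
    · have h0 : P.pr G true = 0 := by
        unfold Law.pr
        refine Finset.sum_eq_zero fun ω hω => ?_
        exact absurd (mem_img.2 ⟨ω, by simpa using hω⟩) ht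
      rw [h0, zero_mul]
      exact Finset.sum_nonneg fun z _ => mul_nonneg (P.pr_nonneg G z) (Stk.hc_nonneg _ _ _)
  -- data processing
  have hGE : ∀ ω ω', 0 < P.w ω → 0 < P.w ω' → E ω = E ω' → G ω = G ω' := fun ω ω' h h' e => by
    rw [← hG ω h, ← hG ω' h', e]
  have e3 : Stk.hc P X1 (fun ω => (Z ω, G ω)) - Stk.hc P X1 (fun ω => (Z ω, E ω)) ≤
      Stk.mi P X1 E (fun ω => (G ω, Z ω)) := by
    unfold Stk.mi
    have b1 : Stk.hc P X1 (fun ω => (Z ω, G ω)) ≤ Stk.hc P X1 (fun ω => (G ω, Z ω)) :=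
      Stk.hc_mono_right P _ fun _ _ _ _ e => by
        simp only [Prod.mk.injEq] at e ⊢
        exact ⟨e.2, e.1⟩
    have b2 : Stk.hc P X1 (fun ω => (E ω, G ω, Z ω)) ≤ Stk.hc P X1 (fun ω => (Z ω, E ω)) :=
      Stk.hc_mono_right P _ fun ω ω' h h' e => by
        simp only [Prod.mk.injEq] at e ⊢
        exact ⟨e.2.2, e.1⟩
    linarith
  have e4 : Stk.mi P X1 E (fun ω => (G ω, Z ω)) ≤ Stk.mi P X E (fun ω => (G ω, Z ω)) := by
    refine Stk.mi_mono_left P E fun ω ω' _ _ e => ?_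
    simp only [Prod.mk.injEq] at e
    simp only [hX1, e.1, e.2.1]
  have e5 : Stk.mi P X E (fun ω => (G ω, Z ω)) ≤ Stk.mi P X E Z := by
    unfold Stk.mi
    have b1 : Stk.hc P X (fun ω => (G ω, Z ω)) ≤ Stk.hc P X Z :=
      Stk.hc_mono_right P _ fun _ _ _ _ e => congrArg Prod.snd e
    have b2 : Stk.hc P X (fun ω => (E ω, Z ω)) ≤ Stk.hc P X (fun ω => (E ω, G ω, Z ω)) :=
      Stk.hc_mono_right P _ fun ω ω' h h' e => by
        simp only [Prod.mk.injEq] at e ⊢
        exact ⟨e.1, hGE ω ω' h h' e.1, e.2⟩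
    linarith
  rw [e1]
  linarith

/-- average of a function of `E` -/
theorem fn_avg {ι : Type} (P : Law Ω) (E : Ω → ι) (f : ι → ℝ) :
    ∑ e ∈ img E, P.pr E e * f e = P.ex (fun ω => f (E ω)) := by
  rw [← ex_cond_sum P (fun ω => f (E ω)) E]
  refine Finset.sum_congr rfl fun e _ => ?_
  rcases (P.pr_nonneg E e).eq_or_lt with h0 | h0
  · rw [← h0, zero_mul, zero_mul]
  congr 1
  rw [← (P.cond E e).ex_const (f e)]
  refine (P.cond E e).ex_congr fun ω hω => ?_
  rw [JSB.cond_supp' P E e h0 hω]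

theorem pr_bool (P : Law Ω) (G : Ω → Bool) (a b : ℝ) :
    P.ex (fun ω => if G ω = true then a else b) = P.pr G true * a + (1 - P.pr G true) * b := by
  classical
  have h1 : P.ex (fun ω => if G ω = true then a else b) =
      P.ex (fun ω => b + (a - b) * (if G ω = true then 1 else 0)) := by
    refine P.ex_congr fun ω _ => ?_
    split_ifs <;> ring
  have h2 : P.ex (fun ω => if G ω = true then (1:ℝ) else 0) = P.pr G true := by
    unfold Law.ex Law.pr
    rw [Finset.sum_filter]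
    refine Finset.sum_congr rfl fun ω _ => ?_
    by_cases h : G ω = true
    · simp [h]
    · simp [h]
  rw [h1, P.ex_add, P.ex_const, P.ex_const_mul, h2]
  ring

/-- **CHAIN STEP** with an event : the constant `N` on the event, nothing outside -/
theorem step_event {ι : Type} (hl : 0 ≤ lam) {κ : ℝ} (hκ : 0 < κ) (h1 : lam + κ ≤ 1)
    {N : ℝ} (hN : 0 ≤ N) (hNp : N ≤ Np) {K : ℝ} (hK : 1 ≤ K) (hK2 : 2 * Np ≤ κ * Real.log 2 * K)
    {P : Law Ω} {n s : ℕ} {l : Ω → Ln} {t : Ω → ℝ} {C : Ω → γ} {P' : Law Ω'}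
    {π : Ω' → Ω} (hπ : ∀ ω, P'.pr π ω = P.w ω) {W : Bx Ω'} (E : Ω' → ι) (kk jj : ι → ℕ)
    (g : ι → Bool) (G : Ω → Bool) (Rt Rf : ℝ) (K0 : ℕ)
    (hW : ∀ ω, 0 < P'.w ω → W.k ω ≤ W.j ω ∧ s + W.j ω ≤ n)
    (hE : ∀ ω, 0 < P'.w ω → W.k ω = kk (E ω) ∧ W.j ω = jj (E ω))
    (hG : ∀ ω, 0 < P'.w ω → g (E ω) = G (π ω))
    (hK0 : ∀ k j : ℕ, ∃ F : Finset ι, F.card ≤ K0 ∧
      ∀ ω, 0 < P'.w ω → kk (E ω) = k → jj (E ω) = j → E ω ∈ F)
    (hF : ∀ e, 0 < P'.pr E e → g e = true →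
      Stk.hc (P'.cond E e) (fun ω => tb n (l (π ω)))
          (fun ω => (W.lab ω, pq s (ptF l t (π ω)), C (π ω))) -
        Real.log 2 * (2 * ((n : ℝ) - s) - ((1 + lam) * kk e + (1 - lam) * jj e)) ≤
        Rt + excR lam (P'.cond E e) n (fun ω => l (π ω)) (fun ω => C (π ω)) (kk e) (s + jj e) +
          N * DF (P'.cond E e) s n (fun ω => l (π ω)) (fun ω => t (π ω)) (fun ω => C (π ω)))
    (hF' : ∀ e, 0 < P'.pr E e → g e = false →
      Stk.hc (P'.cond E e) (fun ω => tb n (l (π ω)))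
          (fun ω => (W.lab ω, pq s (ptF l t (π ω)), C (π ω))) -
        Real.log 2 * (2 * ((n : ℝ) - s) - ((1 + lam) * kk e + (1 - lam) * jj e)) ≤
        Rf + excR lam (P'.cond E e) n (fun ω => l (π ω)) (fun ω => C (π ω)) (kk e) (s + jj e)) :
    valH (lam + κ) Np P' π W s n l t C ≤
      excH (lam + κ) Np P n l C + κ * s * Real.log 2 + P.pr G true * Rt +
        (1 - P.pr G true) * Rf + N * (P.pr G true * DF (P.cond G true) s n l t C) -
        (Np - N) * Stk.mi P' (fun ω => fl1 s (t (π ω))) E (fun ω => (tb n (l (π ω)), C (π ω))) +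
        cSt Np K K0 := by
  classical
  have h2 := step hl hκ h1 (hN.trans hNp) hK hK2 hπ E kk jj (fun e => if g e = true then Rt else Rf)
    (fun e => if g e = true then
      N * DF (P'.cond E e) s n (fun ω => l (π ω)) (fun ω => t (π ω)) (fun ω => C (π ω)) else 0)
    K0 hW hE hK0 (fun e he => by
      cases hge : g e with
      | true =>
        have := hF e he hge
        simpa [hge] using this
      | false =>
        have := hF' e he hge
        simpa [hge] using this)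
  -- the `R` terms
  have h3 : ∑ e ∈ img E, P'.pr E e * (if g e = true then Rt else Rf) =
      P.pr G true * Rt + (1 - P.pr G true) * Rf := by
    rw [fn_avg P' E (fun e => if g e = true then Rt else Rf)]
    have a1 : P'.ex (fun ω => if g (E ω) = true then Rt else Rf) =
        P'.ex (fun ω => if G (π ω) = true then Rt else Rf) :=
      P'.ex_congr fun ω hω => by rw [hG ω hω]
    rw [a1, pr_bool P' (fun ω => G (π ω)) Rt Rf]
    have a2 : P'.pr (fun ω => G (π ω)) true = P.pr G true := Stk.pr_law_aux P' P π hπ G true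
    rw [a2]
  -- the deficits
  have h4 : ∑ e ∈ img E, P'.pr E e * (if g e = true then
      N * DF (P'.cond E e) s n (fun ω => l (π ω)) (fun ω => t (π ω)) (fun ω => C (π ω)) else 0) =
      N * (s * Real.log 2 * P.pr G true) - N * ∑ e ∈ img E, P'.pr E e *
        (if g e = true then Stk.hc (P'.cond E e) (fun ω => fl1 s (t (π ω)))
          (fun ω => (tb n (l (π ω)), C (π ω))) else 0) := by
    have a1 : ∑ e ∈ img E, P'.pr E e * (if g e = true then (1:ℝ) else 0) = P.pr G true := by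
      rw [fn_avg P' E (fun e => if g e = true then (1:ℝ) else 0)]
      have a1 : P'.ex (fun ω => if g (E ω) = true then (1:ℝ) else 0) =
          P'.ex (fun ω => if G (π ω) = true then (1:ℝ) else 0) :=
        P'.ex_congr fun ω hω => by rw [hG ω hω]
      rw [a1, pr_bool P' (fun ω => G (π ω)) 1 0]
      have a2 : P'.pr (fun ω => G (π ω)) true = P.pr G true := Stk.pr_law_aux P' P π hπ G true
      rw [a2]
      ring
    rw [← a1, Finset.mul_sum, Finset.mul_sum, Finset.mul_sum, ← Finset.sum_sub_distrib]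
    refine Finset.sum_congr rfl fun e _ => ?_
    unfold DF
    split_ifs <;> ring
  have h5 := ev_avg P' (fun ω => fl1 s (t (π ω))) (fun ω => (tb n (l (π ω)), C (π ω))) E g
    (fun ω => G (π ω)) hG
  have h6 : P'.pr (fun ω => G (π ω)) true = P.pr G true := Stk.pr_law_aux P' P π hπ G true
  rw [h6] at h5
  have h7 : P.pr G true * Stk.hc (P'.cond (fun ω => G (π ω)) true) (fun ω => fl1 s (t (π ω)))
      (fun ω => (tb n (l (π ω)), C (π ω))) =
      P.pr G true * Stk.hc (P.cond G true) (fun ω => fl1 s (t ω)) (fun ω => (tb n (l ω), C ω)) := by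
    rcases (P.pr_nonneg G true).eq_or_lt with h0 | h0
    · rw [← h0, zero_mul, zero_mul]
    · congr 1
      exact Stk.hc_of_law (P'.cond (fun ω => G (π ω)) true) (P.cond G true) π
        (cond_ext hπ G h0) (fun ω => fl1 s (t ω)) (fun ω => (tb n (l ω), C ω))
  rw [h7] at h5
  have h8 := mul_le_mul_of_nonneg_left h5 hN
  rw [h3, h4] at h2
  unfold DF
  linarith


end step

end Lam

end Vale.Agent.P127.U
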