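import Vale.Agent.P127.U.Lam.IncA
import Vale.Agent.P127.U.Lam.PathV
import Vale.Agent.P127.U.Lam.EndWin
import Vale.Agent.P127.U.H404.EventE

/-!
# P127 / U / Lam : INC, assembly (helper379)

* `pView` : `PView` from 465's `EFH_le_XFH`.
* `event_le` : the field `event`.
* `PLipH` : the field `lip` for `EFH`.
* `pInc_of` : `PInc` from `PFix`, `PLipH` (`tail` : 611's `EndWin.tail_of`).
-/

set_option autoImplicit false

namespace Vale.Agent.P127.U.Inc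

open Vale.Agent.P127 Vale.Agent.P127.Stk Vale.Agent.P127.U Pf Mic

/-- a logarithm is absorbed -/
theorem log_absorb {Λ κ : ℝ} (hΛ : 0 ≤ Λ) (hκ : 0 < κ) :
    ∃ c : ℝ, 0 ≤ c ∧ ∀ ρ : ℕ, Λ * Real.log (ρ + 5) ≤ κ * ρ * Real.log 2 + c := by
  have hlog : 0 < Real.log 2 := Real.log_pos (by norm_num)
  set s : ℝ := κ * Real.log 2 / (Λ + 1) with hs
  have hs0 : 0 < s := by positivity
  refine ⟨|Λ * (5 * s - 1 - Real.log s)|, abs_nonneg _, fun ρ => ?_⟩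
  have hρ : (0:ℝ) ≤ ρ := Nat.cast_nonneg ρ
  have h1 : Real.log (s * (ρ + 5)) ≤ s * (ρ + 5) - 1 :=
    Real.log_le_sub_one_of_pos (by positivity)
  rw [Real.log_mul hs0.ne' (by positivity)] at h1
  have h2 : Λ * Real.log (ρ + 5) ≤ Λ * (s * ρ + (5 * s - 1 - Real.log s)) :=
    mul_le_mul_of_nonneg_left (by linarith) hΛ
  have h3 : Λ * s ≤ κ * Real.log 2 := by
    rw [hs, ← mul_div_assoc, div_le_iff₀ (by linarith)]
    nlinarith [mul_pos hκ hlog]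
  have h4 := mul_le_mul_of_nonneg_right h3 hρ
  have h5 := le_abs_self (Λ * (5 * s - 1 - Real.log s))
  nlinarith

theorem pView {lam Λ κ : ℝ} (hl : 0 ≤ lam ∧ lam ≤ 1) (hΛ : 0 ≤ Λ) (hκ : 0 < κ) :
    ∃ c : ℝ, PView lam Λ κ c := by
  obtain ⟨c, -, hc⟩ := log_absorb hΛ hκ
  refine ⟨c + cV Λ, fun Ω _ γ P l t v n w ρ C hg hv h => ?_⟩
  have k1 := EFH_le_XFH (lam := lam) hl hΛ h hg hv C
  have k2 := hc ρ
  linarith

/-! ### the fields for arbitrary levels -/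

theorem er_mono {ε ε' B B' : ℝ} (h1 : ε ≤ ε') (h2 : B ≤ B') {a a' r r' : ℕ} (ha : a ≤ a')
    (hr : r ≤ r') : er ε B a a' r r' ≤ er ε' B' a a' r r' := by
  have ha' : (a : ℝ) ≤ a' := by exact_mod_cast ha
  have hr' : (r : ℝ) ≤ r' := by exact_mod_cast hr
  have hlog : 0 ≤ Real.log 2 := Real.log_nonneg (by norm_num)
  unfold er
  have := mul_le_mul_of_nonneg_right
    (mul_le_mul_of_nonneg_right h1 (show 0 ≤ ((a' : ℝ) - a) + ((r' : ℝ) - r) by linarith)) hlog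
  linarith

/-- **WIN**, levels `a ≤ a'`, `r ≤ r'` -/
theorem win_le' {lam Λ κ c N β ε c' : ℝ} (hlam : 0 ≤ lam ∧ lam ≤ 1) (hΛ : 0 ≤ Λ) (hN : 0 ≤ N)
    (hV : PView lam Λ κ c) (hW : PWinH lam Λ N (β + ε) c') (h1 : κ ≤ ε) {Ω : Type} [Fintype Ω]
    {Q : Law Ω}
    {l : Ω → Ln} {t v : Ω → ℝ} {n : ℕ} (hg : GoodF Q l t) (hv : ∀ ω, 0 < Q.w ω → |v ω| ≤ 1)
    (hr : Rnd Q l n) {a a' r r' : ℕ} (ha : a ≤ a') (hr' : r ≤ r') (h : a' + r' ≤ n) :
    EFH Q lam Λ n a' r' l t v (fun _ => ()) ≤ EFH Q lam Λ n a r l t v (fun _ => ()) +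
      β * ((a' : ℝ) - a) * Real.log 2 +
      N * (((a' : ℝ) - a) * Real.log 2 -
        Stk.hc Q (fun ω => fl1 a' (t ω)) (fun ω => (tb n (l ω), st t v a r ω))) +
      er ε (c + c' + (12 + 4 * Λ + 4 * N) * Real.log 13) a a' r r' := by
  have k := win_le hlam hΛ hN hV hW hg hv hr a (a' - a) r (r' - r) (by omega)
  have e1 : a + (a' - a) = a' := by omega
  have e2 : r + (r' - r) = r' := by omega
  rw [e1, e2, Nat.cast_sub ha, Nat.cast_sub hr'] at k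
  have hr2 : (r : ℝ) ≤ r' := by exact_mod_cast hr'
  have hlog : 0 ≤ Real.log 2 := Real.log_nonneg (by norm_num)
  have k2 := mul_le_mul_of_nonneg_right
    (mul_le_mul_of_nonneg_right h1 (sub_nonneg.2 hr2)) hlog
  unfold er
  linarith

/-- **EXT**, levels `a ≤ a'`, `r ≤ r'` -/
theorem ext_le' {lam Λ κ c ε : ℝ} (hlam : 0 ≤ lam ∧ lam ≤ 1) (hΛ : 0 ≤ Λ) (hε : 0 ≤ ε)
    (hV : PView lam Λ κ c) (h1 : κ ≤ ε) {Ω : Type} [Fintype Ω]
    {Q : Law Ω}
    {l : Ω → Ln} {t v : Ω → ℝ} {n : ℕ} (hg : GoodF Q l t) (hv : ∀ ω, 0 < Q.w ω → |v ω| ≤ 1)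
    (hr : Rnd Q l n) {a a' r r' : ℕ} (ha : a ≤ a') (hr' : r ≤ r') (h : a' + r' ≤ n) :
    EFH Q lam Λ n a' r' l t v (fun _ => ()) ≤ EFH Q lam Λ n a r l t v (fun _ => ()) +
      2 * ((a' : ℝ) - a) * Real.log 2 +
      er ε (c + cS0 + (12 + 4 * Λ) * Real.log 13) a a' r r' := by
  have k := ext_le hlam hΛ hV hg hv hr a (a' - a) r (r' - r) (by omega)
  have e1 : a + (a' - a) = a' := by omega
  have e2 : r + (r' - r) = r' := by omega
  rw [e1, e2, Nat.cast_sub ha, Nat.cast_sub hr'] at k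
  have hr2 : (r : ℝ) ≤ r' := by exact_mod_cast hr'
  have ha2 : (a : ℝ) ≤ a' := by exact_mod_cast ha
  have hlog : 0 ≤ Real.log 2 := Real.log_nonneg (by norm_num)
  have k2 := mul_le_mul_of_nonneg_right
    (mul_le_mul_of_nonneg_right h1 (sub_nonneg.2 hr2)) hlog
  have k3 := mul_nonneg (mul_nonneg hε (sub_nonneg.2 ha2)) hlog
  unfold er
  linarith

/-- the field `lip` for `EFH` -/
def PLipH : Prop :=
  ∀ lam κ Λ ε : ℝ, 0 < lam → 0 < κ → lam + κ ≤ 1 → 0 ≤ Λ → 0 < ε → ∃ B : ℝ,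
    ∀ (Ω : Type) [Fintype Ω] (Q : Law Ω) (l : Ω → Ln) (t v : Ω → ℝ) (n : ℕ),
      GoodF Q l t → (∀ ω, 0 < Q.w ω → |v ω| ≤ 1) → Rnd Q l n →
      ∀ a a' r r' ρ : ℕ, a ≤ a' → r ≤ r' → a' + r' ≤ n → ρ ≤ r' - r →
      ∃ (Ω' : Type) (_ : Fintype Ω') (Q' : Law Ω') (π : Ω' → Ω) (σ : Ω' → ℕ),
        (∀ ω, Q'.pr π ω = Q.w ω) ∧
        EFH Q (lam + κ) Λ n a' r' l t v (fun _ => ()) ≤
          EFH Q (lam + κ) Λ n a r l t v (fun _ => ()) + 2 * ((a' : ℝ) - a) * Real.log 2 -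
          lam * ((r' : ℝ) - r - ρ) * Real.log 2 *
            max 0 (1 - 3 * colp Q' (fun ω => fl1 (r + ρ) (v (π ω)))
              (fun ω => (tb n (l (π ω)), st t v a r (π ω), σ ω))) -
          Λ * mi Q' (fun ω => st t v a' r' (π ω)) σ
            (fun ω => (tb n (l (π ω)), st t v a r (π ω))) + er (ε + κ) B a a' r r'

/-- the field `tail` for `EFH` (proved in `EndWinH`) -/
def PTailH : Prop :=
  ∀ N lam β : ℝ, 2 ≤ N → 0 < lam → lam < 1 → lam < β → β ≤ 2 → JFG N lam β → JL N lam β →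
    ∃ δ : ℝ, 0 < δ ∧ ∀ K Λ κ ε : ℝ, 0 ≤ Λ → 0 < κ → lam + κ ≤ 1 → 0 < ε → ∃ B : ℝ,
      ∀ (Ω : Type) [Fintype Ω] (Q : Law Ω) (l : Ω → Ln) (t v : Ω → ℝ) (n h q : ℕ),
        Nd K Q l t v n h q → ∀ a r : ℕ, a ≤ h → r ≤ q → ((q : ℝ) - r) ≤ δ * ((h : ℝ) - a) →
        valE lam Q l t v n h q ≤ EFH Q (lam + κ) Λ n a r l t v (fun _ => ()) +
          (β - δ) * ((h : ℝ) - a) * Real.log 2 +
          N * (((h : ℝ) - a) * Real.log 2 -
            Stk.hc Q (fun ω => fl1 h (t ω)) (fun ω => (tb n (l ω), st t v a r ω))) +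
          (ε + κ * |K|) * h * Real.log 2 + B

/-- **INC** from the inequality for labels of fixed shape and `lip` -/
theorem pInc_of (hF : PFix) (hL : PLipH) : PInc := by
  intro N lam β hN hl hl1 hlβ hβ hJ hJL
  obtain ⟨δ, hδ, -, hT⟩ := EndWin.tail_of hN hl hl1.le hlβ hJL
  refine ⟨δ, hδ, fun K Λ ε hΛ hε => ?_⟩
  have hlog : 0 < Real.log 2 := Real.log_pos (by norm_num)
  have hK0 : 0 ≤ |K| := abs_nonneg K
  have hΛ0 : 0 ≤ Λ := by linarith
  have hN0 : 0 ≤ N := by linarith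
  obtain ⟨κ, hκ, hκ1, hκ2, hκ3⟩ : ∃ κ : ℝ, 0 < κ ∧ lam + κ ≤ 1 ∧ κ ≤ ε / 4 ∧ κ * |K| ≤ ε / 4 := by
    refine ⟨min (1 - lam) (ε / (4 * (|K| + 1))), lt_min (by linarith) (by positivity), ?_, ?_, ?_⟩
    · linarith [min_le_left (1 - lam) (ε / (4 * (|K| + 1)))]
    · refine (min_le_right _ _).trans ?_
      rw [div_le_div_iff₀ (by positivity) (by norm_num)]
      nlinarith
    · refine (mul_le_mul_of_nonneg_right (min_le_right _ _) hK0).trans ?_
      rw [div_mul_eq_mul_div, div_le_div_iff₀ (by positivity) (by norm_num)]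
      nlinarith
  have hlam : 0 ≤ lam + κ ∧ lam + κ ≤ 1 := ⟨by linarith, hκ1⟩
  obtain ⟨c, hV⟩ := pView (κ := κ) hlam hΛ0 hκ
  obtain ⟨c', hW⟩ := pWinH hF hl hκ hκ1 hN0 (by linarith) hJ hΛ hκ
  obtain ⟨B1, hB1⟩ := hL lam κ Λ (ε / 2) hl hκ hκ1 hΛ0 (by positivity)
  obtain ⟨B2, -, hB2⟩ := hT K ε hε
  have hl13 : 0 ≤ Real.log 13 := Real.log_nonneg (by norm_num)
  have hc0 : 0 ≤ cS0 := by
    have b1 : 0 ≤ Real.log (((2 * 5 + 1) ^ 4 : ℕ) : ℝ) := Real.log_natCast_nonneg _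
    have b2 : 0 ≤ Real.log 9 := Real.log_nonneg (by norm_num)
    have b3 : 0 ≤ Real.log 7 := Real.log_nonneg (by norm_num)
    unfold cS0 HX.cS
    linarith
  have a1 := abs_nonneg c
  have a2 := abs_nonneg c'
  have a3 := abs_nonneg B1
  have a4 := abs_nonneg B2
  have a5 : 0 ≤ (12 + 4 * Λ + 4 * N) * Real.log 13 := by positivity
  have a6 : 0 ≤ (2 + Λ) * Real.log 2 + 1 := by positivity
  have d1 := le_abs_self c
  have d2 := le_abs_self c'
  have d3 := le_abs_self B1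
  have d4 := le_abs_self B2
  set B : ℝ := |c| + |c'| + |B1| + |B2| + cS0 + 2 * Λ + (12 + 4 * Λ + 4 * N) * Real.log 13 +
    ((2 + Λ) * Real.log 2 + 1) with hB
  have hB0 : 0 ≤ B := by positivity
  refine ⟨B, hB0, fun Ω _ Q l t v n h q hnd => ⟨fun a r => EFH Q (lam + κ) Λ n a r l t v
    (fun _ => ()), ?_⟩⟩
  have hn : n = h + q := hnd.nq
  have hh : (0:ℝ) ≤ h := Nat.cast_nonneg h
  have hnK : (n : ℝ) ≤ |K| * h := hnd.nK.trans (mul_le_mul_of_nonneg_right (le_abs_self K) hh)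
  -- `κ m ≤ (ε / 4) h` for `m ≤ n`
  have hm : ∀ m : ℕ, m ≤ n → κ * m * Real.log 2 ≤ ε / 4 * h * Real.log 2 := by
    intro m hm
    have hm' : (m : ℝ) ≤ n := by exact_mod_cast hm
    have b1 : κ * m ≤ κ * (|K| * h) := mul_le_mul_of_nonneg_left (hm'.trans hnK) hκ.le
    have b2 : κ * (|K| * h) ≤ ε / 4 * h := by
      rw [← mul_assoc]
      exact mul_le_mul_of_nonneg_right hκ3 hh
    exact mul_le_mul_of_nonneg_right (b1.trans b2) hlog.le
  have hεh : 0 ≤ ε * h * Real.log 2 := by positivity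
  have hrnd : Rnd Q l n := hnd.rnd
  have hwin : ∀ (P : Law Ω), GoodF P l t → (∀ ω, 0 < P.w ω → |v ω| ≤ 1) → Rnd P l n →
      ∀ a a' r r' : ℕ, a ≤ a' → a' ≤ h → r ≤ r' → r' ≤ q →
      EFH P (lam + κ) Λ n a' r' l t v (fun _ => ()) ≤
        EFH P (lam + κ) Λ n a r l t v (fun _ => ()) + (β * ((a' : ℝ) - a) * Real.log 2 +
        N * (((a' : ℝ) - a) * Real.log 2 -
          Stk.hc P (fun ω => fl1 a' (t ω)) (fun ω => (tb n (l ω), st t v a r ω))) +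
        er ε (B - ((2 + Λ) * Real.log 2 + 1)) a a' r r') := by
    intro P g1 g2 g3 a a' r r' ha ha' hr hr'
    have hW' : PWinH (lam + κ) Λ N (β + (κ + κ)) c' := by
      rw [← add_assoc]
      exact hW
    have k1 := win_le' hlam hΛ0 hN0 hV hW' (show κ ≤ κ + κ by linarith) g1 g2 g3 ha hr
      (show a' + r' ≤ n by omega)
    have k2 := er_mono (ε := κ + κ) (ε' := ε) (B := c + c' + (12 + 4 * Λ + 4 * N) * Real.log 13)
      (B' := B - ((2 + Λ) * Real.log 2 + 1)) (by linarith) (by linarith) ha hr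
    linarith
  have hext : ∀ (P : Law Ω), GoodF P l t → (∀ ω, 0 < P.w ω → |v ω| ≤ 1) → Rnd P l n →
      ∀ a a' r r' : ℕ, a ≤ a' → a' ≤ h → r ≤ r' → r' ≤ q →
      EFH P (lam + κ) Λ n a' r' l t v (fun _ => ()) ≤
        EFH P (lam + κ) Λ n a r l t v (fun _ => ()) + (2 * ((a' : ℝ) - a) * Real.log 2 +
        er ε (B - ((2 + Λ) * Real.log 2 + 1)) a a' r r') := by
    intro P g1 g2 g3 a a' r r' ha ha' hr hr'
    have k1 := ext_le' hlam hΛ0 hκ.le hV le_rfl g1 g2 g3 ha hr (show a' + r' ≤ n by omega)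
    have k3 : 0 ≤ 4 * N * Real.log 13 := by positivity
    have k2 := er_mono (ε := κ) (ε' := ε) (B := c + cS0 + (12 + 4 * Λ) * Real.log 13)
      (B' := B - ((2 + Λ) * Real.log 2 + 1)) (by linarith) (by linarith) ha hr
    linarith
  refine ⟨?_, ?_, ?_, ?_, ?_, ?_, ?_⟩
  · -- start
    intro r hr
    have k1 := start_le hl.le hκ.le hκ1 hΛ0 hV hnd.good hnd.sl (show r ≤ n by omega)
    have k2 := hm r (by omega)
    have k3 : 0 ≤ Real.log ((n : ℝ) + 1) :=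
      Real.log_nonneg (by linarith [Nat.cast_nonneg (α := ℝ) n])
    have k4 : 2 * Λ * Real.log ((n : ℝ) + 1) ≤ B * Real.log ((n : ℝ) + 1) :=
      mul_le_mul_of_nonneg_right (by linarith) k3
    have k5 : 0 ≤ ε * h * Real.log 2 := by positivity
    linarith
  · -- fin
    have k1 := fin_le hlam hΛ0 Q l t v hn
    have k2 := hm q (by omega)
    linarith
  · -- win
    intro a a' r r' ha ha' hr hr'
    have k1 := hwin Q hnd.good hnd.sl hrnd a a' r r' ha ha' hr hr'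
    have k2 := er_mono (ε := ε) (ε' := ε) (B := B - ((2 + Λ) * Real.log 2 + 1)) (B' := B)
      le_rfl (by linarith) ha hr
    linarith
  · -- ext
    intro a a' r r' ha ha' hr hr'
    have k1 := hext Q hnd.good hnd.sl hrnd a a' r r' ha ha' hr hr'
    have k2 := er_mono (ε := ε) (ε' := ε) (B := B - ((2 + Λ) * Real.log 2 + 1)) (B' := B)
      le_rfl (by linarith) ha hr
    linarith
  · -- event
    intro a a' r r' G ha ha' hr hr' _
    have n1 : Nd K (Q.cond G true) l t v n h q := HMix.Nd_cond hnd G true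
    have n2 : Nd K (Q.cond G false) l t v n h q := HMix.Nd_cond hnd G false
    have k1 := HMix.EFH_event hlam hΛ0 Q G n a a' r r' l t v (fun _ => ())
      (fun _ => hwin (Q.cond G true) n1.good n1.sl n1.rnd a a' r r' ha ha' hr hr')
      (fun _ => hext (Q.cond G false) n2.good n2.sl n2.rnd a a' r r' ha ha' hr hr')
    have k2 : er ε B a a' r r' = er ε (B - ((2 + Λ) * Real.log 2 + 1)) a a' r r' +
        ((2 + Λ) * Real.log 2 + 1) := by
      unfold er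
      ring
    rw [k2]
    refine k1.trans (le_of_eq ?_)
    ring
  · -- lip
    intro a a' r r' ρ ha ha' hr hr' hρ
    obtain ⟨Ω', iF, Q', π, σ, k0, k1⟩ := hB1 Ω Q l t v n hnd.good hnd.sl hrnd a a' r r' ρ ha hr
      (by omega) hρ
    refine ⟨Ω', iF, Q', π, σ, k0, ?_⟩
    have k2 := er_mono (ε := ε / 2 + κ) (ε' := ε) (B := B1) (B' := B) (by linarith) (by linarith)
      ha hr
    linarith
  · -- tail
    intro a r ha hr htl
    have k2 : κ * K ≤ ε / 2 := by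
      have := mul_le_mul_of_nonneg_left (le_abs_self K) hκ.le
      linarith
    have k1 := hB2 κ Λ hκ.le hκ1 k2 hΛ0 Ω Q l t v n h q hnd a r ha hr htl
    linarith

end Vale.Agent.P127.U.Inc
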