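import Vale.Agent.P127.U.Lam.LinkD
import Vale.Agent.P127.U.Lam.FSat
import Vale.Agent.P127.U.Lam.IncDefs

/-!
# P127 / U / Lam : near-extremality in labels (`NEx`) and in cells (`Vc`), GROW (helper480)

* `valE_le_XF` : the end label `cel h q` is a competitor (any slope `v`, `|v| ≤ 1`).
* `vc_of_nex`, `nex_of_vc` : the two forms of near-extremality.
* `grow_vc`, `grow_nex` : **GROW** for the digits of `y1` given `cel h q`.
* `root_cel` : the root cell `cel 0 r` gives a lower bound for the penalised excess.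
* `fsat_of_cel` : conclusion of `FSat` from the mutual information of the cells.
-/

set_option autoImplicit false

namespace Vale.Agent.P127.U.LinkC

open Filter Topology Vale.Agent.P127 Vale.Agent.P127.Stk Sys Apx Inc

section finite

variable {Ω : Type} [Fintype Ω]

/-- data of the lines and of the slope -/
theorem dat_arctan {P : Law Ω} {l : Ω → Ln} {t v : Ω → ℝ} (n : ℕ) (hg : GoodF P l t)
    (hv : ∀ ω, 0 < P.w ω → |v ω| ≤ 1) : Dat P n l l t (fun ω => Real.arctan (v ω)) := by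
  refine ⟨hg, fun ω _ => near_self n (l ω), fun ω p => ?_⟩
  have h1 := abs_le.1 (hv ω p)
  rw [abs_le]
  constructor
  · have := Real.arctan_strictMono.monotone h1.1
    rw [Real.arctan_neg, Real.arctan_one] at this
    linarith
  · have := Real.arctan_strictMono.monotone h1.2
    rw [Real.arctan_one] at this
    exact this

/-- constant path -/
noncomputable def pth (l : Ω → Ln) (t v : Ω → ℝ) : CellD.Pth Ω :=
  mkP l t v (fun _ => 0) (fun _ => 0) monotone_const monotone_const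

omit [Fintype Ω] in
theorem box_pth (l : Ω → Ln) (t v : Ω → ℝ) (s q : ℕ) : Mic.box (pth l t v) s q = cel l t v s q := rfl

omit [Fintype Ω] in
theorem rep_arctan (l : Ω → Ln) (t v : Ω → ℝ) :
    Rep (pth l t v) l t (fun ω => Real.arctan (v ω)) :=
  ⟨fun _ => rfl, fun _ => rfl, fun _ => rfl, fun _ => rfl, fun _ => rfl,
    fun ω => (Real.tan_arctan (v ω)).symm⟩

omit [Fintype Ω] in
theorem rep_tan (l : Ω → Ln) (t θ : Ω → ℝ) :
    Rep (pth l t fun ω => Real.tan (θ ω)) l t θ :=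
  ⟨fun _ => rfl, fun _ => rfl, fun _ => rfl, fun _ => rfl, fun _ => rfl, fun _ => rfl⟩

theorem hc_unit (P : Law Ω) {α β γ : Type*} (X : Ω → α) (Y : Ω → β) (Z : Ω → γ) :
    Stk.hc P X (fun ω => (Y ω, (Z ω, ()))) = Stk.hc P X (fun ω => (Y ω, Z ω)) := by
  refine Stk.hc_congr P (fun _ _ _ _ e => congrArg Prod.fst e) (fun _ _ _ _ e => congrArg Prod.fst e)
    (fun _ _ _ _ e => ?_) (fun _ _ _ _ e => ?_)
  all_goals simp only [Prod.mk.injEq, and_true] at e ⊢
  all_goals exact e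

theorem hc_unit1 (P : Law Ω) {α β : Type*} (X : Ω → α) (Y : Ω → β) :
    Stk.hc P X (fun ω => (Y ω, ())) = Stk.hc P X Y := by
  refine Stk.hc_congr P (fun _ _ _ _ e => congrArg Prod.fst e) (fun _ _ _ _ e => congrArg Prod.fst e)
    (fun _ _ _ _ e => ?_) (fun _ _ _ _ e => ?_)
  all_goals simp only [Prod.mk.injEq, and_true] at e ⊢
  all_goals exact e

/-- **the end label is a competitor** -/
theorem valE_le_XF {lam : ℝ} (hl : 0 ≤ lam ∧ lam ≤ 1) {P : Law Ω} {l : Ω → Ln} {t v : Ω → ℝ}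
    {n h q : ℕ} (hg : GoodF P l t) (hv : ∀ ω, 0 < P.w ω → |v ω| ≤ 1) (hn : h + q ≤ n) :
    valE lam P l t v n h q ≤ XF lam P h n l t (fun _ => ()) +
      (9 * Real.log 200 + (Real.log (((2 * 4 + 1) ^ 4 : ℕ) : ℝ) + 2 * Real.log 9)) := by
  have hD := dat_arctan n hg hv
  have hR := rep_arctan l t v
  have h1 := val_box_le hD hR hn (fun _ : Ω => ())
  rw [box_pth, hc_unit1] at h1
  set θ : Ω → ℝ := fun ω => Real.arctan (v ω) with hθ
  set W : Bx Ω := ⟨blF h l t, θ, fun _ => 0, fun _ => q⟩ with hW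
  have hs : ∀ ω, 0 < P.w ω → Sub 1 ((tbx (n - h) (blF h l t)).comp id) W ω := by
    intro ω p
    have h1 := (hD.ang ω p).trans pi_div_four_le
    refine ⟨rfl, by show |θ ω| ≤ 4; linarith, Nat.zero_le _, Nat.zero_le _,
      by show q ≤ n - h; omega, ?_⟩
    have h2 : |Real.sin (0 - θ ω)| ≤ 1 := Real.abs_sin_le_one _
    exact mul_le_mul h2 (hp_anti (by show q ≤ n - h; omega)) (by positivity) zero_le_one
  have k1 := Lam.valX_le hl P (show h ≤ n by omega) hD.good (fun _ : Ω => ()) (m := 0) (c := 1)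
    (by norm_num) (Stk.pr_id P) hs
  have k2 : P.ex (W.szl lam) = (1 - lam) * q := by
    have : W.szl lam = fun _ => (1 - lam) * (q : ℝ) := by
      funext ω
      show (1 + lam) * ((0 : ℕ) : ℝ) + (1 - lam) * (q : ℝ) = _
      push_cast
      ring
    rw [this, P.ex_const]
  have k3 : Lam.valX lam P h n (fun ω => l (id ω)) (fun ω => t (id ω)) W (fun _ => ()) =
      Stk.hc P (fun ω => tb n (l ω)) (fun ω => (U.lab (θ ω) 0 q (blF h l t ω),
        (pq h (ptF l t ω), ()))) -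
        Real.log 2 * (2 * ((n : ℝ) - h) - (1 - lam) * q) := by
    unfold Lam.valX
    rw [k2]
    rfl
  rw [k3] at k1
  unfold valE
  push_cast at k1 ⊢
  linarith

/-- **GROW**, cell form: if the end cell is nearly maximal -/
theorem grow_cel {lam : ℝ} (hl : 0 ≤ lam ∧ lam ≤ 1) {P : Law Ω} {l : Ω → Ln} {t v : Ω → ℝ}
    {n h q b : ℕ} (hg : GoodF P l t) (hv : ∀ ω, 0 < P.w ω → |v ω| ≤ 1) (hn : h + q ≤ n)
    (hb : b ≤ q) {eta : ℝ} (hopt : XF lam P h n l t (fun _ => ()) ≤ valE lam P l t v n h q + eta) :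
    lam * b * Real.log 2 ≤
      Stk.hc P (fun ω => fl1 b ((l ω).2 0)) (cel l t v h q) + eta +
        (10 * Real.log 200 + (Real.log (((2 * 4 + 1) ^ 4 : ℕ) : ℝ) + 2 * Real.log 9)) := by
  have hD := dat_arctan n hg hv
  have hR := rep_arctan l t v
  have h1 := grow_box' hl hD hR hn hb (fun _ : Ω => ()) (eta := eta) (by
    rw [box_pth, hc_unit1]
    unfold valE at hopt
    linarith)
  rw [box_pth, hc_unit1] at h1
  exact h1

/-- constant of GROW -/
noncomputable def KG : ℝ :=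
  10 * Real.log 200 + (Real.log (((2 * 4 + 1) ^ 4 : ℕ) : ℝ) + 2 * Real.log 9)

theorem KG_nonneg : 0 ≤ KG := by
  unfold KG
  have h1 := log200_nonneg
  have h2 : 0 ≤ Real.log (((2 * 4 + 1) ^ 4 : ℕ) : ℝ) := Real.log_nonneg (by norm_num)
  have h3 : 0 ≤ Real.log 9 := Real.log_nonneg (by norm_num)
  positivity

/-- the inequality gives the near-maximality of the end cell -/
theorem opt_of_vc {N lam β d ε c : ℝ} {P : Law Ω} {l : Ω → Ln} {t v : Ω → ℝ} {n h q : ℕ}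
    (hc : XF lam P h n l t (fun _ => ()) ≤ (β + ε) * h * Real.log 2 + c * (1 + Real.log (n + 1)) +
      excFl lam P (tbx n l) (fun _ => ()) + N * DF P h n l t (fun _ => ()))
    (hx : Vc N lam β d P l t v n h q) :
    XF lam P h n l t (fun _ => ()) ≤ valE lam P l t v n h q +
      ((d + ε) * h * Real.log 2 + c * (1 + Real.log (n + 1))) := by
  unfold Vc at hx
  nlinarith

/-- **GROW from near-extremality in cell form** -/
theorem grow_vc {N lam β : ℝ} (hl : 0 ≤ lam ∧ lam ≤ 1) (hJ : JFG N lam β) {ε : ℝ} (hε : 0 < ε) :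
    ∃ c : ℝ, 0 ≤ c ∧ ∀ (Ω : Type) [Fintype Ω] (P : Law Ω) (l : Ω → Ln) (t v : Ω → ℝ)
      (n h q b : ℕ) (d : ℝ), GoodF P l t → (∀ ω, 0 < P.w ω → |v ω| ≤ 1) → n = h + q →
      Vc N lam β d P l t v n h q → b ≤ q →
      lam * b * Real.log 2 - ((d + ε) * h * Real.log 2 + c * (1 + Real.log (n + 1))) ≤
        Stk.hc P (fun ω => fl1 b ((l ω).2 0)) (cel l t v h q) := by
  obtain ⟨c, hc⟩ := hJ ε hε
  refine ⟨max c 0 + KG, by have := KG_nonneg; positivity, ?_⟩
  intro Ω _ P l t v n h q b d hg hv hn hx hb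
  have h1 := hc Ω P l t h n hg (by omega)
  have h2 := grow_cel hl hg hv (by omega : h + q ≤ n) hb (opt_of_vc h1 hx)
  have h3 : 0 ≤ Real.log ((n : ℝ) + 1) :=
    Real.log_nonneg (by have : (0 : ℝ) ≤ n := Nat.cast_nonneg n; linarith)
  have h4 : c * (1 + Real.log (n + 1)) ≤ max c 0 * (1 + Real.log (n + 1)) :=
    mul_le_mul_of_nonneg_right (le_max_left _ _) (by linarith)
  have h5 : KG ≤ KG * (1 + Real.log (n + 1)) := by
    have := mul_nonneg KG_nonneg h3
    nlinarith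
  have h6 : KG = 10 * Real.log 200 + (Real.log (((2 * 4 + 1) ^ 4 : ℕ) : ℝ) + 2 * Real.log 9) := rfl
  rw [← h6] at h2
  have h7 : (max c 0 + KG) * (1 + Real.log (n + 1)) =
      max c 0 * (1 + Real.log (n + 1)) + KG * (1 + Real.log (n + 1)) := by ring
  rw [h7]
  linarith

variable {N lam β d : ℝ} {P : Law Ω} {l : Ω → Ln} {t : Ω → ℝ} {W : Bx Ω} {h q n : ℕ}

theorem nex_dat (hx : NEx N lam β d P l t W h q n) : Dat P n l l t W.θ :=
  ⟨hx.good, fun ω _ => near_self n (l ω), fun ω p => (hx.lab ω p).2.1⟩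

theorem nex_sl (hx : NEx N lam β d P l t W h q n) :
    ∀ ω, 0 < P.w ω → |Real.tan (W.θ ω)| ≤ 1 := fun ω p => tan_le_one (hx.lab ω p).2.1

theorem nex_nd (hx : NEx N lam β d P l t W h q n) {K : ℝ} (hK : (n : ℝ) ≤ K * h) :
    Nd K P l t (fun ω => Real.tan (W.θ ω)) n h q :=
  ⟨hx.good, nex_sl hx, fun ω ω' p p' e => hx.rnd ω ω' p p' e, hx.nq, hK⟩

/-- the label of a law with the labels of `NEx` -/
theorem wlab_eq (hlab : ∀ ω, 0 < P.w ω → W.l ω = blF h l t ω ∧ |W.θ ω| ≤ Real.pi / 4 ∧ W.k ω = 0 ∧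
    W.j ω = q) {ω : Ω} (p : 0 < P.w ω) : W.lab ω = U.lab (W.θ ω) 0 q (blF h l t ω) := by
  obtain ⟨h1, -, h3, h4⟩ := hlab ω p
  show U.lab (W.θ ω) (W.k ω) (W.j ω) (W.l ω) = _
  rw [h1, h3, h4]

theorem hc_wlab (hlab : ∀ ω, 0 < P.w ω → W.l ω = blF h l t ω ∧ |W.θ ω| ≤ Real.pi / 4 ∧ W.k ω = 0 ∧
    W.j ω = q) : Stk.hc P (fun ω => tb n (l ω)) (fun ω => (W.lab ω, pq h (ptF l t ω))) =
      Stk.hc P (fun ω => tb n (l ω)) (fun ω => (U.lab (W.θ ω) 0 q (blF h l t ω),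
        (pq h (ptF l t ω), ()))) := by
  rw [hc_unit]
  refine Stk.hc_congr P (fun _ _ _ _ e => congrArg Prod.fst e) (fun _ _ _ _ e => congrArg Prod.fst e)
    (fun ω ω' p p' e => ?_) (fun ω ω' p p' e => ?_)
  · simp only [Prod.mk.injEq] at e ⊢
    rw [wlab_eq hlab p, wlab_eq hlab p']
    exact e
  · simp only [Prod.mk.injEq] at e ⊢
    rw [← wlab_eq hlab p, ← wlab_eq hlab p']
    exact e

/-- labels and cells of a law with the labels of `NEx` -/
theorem hc_lab_le_cel (hg : GoodF P l t)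
    (hlab : ∀ ω, 0 < P.w ω → W.l ω = blF h l t ω ∧ |W.θ ω| ≤ Real.pi / 4 ∧ W.k ω = 0 ∧
      W.j ω = q) (hn : h + q ≤ n) :
    Stk.hc P (fun ω => tb n (l ω)) (fun ω => (W.lab ω, pq h (ptF l t ω))) ≤
      Stk.hc P (fun ω => tb n (l ω)) (cel l t (fun ω => Real.tan (W.θ ω)) h q) +
        7 * Real.log 200 := by
  have hD : Dat P n l l t W.θ := ⟨hg, fun ω _ => near_self n (l ω), fun ω p => (hlab ω p).2.1⟩
  have h1 := val_lab_le hD (rep_tan l t W.θ) hn (fun _ : Ω => ())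
  rw [box_pth, hc_unit1, ← hc_wlab hlab] at h1
  exact h1

theorem hc_cel_le_lab (hg : GoodF P l t)
    (hlab : ∀ ω, 0 < P.w ω → W.l ω = blF h l t ω ∧ |W.θ ω| ≤ Real.pi / 4 ∧ W.k ω = 0 ∧
      W.j ω = q) (hn : h + q ≤ n) :
    Stk.hc P (fun ω => tb n (l ω)) (cel l t (fun ω => Real.tan (W.θ ω)) h q) ≤
      Stk.hc P (fun ω => tb n (l ω)) (fun ω => (W.lab ω, pq h (ptF l t ω))) +
        9 * Real.log 200 := by
  have hD : Dat P n l l t W.θ := ⟨hg, fun ω _ => near_self n (l ω), fun ω p => (hlab ω p).2.1⟩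
  have h1 := val_box_le hD (rep_tan l t W.θ) hn (fun _ : Ω => ())
  rw [box_pth, hc_unit1, ← hc_wlab hlab] at h1
  exact h1

/-- `NEx` gives `Vc` with the error `7 log 200` -/
theorem vc_of_nex (hx : NEx N lam β d P l t W h q n) {d' : ℝ}
    (hd : d * h * Real.log 2 + 7 * Real.log 200 ≤ d' * h * Real.log 2) :
    Vc N lam β d' P l t (fun ω => Real.tan (W.θ ω)) n h q := by
  have h1 := hx.ge
  have h2 := hc_lab_le_cel (n := n) hx.good hx.lab hx.nq.ge
  unfold Vc valE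
  linarith

/-- `Vc` gives `NEx` with the error `9 log 200` -/
theorem nex_of_vc {Q : Law Ω} (hx : NEx N lam β d P l t W h q n)
    (hQ : ∀ ω, 0 < Q.w ω → 0 < P.w ω) {d1 d2 : ℝ}
    (hv : Vc N lam β d1 Q l t (fun ω => Real.tan (W.θ ω)) n h q)
    (hd : d1 * h * Real.log 2 + 9 * Real.log 200 ≤ d2 * h * Real.log 2) :
    NEx N lam β d2 Q l t W h q n := by
  have hg : GoodF Q l t := fun ω p => hx.good ω (hQ ω p)
  have hlab : ∀ ω, 0 < Q.w ω → W.l ω = blF h l t ω ∧ |W.θ ω| ≤ Real.pi / 4 ∧ W.k ω = 0 ∧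
    W.j ω = q := fun ω p => hx.lab ω (hQ ω p)
  refine hx.of_ac hQ ?_
  have h2 := hc_cel_le_lab (n := n) hg hlab hx.nq.ge
  unfold Vc valE at hv
  linarith

/-- **GROW from `NEx`**, in the form of `TopD.d1` -/
theorem grow_nex {N lam β : ℝ} (hl : 0 ≤ lam ∧ lam ≤ 1) (hJ : JFG N lam β) {ε : ℝ} (hε : 0 < ε) :
    ∃ c : ℝ, 0 ≤ c ∧ ∀ (Ω : Type) [Fintype Ω] (P : Law Ω) (l : Ω → Ln) (t : Ω → ℝ) (W : Bx Ω)
      (L q n b : ℕ) (d : ℝ), NEx N lam β d P l t W L q n → b ≤ q →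
      lam * b * Real.log 2 - ((d + ε) * L * Real.log 2 + c * (1 + Real.log (n + 1))) ≤
        Stk.hc P (fun ω => fl1 b ((l ω).2 0)) (cel l t (fun ω => Real.tan (W.θ ω)) L q) := by
  obtain ⟨c, hc⟩ := hJ ε hε
  have h200 := log200_nonneg
  refine ⟨max c 0 + (KG + 7 * Real.log 200), by have := KG_nonneg; positivity, ?_⟩
  intro Ω _ P l t W L q n b d hx hb
  have h1 := hc Ω P l t L n hx.good (by have := hx.nq; omega)
  have h0 := hx.ge
  have h8 := hc_lab_le_cel (n := n) hx.good hx.lab hx.nq.ge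
  have h2 := grow_cel hl hx.good (nex_sl hx) hx.nq.ge hb
    (eta := (d + ε) * L * Real.log 2 + c * (1 + Real.log (n + 1)) + 7 * Real.log 200) (by
      unfold valE
      nlinarith)
  have h3 : 0 ≤ Real.log ((n : ℝ) + 1) :=
    Real.log_nonneg (by have : (0 : ℝ) ≤ n := Nat.cast_nonneg n; linarith)
  have h4 : c * (1 + Real.log (n + 1)) ≤ max c 0 * (1 + Real.log (n + 1)) :=
    mul_le_mul_of_nonneg_right (le_max_left _ _) (by linarith)
  have h6 : KG = 10 * Real.log 200 + (Real.log (((2 * 4 + 1) ^ 4 : ℕ) : ℝ) + 2 * Real.log 9) := rfl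
  rw [← h6] at h2
  have h5 : KG + 7 * Real.log 200 ≤ (KG + 7 * Real.log 200) * (1 + Real.log (n + 1)) := by
    have := mul_nonneg (add_nonneg KG_nonneg (mul_nonneg (by norm_num : (0 : ℝ) ≤ 7) h200)) h3
    nlinarith
  have h7 : (max c 0 + (KG + 7 * Real.log 200)) * (1 + Real.log (n + 1)) =
      max c 0 * (1 + Real.log (n + 1)) + (KG + 7 * Real.log 200) * (1 + Real.log (n + 1)) := by
    ring
  rw [h7]
  linarith

/-- **the root cell** gives a lower bound for the penalised excess -/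
theorem root_cel {lam : ℝ} (hl : 0 ≤ lam ∧ lam ≤ 1) {P : Law Ω} {l : Ω → Ln} {t v : Ω → ℝ}
    {n r : ℕ} (hg : GoodF P l t) (hv : ∀ ω, 0 < P.w ω → |v ω| ≤ 1) (hn : r ≤ n) :
    Stk.hc P (fun ω => tb n (l ω)) (cel l t v 0 r) - Real.log 2 * (2 * n - (1 - lam) * r) ≤
      excFl lam P (tbx n l) (fun _ => ()) +
        (7 * Real.log 200 + Real.log (((2 * 4 + 1) ^ 4 : ℕ) : ℝ)) := by
  have h1 := root_box hl (dat_arctan n hg hv) (rep_arctan l t v) hn (fun _ : Ω => ())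
  rw [box_pth, hc_unit1] at h1
  exact h1

end finite

/-- **conclusion of `FSat`** from the mutual information of the cells -/
theorem fsat_of_cel : ∃ K : ℝ, ∀ {Ω : Type} [Fintype Ω] {N lam β d : ℝ} (P : Law Ω) (l : Ω → Ln)
    (t : Ω → ℝ) (W : Bx Ω) (h q n : ℕ), NEx N lam β d P l t W h q n →
    ∀ (a r : ℕ → ℕ) (ha : Monotone a) (hr : Monotone r), a 0 = 0 → r 0 ≤ q →
    Stk.mi P (mkP l t (fun ω => Real.tan (W.θ ω)) a r ha hr).ln
        (cel l t (fun ω => Real.tan (W.θ ω)) h q) (cel l t (fun ω => Real.tan (W.θ ω)) 0 (r 0)) -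
      K ≤ Stk.hc P (fun ω => tb n (l ω)) (rootF (r 0) W l).lab -
        Stk.hc P (fun ω => tb n (l ω)) (fun ω => (W.lab ω, pq h (ptF l t ω))) := by
  obtain ⟨K, hK⟩ := sat_link
  refine ⟨K, ?_⟩
  intro Ω _ N lam β d P l t W h q n hx a r ha hr ha0 hr0
  have h1 := hK P l t W (mkP l t (fun ω => Real.tan (W.θ ω)) a r ha hr) h q n hx.good hx.nq
    (fun ω ω' p p' e => hx.rnd ω ω' p p' e) hx.lab
    (fun ω => ⟨rfl, rfl, rfl, rfl, rfl, rfl⟩) ha0 hr0
  rw [show (mkP l t (fun ω => Real.tan (W.θ ω)) a r ha hr).a 0 = 0 from ha0, box_mkP, box_mkP] at h1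
  exact h1

end Vale.Agent.P127.U.LinkC
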