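import Vale.Agent.P127.U.SubF

/-!
# P127 / U / Lam : LIP, finite tools (helper513)

* `pair_law` : joint law of two conditionally independent copies.
* `near_le` : two copies of an integer variable given `K` are adjacent with probability at most three
  times the collision probability.
* `hc_le_exlog` : `H(X | Y) ≤ E log N(Y)` if there are at most `N(Y)` values.
* `level_le` : entropy of a level which is usually in a short interval.
-/

set_option autoImplicit false

namespace Vale.Agent.P127.U.Lip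

open Vale.Agent.P127 Vale.Agent.P127.Stk Apx C2 SubF

variable {Ω : Type} [Fintype Ω] {γ ξ : Type*}

/-- collision probability of two copies of `z` given `K` -/
noncomputable def col (P : Law Ω) {α β : Type*} (z : Ω → α) (K : Ω → β) : ℝ :=
  P.ex fun ω => P.pr (fun ω => (z ω, K ω)) (z ω, K ω) / P.pr K (K ω)

/-- at most `N(Y)` values -/
theorem hc_le_exlog {α β : Type*} (P : Law Ω) (X : Ω → α) (Y : Ω → β) (N : β → ℕ)
    (h : ∀ ω, 0 < P.w ω → ∃ F : Finset α, F.card ≤ N (Y ω) ∧
      ∀ ω', 0 < P.w ω' → Y ω' = Y ω → X ω' ∈ F) : hc P X Y ≤ P.ex fun ω => Real.log (N (Y ω)) := by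
  classical
  have h' : ∀ y : β, ∃ F : Finset α, F.card ≤ N y ∧
      ∀ ω', 0 < P.w ω' → Y ω' = y → X ω' ∈ F := by
    intro y
    by_cases hy : ∃ ω, 0 < P.w ω ∧ Y ω = y
    · obtain ⟨ω, hω, rfl⟩ := hy
      exact h ω hω
    · refine ⟨∅, by simp, fun ω' h1 h2 => ?_⟩
      exact absurd ⟨ω', h1, h2⟩ hy
  choose F hF1 hF2 using h'
  have hN : ∀ ω, 0 < P.w ω → (0 : ℝ) < N (Y ω) := by
    intro ω hω
    have h1 := hF2 (Y ω) ω hω rfl
    have h2 : 0 < N (Y ω) := lt_of_lt_of_le (Finset.card_pos.2 ⟨_, h1⟩) (hF1 _)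
    exact_mod_cast h2
  have hg := P.gibbs_cond X Y (fun x y => if x ∈ F y then 1 / (N y : ℝ) else 0)
    (fun x y => by split_ifs <;> positivity) ?_ (fun ω hω => by
      rw [if_pos (hF2 _ ω hω rfl)]
      have := hN ω hω
      positivity)
  · refine hg.trans (le_of_eq ?_)
    refine P.ex_congr fun ω hω => ?_
    rw [if_pos (hF2 _ ω hω rfl), one_div, Real.log_inv, neg_neg]
  · intro y G
    rw [← Finset.sum_filter, Finset.sum_const, nsmul_eq_mul, mul_one_div]
    refine div_le_one_of_le₀ ?_ (Nat.cast_nonneg _)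
    have : (G.filter (fun x => x ∈ F y)).card ≤ (F y).card :=
      Finset.card_le_card fun x hx => (Finset.mem_filter.1 hx).2
    exact_mod_cast this.trans (hF1 y)

section pairs

variable {α β : Type*}

open Classical in
/-- the joint law of two copies -/
theorem pair_law {P : Law Ω} {K : Ω → β} {Q : Law (Fin (1 + 1) → Ω)}
    (hQ : ∀ w, Q.w w = cw P K 1 w) (f : Ω → Ω → ℝ) :
    Q.ex (fun w => f (w 0) (w 1)) =
      P.ex fun ω => (∑ ω', (if K ω' = K ω then P.w ω' * f ω ω' else 0)) / P.pr K (K ω) := by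
  classical
  unfold Law.ex
  have h1 : ∀ w : Fin (1 + 1) → Ω, Q.w w * f (w 0) (w 1) =
      (if K (w 1) = K (w 0) then P.w (w 0) * P.w (w 1) / P.pr K (K (w 0)) else 0) * f (w 0) (w 1) := by
    intro w
    rw [hQ]
    congr 1
    unfold cw
    by_cases h : K (w 1) = K (w 0)
    · rw [if_pos h, if_pos (fun i => by fin_cases i <;> simp [h])]
      rw [Fin.prod_univ_two, pow_one]
    · rw [if_neg h, if_neg (fun hh => h (hh 1))]
  rw [Finset.sum_congr rfl fun w _ => h1 w]
  have h2 : ∑ w : Fin (1 + 1) → Ω,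
      (if K (w 1) = K (w 0) then P.w (w 0) * P.w (w 1) / P.pr K (K (w 0)) else 0) * f (w 0) (w 1) =
      ∑ ω, ∑ ω', (if K ω' = K ω then P.w ω * P.w ω' / P.pr K (K ω) else 0) * f ω ω' := by
    rw [← Finset.sum_product', Finset.univ_product_univ]
    refine Fintype.sum_equiv (finTwoArrowEquiv Ω) _ _ fun w => ?_
    rfl
  rw [h2]
  refine Finset.sum_congr rfl fun ω _ => ?_
  show _ = P.w ω * ((∑ ω', if K ω' = K ω then P.w ω' * f ω ω' else 0) / P.pr K (K ω))
  rw [Finset.sum_div, Finset.mul_sum]
  refine Finset.sum_congr rfl fun ω' _ => ?_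
  split_ifs
  · ring
  · ring

/-- probability of an event for two copies -/
theorem near_le {P : Law Ω} {K : Ω → β} {Q : Law (Fin (1 + 1) → Ω)}
    (hQ : ∀ w, Q.w w = cw P K 1 w) (z : Ω → ℤ) :
    Q.ex (fun w => Law.ind (|z (w 1) - z (w 0)| ≤ 1)) ≤ 3 * col P z K := by
  classical
  -- the conditional probabilities
  set μ : β → ℤ → ℝ := fun y x => P.pr (fun ω => (z ω, K ω)) (x, y) with hμ
  have hμ0 : ∀ y x, 0 ≤ μ y x := fun y x => P.pr_nonneg _ _
  have hsum : ∀ (d : ℤ) (ω : Ω), (∑ ω', if K ω' = K ω then P.w ω' * Law.ind (z ω' - z ω = d) else 0) =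
      μ (K ω) (z ω + d) := by
    intro d ω
    rw [hμ]
    simp only
    unfold Law.pr
    rw [Finset.sum_filter]
    refine Finset.sum_congr rfl fun ω' _ => ?_
    by_cases h1 : K ω' = K ω
    · by_cases h2 : z ω' - z ω = d
      · have h3 : z ω' = z ω + d := by omega
        rw [if_pos h1, Law.ind_of h2, if_pos (show (z ω', K ω') = (z ω + d, K ω) by rw [h1, h3]), mul_one]
      · have h3 : ¬ z ω' = z ω + d := by omega
        rw [if_pos h1, Law.ind_not h2, if_neg (by
          intro e
          exact h3 (congrArg Prod.fst e)), mul_zero]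
    · rw [if_neg h1, if_neg (by
        intro e
        exact h1 (congrArg Prod.snd e))]
  -- the three differences
  have h0 : Q.ex (fun w => Law.ind (|z (w 1) - z (w 0)| ≤ 1)) =
      P.ex (fun ω => (μ (K ω) (z ω + (-1)) + μ (K ω) (z ω + 0) + μ (K ω) (z ω + 1)) / P.pr K (K ω)) := by
    rw [pair_law hQ (fun ω ω' => Law.ind (|z ω' - z ω| ≤ 1))]
    refine P.ex_congr fun ω hω => ?_
    congr 1
    rw [← hsum, ← hsum, ← hsum, ← Finset.sum_add_distrib, ← Finset.sum_add_distrib]
    refine Finset.sum_congr rfl fun ω' _ => ?_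
    by_cases h1 : K ω' = K ω
    · rw [if_pos h1, if_pos h1, if_pos h1, if_pos h1, ← mul_add, ← mul_add]
      congr 1
      by_cases a : z ω' - z ω = -1
      · rw [Law.ind_of (show |z ω' - z ω| ≤ 1 by rw [a]; norm_num), Law.ind_of a,
          Law.ind_not (by omega), Law.ind_not (by omega)]
        ring
      · by_cases b : z ω' - z ω = 0
        · rw [Law.ind_of (show |z ω' - z ω| ≤ 1 by rw [b]; norm_num), Law.ind_of b,
            Law.ind_not a, Law.ind_not (by omega)]
          ring
        · by_cases c : z ω' - z ω = 1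
          · rw [Law.ind_of (show |z ω' - z ω| ≤ 1 by rw [c]; norm_num), Law.ind_of c,
              Law.ind_not a, Law.ind_not b]
            ring
          · rw [Law.ind_not (show ¬ |z ω' - z ω| ≤ 1 by
              intro h
              have := abs_le.1 h
              omega), Law.ind_not a, Law.ind_not b, Law.ind_not c]
            ring
    · rw [if_neg h1, if_neg h1, if_neg h1, if_neg h1]
      ring
  rw [h0]
  -- each difference costs at most one collision
  have key : ∀ d : ℤ, P.ex (fun ω => μ (K ω) (z ω + d) / P.pr K (K ω)) ≤ col P z K := by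
    intro d
    -- sums over the values
    have e1 : ∀ g : β → ℤ → ℝ, P.ex (fun ω => g (K ω) (z ω)) =
        ∑ y ∈ img K, ∑ x ∈ img z, μ y x * g y x := by
      intro g
      rw [P.ex_comp (fun ω => (z ω, K ω)) (fun q => g q.2 q.1)]
      rw [Finset.sum_comm, ← Finset.sum_product']
      refine Finset.sum_subset ?_ ?_
      · intro q hq
        rw [mem_img] at hq
        obtain ⟨ω, rfl⟩ := hq
        rw [Finset.mem_product]
        exact ⟨mem_img.2 ⟨ω, rfl⟩, mem_img.2 ⟨ω, rfl⟩⟩
      · intro q _ hq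
        have : P.pr (fun ω => (z ω, K ω)) q = 0 := by
          unfold Law.pr
          refine Finset.sum_eq_zero fun ω hω => ?_
          exact absurd (mem_img.2 ⟨ω, by simpa using hω⟩) hq
        rw [this, zero_mul]
    have e2 := e1 (fun y x => μ y (x + d) / P.pr K y)
    have e3 := e1 (fun y x => μ y x / P.pr K y)
    have e4 : col P z K = P.ex (fun ω => μ (K ω) (z ω) / P.pr K (K ω)) := rfl
    rw [e4]
    refine (le_of_eq e2).trans (le_trans ?_ (le_of_eq e3.symm))
    refine Finset.sum_le_sum fun y _ => ?_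
    -- for fixed `y`
    have hp : 0 ≤ P.pr K y := P.pr_nonneg _ _
    have s1 : ∑ x ∈ img z, μ y (x + d) ^ 2 ≤ ∑ x ∈ img z, μ y x ^ 2 := by
      have t1 : ∑ x ∈ img z, μ y (x + d) ^ 2 = ∑ x ∈ (img z).image (fun x => x + d), μ y x ^ 2 := by
        rw [Finset.sum_image]
        intro a _ b _ hab
        simpa using hab
      rw [t1]
      rw [← Finset.sum_subset (Finset.inter_subset_left (s₁ := (img z).image (fun x => x + d))
        (s₂ := img z))]
      · refine Finset.sum_le_sum_of_subset_of_nonneg Finset.inter_subset_right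
          fun x _ _ => sq_nonneg _
      · intro x hx hx'
        have hxz : x ∉ img z := fun h => hx' (Finset.mem_inter.2 ⟨hx, h⟩)
        have : μ y x = 0 := by
          rw [hμ]
          simp only
          unfold Law.pr
          refine Finset.sum_eq_zero fun ω hω => ?_
          have hω' : (z ω, K ω) = (x, y) := by simpa using hω
          exact absurd (mem_img.2 ⟨ω, congrArg Prod.fst hω'⟩) hxz
        rw [this]
        ring
    have s2 : ∑ x ∈ img z, μ y x * μ y (x + d) ≤ ∑ x ∈ img z, μ y x ^ 2 := by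
      have t1 : ∀ x ∈ img z, μ y x * μ y (x + d) ≤ (μ y x ^ 2 + μ y (x + d) ^ 2) / 2 := by
        intro x _
        nlinarith [sq_nonneg (μ y x - μ y (x + d))]
      have t2 := Finset.sum_le_sum t1
      rw [← Finset.sum_div, Finset.sum_add_distrib] at t2
      linarith
    have t3 : ∑ x ∈ img z, μ y x * (μ y (x + d) / P.pr K y) =
        (∑ x ∈ img z, μ y x * μ y (x + d)) / P.pr K y := by
      rw [Finset.sum_div]
      exact Finset.sum_congr rfl fun x _ => (mul_div_assoc _ _ _).symm
    have t4 : ∑ x ∈ img z, μ y x * (μ y x / P.pr K y) =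
        (∑ x ∈ img z, μ y x ^ 2) / P.pr K y := by
      rw [Finset.sum_div]
      refine Finset.sum_congr rfl fun x _ => ?_
      rw [sq, mul_div_assoc]
    rw [t3, t4]
    exact div_le_div_of_nonneg_right s2 hp
  have k1 := key (-1)
  have k2 := key 0
  have k3 := key 1
  have e5 : P.ex (fun ω => (μ (K ω) (z ω + (-1)) + μ (K ω) (z ω + 0) + μ (K ω) (z ω + 1)) /
      P.pr K (K ω)) = P.ex (fun ω => μ (K ω) (z ω + (-1)) / P.pr K (K ω)) +
        P.ex (fun ω => μ (K ω) (z ω + 0) / P.pr K (K ω)) +
        P.ex (fun ω => μ (K ω) (z ω + 1) / P.pr K (K ω)) := by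
    rw [← P.ex_add, ← P.ex_add]
    refine P.ex_congr fun ω _ => ?_
    ring
  rw [e5]
  linarith

end pairs

end Vale.Agent.P127.U.Lip
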