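import Vale.Agent.P127.U.Lam.LipA

/-!
# P127 / U / Lam : LIP, one step (helper513)

* `sub_lev` : submodularity of two boxes of the same line and shape, with a given angle level `s`
  (meet `(j - s, j)`, join `(k, k + s)`).
* `InS c W φ p r` : the box `W` lies in the box `(p, p + r)` of direction `φ` (up to `c`).
* `vS lam P X W p C` : `H(X | W, C) + log 2 E((1 - lam)(k + j) + 2 lam p)`, the penalised value of the
  label `W` in the coordinates of a slab.
* `lip` : a label `W` inside the slab of direction `φ` and depth `r'` gives a label inside the slab of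
  depth `r ≤ r'` with a value larger by `lam (r' - r - δ)`, if two copies of the direction `φ` given
  `(X, C, shape)` usually differ at the level `r + δ`.
-/

set_option autoImplicit false

namespace Vale.Agent.P127.U.Lip

open Vale.Agent.P127 Vale.Agent.P127.Stk Apx C2 SubF

/-- the box `W` lies in the box `(p, p + r)` of direction `φ` -/
def InS {Ω : Type} (c : ℝ) (W : Bx Ω) (φ : Ω → ℝ) (p : Ω → ℕ) (r : ℕ) (ω : Ω) : Prop :=
  |W.θ ω| ≤ 4 ∧ W.k ω ≤ W.j ω ∧ p ω ≤ W.k ω ∧ p ω + r ≤ W.j ω ∧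
    |Real.sin (W.θ ω - φ ω)| * (1 / 2 : ℝ) ^ W.k ω ≤ c * (1 / 2 : ℝ) ^ (p ω + r)

/-- the join of level `s` -/
def jnS {Ω : Type} (A : Bx Ω) (s : Ω → ℕ) : Bx Ω := ⟨A.l, A.θ, A.k, fun ω => A.k ω + s ω⟩

/-- the meet of level `s` -/
def mtS {Ω : Type} (A : Bx Ω) (s : Ω → ℕ) : Bx Ω := ⟨A.l, A.θ, fun ω => A.j ω - s ω, A.j⟩

variable {Ω : Type} [Fintype Ω] {γ ξ : Type*}

/-- value of the label `W` in the coordinates of the slab -/
noncomputable def vS (lam : ℝ) (P : Law Ω) (X : Ω → ξ) (W : Bx Ω) (p : Ω → ℕ) (C : Ω → γ) : ℝ :=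
  hc P X (fun ω => (W.lab ω, C ω)) +
    Real.log 2 * P.ex fun ω => (1 - lam) * ((W.k ω : ℝ) + W.j ω) + 2 * lam * p ω

theorem abs_sin_add (x y : ℝ) : |Real.sin (x + y)| ≤ |Real.sin x| + |Real.sin y| := by
  rw [Real.sin_add]
  refine (abs_add_le _ _).trans ?_
  rw [abs_mul, abs_mul]
  have h1 := Real.abs_cos_le_one x
  have h2 := Real.abs_cos_le_one y
  have h3 := abs_nonneg (Real.sin x)
  have h4 := abs_nonneg (Real.sin y)
  nlinarith [mul_le_mul_of_nonneg_left h2 h3, mul_le_mul_of_nonneg_right h1 h4]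

theorem abs_sin_sub (x y : ℝ) : |Real.sin (x - y)| ≤ |Real.sin x| + |Real.sin y| := by
  have := abs_sin_add x (-y)
  rwa [Real.sin_neg, abs_neg, ← sub_eq_add_neg] at this

theorem abs_sin_comm (x y : ℝ) : |Real.sin (x - y)| = |Real.sin (y - x)| := by
  rw [← abs_neg (Real.sin (x - y)), ← Real.sin_neg, neg_sub]

/-- **SUB with a given level** -/
theorem sub_lev (P : Law Ω) (A A' : Bx Ω) (s : Ω → ℕ) (X : Ω → ξ) (C : Ω → γ)
    (hok : ∀ ω, 0 < P.w ω → Nr ((1 / 2 : ℝ) ^ A.j ω) (A'.l ω) (A.l ω) ∧ A'.k ω = A.k ω ∧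
      A'.j ω = A.j ω ∧ A.k ω ≤ A.j ω ∧ |A.θ ω| ≤ 4 ∧ |A'.θ ω| ≤ 4)
    (hs : ∀ ω, 0 < P.w ω → s ω ≤ A.j ω - A.k ω ∧
      |Real.sin (A'.θ ω - A.θ ω)| ≤ 8 * (1 / 2 : ℝ) ^ s ω ∧
      (s ω < A.j ω - A.k ω → 4 * (1 / 2 : ℝ) ^ s ω ≤ |Real.sin (A'.θ ω - A.θ ω)|)) :
    hc P X (fun ω => (A.lab ω, C ω)) + hc P X (fun ω => (A'.lab ω, C ω)) ≤
      hc P X (fun ω => ((mtS A s).lab ω, C ω)) + hc P X (fun ω => ((jnS A s).lab ω, C ω)) +
      mi P A.lab A'.lab (fun ω => (X ω, C ω)) + 100 + 3 * hc P s C := by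
  have hS1 : hc P s (fun ω => (A.lab ω, C ω)) ≤ hc P s C :=
    hc_mono_right P s fun _ _ _ _ e => congrArg Prod.snd e
  have hS2 : hc P s (fun ω => (A'.lab ω, C ω)) ≤ hc P s C :=
    hc_mono_right P s fun _ _ _ _ e => congrArg Prod.snd e
  have hS3 : hc P s (fun ω => (A.lab ω, A'.lab ω, C ω)) ≤ hc P s C :=
    hc_mono_right P s fun _ _ _ _ e => congrArg (fun q => q.2.2) e
  have h0 := shannon P X A.lab A'.lab (jnS A s).lab (mtS A s).lab C
  -- the join from `A`
  have h1 : hc P (jnS A s).lab (fun ω => (A.lab ω, C ω)) ≤ hc P s C +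
      5 * Real.log (2 * (95 : ℕ) + 3) := by
    have g1 := hc_via P (jnS A s).lab s (fun ω => (A.lab ω, C ω))
    have g3 := join_le P A A.l A.θ s (fun _ => 0) (fun ω => (s ω, A.lab ω, C ω))
      (fun ω hω => ⟨⟨(hok ω hω).2.2.2.1, (hs ω hω).1, by
        rw [Int.cast_zero, zero_mul, add_zero, sub_self, abs_zero]
        positivity⟩, Nr.refl (by positivity) _⟩)
      (fun ω ω' _ _ e => by
        simp only [Prod.mk.injEq] at e
        exact ⟨e.2.1, e.1, rfl⟩)
    have g4 : hc P (jnS A s).lab (fun ω => (s ω, A.lab ω, C ω)) ≤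
      5 * Real.log (2 * (95 : ℕ) + 3) := g3
    linarith
  -- the join from `A'`
  set m : Ω → ℤ := fun ω => dm (A'.θ ω) (A.θ ω) with hm
  have h2 : hc P (jnS A s).lab (fun ω => (A'.lab ω, C ω)) ≤ hc P s C + Real.log 9 +
      5 * Real.log (2 * (95 : ℕ) + 3) := by
    have g1 := hc_via P (jnS A s).lab s (fun ω => (A'.lab ω, C ω))
    have g1' := hc_via P (jnS A s).lab m (fun ω => (s ω, A'.lab ω, C ω))
    have g2' := H_dm_le P m (fun ω => (s ω, A'.lab ω, C ω)) (fun ω hω =>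
      dm_le (by linarith [(hok ω hω).2.2.2.2.2]) (by linarith [(hok ω hω).2.2.2.2.1]))
    have g3 := join_le P A' A.l A.θ s m (fun ω => (m ω, s ω, A'.lab ω, C ω))
      (fun ω hω => by
        obtain ⟨a1, a2, a3, a4, -, -⟩ := hok ω hω
        refine ⟨⟨by rw [a2, a3]; exact a4, by rw [a2, a3]; exact (hs ω hω).1, ?_⟩, by
          rw [a3]; exact a1.symm⟩
        have b1 := dl_le_sin (A'.θ ω) (A.θ ω)
        have b2 := (hs ω hω).2.1
        rw [abs_sin_comm] at b1
        have e : A.θ ω - (A'.θ ω + m ω * Real.pi) = dl (A'.θ ω) (A.θ ω) := by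
          rw [hm]
          unfold dl
          ring
        rw [e]
        linarith)
      (fun ω ω' _ _ e => by
        simp only [Prod.mk.injEq] at e
        exact ⟨e.2.2.1, e.2.1, e.1⟩)
    have g4 : hc P (jnS A s).lab (fun ω => (m ω, s ω, A'.lab ω, C ω)) ≤
        5 * Real.log (2 * (95 : ℕ) + 3) := by
      refine le_trans (le_of_eq ?_) g3
      refine hc_congr P ?_ ?_ (fun ω ω' _ _ e => e) (fun ω ω' _ _ e => e)
      · intro ω ω' p p' e
        have e1 := congrArg Prod.fst e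
        simp only at e1
        unfold Bx.lab jnS
        simp only
        rw [(hok ω p).2.1, (hok ω' p').2.1] at e1
        exact e1
      · intro ω ω' p p' e
        have e1 := congrArg Prod.fst e
        unfold Bx.lab jnS at e1
        simp only at e1 ⊢
        rw [(hok ω p).2.1, (hok ω' p').2.1]
        exact e1
    linarith
  -- the meet
  have h3 : hc P (mtS A s).lab (fun ω => (A.lab ω, A'.lab ω, C ω)) ≤ hc P s C +
      5 * Real.log (2 * (7 : ℕ) + 3) := by
    have g1 := hc_via P (mtS A s).lab s (fun ω => (A.lab ω, A'.lab ω, C ω))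
    have g3 := meet_le P A A' s (fun ω => (s ω, A.lab ω, A'.lab ω, C ω))
      (fun ω hω => by
        obtain ⟨a1, a2, a3, a4, -, -⟩ := hok ω hω
        exact ⟨a1, a2, a3, a4, (hs ω hω).1, (hs ω hω).2.2⟩)
      (fun ω ω' _ _ e => by
        simp only [Prod.mk.injEq] at e
        exact ⟨e.2.1, e.2.2.1, e.1⟩)
    have g4 : hc P (mtS A s).lab (fun ω => (s ω, A.lab ω, A'.lab ω, C ω)) ≤
        5 * Real.log (2 * (7 : ℕ) + 3) := g3
    linarith
  have l1 : Real.log (2 * (95 : ℕ) + 3) ≤ 7 := by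
    have : Real.log (2 * (95 : ℕ) + 3) ≤ Real.log (2 ^ 8) :=
      Real.log_le_log (by norm_num) (by norm_num)
    rw [Real.log_pow] at this
    have h2 := Real.log_two_lt_d9
    push_cast at this ⊢
    linarith
  have l2 : Real.log (2 * (7 : ℕ) + 3) ≤ 4 := by
    have : Real.log (2 * (7 : ℕ) + 3) ≤ Real.log (2 ^ 5) :=
      Real.log_le_log (by norm_num) (by norm_num)
    rw [Real.log_pow] at this
    have h2 := Real.log_two_lt_d9
    push_cast at this ⊢
    linarith
  have l3 : Real.log 9 ≤ 4 := by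
    have : Real.log 9 ≤ Real.log (2 ^ 4) := Real.log_le_log (by norm_num) (by norm_num)
    rw [Real.log_pow] at this
    have h2 := Real.log_two_lt_d9
    push_cast at this
    linarith
  linarith

end Vale.Agent.P127.U.Lip
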