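import Vale.Agent.P127.U.Lam.LipB
import Vale.Agent.P127.U.JS

/-!
# P127 / U / Lam : LIP, submodularity with a bad event (helper513)

* `sub_bb` : `SUB` for two boxes with a given level `s` off a bad event `b`; on the bad event the two
  outputs are the two boxes themselves.
-/

set_option autoImplicit false

namespace Vale.Agent.P127.U.Lip

open Vale.Agent.P127 Vale.Agent.P127.Stk Apx C2 SubF

/-- the level with the bad event -/
def sB {Ω : Type} (A : Bx Ω) (s : Ω → ℕ) (b : Ω → Bool) (ω : Ω) : ℕ :=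
  if b ω = true then A.j ω - A.k ω else s ω

/-- the join with the bad event -/
def jnB {Ω : Type} (A A' : Bx Ω) (s : Ω → ℕ) (b : Ω → Bool) : Bx Ω :=
  ⟨A.l, fun ω => if b ω = true then A'.θ ω else A.θ ω, A.k, fun ω => A.k ω + sB A s b ω⟩

variable {Ω : Type} [Fintype Ω] {γ ξ : Type*}

theorem hc_bool_le {β : Type*} (P : Law Ω) (b : Ω → Bool) (Y : Ω → β) :
    hc P b Y ≤ Real.log 2 := by
  have := hc_le_log P b Y 2 (fun ω _ => ⟨Finset.univ, by simp, fun ω' _ _ => Finset.mem_univ _⟩)
  exact_mod_cast this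

/-- **SUB with a bad event** -/
theorem sub_bb (P : Law Ω) (A A' : Bx Ω) (s : Ω → ℕ) (b : Ω → Bool) (X : Ω → ξ) (C : Ω → γ) (N : ℕ)
    (hok : ∀ ω, 0 < P.w ω → Nr ((1 / 2 : ℝ) ^ A.j ω) (A'.l ω) (A.l ω) ∧ A'.k ω = A.k ω ∧
      A'.j ω = A.j ω ∧ A.k ω ≤ A.j ω ∧ |A.θ ω| ≤ 4 ∧ |A'.θ ω| ≤ 4)
    (hs : ∀ ω, 0 < P.w ω → b ω = false → s ω ≤ A.j ω - A.k ω ∧
      |Real.sin (A'.θ ω - A.θ ω)| ≤ 8 * (1 / 2 : ℝ) ^ s ω ∧
      (s ω < A.j ω - A.k ω → 4 * (1 / 2 : ℝ) ^ s ω ≤ |Real.sin (A'.θ ω - A.θ ω)|))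
    (hN : ∀ ω, 0 < P.w ω → b ω = false → ∃ F : Finset ℕ, F.card ≤ N ∧
      ∀ ω', 0 < P.w ω' → b ω' = false → C ω' = C ω → s ω' ∈ F) :
    hc P X (fun ω => (A.lab ω, C ω)) + hc P X (fun ω => (A'.lab ω, C ω)) ≤
      hc P X (fun ω => ((mtS A (sB A s b)).lab ω, C ω)) +
      hc P X (fun ω => ((jnB A A' s b).lab ω, C ω)) +
      mi P A.lab A'.lab (fun ω => (X ω, C ω)) + (103 + 3 * Real.log N) := by
  classical
  set M := mtS A (sB A s b) with hM
  set J := jnB A A' s b with hJ
  have l35 : 5 * Real.log (2 * (95 : ℕ) + 3) ≤ 35 := by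
    have : Real.log (2 * (95 : ℕ) + 3) ≤ Real.log (2 ^ 8) :=
      Real.log_le_log (by norm_num) (by norm_num)
    rw [Real.log_pow] at this
    have h2 := Real.log_two_lt_d9
    push_cast at this ⊢
    linarith
  -- the bad part
  have ht : 0 < P.pr b true →
      hc (P.cond b true) X (fun ω => (A.lab ω, C ω)) + hc (P.cond b true) X (fun ω => (A'.lab ω, C ω)) ≤
      hc (P.cond b true) X (fun ω => (M.lab ω, C ω)) + hc (P.cond b true) X (fun ω => (J.lab ω, C ω)) +
      mi (P.cond b true) A.lab A'.lab (fun ω => (X ω, C ω)) + (100 + 3 * Real.log N) := by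
    intro hp
    have hb : ∀ ω, 0 < (P.cond b true).w ω → 0 < P.w ω ∧ b ω = true := fun ω hω =>
      ⟨JSB.cond_supp P b true hω, JSB.cond_supp' P b true hp hω⟩
    have e1 : hc (P.cond b true) X (fun ω => (A.lab ω, C ω)) =
        hc (P.cond b true) X (fun ω => (M.lab ω, C ω)) := by
      have hl : ∀ ω, 0 < (P.cond b true).w ω → M.lab ω = A.lab ω := by
        intro ω hω
        obtain ⟨h1, h2⟩ := hb ω hω
        have h3 := (hok ω h1).2.2.2.1
        show lab (A.θ ω) (A.j ω - sB A s b ω) (A.j ω) (A.l ω) = lab (A.θ ω) (A.k ω) (A.j ω) (A.l ω)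
        have h4 : A.j ω - sB A s b ω = A.k ω := by
          unfold sB
          rw [if_pos h2]
          omega
        rw [h4]
      refine hc_congr _ (fun ω ω' _ _ e => congrArg Prod.fst e) (fun ω ω' _ _ e => congrArg Prod.fst e) ?_ ?_
      · intro ω ω' p p' e
        simp only [Prod.mk.injEq] at e ⊢
        rw [hl ω p, hl ω' p'] at e
        exact e
      · intro ω ω' p p' e
        simp only [Prod.mk.injEq] at e ⊢
        rw [hl ω p, hl ω' p']
        exact e
    have e2 : hc (P.cond b true) X (fun ω => (A'.lab ω, C ω)) ≤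
        hc (P.cond b true) X (fun ω => (J.lab ω, C ω)) + 35 := by
      have g1 := hc_via (P.cond b true) X J.lab (fun ω => (A'.lab ω, C ω))
      have g2 : hc (P.cond b true) X (fun ω => (J.lab ω, A'.lab ω, C ω)) ≤
          hc (P.cond b true) X (fun ω => (J.lab ω, C ω)) :=
        hc_mono_right _ X fun ω ω' _ _ e => by
          simp only [Prod.mk.injEq] at e ⊢
          exact ⟨e.1, e.2.2⟩
      have g3 := join_le (P.cond b true) A' A.l A'.θ (fun ω => A'.j ω - A'.k ω) (fun _ => 0)
        (fun ω => (A'.lab ω, C ω))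
        (fun ω hω => by
          obtain ⟨a1, a2, a3, a4, -, -⟩ := hok ω (hb ω hω).1
          refine ⟨⟨by rw [a2, a3]; exact a4, le_refl _, ?_⟩, by rw [a3]; exact a1.symm⟩
          rw [Int.cast_zero, zero_mul, add_zero, sub_self, abs_zero]
          positivity)
        (fun ω ω' _ _ e => by
          have e1 := congrArg Prod.fst e
          have e2 := lab_eq e1
          refine ⟨e1, ?_, rfl⟩
          rw [e2.1, e2.2.1])
      have g4 : hc (P.cond b true) J.lab (fun ω => (A'.lab ω, C ω)) =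
          hc (P.cond b true) (fun ω => lab (A'.θ ω) (A'.k ω) (A'.k ω + (A'.j ω - A'.k ω)) (A.l ω))
            (fun ω => (A'.lab ω, C ω)) := by
        have hl : ∀ ω, 0 < (P.cond b true).w ω → J.lab ω =
            lab (A'.θ ω) (A'.k ω) (A'.k ω + (A'.j ω - A'.k ω)) (A.l ω) := by
          intro ω hω
          obtain ⟨h1, h2⟩ := hb ω hω
          obtain ⟨a1, a2, a3, a4, -, -⟩ := hok ω h1
          show lab (if b ω = true then A'.θ ω else A.θ ω) (A.k ω) (A.k ω + sB A s b ω) (A.l ω) = _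
          have h4 : sB A s b ω = A.j ω - A.k ω := by
            unfold sB
            rw [if_pos h2]
          rw [if_pos h2, h4, a2, a3]
        refine hc_congr _ ?_ ?_ (fun ω ω' _ _ e => e) (fun ω ω' _ _ e => e)
        · intro ω ω' p p' e
          have e' := congrArg Prod.fst e
          simp only at e'
          rw [← hl ω p, ← hl ω' p'] at e'
          exact e'
        · intro ω ω' p p' e
          have e' := congrArg Prod.fst e
          simp only at e'
          rw [hl ω p, hl ω' p'] at e'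
          exact e'
      linarith
    have e3 := mi_nonneg (P.cond b true) A.lab A'.lab (fun ω => (X ω, C ω))
    have e4 : 0 ≤ Real.log N := Real.log_natCast_nonneg N
    linarith
  -- the good part
  have hf : 0 < P.pr b false →
      hc (P.cond b false) X (fun ω => (A.lab ω, C ω)) + hc (P.cond b false) X (fun ω => (A'.lab ω, C ω)) ≤
      hc (P.cond b false) X (fun ω => (M.lab ω, C ω)) + hc (P.cond b false) X (fun ω => (J.lab ω, C ω)) +
      mi (P.cond b false) A.lab A'.lab (fun ω => (X ω, C ω)) + (100 + 3 * Real.log N) := by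
    intro hp
    have hb : ∀ ω, 0 < (P.cond b false).w ω → 0 < P.w ω ∧ b ω = false := fun ω hω =>
      ⟨JSB.cond_supp P b false hω, JSB.cond_supp' P b false hp hω⟩
    have e1 := sub_lev (P.cond b false) A A' s X C (fun ω hω => hok ω (hb ω hω).1)
      (fun ω hω => hs ω (hb ω hω).1 (hb ω hω).2)
    have e2 : hc (P.cond b false) s C ≤ Real.log N :=
      hc_le_log (P.cond b false) s C N (fun ω hω => by
        obtain ⟨F, f1, f2⟩ := hN ω (hb ω hω).1 (hb ω hω).2
        exact ⟨F, f1, fun ω' hω' e => f2 ω' (hb ω' hω').1 (hb ω' hω').2 e⟩)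
    have hnb : ∀ ω, 0 < (P.cond b false).w ω → ¬ b ω = true := fun ω hω h => by
      rw [(hb ω hω).2] at h
      exact absurd h (by decide)
    have hl1 : ∀ ω, 0 < (P.cond b false).w ω → M.lab ω = (mtS A s).lab ω := by
      intro ω hω
      show lab (A.θ ω) (A.j ω - sB A s b ω) (A.j ω) (A.l ω) = lab (A.θ ω) (A.j ω - s ω) (A.j ω) (A.l ω)
      have h4 : sB A s b ω = s ω := by
        unfold sB
        rw [if_neg (hnb ω hω)]
      rw [h4]
    have hl2 : ∀ ω, 0 < (P.cond b false).w ω → J.lab ω = (jnS A s).lab ω := by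
      intro ω hω
      show lab (if b ω = true then A'.θ ω else A.θ ω) (A.k ω) (A.k ω + sB A s b ω) (A.l ω) =
        lab (A.θ ω) (A.k ω) (A.k ω + s ω) (A.l ω)
      have h4 : sB A s b ω = s ω := by
        unfold sB
        rw [if_neg (hnb ω hω)]
      rw [h4, if_neg (hnb ω hω)]
    have e3 : hc (P.cond b false) X (fun ω => ((mtS A s).lab ω, C ω)) =
        hc (P.cond b false) X (fun ω => (M.lab ω, C ω)) := by
      refine hc_congr _ (fun ω ω' _ _ e => congrArg Prod.fst e) (fun ω ω' _ _ e => congrArg Prod.fst e) ?_ ?_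
      · intro ω ω' p p' e
        simp only [Prod.mk.injEq] at e ⊢
        rw [hl1 ω p, hl1 ω' p'] at e
        exact e
      · intro ω ω' p p' e
        simp only [Prod.mk.injEq] at e ⊢
        rw [hl1 ω p, hl1 ω' p']
        exact e
    have e4 : hc (P.cond b false) X (fun ω => ((jnS A s).lab ω, C ω)) =
        hc (P.cond b false) X (fun ω => (J.lab ω, C ω)) := by
      refine hc_congr _ (fun ω ω' _ _ e => congrArg Prod.fst e) (fun ω ω' _ _ e => congrArg Prod.fst e) ?_ ?_
      · intro ω ω' p p' e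
        simp only [Prod.mk.injEq] at e ⊢
        rw [hl2 ω p, hl2 ω' p'] at e
        exact e
      · intro ω ω' p p' e
        simp only [Prod.mk.injEq] at e ⊢
        rw [hl2 ω p, hl2 ω' p']
        exact e
    rw [e3, e4] at e1
    linarith
  -- the average
  have key : ∀ z : Bool, P.pr b z * (hc (P.cond b z) X (fun ω => (A.lab ω, C ω)) +
      hc (P.cond b z) X (fun ω => (A'.lab ω, C ω))) ≤
      P.pr b z * (hc (P.cond b z) X (fun ω => (M.lab ω, C ω)) +
        hc (P.cond b z) X (fun ω => (J.lab ω, C ω)) +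
        mi (P.cond b z) A.lab A'.lab (fun ω => (X ω, C ω)) + (100 + 3 * Real.log N)) := by
    intro z
    rcases (P.pr_nonneg b z).eq_or_lt with h | h
    · rw [← h, zero_mul, zero_mul]
    · refine mul_le_mul_of_nonneg_left ?_ h.le
      cases z
      · exact hf h
      · exact ht h
  have hsum := Finset.sum_le_sum (s := img b) fun z _ => key z
  have c1 := JSB.hc_cond_sum P X (fun ω => (A.lab ω, C ω)) b
  have c2 := JSB.hc_cond_sum P X (fun ω => (A'.lab ω, C ω)) b
  have c3 := JSB.hc_cond_sum P X (fun ω => (M.lab ω, C ω)) b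
  have c4 := JSB.hc_cond_sum P X (fun ω => (J.lab ω, C ω)) b
  have c5 := JSB.hc_cond_sum P A.lab (fun ω => (X ω, C ω)) b
  have c6 := JSB.hc_cond_sum P A.lab (fun ω => (A'.lab ω, (X ω, C ω))) b
  have c7 : ∑ z ∈ img b, P.pr b z = 1 := P.sum_pr_image b
  have s1 : ∑ z ∈ img b, P.pr b z * (hc (P.cond b z) X (fun ω => (A.lab ω, C ω)) +
      hc (P.cond b z) X (fun ω => (A'.lab ω, C ω))) =
      hc P X (fun ω => ((A.lab ω, C ω), b ω)) + hc P X (fun ω => ((A'.lab ω, C ω), b ω)) := by
    rw [c1, c2, ← Finset.sum_add_distrib]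
    exact Finset.sum_congr rfl fun z _ => mul_add _ _ _
  have s2 : ∑ z ∈ img b, P.pr b z * (hc (P.cond b z) X (fun ω => (M.lab ω, C ω)) +
        hc (P.cond b z) X (fun ω => (J.lab ω, C ω)) +
        mi (P.cond b z) A.lab A'.lab (fun ω => (X ω, C ω)) + (100 + 3 * Real.log N)) =
      hc P X (fun ω => ((M.lab ω, C ω), b ω)) + hc P X (fun ω => ((J.lab ω, C ω), b ω)) +
      (hc P A.lab (fun ω => ((X ω, C ω), b ω)) - hc P A.lab (fun ω => ((A'.lab ω, (X ω, C ω)), b ω))) +
      (100 + 3 * Real.log N) := by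
    rw [c3, c4, c5, c6, ← Finset.sum_add_distrib, ← Finset.sum_sub_distrib, ← Finset.sum_add_distrib]
    have c8 : (100 + 3 * Real.log N) = ∑ z ∈ img b, P.pr b z * (100 + 3 * Real.log N) := by
      rw [← Finset.sum_mul, c7, one_mul]
    rw [c8, ← Finset.sum_add_distrib]
    refine Finset.sum_congr rfl fun z _ => ?_
    rw [← c8]
    unfold mi
    ring
  rw [s1, s2] at hsum
  -- the bits
  have b1 := hc_via P X b (fun ω => (A.lab ω, C ω))
  have b2 := hc_via P X b (fun ω => (A'.lab ω, C ω))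
  have b3 := hc_bool_le P b (fun ω => (A.lab ω, C ω))
  have b4 := hc_bool_le P b (fun ω => (A'.lab ω, C ω))
  have b5 : hc P X (fun ω => (b ω, A.lab ω, C ω)) = hc P X (fun ω => ((A.lab ω, C ω), b ω)) :=
    hc_congr P (fun ω ω' _ _ e => congrArg Prod.fst e) (fun ω ω' _ _ e => congrArg Prod.fst e)
      (fun ω ω' _ _ e => by
        simp only [Prod.mk.injEq] at e ⊢
        tauto)
      (fun ω ω' _ _ e => by
        simp only [Prod.mk.injEq] at e ⊢
        tauto)
  have b6 : hc P X (fun ω => (b ω, A'.lab ω, C ω)) = hc P X (fun ω => ((A'.lab ω, C ω), b ω)) :=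
    hc_congr P (fun ω ω' _ _ e => congrArg Prod.fst e) (fun ω ω' _ _ e => congrArg Prod.fst e)
      (fun ω ω' _ _ e => by
        simp only [Prod.mk.injEq] at e ⊢
        tauto)
      (fun ω ω' _ _ e => by
        simp only [Prod.mk.injEq] at e ⊢
        tauto)
  have b7 : hc P X (fun ω => ((M.lab ω, C ω), b ω)) ≤ hc P X (fun ω => (M.lab ω, C ω)) :=
    hc_mono_right P X fun ω ω' _ _ e => congrArg Prod.fst e
  have b8 : hc P X (fun ω => ((J.lab ω, C ω), b ω)) ≤ hc P X (fun ω => (J.lab ω, C ω)) :=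
    hc_mono_right P X fun ω ω' _ _ e => congrArg Prod.fst e
  have b9 : hc P A.lab (fun ω => ((X ω, C ω), b ω)) ≤ hc P A.lab (fun ω => (X ω, C ω)) :=
    hc_mono_right P A.lab fun ω ω' _ _ e => congrArg Prod.fst e
  have b10 := hc_via P A.lab b (fun ω => (A'.lab ω, (X ω, C ω)))
  have b11 := hc_bool_le P b (fun ω => (A'.lab ω, (X ω, C ω)))
  have b12 : hc P A.lab (fun ω => (b ω, A'.lab ω, (X ω, C ω))) =
      hc P A.lab (fun ω => ((A'.lab ω, (X ω, C ω)), b ω)) :=
    hc_congr P (fun ω ω' _ _ e => congrArg Prod.fst e) (fun ω ω' _ _ e => congrArg Prod.fst e)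
      (fun ω ω' _ _ e => by
        simp only [Prod.mk.injEq] at e ⊢
        tauto)
      (fun ω ω' _ _ e => by
        simp only [Prod.mk.injEq] at e ⊢
        tauto)
  have l2 : Real.log 2 ≤ 1 := by
    have := Real.log_two_lt_d9
    linarith
  unfold mi
  linarith

end Vale.Agent.P127.U.Lip
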