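import Vale.Agent.P127.U.Lam.LipC

/-!
# P127 / U / Lam : LIP (helper513)

* `Dat` : a label `W` of a box inside the slab `(p', p' + r')` of direction `φ`.
* `lip` : it gives a label `A` with `W.k ≤ A.k ≤ A.j ≤ W.j`, without slab, and with a value larger by
  `lam (r' - δ)` on the pairs of copies of `φ` given `(X, C, shape)` which differ at the level `δ`;
  error `O(1) + O(log (δ + 1))`.
-/

set_option autoImplicit false

namespace Vale.Agent.P127.U.Lip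

open Vale.Agent.P127 Vale.Agent.P127.Stk Apx C2 SubF

/-- the label leaves the direction `φ` below the level `δ` -/
def cs {Ω : Type} (W : Bx Ω) (p' : Ω → ℕ) (δ r' : ℕ) (ω : Ω) : Bool :=
  decide (W.k ω + δ < p' ω + r')

/-- the side information for the copies -/
def Kc {Ω : Type} {α : Type*} (C : Ω → α) (W : Bx Ω) (p' : Ω → ℕ) (δ r' : ℕ) (ω : Ω) :
    α × ℕ × ℕ × Bool :=
  (C ω, W.k ω, W.j ω, cs W p' δ r' ω)

/-- the same, with the label where the label is used itself -/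
noncomputable def Kl {Ω : Type} {α : Type*} (C : Ω → α) (W : Bx Ω) (p' : Ω → ℕ) (δ r' : ℕ) (ω : Ω) :
    (α × ℕ × ℕ × Bool) × Option Lab :=
  (Kc C W p' δ r' ω, if cs W p' δ r' ω = true then none else some (W.lab ω))

variable {Ω : Type} [Fintype Ω] {γ ξ : Type*}

/-- the hypotheses of the step -/
structure Dat (P : Law Ω) (X : Ω → ξ) (C : Ω → γ) (W : Bx Ω) (φ : Ω → ℝ) (p' : Ω → ℕ) (z : Ω → ℤ)
    (c : ℝ) (δ r' : ℕ) : Prop where
  c0 : 0 ≤ c
  rr : δ ≤ r'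
  ins : ∀ ω, 0 < P.w ω → |W.θ ω| ≤ 4 ∧ W.k ω ≤ W.j ω ∧ p' ω ≤ W.k ω ∧ p' ω + r' ≤ W.j ω ∧
    |Real.sin (W.θ ω - φ ω)| * (1 / 2 : ℝ) ^ W.k ω ≤ c * (1 / 2 : ℝ) ^ (p' ω + r')
  line : ∀ ω ω', 0 < P.w ω → 0 < P.w ω' → X ω = X ω' → C ω = C ω' →
      Nr ((1 / 2 : ℝ) ^ W.j ω) (W.l ω') (W.l ω)
  far : ∀ ω ω', 0 < P.w ω → 0 < P.w ω' → C ω = C ω' → 2 ≤ |z ω' - z ω| →
      (c + 5) * (1 / 2 : ℝ) ^ δ ≤ |Real.sin (φ ω' - φ ω)|

/-- `Q` is the law of two copies with the same side information -/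
def Cop (P : Law Ω) (X : Ω → ξ) (C : Ω → γ) (W : Bx Ω) (p' : Ω → ℕ) (δ r' : ℕ)
    (Q : Law (Fin (1 + 1) → Ω)) : Prop :=
  ∀ w, Q.w w = cw P (fun ω => (X ω, Kl C W p' δ r' ω)) 1 w

/-- first and second copy -/
def B0 {Ω : Type} (W : Bx Ω) : Bx (Fin (1 + 1) → Ω) := W.comp (fun w => w 0)
def B1 {Ω : Type} (W : Bx Ω) : Bx (Fin (1 + 1) → Ω) := W.comp (fun w => w 1)

/-- the level of the two copies -/
noncomputable def sP {Ω : Type} (W : Bx Ω) (p' : Ω → ℕ) (δ r' : ℕ) (w : Fin (1 + 1) → Ω) : ℕ :=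
  if cs W p' δ r' (w 0) = true then lv (B0 W) (B1 W) w else W.j (w 0) - W.k (w 0)

/-- the bad event -/
noncomputable def bb {Ω : Type} (W : Bx Ω) (p' : Ω → ℕ) (δ r' : ℕ) (w : Fin (1 + 1) → Ω) : Bool :=
  decide (cs W p' δ r' (w 0) = true ∧ δ < lv (B0 W) (B1 W) w)

/-- the bad event in terms of `z` -/
def bd {Ω : Type} (W : Bx Ω) (p' : Ω → ℕ) (z : Ω → ℤ) (δ r' : ℕ) (w : Fin (1 + 1) → Ω) : Prop :=
  cs W p' δ r' (w 0) = true ∧ |z (w 1) - z (w 0)| ≤ 1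

/-- the two outputs -/
noncomputable def oM {Ω : Type} (W : Bx Ω) (p' : Ω → ℕ) (δ r' : ℕ) : Bx (Fin (1 + 1) → Ω) :=
  mtS (B0 W) (sB (B0 W) (sP W p' δ r') (bb W p' δ r'))

noncomputable def oJ {Ω : Type} (W : Bx Ω) (p' : Ω → ℕ) (δ r' : ℕ) : Bx (Fin (1 + 1) → Ω) :=
  jnB (B0 W) (B1 W) (sP W p' δ r') (bb W p' δ r')

theorem half_le {x y : ℕ} (h : x ≤ y) : (1 / 2 : ℝ) ^ y ≤ (1 / 2) ^ x :=
  pow_le_pow_of_le_one (by norm_num) (by norm_num) h

omit [Fintype Ω] in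
theorem sP_pos {W : Bx Ω} {p' : Ω → ℕ} {δ r' : ℕ} {w : Fin (1 + 1) → Ω}
    (h : cs W p' δ r' (w 0) = true) : sP W p' δ r' w = lv (B0 W) (B1 W) w := by
  unfold sP
  rw [if_pos h]

omit [Fintype Ω] in
theorem sP_neg {W : Bx Ω} {p' : Ω → ℕ} {δ r' : ℕ} {w : Fin (1 + 1) → Ω}
    (h : ¬ cs W p' δ r' (w 0) = true) : sP W p' δ r' w = W.j (w 0) - W.k (w 0) := by
  unfold sP
  rw [if_neg h]

section step

variable {P : Law Ω} {X : Ω → ξ} {C : Ω → γ} {W : Bx Ω} {φ : Ω → ℝ} {p' : Ω → ℕ} {z : Ω → ℤ}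
  {c : ℝ} {δ r' : ℕ} {Q : Law (Fin (1 + 1) → Ω)}

theorem Cop.sup (hQ : Cop P X C W p' δ r' Q) {w : Fin (1 + 1) → Ω} (hw : 0 < Q.w w) :
    (X (w 1) = X (w 0) ∧ C (w 1) = C (w 0) ∧ W.k (w 1) = W.k (w 0) ∧
      W.j (w 1) = W.j (w 0) ∧ cs W p' δ r' (w 1) = cs W p' δ r' (w 0) ∧
      (cs W p' δ r' (w 0) = false → W.lab (w 1) = W.lab (w 0)) ∧
      Kl C W p' δ r' (w 1) = Kl C W p' δ r' (w 0)) ∧ 0 < P.w (w 0) ∧ 0 < P.w (w 1) := by
  obtain ⟨a1, a2⟩ := cw_supp hQ hw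
  have a3 := a1 1
  simp only [Prod.mk.injEq] at a3
  obtain ⟨b1, b2⟩ := a3
  have b3 := b2
  unfold Kl Kc at b3
  simp only [Prod.mk.injEq] at b3
  obtain ⟨⟨b4, b5, b6, b7⟩, b8⟩ := b3
  refine ⟨⟨b1, b4, b5, b6, b7, ?_, b2⟩, a2 0, a2 1⟩
  intro e
  rw [b7, e] at b8
  simpa using b8

theorem Dat.case1 (D : Dat P X C W φ p' z c δ r') {ω : Ω} (hω : 0 < P.w ω)
    (h : cs W p' δ r' ω = true) : W.k ω + δ < p' ω + r' ∧
      |Real.sin (W.θ ω - φ ω)| ≤ c * (1 / 2 : ℝ) ^ (δ + 1) := by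
  have h1 : W.k ω + δ < p' ω + r' := by
    unfold cs at h
    exact of_decide_eq_true h
  refine ⟨h1, ?_⟩
  obtain ⟨-, -, -, -, a⟩ := D.ins ω hω
  have hp : (0 : ℝ) < (1 / 2 : ℝ) ^ W.k ω := by positivity
  have b1 : (1 / 2 : ℝ) ^ (p' ω + r') ≤ (1 / 2 : ℝ) ^ (δ + 1) * (1 / 2 : ℝ) ^ W.k ω := by
    rw [← pow_add]
    exact half_le (by omega)
  have b2 : |Real.sin (W.θ ω - φ ω)| * (1 / 2 : ℝ) ^ W.k ω ≤
      (c * (1 / 2 : ℝ) ^ (δ + 1)) * (1 / 2 : ℝ) ^ W.k ω := by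
    refine a.trans ?_
    rw [mul_assoc]
    exact mul_le_mul_of_nonneg_left b1 D.c0
  exact le_of_mul_le_mul_right b2 hp

omit [Fintype Ω] in
theorem case2 {ω : Ω} (h : ¬ cs W p' δ r' ω = true) : p' ω + r' ≤ W.k ω + δ := by
  unfold cs at h
  have := of_decide_eq_false (by simpa using h : decide (W.k ω + δ < p' ω + r') = false)
  omega

theorem Cop.le (_hQ : Cop P X C W p' δ r' Q) {w : Fin (1 + 1) → Ω} :
    sP W p' δ r' w ≤ W.j (w 0) - W.k (w 0) := by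
  by_cases h : cs W p' δ r' (w 0) = true
  · rw [sP_pos h]
    exact lv_le (B0 W) (B1 W) w
  · rw [sP_neg h]

theorem Cop.sin (hQ : Cop P X C W p' δ r' Q) (w : Fin (1 + 1) → Ω) (hw : 0 < Q.w w) :
    sP W p' δ r' w ≤ (B0 W).j w - (B0 W).k w ∧
      |Real.sin ((B1 W).θ w - (B0 W).θ w)| ≤ 8 * (1 / 2 : ℝ) ^ sP W p' δ r' w ∧
      (sP W p' δ r' w < (B0 W).j w - (B0 W).k w →
        4 * (1 / 2 : ℝ) ^ sP W p' δ r' w ≤ |Real.sin ((B1 W).θ w - (B0 W).θ w)|) := by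
  refine ⟨hQ.le, ?_⟩
  by_cases h : cs W p' δ r' (w 0) = true
  · rw [sP_pos h]
    exact ⟨lv_spec (B0 W) (B1 W) w, fun hlt => (lv_lt (B0 W) (B1 W) w hlt).le⟩
  · obtain ⟨⟨e1, e2, e3, e4, e5, e6, -⟩, w0, w1⟩ := hQ.sup hw
    have hf : cs W p' δ r' (w 0) = false := by simpa using h
    rw [sP_neg h]
    have hwj : (B0 W).j w - (B0 W).k w = W.j (w 0) - W.k (w 0) := rfl
    rw [hwj]
    refine ⟨?_, fun hlt => absurd hlt (lt_irrefl _)⟩
    obtain ⟨-, -, e8, -, -⟩ := lab_eq (e6 hf).symm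
    have e9 := fl1_close e8
    have e10 : |Real.sin ((B1 W).θ w - (B0 W).θ w)| ≤ |W.θ (w 0) - W.θ (w 1)| := by
      rw [abs_sin_comm]
      exact Real.abs_sin_le_abs
    have : (0 : ℝ) ≤ (1 / 2 : ℝ) ^ (W.j (w 0) - W.k (w 0)) := by positivity
    linarith

theorem Dat.ok (D : Dat P X C W φ p' z c δ r') (hQ : Cop P X C W p' δ r' Q)
    (w : Fin (1 + 1) → Ω) (hw : 0 < Q.w w) :
    Nr ((1 / 2 : ℝ) ^ (B0 W).j w) ((B1 W).l w) ((B0 W).l w) ∧ (B1 W).k w = (B0 W).k w ∧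
      (B1 W).j w = (B0 W).j w ∧ (B0 W).k w ≤ (B0 W).j w ∧ |(B0 W).θ w| ≤ 4 ∧ |(B1 W).θ w| ≤ 4 := by
  obtain ⟨⟨e1, e2, e3, e4, -, -, -⟩, w0, w1⟩ := hQ.sup hw
  obtain ⟨a1, a2, -, -, -⟩ := D.ins _ w0
  obtain ⟨b1, -, -, -, -⟩ := D.ins _ w1
  exact ⟨D.line _ _ w0 w1 e1.symm e2.symm, e3, e4, a2, a1, b1⟩

/-- good copies have a small level -/
theorem Dat.good (D : Dat P X C W φ p' z c δ r') (hQ : Cop P X C W p' δ r' Q)
    {w : Fin (1 + 1) → Ω} (hw : 0 < Q.w w) (hb : bb W p' δ r' w = true) : bd W p' z δ r' w := by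
  obtain ⟨h, hlt⟩ : cs W p' δ r' (w 0) = true ∧ δ < lv (B0 W) (B1 W) w := of_decide_eq_true hb
  refine ⟨h, ?_⟩
  by_contra hcon
  obtain ⟨⟨e1, e2, e3, e4, e5, e6, -⟩, w0, w1⟩ := hQ.sup hw
  have f1 := D.far _ _ w0 w1 e2.symm (by omega)
  have l2 := lv_spec (B0 W) (B1 W) w
  have l3 : (1 / 2 : ℝ) ^ lv (B0 W) (B1 W) w ≤ (1 / 2 : ℝ) ^ δ * (1 / 2) := by
    rw [← pow_succ]
    exact half_le (by omega)
  obtain ⟨-, a2⟩ := D.case1 w0 h
  obtain ⟨-, a3⟩ := D.case1 w1 (e5.trans h)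
  have e : φ (w 1) - φ (w 0) = ((W.θ (w 1) - W.θ (w 0)) - (W.θ (w 1) - φ (w 1))) +
      (W.θ (w 0) - φ (w 0)) := by ring
  have g1 := abs_sin_add ((W.θ (w 1) - W.θ (w 0)) - (W.θ (w 1) - φ (w 1))) (W.θ (w 0) - φ (w 0))
  have g2 := abs_sin_sub (W.θ (w 1) - W.θ (w 0)) (W.θ (w 1) - φ (w 1))
  rw [← e] at g1
  have g3 : c * (1 / 2 : ℝ) ^ (δ + 1) = c * (1 / 2 : ℝ) ^ δ * (1 / 2) := by
    rw [pow_succ]
    ring
  rw [g3] at a2 a3
  have g4 : |Real.sin (W.θ (w 1) - W.θ (w 0))| ≤ 8 * (1 / 2 : ℝ) ^ lv (B0 W) (B1 W) w := l2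
  have g5 : (0 : ℝ) < (1 / 2 : ℝ) ^ δ := by positivity
  have g6 : (c + 5) * (1 / 2 : ℝ) ^ δ = c * (1 / 2 : ℝ) ^ δ + 5 * (1 / 2 : ℝ) ^ δ := by
    ring
  rw [g6] at f1
  linarith

/-- the two conditional entropies agree -/
theorem Cop.hv (hQ : Cop P X C W p' δ r' Q) :
    hc Q (fun w => X (w 0)) (fun w => ((B0 W).lab w, Kl C W p' δ r' (w 0))) =
      hc P X (fun ω => (W.lab ω, Kl C W p' δ r' ω)) ∧
    hc Q (fun w => X (w 0)) (fun w => ((B1 W).lab w, Kl C W p' δ r' (w 0))) =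
      hc P X (fun ω => (W.lab ω, Kl C W p' δ r' ω)) ∧
    mi Q (B0 W).lab (B1 W).lab (fun w => (X (w 0), Kl C W p' δ r' (w 0))) = 0 := by
  refine ⟨cw_hc hQ 0 X (fun ω => (W.lab ω, Kl C W p' δ r' ω)), ?_, ?_⟩
  · rw [← cw_hc hQ 1 X (fun ω => (W.lab ω, Kl C W p' δ r' ω))]
    refine hc_congr Q ?_ ?_ ?_ ?_
    · intro w w' hw hw' e
      simp only [Prod.mk.injEq] at e
      obtain ⟨⟨e1, -, -, -, -, -, -⟩, -, -⟩ := hQ.sup hw
      obtain ⟨⟨e1', -, -, -, -, -, -⟩, -, -⟩ := hQ.sup hw'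
      show X (w 0) = X (w' 0)
      rw [← e1, ← e1', e.1]
    · intro w w' hw hw' e
      simp only [Prod.mk.injEq] at e
      obtain ⟨⟨e1, -, -, -, -, -, -⟩, -, -⟩ := hQ.sup hw
      obtain ⟨⟨e1', -, -, -, -, -, -⟩, -, -⟩ := hQ.sup hw'
      show X (w 1) = X (w' 1)
      rw [e1, e1', e.1]
    · intro w w' hw hw' e
      simp only [Prod.mk.injEq] at e
      obtain ⟨⟨-, -, -, -, -, -, e1⟩, -, -⟩ := hQ.sup hw
      obtain ⟨⟨-, -, -, -, -, -, e1'⟩, -, -⟩ := hQ.sup hw'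
      show (W.lab (w 1), Kl C W p' δ r' (w 0)) = (W.lab (w' 1), Kl C W p' δ r' (w' 0))
      rw [← e1, ← e1', e.1, e.2]
    · intro w w' hw hw' e
      have e' : (W.lab (w 1), Kl C W p' δ r' (w 0)) = (W.lab (w' 1), Kl C W p' δ r' (w' 0)) := e
      simp only [Prod.mk.injEq] at e'
      obtain ⟨⟨-, -, -, -, -, -, e1⟩, -, -⟩ := hQ.sup hw
      obtain ⟨⟨-, -, -, -, -, -, e1'⟩, -, -⟩ := hQ.sup hw'
      simp only [Prod.mk.injEq]
      rw [e1, e1']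
      exact e'
  · have e1 : hc Q (B0 W).lab (fun w => (X (w 0), Kl C W p' δ r' (w 0))) =
        hc P W.lab (fun ω => (X ω, Kl C W p' δ r' ω)) :=
      cw_hc hQ 0 W.lab (fun ω => (X ω, Kl C W p' δ r' ω))
    have e2 : hc Q (B0 W).lab (fun w => ((B1 W).lab w, (X (w 0), Kl C W p' δ r' (w 0)))) =
        hc P W.lab (fun ω => (X ω, Kl C W p' δ r' ω)) :=
      cw_indep hQ 0 W.lab (fun w => (B1 W).lab w) (fun w w' h => by
        show W.lab (w 1) = W.lab (w' 1)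
        rw [h 1 (by decide)])
    unfold mi
    rw [e1, e2, sub_self]

/-- the bit of the case -/
theorem bit_le (P : Law Ω) (X : Ω → ξ) (C : Ω → γ) (W : Bx Ω) (p' : Ω → ℕ) (δ r' : ℕ) :
    hc P X (fun ω => (W.lab ω, C ω)) ≤
      hc P X (fun ω => (W.lab ω, Kl C W p' δ r' ω)) + Real.log 2 := by
  have g1 := hc_via P X (cs W p' δ r') (fun ω => (W.lab ω, C ω))
  have g2 := hc_bool_le P (cs W p' δ r') (fun ω => (W.lab ω, C ω))
  have g3 : hc P X (fun ω => (cs W p' δ r' ω, (W.lab ω, C ω))) =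
      hc P X (fun ω => (W.lab ω, Kl C W p' δ r' ω)) := by
    refine hc_congr P (fun ω ω' _ _ e => congrArg Prod.fst e) (fun ω ω' _ _ e => congrArg Prod.fst e)
      ?_ ?_
    · intro ω ω' _ _ e
      simp only [Kl, Kc, Prod.mk.injEq] at e ⊢
      exact ⟨e.2.1.2.2.2, e.1, e.2.1.1⟩
    · intro ω ω' _ _ e
      simp only [Prod.mk.injEq] at e
      obtain ⟨q1, q2, q3⟩ := e
      have q4 := lab_eq q2
      simp only [Kl, Kc, Prod.mk.injEq]
      exact ⟨q2, ⟨q3, q4.1, q4.2.1, q1⟩, by rw [q1, q2]⟩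
  rw [g3] at g1
  linarith

open Classical in
/-- probability of the bad event -/
theorem Cop.bad_le (hQ : Cop P X C W p' δ r' Q) (z : Ω → ℤ) :
    Q.ex (fun w => Law.ind (bd W p' z δ r' w)) ≤
      3 * col P z (fun ω => (X ω, Kc C W p' δ r' ω)) := by
  classical
  obtain ⟨Q1, hQ1⟩ := cw_exists P (fun ω => (X ω, Kc C W p' δ r' ω)) 1
  refine le_trans ?_ (near_le hQ1 z)
  have e1 : Q.ex (fun w => Law.ind (bd W p' z δ r' w)) =
      Q1.ex (fun w => Law.ind (bd W p' z δ r' w)) := by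
    have t1 := pair_law hQ (fun ω ω' => Law.ind (cs W p' δ r' ω = true ∧ |z ω' - z ω| ≤ 1))
    have t2 := pair_law hQ1 (fun ω ω' => Law.ind (cs W p' δ r' ω = true ∧ |z ω' - z ω| ≤ 1))
    refine t1.trans (Eq.trans ?_ t2.symm)
    refine P.ex_congr fun ω _ => ?_
    by_cases h : cs W p' δ r' ω = true
    · have hKK : ∀ ω', (X ω', Kl C W p' δ r' ω') = (X ω, Kl C W p' δ r' ω) ↔
          (X ω', Kc C W p' δ r' ω') = (X ω, Kc C W p' δ r' ω) := by
        intro ω'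
        simp only [Kl, Prod.mk.injEq]
        constructor
        · intro e
          exact ⟨e.1, e.2.1⟩
        · intro e
          refine ⟨e.1, e.2, ?_⟩
          have e3 : cs W p' δ r' ω' = cs W p' δ r' ω := by
            have := e.2
            unfold Kc at this
            simp only [Prod.mk.injEq] at this
            exact this.2.2.2
          rw [e3, h]
          simp
      have hpr : P.pr (fun ω => (X ω, Kl C W p' δ r' ω)) (X ω, Kl C W p' δ r' ω) =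
          P.pr (fun ω => (X ω, Kc C W p' δ r' ω)) (X ω, Kc C W p' δ r' ω) := by
        unfold Law.pr
        refine Finset.sum_congr ?_ fun _ _ => rfl
        ext ω'
        simp only [Finset.mem_filter, Finset.mem_univ, true_and]
        exact hKK ω'
      rw [hpr]
      congr 1
      refine Finset.sum_congr rfl fun ω' _ => ?_
      by_cases h2 : (X ω', Kl C W p' δ r' ω') = (X ω, Kl C W p' δ r' ω)
      · rw [if_pos h2, if_pos ((hKK ω').1 h2)]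
      · rw [if_neg h2, if_neg (fun e => h2 ((hKK ω').2 e))]
    · have hz : ∀ ω', Law.ind (cs W p' δ r' ω = true ∧ |z ω' - z ω| ≤ 1) = 0 := fun ω' =>
        Law.ind_not fun e => h e.1
      simp only [hz, mul_zero, ite_self, Finset.sum_const_zero, zero_div]
  rw [e1]
  refine Q1.ex_mono fun w _ => ?_
  by_cases h : bd W p' z δ r' w
  · rw [Law.ind_of h, Law.ind_of h.2]
  · rw [Law.ind_not h]
    unfold Law.ind
    split_ifs <;> norm_num

open Classical in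
/-- probability of the bad event -/
theorem Dat.bb_le (D : Dat P X C W φ p' z c δ r') (hQ : Cop P X C W p' δ r' Q) :
    max 0 (1 - 3 * col P z (fun ω => (X ω, Kc C W p' δ r' ω))) ≤
      Q.ex (fun w => 1 - Law.ind (bb W p' δ r' w = true)) := by
  refine max_le ?_ ?_
  · refine Q.ex_nonneg fun w _ => ?_
    unfold Law.ind
    split_ifs <;> norm_num
  · have h1 := hQ.bad_le z
    have h2 : Q.ex (fun w => Law.ind (bb W p' δ r' w = true)) ≤
        Q.ex (fun w => Law.ind (bd W p' z δ r' w)) := by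
      refine Q.ex_mono fun w hw => ?_
      by_cases h : bb W p' δ r' w = true
      · rw [Law.ind_of h, Law.ind_of (D.good hQ hw h)]
      · rw [Law.ind_not h]
        unfold Law.ind
        split_ifs <;> norm_num
    rw [Q.ex_sub, Q.ex_const]
    linarith

/-- submodularity for the two copies -/
theorem Dat.sub (D : Dat P X C W φ p' z c δ r') (hQ : Cop P X C W p' δ r' Q) :
    2 * hc P X (fun ω => (W.lab ω, C ω)) ≤
      hc Q (fun w => X (w 0)) (fun w => ((oM W p' δ r').lab w, C (w 0))) +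
      hc Q (fun w => X (w 0)) (fun w => ((oJ W p' δ r').lab w, C (w 0))) +
      (105 + 3 * Real.log (δ + 1)) := by
  classical
  have hsub := sub_bb Q (B0 W) (B1 W) (sP W p' δ r') (bb W p' δ r') (fun w => X (w 0))
    (fun w => Kl C W p' δ r' (w 0)) (δ + 1) (D.ok hQ) (fun w hw _ => hQ.sin w hw)
    (fun w hw hbw => by
      refine ⟨(Finset.range (δ + 1)).image (fun i => if cs W p' δ r' (w 0) = true then i else
        W.j (w 0) - W.k (w 0)), ?_, fun w' hw' hbw' e => ?_⟩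
      · exact Finset.card_image_le.trans (by simp)
      · simp only [Kl, Kc, Prod.mk.injEq] at e
        obtain ⟨⟨-, k1, k2, k3⟩, -⟩ := e
        rw [Finset.mem_image]
        by_cases h : cs W p' δ r' (w' 0) = true
        · have h' : cs W p' δ r' (w 0) = true := k3 ▸ h
          have hnb : ¬ (cs W p' δ r' (w' 0) = true ∧ δ < lv (B0 W) (B1 W) w') := of_decide_eq_false hbw'
          have hle : lv (B0 W) (B1 W) w' ≤ δ := by
            by_contra hcon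
            exact hnb ⟨h, by omega⟩
          refine ⟨lv (B0 W) (B1 W) w', ?_, ?_⟩
          · rw [Finset.mem_range]
            omega
          · rw [if_pos h', sP_pos h]
        · have h' : ¬ cs W p' δ r' (w 0) = true := fun q => h (k3 ▸ q)
          refine ⟨0, by simp, ?_⟩
          rw [if_neg h', sP_neg h, k1, k2])
  obtain ⟨hv1, hv2, hmi⟩ := hQ.hv
  rw [hmi, hv1, hv2] at hsub
  have hcM : hc Q (fun w => X (w 0)) (fun w => ((oM W p' δ r').lab w, Kl C W p' δ r' (w 0))) ≤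
      hc Q (fun w => X (w 0)) (fun w => ((oM W p' δ r').lab w, C (w 0))) :=
    hc_mono_right Q _ fun w w' _ _ e => by
      simp only [Kl, Kc, Prod.mk.injEq] at e ⊢
      exact ⟨e.1, e.2.1.1⟩
  have hcJ : hc Q (fun w => X (w 0)) (fun w => ((oJ W p' δ r').lab w, Kl C W p' δ r' (w 0))) ≤
      hc Q (fun w => X (w 0)) (fun w => ((oJ W p' δ r').lab w, C (w 0))) :=
    hc_mono_right Q _ fun w w' _ _ e => by
      simp only [Kl, Kc, Prod.mk.injEq] at e ⊢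
      exact ⟨e.1, e.2.1.1⟩
  have hbit := bit_le P X C W p' δ r'
  have l2 : Real.log 2 ≤ 1 := by
    have := Real.log_two_lt_d9
    linarith
  push_cast at hsub
  unfold oM oJ at *
  linarith

end step

end Vale.Agent.P127.U.Lip
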