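import Vale.Agent.P127.U.Lam.LipD
import Vale.Agent.P127.U.Lam.Exc

/-!
# P127 / U / Lam : LIP, the theorem (helper513)

* `lip` : a label `W` inside the slab `(p', p' + r')` of direction `φ` gives a label `A` with
  `W.k ≤ A.k ≤ A.j ≤ W.j` and
  `H(X|W,C) + log 2 E((1-lam)(W.k+W.j) + 2 lam p') + lam log 2 (r' - δ) max 0 (1 - 3 col)
    ≤ H(X|A,C) + log 2 E(szl A) + 53 + 2 log (δ + 1)`.
-/

set_option autoImplicit false

namespace Vale.Agent.P127.U.Lip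

open Vale.Agent.P127 Vale.Agent.P127.Stk Apx C2 SubF

theorem sz1 {lam : ℝ} {k j p s : ℕ} {R : ℝ} (h0 : 0 ≤ lam) (hs : s ≤ j - k) (hkj : k ≤ j)
    (hR : 2 * (p : ℝ) + R + s ≤ (k : ℝ) + j) :
    2 * ((1 - lam) * ((k : ℝ) + j) + 2 * lam * p) + 2 * (lam * R) ≤
      ((1 + lam) * ((j - s : ℕ) : ℝ) + (1 - lam) * j) +
      ((1 + lam) * k + (1 - lam) * ((k + s : ℕ) : ℝ)) := by
  have hsj : s ≤ j := by omega
  rw [Nat.cast_sub hsj, Nat.cast_add]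
  have e1 := mul_nonneg h0 (sub_nonneg.2 hR)
  have e : (((1 + lam) * ((j : ℝ) - s) + (1 - lam) * j) + ((1 + lam) * k + (1 - lam) * ((k : ℝ) + s))) -
      (2 * ((1 - lam) * ((k : ℝ) + j) + 2 * lam * p) + 2 * (lam * R)) =
      2 * (lam * ((k : ℝ) + j - (2 * p + R + s))) := by ring
  linarith

variable {Ω : Type} [Fintype Ω] {γ ξ : Type*}

section step

variable {P : Law Ω} {X : Ω → ξ} {C : Ω → γ} {W : Bx Ω} {φ : Ω → ℝ} {p' : Ω → ℕ} {z : Ω → ℤ}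
  {c : ℝ} {δ r' : ℕ} {Q : Law (Fin (1 + 1) → Ω)}

theorem Dat.lv_le (hQ : Cop P X C W p' δ r' Q) (w : Fin (1 + 1) → Ω) :
    sB (B0 W) (sP W p' δ r') (bb W p' δ r') w ≤ W.j (w 0) - W.k (w 0) := by
  unfold sB
  split_ifs
  · exact le_refl _
  · exact hQ.le

/-- the two outputs -/
theorem Dat.out (D : Dat P X C W φ p' z c δ r') (hQ : Cop P X C W p' δ r' Q)
    (w : Fin (1 + 1) → Ω) (hw : 0 < Q.w w) :
    ((oM W p' δ r').l w = W.l (w 0) ∧ |(oM W p' δ r').θ w| ≤ 4 ∧ W.k (w 0) ≤ (oM W p' δ r').k w ∧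
      (oM W p' δ r').k w ≤ (oM W p' δ r').j w ∧ (oM W p' δ r').j w ≤ W.j (w 0)) ∧
    ((oJ W p' δ r').l w = W.l (w 0) ∧ |(oJ W p' δ r').θ w| ≤ 4 ∧ W.k (w 0) ≤ (oJ W p' δ r').k w ∧
      (oJ W p' δ r').k w ≤ (oJ W p' δ r').j w ∧ (oJ W p' δ r').j w ≤ W.j (w 0)) := by
  obtain ⟨-, w0, w1⟩ := hQ.sup hw
  obtain ⟨a1, a2, -, -, -⟩ := D.ins _ w0
  obtain ⟨b1, -, -, -, -⟩ := D.ins _ w1
  have hs := Dat.lv_le hQ w
  refine ⟨⟨rfl, a1, ?_, ?_, le_refl _⟩, rfl, ?_, le_refl _, ?_, ?_⟩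
  · show W.k (w 0) ≤ W.j (w 0) - sB (B0 W) (sP W p' δ r') (bb W p' δ r') w
    omega
  · show W.j (w 0) - sB (B0 W) (sP W p' δ r') (bb W p' δ r') w ≤ W.j (w 0)
    omega
  · show |if bb W p' δ r' w = true then W.θ (w 1) else W.θ (w 0)| ≤ 4
    split_ifs
    · exact b1
    · exact a1
  · show W.k (w 0) ≤ W.k (w 0) + sB (B0 W) (sP W p' δ r') (bb W p' δ r') w
    omega
  · show W.k (w 0) + sB (B0 W) (sP W p' δ r') (bb W p' δ r') w ≤ W.j (w 0)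
    omega

open Classical in
/-- the sizes, pointwise -/
theorem Dat.szw (D : Dat P X C W φ p' z c δ r') (hQ : Cop P X C W p' δ r' Q) {lam : ℝ}
    (h0 : 0 ≤ lam) (w : Fin (1 + 1) → Ω) (hw : 0 < Q.w w) :
    2 * ((1 - lam) * ((W.k (w 0) : ℝ) + W.j (w 0)) + 2 * lam * p' (w 0)) +
      2 * (lam * (((r' : ℝ) - δ) * (1 - Law.ind (bb W p' δ r' w = true)))) ≤
      (oM W p' δ r').szl lam w + (oJ W p' δ r').szl lam w := by
  obtain ⟨-, w0, w1⟩ := hQ.sup hw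
  obtain ⟨a1, a2, a3, a4, a5⟩ := D.ins _ w0
  refine sz1 h0 (Dat.lv_le hQ w) a2 ?_
  have a3' : (p' (w 0) : ℝ) ≤ W.k (w 0) := by exact_mod_cast a3
  have a4' : (p' (w 0) : ℝ) + r' ≤ W.j (w 0) := by exact_mod_cast a4
  have a2' : (W.k (w 0) : ℝ) ≤ W.j (w 0) := by exact_mod_cast a2
  by_cases hb : bb W p' δ r' w = true
  · have hsb : sB (B0 W) (sP W p' δ r') (bb W p' δ r') w = W.j (w 0) - W.k (w 0) := by
      unfold sB
      rw [if_pos hb]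
      rfl
    rw [hsb, Law.ind_of hb, sub_self, mul_zero, add_zero, Nat.cast_sub a2]
    linarith
  · have hsb : sB (B0 W) (sP W p' δ r') (bb W p' δ r') w = sP W p' δ r' w := by
      unfold sB
      rw [if_neg hb]
    rw [hsb, Law.ind_not hb, sub_zero, mul_one]
    by_cases h : cs W p' δ r' (w 0) = true
    · rw [sP_pos h]
      have hle : lv (B0 W) (B1 W) w ≤ δ := by
        by_contra hcon
        apply hb
        unfold bb
        exact decide_eq_true ⟨h, by omega⟩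
      have hle' : (lv (B0 W) (B1 W) w : ℝ) ≤ δ := by exact_mod_cast hle
      linarith
    · rw [sP_neg h, Nat.cast_sub a2]
      have c2 := case2 h
      have c2' : (p' (w 0) : ℝ) + r' ≤ W.k (w 0) + δ := by exact_mod_cast c2
      linarith

/-- the sizes -/
theorem Dat.szs (D : Dat P X C W φ p' z c δ r') (hQ : Cop P X C W p' δ r' Q) {lam : ℝ}
    (h0 : 0 ≤ lam) :
    2 * P.ex (fun ω => (1 - lam) * ((W.k ω : ℝ) + W.j ω) + 2 * lam * p' ω) +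
      2 * (lam * (((r' : ℝ) - δ) *
        max 0 (1 - 3 * col P z (fun ω => (X ω, Kc C W p' δ r' ω))))) ≤
      Q.ex ((oM W p' δ r').szl lam) + Q.ex ((oJ W p' δ r').szl lam) := by
  classical
  have hR : 0 ≤ (r' : ℝ) - δ := by
    have : (δ : ℝ) ≤ r' := by exact_mod_cast D.rr
    linarith
  have t1 := Q.ex_mono (fun w hw => D.szw hQ h0 w hw)
  have t2 : Q.ex (fun w => 2 * ((1 - lam) * ((W.k (w 0) : ℝ) + W.j (w 0)) + 2 * lam * p' (w 0)) +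
      2 * (lam * (((r' : ℝ) - δ) * (1 - Law.ind (bb W p' δ r' w = true))))) =
      2 * P.ex (fun ω => (1 - lam) * ((W.k ω : ℝ) + W.j ω) + 2 * lam * p' ω) +
      2 * (lam * (((r' : ℝ) - δ) * Q.ex (fun w => 1 - Law.ind (bb W p' δ r' w = true)))) := by
    rw [Q.ex_add, Q.ex_const_mul, Q.ex_const_mul, Q.ex_const_mul, Q.ex_const_mul]
    rw [ex_law_aux Q P (fun w => w 0) (cw_marg hQ 0)
      (fun ω => (1 - lam) * ((W.k ω : ℝ) + W.j ω) + 2 * lam * p' ω)]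
  rw [t2, Q.ex_add] at t1
  have e3 := mul_le_mul_of_nonneg_left (mul_le_mul_of_nonneg_left (D.bb_le hQ) hR) h0
  have e4 : Q.ex (fun w => (oM W p' δ r').szl lam w) = Q.ex ((oM W p' δ r').szl lam) := rfl
  have e5 : Q.ex (fun w => (oJ W p' δ r').szl lam w) = Q.ex ((oJ W p' δ r').szl lam) := rfl
  linarith

end step

/-- **LIP** -/
theorem lip {lam : ℝ} (h0 : 0 ≤ lam) {P : Law Ω} {X : Ω → ξ} {C : Ω → γ} {W : Bx Ω}
    {φ : Ω → ℝ} {p' : Ω → ℕ} {z : Ω → ℤ} {c : ℝ} {δ r' : ℕ}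
    (D : Dat P X C W φ p' z c δ r') :
    ∃ (Ω' : Type) (_ : Fintype Ω') (P' : Law Ω') (π : Ω' → Ω) (A : Bx Ω'),
      (∀ ω, P'.pr π ω = P.w ω) ∧
      (∀ ω, 0 < P'.w ω → A.l ω = W.l (π ω) ∧ |A.θ ω| ≤ 4 ∧ W.k (π ω) ≤ A.k ω ∧ A.k ω ≤ A.j ω ∧
        A.j ω ≤ W.j (π ω)) ∧
      hc P X (fun ω => (W.lab ω, C ω)) +
        Real.log 2 * P.ex (fun ω => (1 - lam) * ((W.k ω : ℝ) + W.j ω) + 2 * lam * p' ω) +
        Real.log 2 * (lam * (((r' : ℝ) - δ) *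
          max 0 (1 - 3 * col P z (fun ω => (X ω, Kc C W p' δ r' ω))))) ≤
        hc P' (fun ω => X (π ω)) (fun ω => (A.lab ω, C (π ω))) +
          Real.log 2 * P'.ex (A.szl lam) + (53 + 2 * Real.log (δ + 1)) := by
  obtain ⟨Q, hQ⟩ := cw_exists P (fun ω => (X ω, Kl C W p' δ r' ω)) 1
  have hQ' : Cop P X C W p' δ r' Q := hQ
  have hsub := D.sub hQ'
  have hsz := D.szs hQ' h0
  have hl2 : 0 < Real.log 2 := Real.log_pos (by norm_num)
  have hsz' := mul_le_mul_of_nonneg_left hsz hl2.le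
  have hδ : 0 ≤ Real.log ((δ : ℝ) + 1) := Real.log_nonneg (by linarith [Nat.cast_nonneg (α := ℝ) δ])
  set g := lam * (((r' : ℝ) - δ) * max 0 (1 - 3 * col P z (fun ω => (X ω, Kc C W p' δ r' ω)))) with hg
  set s0 := P.ex (fun ω => (1 - lam) * ((W.k ω : ℝ) + W.j ω) + 2 * lam * p' ω) with hs0
  rw [show Real.log 2 * (2 * s0 + 2 * g) = 2 * (Real.log 2 * s0) + 2 * (Real.log 2 * g) by ring,
    mul_add] at hsz'
  rcases le_total (hc Q (fun w => X (w 0)) (fun w => ((oM W p' δ r').lab w, C (w 0))) +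
      Real.log 2 * Q.ex ((oM W p' δ r').szl lam))
    (hc Q (fun w => X (w 0)) (fun w => ((oJ W p' δ r').lab w, C (w 0))) +
      Real.log 2 * Q.ex ((oJ W p' δ r').szl lam)) with hle | hle
  · exact ⟨Fin (1 + 1) → Ω, inferInstance, Q, fun w => w 0, oJ W p' δ r', cw_marg hQ 0,
      fun w hw => (D.out hQ' w hw).2, by linarith⟩
  · exact ⟨Fin (1 + 1) → Ω, inferInstance, Q, fun w => w 0, oM W p' δ r', cw_marg hQ 0,
      fun w hw => (D.out hQ' w hw).1, by linarith⟩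

end Vale.Agent.P127.U.Lip
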