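import Vale.Agent.P127.U.Lam.PathA

/-!
# P127 / U / Lam : composition of states of a path (helper465)

`O(1)` comparisons between the state `(a + w, r + ρ)` and the state `(w, ρ)` of the state line `(a, r)`.
* `hc_inner`, `hc_outer` : the two families of cells are equivalent;
* `RF` residual entropy, `RF_comp`;
* `tube_of` : the tube of the state line is known from the line and the cell; `DF_state` deficit;
* `EF` the functional, `EF_comp` : **composition**.
-/

set_option autoImplicit false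

namespace Vale.Agent.P127.U.Pf

open Filter Topology Vale.Agent.P127 Vale.Agent.P127.Stk Vale.Agent.P127.U.Apx Sys

theorem log_le13 {x : ℝ} (h0 : 0 < x) (h : x ≤ 13) : Real.log x ≤ Real.log 13 :=
  Real.log_le_log h0 h

theorem log13_nonneg : 0 ≤ Real.log 13 := Real.log_nonneg (by norm_num)

/-- `2^s (qa s' x - qa s x)` is in `[0, 1]` -/
theorem qa_diff {s s' : ℕ} (h : s ≤ s') (x : ℝ) :
    0 ≤ (2 : ℝ) ^ s * (qa s' x - qa s x) ∧ (2 : ℝ) ^ s * (qa s' x - qa s x) ≤ 1 := by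
  rw [← Lam.Ball.qa_tfr h]
  have h1 : 0 ≤ Lam.Ball.tfr s x := Int.fract_nonneg _
  have h2 : Lam.Ball.tfr s x ≤ 1 := (Int.fract_lt_one _).le
  refine ⟨?_, (qa_le _ _).trans h2⟩
  unfold qa fl1
  have : (0 : ℤ) ≤ ⌊(2 : ℝ) ^ (s' - s) * Lam.Ball.tfr s x⌋ :=
    Int.floor_nonneg.2 (mul_nonneg (by positivity) h1)
  have h3 : (0 : ℝ) ≤ (⌊(2 : ℝ) ^ (s' - s) * Lam.Ball.tfr s x⌋ : ℝ) := by exact_mod_cast this
  positivity

section finite

variable {Ω : Type} [Fintype Ω] {γ : Type*} (P : Law Ω)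

/-- the coarse direction cell from the fine cell -/
theorem hc_dir (r ρ : ℕ) (v : Ω → ℝ) (y : Ω → Fin 2 → ℝ) (Z : Ω → γ)
    (hZ : ∀ ω ω', Z ω = Z ω' → fl1 (r + ρ) (v ω) = fl1 (r + ρ) (v ω') ∧
      fl 0 (shv (r + ρ) (v ω) (y ω)) = fl 0 (shv (r + ρ) (v ω') (y ω'))) :
    Stk.hc P (fun ω => fl 0 (shv r (v ω) (y ω))) Z ≤ 2 * Real.log 13 := by
  have h := hc_fl_apx P (ι := Fin 2) 0 2 (fun ω => shv r (v ω) (y ω)) Z (by
    intro ω ω' _ _ e
    obtain ⟨e1, e2⟩ := hZ ω ω' e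
    have a0 := fl_close e2 0
    have a1 := fl_close e2 1
    rw [shv0, shv0] at a0
    rw [shv1, shv1] at a1
    have q1 := qa_congr e1
    have q2 : qa r (v ω) = qa r (v ω') := qa_congr (fl1_of_fl1 (Nat.le_add_right _ _) e1)
    obtain ⟨d1, d2⟩ := qa_diff (Nat.le_add_right r ρ) (v ω')
    rw [q1] at a1
    simp only [pow_zero] at a0 a1 ⊢
    rw [Fin.forall_fin_two]
    constructor
    · rw [shv0, shv0]
      push_cast
      linarith
    · rw [shv1, shv1, q2]
      have hρ : (1 : ℝ) ≤ 2 ^ ρ := one_le_pow₀ (by norm_num)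
      have hρ0 : (0 : ℝ) < 2 ^ ρ := by positivity
      set D := (2 : ℝ) ^ r * (qa (r + ρ) (v ω') - qa r (v ω')) with hD
      set u := (2 : ℝ) ^ (r + ρ) * (y ω 1 - qa (r + ρ) (v ω') * y ω 0) -
        2 ^ (r + ρ) * (y ω' 1 - qa (r + ρ) (v ω') * y ω' 0) with hu
      have e3 : (2 : ℝ) ^ r * (y ω 1 - qa r (v ω') * y ω 0) - 2 ^ r * (y ω' 1 - qa r (v ω') * y ω' 0) =
          u / 2 ^ ρ + D * (y ω 0 - y ω' 0) := by
        rw [hu, hD, pow_add]
        field_simp
        ring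
      rw [e3]
      have b1 : |u / 2 ^ ρ| ≤ 1 := by
        rw [abs_div, abs_of_pos hρ0, div_le_one hρ0]
        exact a1.trans hρ
      have b2 : |D * (y ω 0 - y ω' 0)| ≤ 1 := by
        rw [abs_mul, abs_of_nonneg d1]
        calc D * |y ω 0 - y ω' 0| ≤ 1 * 1 := mul_le_mul d2 a0 (abs_nonneg _) zero_le_one
          _ = 1 := one_mul 1
      calc |u / 2 ^ ρ + D * (y ω 0 - y ω' 0)| ≤ |u / 2 ^ ρ| + |D * (y ω 0 - y ω' 0)| := abs_add_le _ _
        _ ≤ 1 + 1 := add_le_add b1 b2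
        _ = _ := by norm_num)
  refine h.trans (le_of_eq_of_le (by rw [Fintype.card_fin]) ?_)
  have := log_le13 (x := 2 * ((2 : ℕ) : ℝ) + 3) (by norm_num) (by norm_num)
  push_cast at this ⊢
  linarith

/-- the coarse position cell from the fine cell -/
theorem hc_pos (a w r ρ : ℕ) (l : Ω → Ln) (t v : Ω → ℝ) (Z : Ω → γ)
    (hZ : ∀ ω ω', Z ω = Z ω' → cell (a + w) (r + ρ) l t v ω = cell (a + w) (r + ρ) l t v ω' ∧
      fl 0 (shv r (v ω) (l ω).2) = fl 0 (shv r (v ω') (l ω').2)) :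
    Stk.hc P (fun ω => fl a (shv r (v ω) (pos (l ω) (qa a (t ω))))) Z ≤ 2 * Real.log 13 := by
  have h := hc_fl_apx P (ι := Fin 2) a 5 (fun ω => shv r (v ω) (pos (l ω) (qa a (t ω)))) Z (by
    intro ω ω' _ _ e
    obtain ⟨e0, e5⟩ := hZ ω ω' e
    have e1 : fl1 (a + w) (t ω) = fl1 (a + w) (t ω') := congrArg Prod.fst e0
    have e2 : fl1 (r + ρ) (v ω) = fl1 (r + ρ) (v ω') := congrArg (fun q => q.2.1) e0
    have e3 : fl 0 (shv (r + ρ) (v ω) (l ω).2) = fl 0 (shv (r + ρ) (v ω') (l ω').2) :=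
      congrArg (fun q => q.2.2.1) e0
    have e4 : fl (a + w) (shv (r + ρ) (v ω) (pos (l ω) (qa (a + w) (t ω)))) =
        fl (a + w) (shv (r + ρ) (v ω') (pos (l ω') (qa (a + w) (t ω')))) :=
      congrArg (fun q => q.2.2.2) e0
    have a0 := fl_close e3 0
    have b0 := fl_close e4 0
    have b1 := fl_close e4 1
    have c0 := fl_close e5 0
    have c1 := fl_close e5 1
    rw [shv0, shv0] at a0 b0 c0
    rw [shv1, shv1] at b1 c1
    have q1 := qa_congr e2
    have q2 : qa r (v ω) = qa r (v ω') := qa_congr (fl1_of_fl1 (Nat.le_add_right _ _) e2)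
    have q3 := qa_congr e1
    have q4 : qa a (t ω) = qa a (t ω') := qa_congr (fl1_of_fl1 (Nat.le_add_right _ _) e1)
    obtain ⟨d1, d2⟩ := qa_diff (Nat.le_add_right r ρ) (v ω')
    obtain ⟨g1, g2⟩ := qa_diff (Nat.le_add_right a w) (t ω')
    rw [q1, q3] at b1
    rw [q3] at b0
    rw [q2] at c1
    simp only [pow_zero] at a0 c0 c1
    have ha : (0 : ℝ) < 2 ^ a := by positivity
    have hw : (0 : ℝ) < 2 ^ w := by positivity
    have hw1 : (1 : ℝ) ≤ 2 ^ w := one_le_pow₀ (by norm_num)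
    have hρ : (1 : ℝ) ≤ 2 ^ ρ := one_le_pow₀ (by norm_num)
    have hρ0 : (0 : ℝ) < 2 ^ ρ := by positivity
    have e2a : (1 / 2 : ℝ) ^ a * 2 ^ a = 1 := by rw [← mul_pow]; norm_num
    have e2b : (1 / 2 : ℝ) ^ (a + w) * 2 ^ (a + w) = 1 := by rw [← mul_pow]; norm_num
    -- fine position scaled
    set p0 := pos (l ω) (qa (a + w) (t ω')) 0 - pos (l ω') (qa (a + w) (t ω')) 0 with hp0
    set p1 := pos (l ω) (qa (a + w) (t ω')) 1 - pos (l ω') (qa (a + w) (t ω')) 1 with hp1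
    set τ := (2 : ℝ) ^ a * (qa (a + w) (t ω') - qa a (t ω')) with hτ
    set D := (2 : ℝ) ^ r * (qa (r + ρ) (v ω') - qa r (v ω')) with hD
    have f0 : |2 ^ a * p0| ≤ 1 := by
      rw [abs_mul, abs_of_pos ha]
      calc 2 ^ a * |p0| ≤ 2 ^ a * (1 / 2 : ℝ) ^ (a + w) := by gcongr
        _ ≤ 2 ^ a * (1 / 2 : ℝ) ^ a := by
            have := pow_le_pow_of_le_one (by norm_num : (0:ℝ) ≤ 1 / 2) (by norm_num) (Nat.le_add_right a w)
            gcongr
        _ = 1 := by rw [mul_comm]; exact e2a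
    have f1 : |2 ^ a * (2 ^ r * (p1 - qa (r + ρ) (v ω') * p0))| ≤ 1 := by
      have e6 : (2 : ℝ) ^ (r + ρ) * (pos (l ω) (qa (a + w) (t ω')) 1 -
          qa (r + ρ) (v ω') * pos (l ω) (qa (a + w) (t ω')) 0) -
          2 ^ (r + ρ) * (pos (l ω') (qa (a + w) (t ω')) 1 -
          qa (r + ρ) (v ω') * pos (l ω') (qa (a + w) (t ω')) 0) =
          2 ^ (r + ρ) * (p1 - qa (r + ρ) (v ω') * p0) := by rw [hp0, hp1]; ring
      rw [e6] at b1
      have e7 : (2 : ℝ) ^ a * (2 ^ r * (p1 - qa (r + ρ) (v ω') * p0)) =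
          (2 ^ (r + ρ) * (p1 - qa (r + ρ) (v ω') * p0)) * (2 ^ (a + w) / (2 ^ w * 2 ^ ρ)) := by
        rw [pow_add, pow_add]
        field_simp
      rw [e7, abs_mul, abs_of_pos (by positivity : (0:ℝ) < 2 ^ (a + w) / (2 ^ w * 2 ^ ρ))]
      calc |2 ^ (r + ρ) * (p1 - qa (r + ρ) (v ω') * p0)| * (2 ^ (a + w) / (2 ^ w * 2 ^ ρ))
          ≤ (1 / 2 : ℝ) ^ (a + w) * (2 ^ (a + w) / (2 ^ w * 2 ^ ρ)) := by gcongr
        _ = ((1 / 2 : ℝ) ^ (a + w) * 2 ^ (a + w)) / (2 ^ w * 2 ^ ρ) := by ring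
        _ = 1 / (2 ^ w * 2 ^ ρ) := by rw [e2b]
        _ ≤ 1 := by
            rw [div_le_one (by positivity)]
            nlinarith
    have hdiff : ∀ i, pos (l ω) (qa a (t ω)) i - pos (l ω') (qa a (t ω')) i =
        (pos (l ω) (qa (a + w) (t ω')) i - pos (l ω') (qa (a + w) (t ω')) i) -
          (qa (a + w) (t ω') - qa a (t ω')) * ((l ω).2 i - (l ω').2 i) := by
      intro i
      rw [q4]
      unfold pos
      ring
    have hinv : ∀ x : ℝ, |2 ^ a * x| ≤ 5 → |x| ≤ 5 * (1 / 2 : ℝ) ^ a := by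
      intro x hx
      rw [abs_mul, abs_of_pos ha] at hx
      calc |x| = (2 ^ a * |x|) * (1 / 2 : ℝ) ^ a := by
            rw [mul_comm (2 ^ a) |x|, mul_assoc, mul_comm ((2:ℝ) ^ a), e2a, mul_one]
        _ ≤ 5 * (1 / 2 : ℝ) ^ a := by gcongr
    rw [Fin.forall_fin_two]
    push_cast
    constructor
    · rw [shv0, shv0]
      apply hinv
      rw [hdiff 0]
      have e8 : (2 : ℝ) ^ a * (p0 - (qa (a + w) (t ω') - qa a (t ω')) * ((l ω).2 0 - (l ω').2 0)) =
          2 ^ a * p0 - τ * ((l ω).2 0 - (l ω').2 0) := by rw [hτ]; ring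
      rw [e8]
      have k1 : |τ * ((l ω).2 0 - (l ω').2 0)| ≤ 1 := by
        rw [abs_mul, abs_of_nonneg g1]
        calc τ * |(l ω).2 0 - (l ω').2 0| ≤ 1 * 1 := mul_le_mul g2 c0 (abs_nonneg _) zero_le_one
          _ = 1 := one_mul 1
      have := abs_sub (2 ^ a * p0) (τ * ((l ω).2 0 - (l ω').2 0))
      linarith
    · rw [shv1, shv1, q2]
      apply hinv
      have h0 := hdiff 0
      have h1 := hdiff 1
      have e8 : (2 : ℝ) ^ a * (2 ^ r * (pos (l ω) (qa a (t ω)) 1 - qa r (v ω') * pos (l ω) (qa a (t ω)) 0) -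
          2 ^ r * (pos (l ω') (qa a (t ω')) 1 - qa r (v ω') * pos (l ω') (qa a (t ω')) 0)) =
          2 ^ a * (2 ^ r * (p1 - qa (r + ρ) (v ω') * p0)) + D * (2 ^ a * p0) -
          τ * (2 ^ r * ((l ω).2 1 - qa r (v ω') * (l ω).2 0) -
            2 ^ r * ((l ω').2 1 - qa r (v ω') * (l ω').2 0)) := by
        have e9 : (2 : ℝ) ^ r * (pos (l ω) (qa a (t ω)) 1 - qa r (v ω') * pos (l ω) (qa a (t ω)) 0) -
          2 ^ r * (pos (l ω') (qa a (t ω')) 1 - qa r (v ω') * pos (l ω') (qa a (t ω')) 0) =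
          2 ^ r * ((pos (l ω) (qa a (t ω)) 1 - pos (l ω') (qa a (t ω')) 1) -
            qa r (v ω') * (pos (l ω) (qa a (t ω)) 0 - pos (l ω') (qa a (t ω')) 0)) := by ring
        rw [e9, h0, h1, hD, hτ, hp0, hp1]
        ring
      rw [e8]
      have k1 : |D * (2 ^ a * p0)| ≤ 1 := by
        rw [abs_mul, abs_of_nonneg d1]
        calc D * |2 ^ a * p0| ≤ 1 * 1 := mul_le_mul d2 f0 (abs_nonneg _) zero_le_one
          _ = 1 := one_mul 1
      have k2 : |τ * (2 ^ r * ((l ω).2 1 - qa r (v ω') * (l ω).2 0) -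
            2 ^ r * ((l ω').2 1 - qa r (v ω') * (l ω').2 0))| ≤ 1 := by
        rw [abs_mul, abs_of_nonneg g1]
        calc τ * |_| ≤ 1 * 1 := mul_le_mul g2 c1 (abs_nonneg _) zero_le_one
          _ = 1 := one_mul 1
      have k3 := abs_sub (2 ^ a * (2 ^ r * (p1 - qa (r + ρ) (v ω') * p0)) + D * (2 ^ a * p0))
        (τ * (2 ^ r * ((l ω).2 1 - qa r (v ω') * (l ω).2 0) -
            2 ^ r * ((l ω').2 1 - qa r (v ω') * (l ω').2 0)))
      have k4 := abs_add_le (2 ^ a * (2 ^ r * (p1 - qa (r + ρ) (v ω') * p0))) (D * (2 ^ a * p0))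
      linarith)
  refine h.trans (le_of_eq ?_)
  rw [Fintype.card_fin]
  norm_num

/-- **the coarse cell is known from the fine cell** up to few values -/
theorem hc_coarse (a w r ρ : ℕ) (l : Ω → Ln) (t v : Ω → ℝ) (C : Ω → γ) :
    Stk.hc P (cell a r l t v) (fun ω => (cell (a + w) (r + ρ) l t v ω, C ω)) ≤ 4 * Real.log 13 := by
  set Z := fun ω => (cell (a + w) (r + ρ) l t v ω, C ω) with hZ
  have hz : ∀ ω ω', Z ω = Z ω' → cell (a + w) (r + ρ) l t v ω = cell (a + w) (r + ρ) l t v ω' :=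
    fun ω ω' e => congrArg Prod.fst e
  have h1 : Stk.hc P (fun ω => fl 0 (shv r (v ω) (l ω).2)) Z ≤ 2 * Real.log 13 :=
    hc_dir P r ρ v (fun ω => (l ω).2) Z fun ω ω' e =>
      ⟨congrArg (fun q => q.2.1) (hz ω ω' e), congrArg (fun q => q.2.2.1) (hz ω ω' e)⟩
  have h2 : Stk.hc P (fun ω => fl a (shv r (v ω) (pos (l ω) (qa a (t ω)))))
      (fun ω => (fl 0 (shv r (v ω) (l ω).2), Z ω)) ≤ 2 * Real.log 13 :=
    hc_pos P a w r ρ l t v _ fun ω ω' e => ⟨hz ω ω' (congrArg Prod.snd e), congrArg Prod.fst e⟩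
  have h3 := hc_via P (cell a r l t v) (fun ω => fl 0 (shv r (v ω) (l ω).2)) Z
  have h4 := hc_via P (cell a r l t v) (fun ω => fl a (shv r (v ω) (pos (l ω) (qa a (t ω)))))
    (fun ω => (fl 0 (shv r (v ω) (l ω).2), Z ω))
  have h5 : Stk.hc P (cell a r l t v) (fun ω => (fl a (shv r (v ω) (pos (l ω) (qa a (t ω)))),
      (fl 0 (shv r (v ω) (l ω).2), Z ω))) = 0 := by
    apply Stk.hc_zero
    intro ω ω' _ _ e
    have e0 : cell (a + w) (r + ρ) l t v ω = cell (a + w) (r + ρ) l t v ω' :=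
      congrArg (fun q => q.2.2.1) e
    exact Prod.ext (fl1_of_fl1 (Nat.le_add_right a w) (congrArg Prod.fst e0))
      (Prod.ext (fl1_of_fl1 (Nat.le_add_right r ρ) (congrArg (fun q => q.2.1) e0))
        (Prod.ext (congrArg (fun q => q.2.1) e) (congrArg Prod.fst e)))
  linarith

/-- **inner and coarse cells from the fine cell** -/
theorem hc_inner (a w r ρ : ℕ) (l : Ω → Ln) (t v : Ω → ℝ) (C : Ω → γ) :
    Stk.hc P (fun ω => (cell w ρ (lnS a r l t v) (tfF a t) (tfF r v) ω, (cell a r l t v ω, C ω)))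
      (fun ω => (cell (a + w) (r + ρ) l t v ω, C ω)) ≤ 4 * Real.log 13 := by
  have h1 := hc_coarse P a w r ρ l t v C
  have h2 := hc_via P (fun ω => (cell w ρ (lnS a r l t v) (tfF a t) (tfF r v) ω,
    (cell a r l t v ω, C ω))) (cell a r l t v) (fun ω => (cell (a + w) (r + ρ) l t v ω, C ω))
  have h3 : Stk.hc P (fun ω => (cell w ρ (lnS a r l t v) (tfF a t) (tfF r v) ω,
      (cell a r l t v ω, C ω)))
      (fun ω => (cell a r l t v ω, (cell (a + w) (r + ρ) l t v ω, C ω))) = 0 := by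
    apply Stk.hc_zero
    intro ω ω' _ _ e
    have e1 : cell a r l t v ω = cell a r l t v ω' := congrArg Prod.fst e
    have e2 : cell (a + w) (r + ρ) l t v ω = cell (a + w) (r + ρ) l t v ω' :=
      congrArg (fun q => q.2.1) e
    have e3 : C ω = C ω' := congrArg (fun q => q.2.2) e
    exact Prod.ext (inner_of a w r ρ l t v e1 e2) (Prod.ext e1 e3)
  linarith

/-- **the fine cell from the inner and coarse cells** -/
theorem hc_outer (a w r ρ : ℕ) (l : Ω → Ln) (t v : Ω → ℝ) (C : Ω → γ) :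
    Stk.hc P (fun ω => (cell (a + w) (r + ρ) l t v ω, C ω))
      (fun ω => (cell w ρ (lnS a r l t v) (tfF a t) (tfF r v) ω, (cell a r l t v ω, C ω))) = 0 := by
  apply Stk.hc_zero
  intro ω ω' _ _ e
  have e1 : cell w ρ (lnS a r l t v) (tfF a t) (tfF r v) ω =
    cell w ρ (lnS a r l t v) (tfF a t) (tfF r v) ω' := congrArg Prod.fst e
  have e2 : cell a r l t v ω = cell a r l t v ω' := congrArg (fun q => q.2.1) e
  have e3 : C ω = C ω' := congrArg (fun q => q.2.2) e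
  exact Prod.ext (cell_of a w r ρ l t v e2 e1) e3

/-- residual entropy of the line given its tube in the state `(a, r)` -/
noncomputable def RF (n a r : ℕ) (l : Ω → Ln) (t v : Ω → ℝ) (C : Ω → γ) : ℝ :=
  Stk.hc P (fun ω => tb n (l ω))
    (fun ω => (tb (n - a - r) (lnS a r l t v ω), (cell a r l t v ω, C ω)))

/-- composition of the residual entropies -/
theorem RF_comp (n a w r ρ : ℕ) (l : Ω → Ln) (t v : Ω → ℝ) (C : Ω → γ) :
    RF P n (a + w) (r + ρ) l t v C ≤ RF P n a r l t v C +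
      RF P (n - a - r) w ρ (lnS a r l t v) (tfF a t) (tfF r v) (fun ω => (cell a r l t v ω, C ω)) +
      8 * Real.log 13 := by
  have hn : n - (a + w) - (r + ρ) = n - a - r - w - ρ := by omega
  unfold RF
  rw [hn, lnS_lnS]
  set Z := fun ω => (tb (n - a - r - w - ρ) (lnS (a + w) (r + ρ) l t v ω),
    (cell (a + w) (r + ρ) l t v ω, C ω)) with hZ
  have h1 := hc_via P (fun ω => tb n (l ω)) (fun ω => tb (n - a - r) (lnS a r l t v ω)) Z
  -- first term
  have h2 := hc_cmp P (fun ω => tb n (l ω)) (fun ω => tb n (l ω))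
    (fun ω => (tb (n - a - r) (lnS a r l t v ω), Z ω))
    (fun ω => (tb (n - a - r) (lnS a r l t v ω), (cell a r l t v ω, C ω)))
  have h3 : Stk.hc P (fun ω => tb n (l ω))
      (fun ω => (tb n (l ω), (tb (n - a - r) (lnS a r l t v ω), Z ω))) = 0 :=
    Stk.hc_zero P fun _ _ _ _ e => congrArg Prod.fst e
  have h4 : Stk.hc P (fun ω => (tb (n - a - r) (lnS a r l t v ω), (cell a r l t v ω, C ω)))
      (fun ω => (tb (n - a - r) (lnS a r l t v ω), Z ω)) ≤ 4 * Real.log 13 := by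
    have k1 := hc_via P (fun ω => (tb (n - a - r) (lnS a r l t v ω), (cell a r l t v ω, C ω)))
      (cell a r l t v) (fun ω => (tb (n - a - r) (lnS a r l t v ω), Z ω))
    have k2 : Stk.hc P (fun ω => (tb (n - a - r) (lnS a r l t v ω), (cell a r l t v ω, C ω)))
      (fun ω => (cell a r l t v ω, (tb (n - a - r) (lnS a r l t v ω), Z ω))) = 0 := by
      apply Stk.hc_zero
      intro ω ω' _ _ e
      have e1 : cell a r l t v ω = cell a r l t v ω' := congrArg Prod.fst e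
      have e2 : tb (n - a - r) (lnS a r l t v ω) = tb (n - a - r) (lnS a r l t v ω') :=
        congrArg (fun q => q.2.1) e
      have e3 : C ω = C ω' := congrArg (fun q => q.2.2.2.2) e
      exact Prod.ext e2 (Prod.ext e1 e3)
    have k3 : Stk.hc P (cell a r l t v) (fun ω => (tb (n - a - r) (lnS a r l t v ω), Z ω)) ≤
        Stk.hc P (cell a r l t v) (fun ω => (cell (a + w) (r + ρ) l t v ω, C ω)) :=
      Stk.hc_mono_right P _ fun ω ω' _ _ e => congrArg (fun q => q.2.2) e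
    have k4 := hc_coarse P a w r ρ l t v C
    linarith
  -- second term
  have h5 := hc_cmp P (fun ω => tb (n - a - r) (lnS a r l t v ω))
    (fun ω => tb (n - a - r) (lnS a r l t v ω)) Z
    (fun ω => (tb (n - a - r - w - ρ) (lnS (a + w) (r + ρ) l t v ω),
      (cell w ρ (lnS a r l t v) (tfF a t) (tfF r v) ω, (cell a r l t v ω, C ω))))
  have h6 : Stk.hc P (fun ω => tb (n - a - r) (lnS a r l t v ω))
      (fun ω => (tb (n - a - r) (lnS a r l t v ω), Z ω)) = 0 :=
    Stk.hc_zero P fun _ _ _ _ e => congrArg Prod.fst e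
  have h7 : Stk.hc P (fun ω => (tb (n - a - r - w - ρ) (lnS (a + w) (r + ρ) l t v ω),
      (cell w ρ (lnS a r l t v) (tfF a t) (tfF r v) ω, (cell a r l t v ω, C ω)))) Z ≤
        4 * Real.log 13 := by
    have k1 := hc_via P (fun ω => (tb (n - a - r - w - ρ) (lnS (a + w) (r + ρ) l t v ω),
      (cell w ρ (lnS a r l t v) (tfF a t) (tfF r v) ω, (cell a r l t v ω, C ω))))
      (fun ω => (cell w ρ (lnS a r l t v) (tfF a t) (tfF r v) ω, (cell a r l t v ω, C ω))) Z
    have k2 : Stk.hc P (fun ω => (tb (n - a - r - w - ρ) (lnS (a + w) (r + ρ) l t v ω),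
      (cell w ρ (lnS a r l t v) (tfF a t) (tfF r v) ω, (cell a r l t v ω, C ω))))
      (fun ω => ((cell w ρ (lnS a r l t v) (tfF a t) (tfF r v) ω, (cell a r l t v ω, C ω)), Z ω)) =
        0 := by
      apply Stk.hc_zero
      intro ω ω' _ _ e
      exact Prod.ext (congrArg (fun q => q.2.1) e) (congrArg Prod.fst e)
    have k3 : Stk.hc P (fun ω => (cell w ρ (lnS a r l t v) (tfF a t) (tfF r v) ω,
        (cell a r l t v ω, C ω))) Z ≤
        Stk.hc P (fun ω => (cell w ρ (lnS a r l t v) (tfF a t) (tfF r v) ω,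
        (cell a r l t v ω, C ω))) (fun ω => (cell (a + w) (r + ρ) l t v ω, C ω)) :=
      Stk.hc_mono_right P _ fun ω ω' _ _ e => congrArg Prod.snd e
    have k4 := hc_inner P a w r ρ l t v C
    linarith
  linarith

/-- digits of the fractional part of a vector -/
theorem fl_fr (s m : ℕ) (x : Fin 2 → ℝ) (j : Fin 2) :
    fl m (fun i => Int.fract (2 ^ s * x i)) j = fl (s + m) x j - 2 ^ m * fl s x j :=
  fl1_fr s m (x j)

/-- **the tube of the state line from the line and the cell** -/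
theorem tube_of {n a r : ℕ} (h : a + r ≤ n) {l : Ω → Ln} {t v : Ω → ℝ} (hg : GoodF P l t)
    (hv : ∀ ω, 0 < P.w ω → |v ω| ≤ 1) (C : Ω → γ) :
    Stk.hc P (fun ω => tb (n - a - r) (lnS a r l t v ω))
      (fun ω => (tb n (l ω), (cell a r l t v ω, C ω))) ≤ 4 * Real.log 13 := by
  set Z := fun ω => (tb n (l ω), (cell a r l t v ω, C ω)) with hZ
  have e2 : ∀ k : ℕ, (1 / 2 : ℝ) ^ k * 2 ^ k = 1 := fun k => by rw [← mul_pow]; norm_num
  -- the two vectors before taking fractional parts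
  have key : ∀ x : Ω → Fin 2 → ℝ, (∀ ω ω', 0 < P.w ω → 0 < P.w ω' → Z ω = Z ω' →
      ∀ i, |x ω i - x ω' i| ≤ 2 * (1 / 2 : ℝ) ^ n) → ∀ b : ℕ, b ≤ a →
      Stk.hc P (fun ω => fl (b + (n - a - r)) (shv r (v ω) (x ω))) Z ≤ 2 * Real.log 13 := by
    intro x hx b hb
    have h1 := hc_fl_apx P (ι := Fin 2) (b + (n - a - r)) 4 (fun ω => shv r (v ω) (x ω)) Z (by
      intro ω ω' p p' e
      have d0 := hx ω ω' p p' e 0
      have d1 := hx ω ω' p p' e 1
      have e3 : fl1 r (v ω) = fl1 r (v ω') := congrArg (fun q => q.2.1.2.1) e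
      have q1 := qa_congr e3
      have hq : |qa r (v ω')| ≤ 1 := by
        have b1 := abs_le.1 (hv ω' p')
        rw [abs_le]
        refine ⟨?_, (qa_le _ _).trans b1.2⟩
        unfold qa fl1
        rw [le_div_iff₀ (by positivity)]
        have : -(2 ^ r : ℤ) ≤ ⌊(2 : ℝ) ^ r * v ω'⌋ := by
          rw [Int.le_floor]
          push_cast
          have : (0:ℝ) < 2 ^ r := by positivity
          nlinarith [b1.1]
        have h3 : ((-(2 ^ r : ℤ) : ℤ) : ℝ) ≤ (⌊(2 : ℝ) ^ r * v ω'⌋ : ℝ) := by exact_mod_cast this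
        push_cast at h3
        linarith
      have hk : (1 / 2 : ℝ) ^ n ≤ (1 / 2) ^ (r + (b + (n - a - r))) :=
        pow_le_pow_of_le_one (by norm_num) (by norm_num) (by omega)
      have hr0 : (0 : ℝ) < (1 / 2) ^ (b + (n - a - r)) := by positivity
      have hr1 : (1 : ℝ) ≤ 2 ^ r := one_le_pow₀ (by norm_num)
      rw [pow_add] at hk
      rw [Fin.forall_fin_two]
      push_cast
      constructor
      · rw [shv0, shv0]
        have : (1 / 2 : ℝ) ^ r ≤ 1 := pow_le_one₀ (by norm_num) (by norm_num)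
        nlinarith
      · rw [shv1, shv1, q1]
        have e4 : (2 : ℝ) ^ r * (x ω 1 - qa r (v ω') * x ω 0) - 2 ^ r * (x ω' 1 - qa r (v ω') * x ω' 0) =
            2 ^ r * ((x ω 1 - x ω' 1) - qa r (v ω') * (x ω 0 - x ω' 0)) := by ring
        rw [e4, abs_mul, abs_of_pos (by positivity : (0:ℝ) < 2 ^ r)]
        have k1 : |(x ω 1 - x ω' 1) - qa r (v ω') * (x ω 0 - x ω' 0)| ≤ 4 * (1 / 2 : ℝ) ^ n := by
          refine (abs_sub _ _).trans ?_
          rw [abs_mul]
          have : |qa r (v ω')| * |x ω 0 - x ω' 0| ≤ 1 * (2 * (1 / 2 : ℝ) ^ n) :=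
            mul_le_mul hq d0 (abs_nonneg _) zero_le_one
          linarith
        calc 2 ^ r * |(x ω 1 - x ω' 1) - qa r (v ω') * (x ω 0 - x ω' 0)|
            ≤ 2 ^ r * (4 * ((1 / 2 : ℝ) ^ r * (1 / 2) ^ (b + (n - a - r)))) := by
              gcongr
              exact k1.trans (by gcongr)
          _ = 4 * (1 / 2 : ℝ) ^ (b + (n - a - r)) * ((1 / 2 : ℝ) ^ r * 2 ^ r) := by ring
          _ = _ := by rw [e2, mul_one])
    refine h1.trans (le_of_eq_of_le (by rw [Fintype.card_fin]) ?_)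
    have := log_le13 (x := 2 * ((4 : ℕ) : ℝ) + 3) (by norm_num) (by norm_num)
    push_cast at this ⊢
    linarith
  have k1 := key (fun ω => pos (l ω) (qa a (t ω))) (by
    intro ω ω' p p' e j
    have e1 : tb n (l ω) = tb n (l ω') := congrArg Prod.fst e
    have e3 : fl1 a (t ω) = fl1 a (t ω') := congrArg (fun q => q.2.1.1) e
    have a1 := fl_close (congrArg Prod.fst e1) j
    have a2 := fl_close (congrArg Prod.snd e1) j
    rw [qa_congr e3]
    have q0 : 0 ≤ qa a (t ω') := by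
      unfold qa fl1
      have : (0:ℤ) ≤ ⌊(2:ℝ) ^ a * t ω'⌋ :=
        Int.floor_nonneg.2 (mul_nonneg (by positivity) (hg ω' p').2.1)
      have h2 : (0:ℝ) ≤ (⌊(2:ℝ) ^ a * t ω'⌋ : ℝ) := by exact_mod_cast this
      positivity
    have q1 : qa a (t ω') ≤ 1 := (qa_le a (t ω')).trans (hg ω' p').2.2
    have e3 : pos (l ω) (qa a (t ω')) j - pos (l ω') (qa a (t ω')) j =
        ((l ω).1 j - (l ω').1 j) + qa a (t ω') * ((l ω).2 j - (l ω').2 j) := by
      unfold pos; ring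
    rw [e3]
    calc |((l ω).1 j - (l ω').1 j) + qa a (t ω') * ((l ω).2 j - (l ω').2 j)|
        ≤ |(l ω).1 j - (l ω').1 j| + |qa a (t ω') * ((l ω).2 j - (l ω').2 j)| := abs_add_le _ _
      _ ≤ (1 / 2) ^ n + 1 * (1 / 2) ^ n := by
          rw [abs_mul, abs_of_nonneg q0]
          gcongr
      _ = _ := by ring) a le_rfl
  have k2 := key (fun ω => (l ω).2) (by
    intro ω ω' p p' e j
    have e1 : tb n (l ω) = tb n (l ω') := congrArg Prod.fst e
    have a2 := fl_close (congrArg Prod.snd e1) j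
    have : (0:ℝ) < (1 / 2) ^ n := by positivity
    linarith) 0 (Nat.zero_le _)
  have k3 := hc_via P (fun ω => tb (n - a - r) (lnS a r l t v ω))
    (fun ω => (fl (a + (n - a - r)) (shv r (v ω) (pos (l ω) (qa a (t ω)))),
      fl (0 + (n - a - r)) (shv r (v ω) (l ω).2))) Z
  have k4 := hc_pair_le P (fun ω => fl (a + (n - a - r)) (shv r (v ω) (pos (l ω) (qa a (t ω)))))
    (fun ω => fl (0 + (n - a - r)) (shv r (v ω) (l ω).2)) Z
  have k5 : Stk.hc P (fun ω => tb (n - a - r) (lnS a r l t v ω))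
      (fun ω => ((fl (a + (n - a - r)) (shv r (v ω) (pos (l ω) (qa a (t ω)))),
        fl (0 + (n - a - r)) (shv r (v ω) (l ω).2)), Z ω)) = 0 := by
    apply Stk.hc_zero
    intro ω ω' _ _ e
    have e1 : fl (a + (n - a - r)) (shv r (v ω) (pos (l ω) (qa a (t ω)))) =
        fl (a + (n - a - r)) (shv r (v ω') (pos (l ω') (qa a (t ω')))) :=
      congrArg (fun q => q.1.1) e
    have e3 : fl (0 + (n - a - r)) (shv r (v ω) (l ω).2) =
        fl (0 + (n - a - r)) (shv r (v ω') (l ω').2) := congrArg (fun q => q.1.2) e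
    have e4 : cell a r l t v ω = cell a r l t v ω' := congrArg (fun q => q.2.2.1) e
    have e5 : fl 0 (shv r (v ω) (l ω).2) = fl 0 (shv r (v ω') (l ω').2) :=
      congrArg (fun q => q.2.2.1) e4
    have e6 : fl a (shv r (v ω) (pos (l ω) (qa a (t ω)))) =
        fl a (shv r (v ω') (pos (l ω') (qa a (t ω')))) := congrArg (fun q => q.2.2.2) e4
    refine Prod.ext ?_ ?_
    · show fl (n - a - r) (fun i => Int.fract (2 ^ a * shv r (v ω) (pos (l ω) (qa a (t ω))) i)) =
        fl (n - a - r) (fun i => Int.fract (2 ^ a * shv r (v ω') (pos (l ω') (qa a (t ω'))) i))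
      funext j
      rw [fl_fr, fl_fr, e1, e6]
    · show fl (n - a - r) (fun i => Int.fract (shv r (v ω) (l ω).2 i)) =
        fl (n - a - r) (fun i => Int.fract (shv r (v ω') (l ω').2 i))
      funext j
      have f1 := fl_fr 0 (n - a - r) (shv r (v ω) (l ω).2) j
      have f2 := fl_fr 0 (n - a - r) (shv r (v ω') (l ω').2) j
      simp only [pow_zero, one_mul] at f1 f2
      rw [f1, f2, e3, e5]
  linarith

/-- **the deficit in the state** -/
theorem DF_state {n a r w : ℕ} (h : a + r ≤ n) {l : Ω → Ln} {t v : Ω → ℝ} (hg : GoodF P l t)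
    (hv : ∀ ω, 0 < P.w ω → |v ω| ≤ 1) (C : Ω → γ) :
    DF P w (n - a - r) (lnS a r l t v) (tfF a t) (fun ω => (cell a r l t v ω, C ω)) ≤
      w * Real.log 2 - Stk.hc P (fun ω => fl1 (a + w) (t ω))
        (fun ω => (tb n (l ω), (cell a r l t v ω, C ω))) + 4 * Real.log 13 := by
  have k1 := tube_of P h hg hv C
  have k2 := hc_cmp P (fun ω => fl1 (a + w) (t ω)) (fun ω => fl1 w (tfF a t ω))
    (fun ω => (tb n (l ω), (cell a r l t v ω, C ω)))
    (fun ω => (tb (n - a - r) (lnS a r l t v ω), (cell a r l t v ω, C ω)))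
  have k3 : Stk.hc P (fun ω => fl1 (a + w) (t ω))
      (fun ω => (fl1 w (tfF a t ω), (tb n (l ω), (cell a r l t v ω, C ω)))) = 0 := by
    apply Stk.hc_zero
    intro ω ω' _ _ e
    have e1 : fl1 w (Int.fract ((2 : ℝ) ^ a * t ω)) = fl1 w (Int.fract ((2 : ℝ) ^ a * t ω')) :=
      congrArg Prod.fst e
    have e2 : fl1 a (t ω) = fl1 a (t ω') := congrArg (fun q => q.2.2.1.1) e
    rw [fl1_fr, fl1_fr, e2] at e1
    linarith
  have k4 : Stk.hc P (fun ω => (tb (n - a - r) (lnS a r l t v ω), (cell a r l t v ω, C ω)))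
      (fun ω => (tb n (l ω), (cell a r l t v ω, C ω))) ≤ 4 * Real.log 13 := by
    have m1 := hc_via P (fun ω => (tb (n - a - r) (lnS a r l t v ω), (cell a r l t v ω, C ω)))
      (fun ω => tb (n - a - r) (lnS a r l t v ω)) (fun ω => (tb n (l ω), (cell a r l t v ω, C ω)))
    have m2 : Stk.hc P (fun ω => (tb (n - a - r) (lnS a r l t v ω), (cell a r l t v ω, C ω)))
      (fun ω => (tb (n - a - r) (lnS a r l t v ω), (tb n (l ω), (cell a r l t v ω, C ω)))) = 0 := by
      apply Stk.hc_zero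
      intro ω ω' _ _ e
      have e1 : tb (n - a - r) (lnS a r l t v ω) = tb (n - a - r) (lnS a r l t v ω') :=
        congrArg Prod.fst e
      have e2 : (cell a r l t v ω, C ω) = (cell a r l t v ω', C ω') := congrArg (fun q => q.2.2) e
      exact Prod.ext e1 e2
    linarith
  unfold DF
  linarith

/-- **the functional of the path**, shear form -/
noncomputable def EF (lam : ℝ) (n a r : ℕ) (l : Ω → Ln) (t v : Ω → ℝ) (C : Ω → γ) : ℝ :=
  excFl lam P (tbx (n - a - r) (lnS a r l t v)) (fun ω => (cell a r l t v ω, C ω)) +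
    RF P n a r l t v C - (1 + lam) * r * Real.log 2

theorem lnS_ok (a r : ℕ) (l : Ω → Ln) (t v : Ω → ℝ) (n : ℕ) :
    ∀ ω, 0 < P.w ω → BxOk (tbx n (lnS a r l t v)) ω := fun ω _ =>
  ⟨st1_ok a r (l ω) (t ω) (v ω), by show |(0:ℝ)| ≤ 4; norm_num, le_rfl⟩

/-- **composition** -/
theorem EF_comp {lam : ℝ} (hlam : 0 ≤ lam ∧ lam ≤ 1) (n a w r ρ : ℕ) (l : Ω → Ln) (t v : Ω → ℝ)
    (C : Ω → γ) :
    EF P lam n (a + w) (r + ρ) l t v C ≤ EF P lam n a r l t v C +
      (EF P lam (n - a - r) w ρ (lnS a r l t v) (tfF a t) (tfF r v)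
          (fun ω => (cell a r l t v ω, C ω)) -
        excFl lam P (tbx (n - a - r) (lnS a r l t v)) (fun ω => (cell a r l t v ω, C ω))) +
      12 * Real.log 13 := by
  have hn : n - (a + w) - (r + ρ) = n - a - r - w - ρ := by omega
  have k1 := RF_comp P n a w r ρ l t v C
  have k2 := Lam.excF_le_add hlam (B := tbx (n - a - r - w - ρ) (lnS (a + w) (r + ρ) l t v))
    (fun ω => (cell (a + w) (r + ρ) l t v ω, C ω))
    (fun ω => (cell w ρ (lnS a r l t v) (tfF a t) (tfF r v) ω, (cell a r l t v ω, C ω)))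
    (lnS_ok P (a + w) (r + ρ) l t v _)
  have k3 := hc_inner P a w r ρ l t v C
  unfold EF
  rw [hn, lnS_lnS]
  push_cast
  linarith

end finite

end Vale.Agent.P127.U.Pf
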