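import Vale.Agent.P127.U.Lam.PathM
import Vale.Agent.P127.U.Lam.PathC

/-!
# P127 / U / Lam : `lab_unst` with the slab, relative to a state (helper499)

* `view_slab` : the wide direction of the unstretched box stays in the slab down to the exponent of the
  stretched label
* `lab_unst2` : `lab_unst` with this conjunct
* `lab_unst_state` : the same for the window `(w, ρ)` after the state `(a, r)`
-/

set_option autoImplicit false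

namespace Vale.Agent.P127.U.Pf

open Filter Topology Vale.Agent.P127 Vale.Agent.P127.Stk Vale.Agent.P127.U Sys Str

variable {Ω : Type} [Fintype Ω] {γ δ : Type*}

/-- the wide direction of `U` stays in the slab -/
theorem view_slab {P : Law Ω} {U T : Bx Ω} {x y : Ω → Fin 2 → ℝ} {s : Ω → ℝ} {ρ : Ω → ℕ}
    {c : Ω → Fin 2 → ℝ} {m : ℕ} (h : View P U T x y s ρ c m) {ω : Ω} (hω : 0 < P.w ω) :
    |Real.sin (U.θ ω) - s ω * Real.cos (U.θ ω)| * (2:ℝ) ^ (ρ ω + T.k ω) ≤ 2 ^ m * 2 ^ U.k ω := by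
  have h1 := h.g2 ω hω (mv (U.θ ω))
  have h2 : bg U ω (mv (U.θ ω)) = ((2:ℝ) ^ U.k ω) ^ 2 := gq_mv _ _ _
  rw [h2] at h1
  have h3 : ((2:ℝ) ^ T.k ω) ^ 2 * (Str.shv (ρ ω) (s ω) (mv (U.θ ω)) 0 ^ 2 +
      Str.shv (ρ ω) (s ω) (mv (U.θ ω)) 1 ^ 2) ≤ bg T ω (Str.shv (ρ ω) (s ω) (mv (U.θ ω))) :=
    bg_ge T ω (h.Tk ω hω) _
  have h4 : Str.shv (ρ ω) (s ω) (mv (U.θ ω)) 1 =
      (2:ℝ) ^ ρ ω * (Real.sin (U.θ ω) - s ω * Real.cos (U.θ ω)) := rfl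
  have h5 : (|Real.sin (U.θ ω) - s ω * Real.cos (U.θ ω)| * (2:ℝ) ^ (ρ ω + T.k ω)) ^ 2 ≤
      (2 ^ m * 2 ^ U.k ω) ^ 2 := by
    have e1 : (|Real.sin (U.θ ω) - s ω * Real.cos (U.θ ω)| * (2:ℝ) ^ (ρ ω + T.k ω)) ^ 2 =
        ((2:ℝ) ^ T.k ω) ^ 2 * (Str.shv (ρ ω) (s ω) (mv (U.θ ω)) 1 ^ 2) := by
      rw [h4, mul_pow, sq_abs, pow_add]
      ring
    rw [e1]
    have h6 : 0 ≤ ((2:ℝ) ^ T.k ω) ^ 2 * Str.shv (ρ ω) (s ω) (mv (U.θ ω)) 0 ^ 2 := by positivity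
    have h7 : (2 ^ m * (2:ℝ) ^ U.k ω) ^ 2 = ((2:ℝ) ^ m) ^ 2 * ((2:ℝ) ^ U.k ω) ^ 2 := by ring
    rw [h7]
    linarith
  exact abs_le_of_sq_le_sq' h5 (by positivity) |>.2

/-- **label of the state `(a, r)` to a box of the ball system**, exponents at most `M` -/
theorem lab_unst2 (P : Law Ω) (a r M c0 : ℕ) (l : Ω → Ln) (t v : Ω → ℝ) (E : Ω → δ)
    (hv : ∀ ω, 0 < P.w ω → |v ω| ≤ 1) (A : Bx Ω)
    (hA : ∀ ω, 0 < P.w ω → A.l ω = lnS a r l t v ω ∧ |A.θ ω| ≤ 4 ∧ A.k ω ≤ A.j ω ∧ A.j ω + r ≤ M + c0) :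
    ∃ W : Bx Ω, W.l = blF a l t ∧
      (∀ ω, 0 < P.w ω → |W.θ ω| ≤ 2 ∧ W.k ω ≤ W.j ω ∧ W.j ω ≤ M ∧
        W.k ω + W.j ω ≤ A.k ω + A.j ω + r + 2 ∧ A.k ω + A.j ω + r ≤ W.k ω + W.j ω + (2 * c0 + 6) ∧
        A.k ω ≤ W.k ω + (c0 + 2) ∧ W.k ω ≤ A.k ω + r + 2 ∧ A.j ω ≤ W.j ω + (c0 + 2) ∧
        W.j ω ≤ A.j ω + r + 2 ∧
        |Real.sin (W.θ ω) - qa r (v ω) * Real.cos (W.θ ω)| * (2:ℝ) ^ (r + A.k ω) ≤
          2 ^ (c0 + 3) * 2 ^ W.k ω) ∧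
      Stk.hc P W.lab (fun ω => (A.lab ω, cell a r l t v ω, E ω)) ≤ Kv (c0 + 3) ∧
      Stk.hc P A.lab (fun ω => (W.lab ω, cell a r l t v ω, E ω)) ≤ Kv (c0 + 3) := by
  have T1 : ∀ ω, 0 < P.w ω → ∀ i, (A.l ω).1 i = Int.fract (Str.shv r (qa r (v ω)) (upos a l t ω) i) := by
    intro ω hω i
    rw [(hA ω hω).1, shv_upos]
    rfl
  have T2 : ∀ ω, 0 < P.w ω → ∀ i, (A.l ω).2 i = Str.shv r (qa r (v ω)) (l ω).2 i -
      (⌊Pf.shv r (v ω) (l ω).2 i⌋ : ℝ) := by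
    intro ω hω i
    rw [(hA ω hω).1]
    exact (Int.self_sub_floor _).symm
  obtain ⟨U, u0, u1, u2⟩ := exists_unst P A (upos a l t) (fun ω => (l ω).2) (fun ω => qa r (v ω))
    (fun _ => r) (fun ω i => (⌊Pf.shv r (v ω) (l ω).2 i⌋ : ℝ)) (blF a l t)
    (fun ω hω => qa_abs (hv ω hω)) (fun _ _ _ => rfl) (fun _ _ _ => rfl) T1 T2
    (fun ω hω => (hA ω hω).2.1) (fun ω hω => (hA ω hω).2.2.1)
  set W : Bx Ω := ⟨blF a l t, U.θ, fun ω => min (U.k ω) M, fun ω => min (U.j ω) M⟩ with hW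
  have hex : ∀ ω, 0 < P.w ω → W.k ω ≤ U.k ω ∧ W.j ω ≤ U.j ω ∧ U.k ω ≤ W.k ω + (c0 + 2) ∧
      U.j ω ≤ W.j ω + (c0 + 2) := by
    intro ω hω
    obtain ⟨b1, b2, b3, b4, b5, b6, b7⟩ := u2 ω hω
    obtain ⟨d1, d2, d3, d4⟩ := hA ω hω
    have d5 := u1.Uk ω hω
    have b7' : U.j ω ≤ A.j ω + r + 2 := b7
    show min (U.k ω) M ≤ U.k ω ∧ min (U.j ω) M ≤ U.j ω ∧ U.k ω ≤ min (U.k ω) M + (c0 + 2) ∧
      U.j ω ≤ min (U.j ω) M + (c0 + 2)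
    omega
  have hV : View P W A (upos a l t) (fun ω => (l ω).2) (fun ω => qa r (v ω)) (fun _ => r)
      (fun ω i => (⌊Pf.shv r (v ω) (l ω).2 i⌋ : ℝ)) (c0 + 3) := by
    have cmp : ∀ ω, 0 < P.w ω → (∀ v, bg W ω v ≤ bg U ω v) ∧
        ∀ v, bg U ω v ≤ ((2:ℝ) ^ (c0 + 2)) ^ 2 * bg W ω v := by
      intro ω hω
      obtain ⟨x1, x2, x3, x4⟩ := hex ω hω
      exact ⟨fun v => Str.gq_mono x1 x2 v, fun v => Str.gq_shift x3 x4 v⟩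
    exact
    { hs := u1.hs
      U1 := fun _ _ _ => rfl
      U2 := fun _ _ _ => rfl
      T1 := u1.T1
      T2 := u1.T2
      Uθ := u1.Uθ
      Tθ := u1.Tθ
      Uk := fun ω hω => min_le_min_right _ (u1.Uk ω hω)
      Tk := u1.Tk
      g1 := fun ω hω v => by
        refine ((cmp ω hω).1 v).trans ((u1.g1 ω hω v).trans ?_)
        refine mul_le_mul_of_nonneg_right ?_ (bg_nonneg _ _ _)
        exact pow_le_pow_left₀ (by positivity) (pow_le_pow_right₀ (by norm_num) (by omega)) 2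
      g2 := fun ω hω v => by
        refine (u1.g2 ω hω v).trans ?_
        have := (cmp ω hω).2 v
        calc ((2:ℝ) ^ 1) ^ 2 * bg U ω v ≤ ((2:ℝ) ^ 1) ^ 2 * (((2:ℝ) ^ (c0 + 2)) ^ 2 * bg W ω v) := by gcongr
          _ = _ := by rw [show c0 + 3 = 1 + (c0 + 2) by omega, pow_add (2:ℝ) 1 (c0 + 2), mul_pow]; ring }
  refine ⟨W, rfl, ?_, ?_, ?_⟩
  · intro ω hω
    obtain ⟨b1, b2, b3, b4, b5, b6, b7⟩ := u2 ω hω
    obtain ⟨x1, x2, x3, x4⟩ := hex ω hω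
    obtain ⟨d1, d2, d3, d4⟩ := hA ω hω
    have y1 : W.k ω ≤ W.j ω := min_le_min_right _ (u1.Uk ω hω)
    have y2 : W.j ω ≤ M := min_le_right _ _
    have y3 : |W.θ ω| ≤ 2 := b1
    have z1 : A.k ω ≤ W.k ω + (c0 + 2) := by
      show A.k ω ≤ min (U.k ω) M + (c0 + 2)
      omega
    have z2 : A.j ω ≤ W.j ω + (c0 + 2) := by
      show A.j ω ≤ min (U.j ω) M + (c0 + 2)
      omega
    exact ⟨y3, y1, y2, by omega, by omega, z1, by omega, z2, by omega, view_slab hV hω⟩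
  · exact view_hc hV (det_cell P a r l t v E)
  · exact view_hc' hV (det_cell P a r l t v E)

/-- **the same for the window `(w, ρ)` after the state `(a, r)`** : `A` a label of the state
`(a + w, r + ρ)`, `W` a box of the ball system of the state line `(a, r)` -/
theorem lab_unst_state (P : Law Ω) (a r w ρ M c0 : ℕ) (l : Ω → Ln) (t v : Ω → ℝ) (E : Ω → δ)
    (A : Bx Ω)
    (hA : ∀ ω, 0 < P.w ω → A.l ω = lnS (a + w) (r + ρ) l t v ω ∧ |A.θ ω| ≤ 4 ∧ A.k ω ≤ A.j ω ∧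
      A.j ω + ρ ≤ M + c0) :
    ∃ W : Bx Ω, W.l = blF w (lnS a r l t v) (tfF a t) ∧
      (∀ ω, 0 < P.w ω → |W.θ ω| ≤ 2 ∧ W.k ω ≤ W.j ω ∧ W.j ω ≤ M ∧
        W.k ω + W.j ω ≤ A.k ω + A.j ω + ρ + 2 ∧ A.k ω + A.j ω + ρ ≤ W.k ω + W.j ω + (2 * c0 + 6) ∧
        A.k ω ≤ W.k ω + (c0 + 2) ∧ W.k ω ≤ A.k ω + ρ + 2 ∧ A.j ω ≤ W.j ω + (c0 + 2) ∧
        W.j ω ≤ A.j ω + ρ + 2 ∧
        |Real.sin (W.θ ω) - qa ρ (tfF r v ω) * Real.cos (W.θ ω)| * (2:ℝ) ^ (ρ + A.k ω) ≤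
          2 ^ (c0 + 3) * 2 ^ W.k ω) ∧
      Stk.hc P W.lab (fun ω => (A.lab ω, (cell (a + w) (r + ρ) l t v ω, E ω))) ≤
        Kv (c0 + 3) + 4 * Real.log 13 ∧
      Stk.hc P A.lab (fun ω => (W.lab ω, (cell (a + w) (r + ρ) l t v ω, E ω))) ≤
        Kv (c0 + 3) + 4 * Real.log 13 := by
  obtain ⟨W, w0, w1, w2, w3⟩ := lab_unst2 P w ρ M c0 (lnS a r l t v) (tfF a t) (tfF r v)
    (fun ω => (cell a r l t v ω, E ω)) (fun ω _ => by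
      show |Int.fract _| ≤ 1
      rw [abs_of_nonneg (Int.fract_nonneg _)]
      exact (Int.fract_lt_one _).le) A (fun ω hω => by
      obtain ⟨h1, h2⟩ := hA ω hω
      refine ⟨?_, h2⟩
      rw [h1, lnS_lnS])
  have key : ∀ (X Y : Bx Ω), Stk.hc P X.lab (fun ω => (Y.lab ω, (cell (a + w) (r + ρ) l t v ω, E ω))) ≤
      Stk.hc P X.lab (fun ω => (Y.lab ω, cell w ρ (lnS a r l t v) (tfF a t) (tfF r v) ω,
        (cell a r l t v ω, E ω))) + 4 * Real.log 13 := by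
    intro X Y
    have h1 := hc_inner P a w r ρ l t v E
    have h2 := Apx.hc_via P X.lab (fun ω => (cell w ρ (lnS a r l t v) (tfF a t) (tfF r v) ω,
      (cell a r l t v ω, E ω))) (fun ω => (Y.lab ω, (cell (a + w) (r + ρ) l t v ω, E ω)))
    have h3 : Stk.hc P (fun ω => (cell w ρ (lnS a r l t v) (tfF a t) (tfF r v) ω,
        (cell a r l t v ω, E ω))) (fun ω => (Y.lab ω, (cell (a + w) (r + ρ) l t v ω, E ω))) ≤
        Stk.hc P (fun ω => (cell w ρ (lnS a r l t v) (tfF a t) (tfF r v) ω,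
        (cell a r l t v ω, E ω))) (fun ω => (cell (a + w) (r + ρ) l t v ω, E ω)) :=
      Stk.hc_mono_right P _ fun ω ω' _ _ e => congrArg Prod.snd e
    have h4 : Stk.hc P X.lab (fun ω => ((cell w ρ (lnS a r l t v) (tfF a t) (tfF r v) ω,
        (cell a r l t v ω, E ω)), (Y.lab ω, (cell (a + w) (r + ρ) l t v ω, E ω)))) ≤
        Stk.hc P X.lab (fun ω => (Y.lab ω, cell w ρ (lnS a r l t v) (tfF a t) (tfF r v) ω,
        (cell a r l t v ω, E ω))) :=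
      Stk.hc_mono_right P _ fun ω ω' _ _ e => by
        simp only [Prod.mk.injEq] at e ⊢
        exact ⟨e.2.1, e.1.1, e.1.2⟩
    linarith
  refine ⟨W, w0, w1, ?_, ?_⟩
  · have := key W A
    linarith
  · have := key A W
    linarith

end Vale.Agent.P127.U.Pf
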