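import Vale.Agent.P127.U.Lam.LipF
import Vale.Agent.P127.U.Lam.PathN

/-!
# P127 / U / Lam : proof of `PLipF` (helper513)
-/

set_option autoImplicit false

namespace Vale.Agent.P127.U.Lip

open Vale.Agent.P127 Vale.Agent.P127.Stk Vale.Agent.P127.U Apx C2 SubF Pf

variable {Ω : Type} [Fintype Ω] {γ : Type} {V : Type*}

section

variable {P : Law Ω} {l : Ω → Ln} {t v : Ω → ℝ} {n w ρ k j k2 j2 : ℕ} {U : Bx Ω}

/-- the entropy of the line -/
theorem LD.ext (D : LD P l t v n w ρ k j k2 j2 U) (C : Ω → γ) (Y : Ω → V) :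
    Stk.hc P (fun ω => tb n (l ω)) Y ≤
      Stk.hc P (fun ω => tb n (l ω)) (fun ω => ((Red.lev0 l U).lab ω, C ω)) + Red.cE +
        Stk.hc P (fun ω => (U.lab ω, pq w (ptF l t ω), C ω)) Y := by
  have h0 := Stk.hc_le_add' P (fun ω => tb n (l ω)) (fun ω => (U.lab ω, pq w (ptF l t ω), C ω)) Y
  have h0' : Stk.hc P (fun ω => tb n (l ω)) (fun ω => ((U.lab ω, pq w (ptF l t ω), C ω), Y ω)) ≤
      Stk.hc P (fun ω => tb n (l ω)) (fun ω => (U.lab ω, pq w (ptF l t ω), C ω)) :=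
    Stk.hc_mono_right P _ fun ω ω' _ _ e => congrArg Prod.fst e
  have h1 := Red.ext_le P (W := U) D.g (fun ω hω => by
    obtain ⟨a1, a2, a3, a4, -⟩ := D.u ω hω
    exact ⟨a1, a2, by rw [a3, a4]; exact D.kj2⟩) C
  have h2 := Stk.hc_le_add' P (fun ω => tb n (l ω)) (Red.lev0 l U).lab
    (fun ω => (U.lab ω, pq w (ptF l t ω), C ω))
  have h3 : Stk.hc P (fun ω => tb n (l ω))
      (fun ω => ((Red.lev0 l U).lab ω, (U.lab ω, pq w (ptF l t ω), C ω))) ≤
      Stk.hc P (fun ω => tb n (l ω)) (fun ω => ((Red.lev0 l U).lab ω, C ω)) := by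
    refine Stk.hc_mono_right P _ fun ω ω' _ _ e => ?_
    simp only [Prod.mk.injEq] at e ⊢
    exact ⟨e.1, e.2.2.2⟩
  unfold Red.cE
  linarith

/-- a label with exponents in `[k2, j2]` -/
theorem le_excR {lam : ℝ} (hl : 0 ≤ lam ∧ lam ≤ 1) {C : Ω → γ} {Ω' : Type} [Fintype Ω'] {P' : Law Ω'}
    {π : Ω' → Ω} {A : Bx Ω'} (h1 : ∀ ω, P'.pr π ω = P.w ω)
    (h2 : ∀ ω, 0 < P'.w ω → A.l ω = l (π ω) ∧ |A.θ ω| ≤ 4 ∧ k2 ≤ A.k ω ∧ A.k ω ≤ A.j ω ∧
      A.j ω ≤ j2) (hn : j2 ≤ n) :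
    Stk.hc P' (fun ω => tb n (l (π ω))) (fun ω => (A.lab ω, C (π ω))) +
      Real.log 2 * P'.ex (A.szl lam) ≤ excR lam P n l C k2 j2 + Real.log 2 * (2 * n) := by
  have h6 : exVl lam P' ((tbx n l).comp π) A (fun ω => C (π ω)) ≤ excR lam P n l C k2 j2 := by
    refine Red.exV_le_excR hl (C := C) h1 fun ω hω => ?_
    obtain ⟨a1, a2, a3, a4, a5⟩ := h2 ω hω
    exact ⟨Red.sub_tbx (l := fun ω => l (π ω)) a1 a2 a4 (a5.trans hn), a3, a5⟩
  have h5 : exVl lam P' ((tbx n l).comp π) A (fun ω => C (π ω)) =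
      Stk.hc P' (fun ω => tb n (l (π ω))) (fun ω => (A.lab ω, C (π ω))) -
        Real.log 2 * (2 * (n : ℝ) - P'.ex (A.szl lam)) := by
    have e0 : (tbx n l).comp π = tbx n (fun ω => l (π ω)) := rfl
    unfold exVl
    rw [e0, Red.hc_tbx]
    have e : (P'.ex fun ω => (tbx n (fun ω => l (π ω))).szl lam ω - A.szl lam ω) =
        2 * (n : ℝ) - P'.ex (A.szl lam) := by
      rw [P'.ex_sub]
      have : (P'.ex fun ω => (tbx n (fun ω => l (π ω))).szl lam ω) = 2 * (n : ℝ) := by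
        rw [show (fun ω => (tbx n (fun ω => l (π ω))).szl lam ω) = fun _ => 2 * (n : ℝ) from by
          funext ω
          show (1 + lam) * (n : ℝ) + (1 - lam) * (n : ℝ) = 2 * n
          ring]
        exact P'.ex_const _
      rw [this]
    rw [e]
  rw [h5] at h6
  linarith

/-- the data of `lip` -/
theorem LD.dat (D : LD P l t v n w ρ k j k2 j2 U) (C : Ω → γ) {d : ℕ} (hd : d + 14 ≤ ρ) :
    Dat P (fun ω => tb n (l ω)) C (Red.lev0 l U) (fun ω => Real.arctan (qa ρ (v ω)))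
      (fun _ => k - 2) (fun ω => fl1 d (v ω)) 8 (d + 5) (ρ - 9) where
  c0 := by norm_num
  rr := by omega
  ins := fun ω hω => by
    obtain ⟨a1, a2, a3, a4, a5⟩ := D.u ω hω
    have e1 := D.e1
    have e2 := D.e2
    have e3 := D.e3
    have e4 := D.kj2
    have e5 := D.kj
    refine ⟨a2, ?_, ?_, ?_, ?_⟩
    · show U.k ω ≤ U.j ω
      rw [a3, a4]
      exact e4
    · show k - 2 ≤ U.k ω
      rw [a3]
      omega
    · show k - 2 + (ρ - 9) ≤ U.j ω
      rw [a4]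
      omega
    · show |Real.sin (U.θ ω - Real.arctan (qa ρ (v ω)))| * (1 / 2 : ℝ) ^ U.k ω ≤
        8 * (1 / 2 : ℝ) ^ (k - 2 + (ρ - 9))
      have b1 := sin_sub_arctan (U.θ ω) (qa ρ (v ω))
      have b2 : |Real.sin (U.θ ω - Real.arctan (qa ρ (v ω)))| * (2:ℝ) ^ (ρ + k) ≤ 8 * 2 ^ k2 := by
        have := mul_le_mul_of_nonneg_right b1 (show (0:ℝ) ≤ 2 ^ (ρ + k) by positivity)
        refine this.trans (a5.trans (le_of_eq ?_))
        norm_num
      have b3 : (1 / 2 : ℝ) ^ (ρ + k) ≤ (1 / 2 : ℝ) ^ (k - 2 + (ρ - 9)) := half_le (by omega)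
      have b4 : |Real.sin (U.θ ω - Real.arctan (qa ρ (v ω)))| * (1 / 2 : ℝ) ^ k2 =
          (|Real.sin (U.θ ω - Real.arctan (qa ρ (v ω)))| * (2:ℝ) ^ (ρ + k)) *
            ((1 / 2 : ℝ) ^ (ρ + k) * (1 / 2 : ℝ) ^ k2) := by
        rw [one_div, inv_pow, inv_pow]
        field_simp
      have b5 : (8 * (2:ℝ) ^ k2) * ((1 / 2 : ℝ) ^ (ρ + k) * (1 / 2 : ℝ) ^ k2) =
          8 * (1 / 2 : ℝ) ^ (ρ + k) := by
        rw [one_div, inv_pow, inv_pow]
        field_simp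
      rw [a3, b4]
      refine (mul_le_mul_of_nonneg_right b2 (by positivity)).trans ?_
      rw [b5]
      exact mul_le_mul_of_nonneg_left b3 (by norm_num)
  line := fun ω ω' p p' e _ => by
    obtain ⟨a1, a2, a3, a4, a5⟩ := D.u ω p
    have hn : (1 / 2 : ℝ) ^ n ≤ (1 / 2 : ℝ) ^ U.j ω := by
      rw [a4]
      exact half_le (by have := D.n1; omega)
    have e1 : fl n (l ω).1 = fl n (l ω').1 := congrArg Prod.fst e
    have e2 : fl n (l ω).2 = fl n (l ω').2 := congrArg Prod.snd e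
    refine ⟨fun i => ?_, fun i => ?_⟩
    · exact (Apx.fl_close e1.symm i).trans hn
    · exact (Apx.fl_close e2.symm i).trans hn
  far := fun ω ω' p p' _ hz => by
    obtain ⟨f1, f2⟩ := two_floor (show d ≤ ρ by omega) (v ω)
    obtain ⟨g1, g2⟩ := two_floor (show d ≤ ρ by omega) (v ω')
    have hd0 : (0 : ℝ) < 2 ^ d := by positivity
    have h1 : 1 < 2 ^ d * |qa ρ (v ω') - qa ρ (v ω)| := by
      rcases le_abs'.1 hz with h | h
      · have h' : (fl1 d (v ω') : ℝ) - fl1 d (v ω) ≤ -2 := by exact_mod_cast h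
        have h2 : 2 ^ d * (qa ρ (v ω') - qa ρ (v ω)) < -1 := by
          rw [mul_sub]
          linarith
        have h3 := neg_abs_le (qa ρ (v ω') - qa ρ (v ω))
        have h4 := mul_le_mul_of_nonneg_left h3 hd0.le
        linarith
      · have h' : (2 : ℝ) ≤ (fl1 d (v ω') : ℝ) - fl1 d (v ω) := by exact_mod_cast h
        have h2 : 1 < 2 ^ d * (qa ρ (v ω') - qa ρ (v ω)) := by
          rw [mul_sub]
          linarith
        have h3 := le_abs_self (qa ρ (v ω') - qa ρ (v ω))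
        have h4 := mul_le_mul_of_nonneg_left h3 hd0.le
        linarith
    have h2 := sin_arctan (qa ρ (v ω)) (qa ρ (v ω')) (qa_abs (D.v1 ω p)) (qa_abs (D.v1 ω' p'))
    have h3 : (1 / 2 : ℝ) ^ d < |qa ρ (v ω') - qa ρ (v ω)| := by
      rw [one_div, inv_pow, inv_eq_one_div, div_lt_iff₀ hd0]
      linarith
    have h4 : (1 / 2 : ℝ) ^ (d + 5) = (1 / 2 : ℝ) ^ d * (1 / 32) := by
      rw [pow_add]
      norm_num
    rw [h4]
    have h5 : (0:ℝ) < (1 / 2 : ℝ) ^ d := by positivity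
    linarith

/-- the copies -/
theorem LD.col (D : LD P l t v n w ρ k j k2 j2 U) (C : Ω → γ) (d : ℕ) :
    Lip.col P (fun ω => fl1 d (v ω))
      (fun ω => (tb n (l ω), Kc C (Red.lev0 l U) (fun _ => k - 2) (d + 5) (ρ - 9) ω)) =
      Mic.colp P (fun ω => fl1 d (v ω)) (fun ω => (tb n (l ω), C ω)) := by
  refine Mic.colp_congr P (fun ω ω' _ _ e => congrArg Prod.fst e)
    (fun ω ω' _ _ e => congrArg Prod.fst e) ?_ ?_
  · intro ω ω' p p' e
    obtain ⟨a1, a2, a3, a4, a5⟩ := D.u ω p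
    obtain ⟨b1, b2, b3, b4, b5⟩ := D.u ω' p'
    simp only [Prod.mk.injEq, Kc, cs] at e ⊢
    have c3 : (Red.lev0 l U).k ω = (Red.lev0 l U).k ω' := a3.trans b3.symm
    have c4 : (Red.lev0 l U).j ω = (Red.lev0 l U).j ω' := a4.trans b4.symm
    exact ⟨e.1, e.2, c3, c4, by rw [c3]⟩
  · intro ω ω' p p' e
    simp only [Prod.mk.injEq, Kc] at e ⊢
    exact ⟨e.1, e.2.1⟩

/-- value of the box at level `0` -/
theorem LD.exv (D : LD P l t v n w ρ k j k2 j2 U) (lam : ℝ) :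
    P.ex (fun ω => (1 - lam) * (((Red.lev0 l U).k ω : ℝ) + (Red.lev0 l U).j ω) +
      2 * lam * ((k - 2 : ℕ) : ℝ)) = (1 - lam) * ((k2 : ℝ) + j2) + 2 * lam * ((k - 2 : ℕ) : ℝ) := by
  rw [← P.ex_const ((1 - lam) * ((k2 : ℝ) + j2) + 2 * lam * ((k - 2 : ℕ) : ℝ))]
  refine P.ex_congr fun ω hω => ?_
  obtain ⟨a1, a2, a3, a4, a5⟩ := D.u ω hω
  show (1 - lam) * ((U.k ω : ℝ) + U.j ω) + 2 * lam * ((k - 2 : ℕ) : ℝ) = _
  rw [a3, a4]

end

theorem cE_le : 0 ≤ Red.cE := Red.cE_nonneg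

/-- sizes -/
theorem sizes {lam : ℝ} (hl : 0 ≤ lam ∧ lam ≤ 1) {k j ρ k2 j2 : ℕ} (e1 : k + j + ρ ≤ k2 + j2 + 6) :
    (1 - lam) * ρ + ((1 + lam) * k + (1 - lam) * j) ≤
      (1 - lam) * ((k2 : ℝ) + j2) + 2 * lam * ((k - 2 : ℕ) : ℝ) + 10 := by
  have h1 : (k : ℝ) + j + ρ ≤ k2 + j2 + 6 := by exact_mod_cast e1
  have h2 : (k : ℝ) - 2 ≤ ((k - 2 : ℕ) : ℝ) := by
    have : k ≤ (k - 2) + 2 := by omega
    have : (k : ℝ) ≤ ((k - 2 : ℕ) : ℝ) + 2 := by exact_mod_cast this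
    linarith
  have g1 := mul_nonneg (sub_nonneg.2 hl.2) (sub_nonneg.2 h1)
  have g2 := mul_nonneg hl.1 (sub_nonneg.2 h2)
  nlinarith [hl.1, hl.2]

/-- **proof of `PLipF`** -/
theorem pLipF : PLipF := by
  intro lam hl Ω _ γ V P l t v n w ρ d k j k2 j2 U C Y D hd
  have hlog : 0 < Real.log 2 := Real.log_pos (by norm_num)
  have hlog1 : Real.log 2 ≤ 1 := by
    have := Real.log_two_lt_d9
    linarith
  have hext := D.ext C Y
  have hn : j2 ≤ n := by have := D.n1; omega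
  have hld : 0 ≤ Real.log ((d : ℝ) + 6) := Real.log_nonneg (by
    have : (0:ℝ) ≤ d := Nat.cast_nonneg d
    linarith)
  have hcE := cE_le
  have hdρ : (d : ℝ) ≤ ρ := by exact_mod_cast hd
  set cp := Mic.colp P (fun ω => fl1 d (v ω)) (fun ω => (tb n (l ω), C ω)) with hcp
  have hcp0 : 0 ≤ cp := Mic.colp_nonneg P _ _
  have hmx : max 0 (1 - 3 * cp) ≤ 1 := max_le zero_le_one (by linarith)
  have hmx0 : 0 ≤ max 0 (1 - 3 * cp) := le_max_left _ _
  by_cases hbig : d + 14 ≤ ρ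
  · obtain ⟨Ω', i', P', π, A, h1, h2, h3⟩ := lip (lam := lam) hl.1 (D.dat C hbig)
    have h4 := le_excR (lam := lam) (k2 := k2) (j2 := j2) (n := n) (l := l) hl (C := C) h1 (fun ω hω => by
      obtain ⟨b1, b2, b3, b4, b5⟩ := h2 ω hω
      have hπ : 0 < P.w (π ω) := by
        rw [← h1 (π ω)]
        exact P'.pr_pos π hω
      obtain ⟨a1, a2, a3, a4, a5⟩ := D.u _ hπ
      refine ⟨b1, b2, ?_, b4, ?_⟩
      · have : U.k (π ω) ≤ A.k ω := b3
        rw [a3] at this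
        exact this
      · have : A.j ω ≤ U.j (π ω) := b5
        rw [a4] at this
        exact this) hn
    rw [D.col C d, D.exv lam, ← hcp] at h3
    have e5 := sizes hl D.e1
    have e6 := (mul_le_mul_of_nonneg_left e5 hlog.le).trans (le_of_eq (mul_add _ _ _))
    have e7 : (((ρ - 9 : ℕ) : ℝ) - ((d + 5 : ℕ) : ℝ)) = (ρ : ℝ) - d - 14 := by
      rw [Nat.cast_sub (by omega)]
      push_cast
      ring
    rw [e7] at h3
    have e8 : Real.log (((d + 5 : ℕ) : ℝ) + 1) = Real.log ((d : ℝ) + 6) := by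
      congr 1
      push_cast
      ring
    rw [e8] at h3
    have e9 : Real.log 2 * (lam * (((ρ : ℝ) - d) * max 0 (1 - 3 * cp))) ≤
        Real.log 2 * (lam * (((ρ : ℝ) - d - 14) * max 0 (1 - 3 * cp))) + 14 := by
      have q1 : Real.log 2 * (lam * (((ρ : ℝ) - d) * max 0 (1 - 3 * cp))) -
          Real.log 2 * (lam * (((ρ : ℝ) - d - 14) * max 0 (1 - 3 * cp))) =
          14 * (Real.log 2 * (lam * max 0 (1 - 3 * cp))) := by ring
      have q2 : lam * max 0 (1 - 3 * cp) ≤ 1 := mul_le_one₀ hl.2 hmx0 hmx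
      have q3 : Real.log 2 * (lam * max 0 (1 - 3 * cp)) ≤ 1 :=
        mul_le_one₀ hlog1 (mul_nonneg hl.1 hmx0) q2
      linarith
    unfold cF
    have e10 : Real.log 2 * (2 * ((n : ℝ) - w) - (1 - lam) * ρ - ((1 + lam) * k + (1 - lam) * j)) =
        Real.log 2 * (2 * n) - 2 * w * Real.log 2 -
          Real.log 2 * ((1 - lam) * ρ + ((1 + lam) * k + (1 - lam) * j)) := by ring
    rw [e10]
    have e11 : Real.log 2 * 10 ≤ 10 := by linarith
    linarith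
  · have h4 := le_excR (lam := lam) (k2 := k2) (j2 := j2) (n := n) (A := Red.lev0 l U) (l := l) hl
      (C := C) (π := id) (Stk.pr_id P) (fun ω hω => by
      obtain ⟨a1, a2, a3, a4, a5⟩ := D.u _ hω
      refine ⟨rfl, a2, ?_, ?_, ?_⟩
      · show k2 ≤ U.k ω
        rw [a3]
      · show U.k ω ≤ U.j ω
        rw [a3, a4]
        exact D.kj2
      · show U.j ω ≤ j2
        rw [a4]) hn
    have e0 : P.ex ((Red.lev0 l U).szl lam) = (1 + lam) * k2 + (1 - lam) * j2 := by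
      rw [← P.ex_const ((1 + lam) * (k2 : ℝ) + (1 - lam) * j2)]
      refine P.ex_congr fun ω hω => ?_
      obtain ⟨a1, a2, a3, a4, a5⟩ := D.u _ hω
      show (1 + lam) * ((U.k ω : ℕ) : ℝ) + (1 - lam) * ((U.j ω : ℕ) : ℝ) = _
      rw [a3, a4]
    rw [e0] at h4
    have e5 := sizes hl D.e1
    have e2 : ((k - 2 : ℕ) : ℝ) ≤ k2 := by
      have : k - 2 ≤ k2 := by have := D.e2; omega
      exact_mod_cast this
    have e6 : (1 - lam) * ρ + ((1 + lam) * k + (1 - lam) * j) ≤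
        ((1 + lam) * k2 + (1 - lam) * j2) + 10 := by
      have := mul_le_mul_of_nonneg_left e2 (show 0 ≤ 2 * lam by linarith [hl.1])
      linarith
    have e7 := (mul_le_mul_of_nonneg_left e6 hlog.le).trans (le_of_eq (mul_add _ _ _))
    have e9 : Real.log 2 * (lam * (((ρ : ℝ) - d) * max 0 (1 - 3 * cp))) ≤ 14 := by
      have q0 : (ρ : ℝ) - d ≤ 14 := by
        have : ρ ≤ d + 14 := by omega
        have : (ρ : ℝ) ≤ d + 14 := by exact_mod_cast this
        linarith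
      have q0' : 0 ≤ (ρ : ℝ) - d := by linarith
      have q1 : ((ρ : ℝ) - d) * max 0 (1 - 3 * cp) ≤ 14 * 1 :=
        mul_le_mul q0 hmx hmx0 (by norm_num)
      have q2 : lam * (((ρ : ℝ) - d) * max 0 (1 - 3 * cp)) ≤ 1 * (14 * 1) :=
        mul_le_mul hl.2 q1 (mul_nonneg q0' hmx0) zero_le_one
      have q3 : Real.log 2 * (lam * (((ρ : ℝ) - d) * max 0 (1 - 3 * cp))) ≤ 1 * (1 * (14 * 1)) :=
        mul_le_mul hlog1 q2 (mul_nonneg hl.1 (mul_nonneg q0' hmx0)) zero_le_one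
      linarith
    unfold cF
    have e10 : Real.log 2 * (2 * ((n : ℝ) - w) - (1 - lam) * ρ - ((1 + lam) * k + (1 - lam) * j)) =
        Real.log 2 * (2 * n) - 2 * w * Real.log 2 -
          Real.log 2 * ((1 - lam) * ρ + ((1 + lam) * k + (1 - lam) * j)) := by ring
    rw [e10]
    have e11 : Real.log 2 * 10 ≤ 10 := by linarith
    have h4' : Stk.hc P (fun ω => tb n (l ω)) (fun ω => ((Red.lev0 l U).lab ω, C ω)) +
        Real.log 2 * ((1 + lam) * k2 + (1 - lam) * j2) ≤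
        excR lam P n l C k2 j2 + Real.log 2 * (2 * n) := h4
    linarith

end Vale.Agent.P127.U.Lip
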