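import Vale.Agent.P127.U.Lam.LipG
import Vale.Agent.P127.U.Lam.HLift
import Vale.Agent.P127.U.Lam.JL

/-!
# P127 / U / Lam : LIP, arbitrary fine variable, and LIFT (helper513)

* `LD.lipT` : `lip` for a box of fixed shape in the slab, for an arbitrary fine variable `T` (which
  determines the line with `C`).
* `liftT` : LIFT for such labels.
* `colp_avg` : average of the collision probabilities over a condition.
-/

set_option autoImplicit false

namespace Vale.Agent.P127.U.Lip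

open Vale.Agent.P127 Vale.Agent.P127.Stk Vale.Agent.P127.U Apx C2 SubF Pf

variable {Ω : Type} [Fintype Ω] {γ : Type} {V : Type*}

section

variable {P : Law Ω} {l : Ω → Ln} {t v : Ω → ℝ} {n w ρ k j k2 j2 : ℕ} {U : Bx Ω} {τ : Type}

/-- the entropy of `T` -/
theorem LD.extT (D : LD P l t v n w ρ k j k2 j2 U) (T : Ω → τ) (C : Ω → γ) (Y : Ω → V) :
    Stk.hc P T Y ≤
      Stk.hc P T (fun ω => ((Red.lev0 l U).lab ω, C ω)) + Red.cE +
        Stk.hc P (fun ω => (U.lab ω, pq w (ptF l t ω), C ω)) Y := by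
  have h0 := Stk.hc_le_add' P T (fun ω => (U.lab ω, pq w (ptF l t ω), C ω)) Y
  have h0' : Stk.hc P T (fun ω => ((U.lab ω, pq w (ptF l t ω), C ω), Y ω)) ≤
      Stk.hc P T (fun ω => (U.lab ω, pq w (ptF l t ω), C ω)) :=
    Stk.hc_mono_right P _ fun ω ω' _ _ e => congrArg Prod.fst e
  have h1 := Red.ext_le P (W := U) D.g (fun ω hω => by
    obtain ⟨a1, a2, a3, a4, -⟩ := D.u ω hω
    exact ⟨a1, a2, by rw [a3, a4]; exact D.kj2⟩) C
  have h2 := Stk.hc_le_add' P T (Red.lev0 l U).lab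
    (fun ω => (U.lab ω, pq w (ptF l t ω), C ω))
  have h3 : Stk.hc P T
      (fun ω => ((Red.lev0 l U).lab ω, (U.lab ω, pq w (ptF l t ω), C ω))) ≤
      Stk.hc P T (fun ω => ((Red.lev0 l U).lab ω, C ω)) := by
    refine Stk.hc_mono_right P _ fun ω ω' _ _ e => ?_
    simp only [Prod.mk.injEq] at e ⊢
    exact ⟨e.1, e.2.2.2⟩
  unfold Red.cE
  linarith

theorem LD.datT (D : LD P l t v n w ρ k j k2 j2 U) (T : Ω → τ) (C : Ω → γ)
    (hT : ∀ ω ω', 0 < P.w ω → 0 < P.w ω' → T ω = T ω' → C ω = C ω' → l ω = l ω') {d : ℕ}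
    (hd : d + 14 ≤ ρ) :
    Dat P T C (Red.lev0 l U) (fun ω => Real.arctan (qa ρ (v ω)))
      (fun _ => k - 2) (fun ω => fl1 d (v ω)) 8 (d + 5) (ρ - 9) := by
  have h := D.dat C hd
  exact
  { c0 := h.c0
    rr := h.rr
    ins := h.ins
    line := fun ω ω' p p' e e' => by
      have e1 := hT ω ω' p p' e e'
      show Nr _ (l ω') (l ω)
      rw [e1]
      exact Nr.refl (by positivity) _
    far := h.far }

theorem LD.colT (D : LD P l t v n w ρ k j k2 j2 U) (T : Ω → τ) (C : Ω → γ) (d : ℕ) :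
    Lip.col P (fun ω => fl1 d (v ω))
      (fun ω => (T ω, Kc C (Red.lev0 l U) (fun _ => k - 2) (d + 5) (ρ - 9) ω)) =
      Mic.colp P (fun ω => fl1 d (v ω)) (fun ω => (T ω, C ω)) := by
  refine Mic.colp_congr P (fun ω ω' _ _ e => congrArg Prod.fst e)
    (fun ω ω' _ _ e => congrArg Prod.fst e) ?_ ?_
  · intro ω ω' p p' e
    obtain ⟨a1, a2, a3, a4, a5⟩ := D.u ω p
    obtain ⟨b1, b2, b3, b4, b5⟩ := D.u ω' p'
    simp only [Prod.mk.injEq, Kc, cs] at e ⊢
    have c3 : (Red.lev0 l U).k ω = (Red.lev0 l U).k ω' := a3.trans b3.symm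
    have c4 : (Red.lev0 l U).j ω = (Red.lev0 l U).j ω' := a4.trans b4.symm
    exact ⟨e.1, e.2, c3, c4, by rw [c3]⟩
  · intro ω ω' p p' e
    simp only [Prod.mk.injEq, Kc] at e ⊢
    exact ⟨e.1, e.2.1⟩

/-- **LIP for a box of fixed shape in the slab**, arbitrary fine variable -/
theorem LD.lipT {lam : ℝ} (hl : 0 ≤ lam ∧ lam ≤ 1) (D : LD P l t v n w ρ k j k2 j2 U) (T : Ω → τ)
    (C : Ω → γ) (Y : Ω → V)
    (hT : ∀ ω ω', 0 < P.w ω → 0 < P.w ω' → T ω = T ω' → C ω = C ω' → l ω = l ω') {d : ℕ}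
    (hd : d ≤ ρ) :
    ∃ (Ω' : Type) (_ : Fintype Ω') (P' : Law Ω') (π : Ω' → Ω) (A : Bx Ω'),
      (∀ ω, P'.pr π ω = P.w ω) ∧
      (∀ ω, 0 < P'.w ω → A.l ω = l (π ω) ∧ |A.θ ω| ≤ 4 ∧ A.k ω ≤ A.j ω ∧ k2 ≤ A.k ω ∧
        A.j ω ≤ j2) ∧
      Stk.hc P T Y + Real.log 2 * ((1 - lam) * ρ + ((1 + lam) * k + (1 - lam) * j)) +
          Real.log 2 * (lam * (((ρ : ℝ) - d) *
            max 0 (1 - 3 * Mic.colp P (fun ω => fl1 d (v ω)) (fun ω => (T ω, C ω))))) -
          (cF + 2 * Real.log (d + 6)) - Stk.hc P (fun ω => (U.lab ω, pq w (ptF l t ω), C ω)) Y ≤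
        Stk.hc P' (fun ω => T (π ω)) (fun ω => (A.lab ω, C (π ω))) +
          Real.log 2 * P'.ex (A.szl lam) := by
  have hlog : 0 < Real.log 2 := Real.log_pos (by norm_num)
  have hlog1 : Real.log 2 ≤ 1 := by
    have := Real.log_two_lt_d9
    linarith
  have hext := D.extT T C Y
  have hld : 0 ≤ Real.log ((d : ℝ) + 6) := Real.log_nonneg (by
    have : (0:ℝ) ≤ d := Nat.cast_nonneg d
    linarith)
  have hcE := cE_le
  have hdρ : (d : ℝ) ≤ ρ := by exact_mod_cast hd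
  set cp := Mic.colp P (fun ω => fl1 d (v ω)) (fun ω => (T ω, C ω)) with hcp
  have hcp0 : 0 ≤ cp := Mic.colp_nonneg P _ _
  have hmx : max 0 (1 - 3 * cp) ≤ 1 := max_le zero_le_one (by linarith)
  have hmx0 : 0 ≤ max 0 (1 - 3 * cp) := le_max_left _ _
  by_cases hbig : d + 14 ≤ ρ
  · obtain ⟨Ω', i', P', π, A, h1, h2, h3⟩ := lip (lam := lam) hl.1 (D.datT T C hT hbig)
    refine ⟨Ω', i', P', π, A, h1, fun ω hω => ?_, ?_⟩
    · obtain ⟨b1, b2, b3, b4, b5⟩ := h2 ω hω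
      have hπ : 0 < P.w (π ω) := by
        rw [← h1 (π ω)]
        exact P'.pr_pos π hω
      obtain ⟨a1, a2, a3, a4, a5⟩ := D.u _ hπ
      refine ⟨b1, b2, b4, ?_, ?_⟩
      · have : U.k (π ω) ≤ A.k ω := b3
        rw [a3] at this
        exact this
      · have : A.j ω ≤ U.j (π ω) := b5
        rw [a4] at this
        exact this
    rw [D.colT T C d, D.exv lam, ← hcp] at h3
    have e5 := sizes hl D.e1
    have e6 := (mul_le_mul_of_nonneg_left e5 hlog.le).trans (le_of_eq (mul_add _ _ _))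
    have e7 : (((ρ - 9 : ℕ) : ℝ) - ((d + 5 : ℕ) : ℝ)) = (ρ : ℝ) - d - 14 := by
      rw [Nat.cast_sub (by omega)]
      push_cast
      ring
    rw [e7] at h3
    have e8 : Real.log (((d + 5 : ℕ) : ℝ) + 1) = Real.log ((d : ℝ) + 6) := by
      congr 1
      push_cast
      ring
    rw [e8] at h3
    have e9 : Real.log 2 * (lam * (((ρ : ℝ) - d) * max 0 (1 - 3 * cp))) ≤
        Real.log 2 * (lam * (((ρ : ℝ) - d - 14) * max 0 (1 - 3 * cp))) + 14 := by
      have q1 : Real.log 2 * (lam * (((ρ : ℝ) - d) * max 0 (1 - 3 * cp))) -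
          Real.log 2 * (lam * (((ρ : ℝ) - d - 14) * max 0 (1 - 3 * cp))) =
          14 * (Real.log 2 * (lam * max 0 (1 - 3 * cp))) := by ring
      have q2 : lam * max 0 (1 - 3 * cp) ≤ 1 := mul_le_one₀ hl.2 hmx0 hmx
      have q3 : Real.log 2 * (lam * max 0 (1 - 3 * cp)) ≤ 1 :=
        mul_le_one₀ hlog1 (mul_nonneg hl.1 hmx0) q2
      linarith
    unfold cF
    have e11 : Real.log 2 * 10 ≤ 10 := by linarith
    linarith
  · refine ⟨Ω, inferInstance, P, id, Red.lev0 l U, Stk.pr_id P, fun ω hω => ?_, ?_⟩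
    · obtain ⟨a1, a2, a3, a4, a5⟩ := D.u _ hω
      refine ⟨rfl, a2, ?_, ?_, ?_⟩
      · show U.k ω ≤ U.j ω
        rw [a3, a4]
        exact D.kj2
      · show k2 ≤ U.k ω
        rw [a3]
      · show U.j ω ≤ j2
        rw [a4]
    have e0 : P.ex ((Red.lev0 l U).szl lam) = (1 + lam) * k2 + (1 - lam) * j2 := by
      rw [← P.ex_const ((1 + lam) * (k2 : ℝ) + (1 - lam) * j2)]
      refine P.ex_congr fun ω hω => ?_
      obtain ⟨a1, a2, a3, a4, a5⟩ := D.u _ hω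
      show (1 + lam) * ((U.k ω : ℕ) : ℝ) + (1 - lam) * ((U.j ω : ℕ) : ℝ) = _
      rw [a3, a4]
    rw [e0]
    have e5 := sizes hl D.e1
    have e2 : ((k - 2 : ℕ) : ℝ) ≤ k2 := by
      have : k - 2 ≤ k2 := by have := D.e2; omega
      exact_mod_cast this
    have e6 : (1 - lam) * ρ + ((1 + lam) * k + (1 - lam) * j) ≤
        ((1 + lam) * k2 + (1 - lam) * j2) + 10 := by
      have := mul_le_mul_of_nonneg_left e2 (show 0 ≤ 2 * lam by linarith [hl.1])
      linarith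
    have e7 := (mul_le_mul_of_nonneg_left e6 hlog.le).trans (le_of_eq (mul_add _ _ _))
    have e9 : Real.log 2 * (lam * (((ρ : ℝ) - d) * max 0 (1 - 3 * cp))) ≤ 14 := by
      have q0 : (ρ : ℝ) - d ≤ 14 := by
        have : ρ ≤ d + 14 := by omega
        have : (ρ : ℝ) ≤ d + 14 := by exact_mod_cast this
        linarith
      have q0' : 0 ≤ (ρ : ℝ) - d := by linarith
      have q1 : ((ρ : ℝ) - d) * max 0 (1 - 3 * cp) ≤ 14 * 1 :=
        mul_le_mul q0 hmx hmx0 (by norm_num)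
      have q2 : lam * (((ρ : ℝ) - d) * max 0 (1 - 3 * cp)) ≤ 1 * (14 * 1) :=
        mul_le_mul hl.2 q1 (mul_nonneg q0' hmx0) zero_le_one
      have q3 : Real.log 2 * (lam * (((ρ : ℝ) - d) * max 0 (1 - 3 * cp))) ≤ 1 * (1 * (14 * 1)) :=
        mul_le_mul hlog1 q2 (mul_nonneg hl.1 (mul_nonneg q0' hmx0)) zero_le_one
      linarith
    unfold cF
    have e11 : Real.log 2 * 10 ≤ 10 := by linarith
    show _ ≤ Stk.hc P T (fun ω => ((Red.lev0 l U).lab ω, C ω)) + _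
    linarith

end

end Vale.Agent.P127.U.Lip
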