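import Vale.Agent.P127.U.Lam.TopB
import Vale.Agent.P127.U.Lam.JL
import Vale.Agent.P127.U.Lam.Basic
import Vale.Agent.P127.U.Lam.Win

/-!
# P127 / U / Lam : normalisation of the extremal system, part A : selection (helper119)

* `sel_fin` : if the value of a box minus the penalised excess minus `N` times the time deficit is large
  with side information `C`, then it is large, up to `1`, under the law conditioned on some value of `C`.
* `condS S Z z` : the system conditioned on the values `z i` of `Z i`.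
* `sel` : selection for systems.
-/

set_option autoImplicit false

namespace Vale.Agent.P127.U

open Filter Topology Vale.Agent.P127 Vale.Agent.P127.Stk Sys

namespace Norm

open JSB Lam

section finite

variable {Ω : Type} [Fintype Ω] {lam : ℝ}

/-- the value of a box with side information is the average over the values -/
theorem valX_cond_sum {γ : Type*} (P : Law Ω) (s n : ℕ) (l : Ω → Ln) (t : Ω → ℝ) (W : Bx Ω)
    (C : Ω → γ) :
    valX lam P s n l t W C =
      ∑ z ∈ img C, P.pr C z * valX lam (P.cond C z) s n l t W (fun _ => ()) := by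
  have h2 : Stk.hc P (fun ω => tb n (l ω)) (fun ω => (W.lab ω, (pq s (ptF l t ω), C ω))) =
      ∑ z ∈ img C, P.pr C z * Stk.hc (P.cond C z) (fun ω => tb n (l ω))
        (fun ω => (W.lab ω, (pq s (ptF l t ω), ()))) := by
    rw [← hc_cond_sum]
    refine le_antisymm ?_ ?_
    · refine Stk.hc_mono_right P _ fun ω ω' _ _ e => ?_
      simp only [Prod.mk.injEq] at e ⊢
      exact ⟨⟨e.1, e.2.1, trivial⟩, e.2.2⟩
    · refine Stk.hc_mono_right P _ fun ω ω' _ _ e => ?_
      simp only [Prod.mk.injEq] at e ⊢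
      exact ⟨e.1.1, e.1.2.1, e.2⟩
  have h3 := ex_cond_sum P (W.szl lam) C
  unfold valX
  rw [h2, ← h3]
  simp only [mul_sub, Finset.sum_sub_distrib, Finset.mul_sum]
  have h4 : ∑ z ∈ img C, P.pr C z * (Real.log 2 * (2 * (n : ℝ))) = Real.log 2 * (2 * (n : ℝ)) := by
    rw [← Finset.sum_mul, P.sum_pr_image C, one_mul]
  have h5 : ∑ z ∈ img C, P.pr C z * (Real.log 2 * (2 * (s : ℝ))) = Real.log 2 * (2 * (s : ℝ)) := by
    rw [← Finset.sum_mul, P.sum_pr_image C, one_mul]
  rw [h4, h5]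
  have h6 : ∑ z ∈ img C, P.pr C z * (Real.log 2 * (P.cond C z).ex (W.szl lam)) =
      ∑ z ∈ img C, Real.log 2 * (P.pr C z * (P.cond C z).ex (W.szl lam)) :=
    Finset.sum_congr rfl fun z _ => by ring
  rw [h6]

/-- **selection, finite form** -/
theorem sel_fin (hl : 0 ≤ lam ∧ lam ≤ 1) {γ : Type} (N : ℝ) (P : Law Ω) (s n : ℕ) (l : Ω → Ln)
    (t : Ω → ℝ) (W : Bx Ω) (C : Ω → γ) (hg : GoodF P l t) {v : ℝ}
    (h : v ≤ valX lam P s n l t W C - excFl lam P (tbx n l) C - N * DF P s n l t C) :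
    ∃ z, 0 < P.pr C z ∧ v - 1 ≤ valX lam (P.cond C z) s n l t W (fun _ => ()) -
      excFl lam (P.cond C z) (tbx n l) (fun _ => ()) -
      N * DF (P.cond C z) s n l t (fun _ => ()) := by
  by_contra hcon
  push Not at hcon
  have h1 := valX_cond_sum (lam := lam) P s n l t W C
  have h2 := DF_cond_sum P s n l t C
  have hok : ∀ ω, 0 < P.w ω → BxOk (tbx n l) ω := fun ω hω => Lam.tbx_ok (hg ω hω).1
  have h3 := excFl_cond_sum hl P (tbx n l) (fun _ => ()) C hok
  have h4 : excFl lam P (tbx n l) (fun ω => ((), C ω)) = excFl lam P (tbx n l) C :=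
    excFl_congr hl _ _ hok fun ω ω' => by
      simp only [Prod.mk.injEq]
      tauto
  rw [h4] at h3
  -- the sum
  have h5 : ∑ z ∈ img C, P.pr C z * (valX lam (P.cond C z) s n l t W (fun _ => ()) -
      excFl lam (P.cond C z) (tbx n l) (fun _ => ()) -
      N * DF (P.cond C z) s n l t (fun _ => ())) < ∑ z ∈ img C, P.pr C z * (v - 1) := by
    refine Finset.sum_lt_sum ?_ ?_
    · intro z _
      rcases (P.pr_nonneg C z).eq_or_lt with h0 | h0
      · rw [← h0, zero_mul, zero_mul]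
      · exact mul_le_mul_of_nonneg_left (hcon z h0).le h0.le
    · have h6 : 0 < ∑ z ∈ img C, P.pr C z := by rw [P.sum_pr_image C]; exact one_pos
      obtain ⟨z, hz, hz'⟩ := Finset.exists_lt_of_sum_lt (s := img C) (f := fun _ => (0:ℝ))
        (g := fun z => P.pr C z) (by simpa using h6)
      exact ⟨z, hz, mul_lt_mul_of_pos_left (hcon z hz') hz'⟩
  rw [← Finset.sum_mul, P.sum_pr_image C, one_mul] at h5
  have h7 : ∑ z ∈ img C, P.pr C z * (valX lam (P.cond C z) s n l t W (fun _ => ()) -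
      excFl lam (P.cond C z) (tbx n l) (fun _ => ()) -
      N * DF (P.cond C z) s n l t (fun _ => ())) =
      valX lam P s n l t W C - ∑ z ∈ img C, P.pr C z * excFl lam (P.cond C z) (tbx n l) (fun _ => ()) -
        N * DF P s n l t C := by
    rw [h1, h2, Finset.mul_sum, ← Finset.sum_sub_distrib, ← Finset.sum_sub_distrib]
    exact Finset.sum_congr rfl fun z _ => by ring
  rw [h7] at h5
  linarith

end finite

/-! ### systems -/

/-- the system conditioned on the values `z` of `Z` -/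
noncomputable def condS {γ : Type} (S : Sys) (Z : S.RV γ) (z : ℕ → γ) : Sys :=
  ⟨S.Ω, S.fin, fun i => (S.P i).cond (Z i) (z i), S.L, S.Ltop⟩

variable {S : Sys} {γ : Type} {lam : ℝ}

theorem condS_ae {Z : S.RV γ} {z : ℕ → γ} {p : ∀ i, S.Ω i → Prop} (h : S.Ae p) :
    (condS S Z z).Ae p := by
  filter_upwards [h] with i hi ω hω
  exact hi ω (cond_supp (S.P i) (Z i) (z i) hω)

theorem condS_eq {Z : S.RV γ} {z : ℕ → γ} (hz : ∀ i, 0 < (S.P i).pr (Z i) (z i)) :
    (condS S Z z).Ae fun i ω => Z i ω = z i :=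
  Eventually.of_forall fun i _ hω => cond_supp' (S.P i) (Z i) (z i) (hz i) hω

/-- the value of a box in a system -/
noncomputable def valS (lam : ℝ) (s n : ℕ → ℕ) (l : S.RV Ln) (t : S.RV ℝ) (W : S.BX)
    (C : S.RV γ) : ℝ :=
  ulim fun i => valX lam (S.P i) (s i) (n i) (l i) (t i) (W i) (C i) / S.nm i

theorem ub_valX {s n : ℕ → ℕ} (hs : S.Bd s) (hn : S.Bd n) {l : S.RV Ln} (hl : LnA l) (t : S.RV ℝ)
    {W : S.BX} (hlam : 0 ≤ lam ∧ lam ≤ 1) (hW : BxA W) (C : S.RV γ) :
    UB fun i => valX lam (S.P i) (s i) (n i) (l i) (t i) (W i) (C i) / S.nm i := by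
  have h1 := UB.hc (tame_tbs hn hl) (Sys.pr W.lab (Sys.pr (pqs s (pt l t)) C))
  have h2 : UB fun i => (S.P i).ex ((W i).szl lam) / S.L i := UB.av (ol_szl hlam hW)
  have h3 := (h1.sub (UB.const_mul 2 (hn.ub.sub hs.ub))).add h2
  obtain ⟨c, hc⟩ := h3
  refine ⟨c, ?_⟩
  filter_upwards [hc, S.L_pos] with i hi hL
  have hL' : (0:ℝ) < S.L i := by exact_mod_cast hL
  have hlog : 0 < Real.log 2 := Real.log_pos (by norm_num)
  refine le_trans (le_of_eq ?_) hi
  congr 1
  show _ / _ = Stk.hc (S.P i) (fun ω => tb (n i) (l i ω)) (fun ω => ((W i).lab ω,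
    (pq (s i) (ptF (l i) (t i) ω), C i ω))) / S.nm i - 2 * ((n i : ℝ) / S.L i - (s i : ℝ) / S.L i) +
    (S.P i).ex ((W i).szl lam) / S.L i
  unfold valX Sys.nm
  field_simp
  ring

/-- the value in terms of normalised quantities -/
theorem valS_eq {s n : ℕ → ℕ} (hs : S.Bd s) (hn : S.Bd n) {l : S.RV Ln} (hl : LnA l) (t : S.RV ℝ)
    {W : S.BX} (hlam : 0 ≤ lam ∧ lam ≤ 1) (hW : BxA W) (C : S.RV γ) :
    valS lam s n l t W C = S.hc (tbs n l) (Sys.pr W.lab (Sys.pr (pqs s (pt l t)) C)) -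
      2 * (S.nu n - S.nu s) + S.av (BX.szl lam W) := by
  have h1 := UB.hc (tame_tbs hn hl) (Sys.pr W.lab (Sys.pr (pqs s (pt l t)) C))
  have h2 : UB fun i => (S.P i).ex ((W i).szl lam) / S.L i := UB.av (ol_szl hlam hW)
  unfold valS
  have e : S.hc (tbs n l) (Sys.pr W.lab (Sys.pr (pqs s (pt l t)) C)) -
      2 * (S.nu n - S.nu s) + S.av (BX.szl lam W) =
      ulim fun i => Stk.hc (S.P i) (tbs n l i) (Sys.pr W.lab (Sys.pr (pqs s (pt l t)) C) i) / S.nm i -
        2 * ((n i : ℝ) / S.L i - (s i : ℝ) / S.L i) + (S.P i).ex ((W i).szl lam) / S.L i := by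
    rw [ulim_add (h1.sub (UB.const_mul 2 (hn.ub.sub hs.ub))) h2,
      ulim_sub h1 (UB.const_mul 2 (hn.ub.sub hs.ub)), ulim_const_mul 2 (hn.ub.sub hs.ub),
      ulim_sub hn.ub hs.ub]
    rfl
  rw [e]
  refine ulim_congr ?_
  filter_upwards [S.L_pos] with i hL
  have hL' : (0:ℝ) < S.L i := by exact_mod_cast hL
  have hlog : 0 < Real.log 2 := Real.log_pos (by norm_num)
  show _ / _ = Stk.hc (S.P i) (fun ω => tb (n i) (l i ω)) (fun ω => ((W i).lab ω,
    (pq (s i) (ptF (l i) (t i) ω), C i ω))) / S.nm i - 2 * ((n i : ℝ) / S.L i - (s i : ℝ) / S.L i) +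
    (S.P i).ex ((W i).szl lam) / S.L i
  unfold valX Sys.nm
  field_simp
  ring

/-- **selection** : conditioning on a value of the side information -/
theorem sel (hlam : 0 ≤ lam ∧ lam ≤ 1) {N v : ℝ} {s n : ℕ → ℕ} (hs : S.Bd s) (hn : S.Bd n)
    {l : S.RV Ln} (hl : LnA l) {t : S.RV ℝ} (ht : T01 t) {W : S.BX} (hW : BxA W) (Z : S.RV γ)
    (h : v + S.excl lam (tubes n l) Z + N * Dl s n l t Z ≤ valS lam s n l t W Z) :
    ∃ z : ℕ → γ, (∀ i, 0 < (S.P i).pr (Z i) (z i)) ∧
      v + (condS S Z z).excl lam (tubes n l) (one (S := condS S Z z)) +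
        N * Dl (S := condS S Z z) s n l t (one (S := condS S Z z)) ≤
      valS (S := condS S Z z) lam s n l t W (one (S := condS S Z z)) := by
  have hg := goodF hl ht
  -- values
  have key : ∀ i, ∃ z : γ, 0 < (S.P i).pr (Z i) z ∧ (GoodF (S.P i) (l i) (t i) →
      valX lam (S.P i) (s i) (n i) (l i) (t i) (W i) (Z i) -
        excFl lam (S.P i) (tbx (n i) (l i)) (Z i) - N * DF (S.P i) (s i) (n i) (l i) (t i) (Z i) - 1 ≤
      valX lam ((S.P i).cond (Z i) z) (s i) (n i) (l i) (t i) (W i) (fun _ => ()) -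
        excFl lam ((S.P i).cond (Z i) z) (tbx (n i) (l i)) (fun _ => ()) -
        N * DF ((S.P i).cond (Z i) z) (s i) (n i) (l i) (t i) (fun _ => ())) := by
    intro i
    by_cases hgi : GoodF (S.P i) (l i) (t i)
    · obtain ⟨z, h1, h2⟩ := sel_fin (lam := lam) hlam N (S.P i) (s i) (n i) (l i) (t i) (W i) (Z i)
        hgi le_rfl
      exact ⟨z, h1, fun _ => h2⟩
    · have h6 : 0 < ∑ z ∈ img (Z i), (S.P i).pr (Z i) z := by
        rw [(S.P i).sum_pr_image (Z i)]; exact one_pos
      obtain ⟨z, hz, hz'⟩ := Finset.exists_lt_of_sum_lt (s := img (Z i)) (f := fun _ => (0:ℝ))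
        (g := fun z => (S.P i).pr (Z i) z) (by simpa using h6)
      exact ⟨z, hz', fun h => absurd h hgi⟩
  choose z hz1 hz2 using key
  refine ⟨z, hz1, ?_⟩
  set S' := condS S Z z with hS'
  have hn' : S'.Bd n := hn
  have hs' : S'.Bd s := hs
  have hl' : LnA (S := S') l := condS_ae hl
  have ht' : T01 (S := S') t := condS_ae ht
  have hW' : BxA (S := S') W := by
    obtain ⟨h1, c, h2⟩ := hW
    exact ⟨condS_ae h1, c, condS_ae h2⟩
  -- ultralimits
  have hB := tubes_ok hn hl
  have hB' : BxA (S := S') (tubes n l) := tubes_ok (S := S') hn' hl'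
  have u1 := ub_valX (lam := lam) hs hn hl t hlam hW Z
  have u2 := Lam.ub_exc hlam hB Z
  have u3 := ub_DF (S := S) (s := s) (n := n) (l := l) hs ht Z
  have w1 := ub_valX (S := S') (lam := lam) hs' hn' hl' t hlam hW' (one (S := S'))
  have w2 := Lam.ub_exc (S := S') hlam hB' (one (S := S'))
  have w3 := ub_DF (S := S') (s := s) (n := n) (l := l) hs' ht' (one (S := S'))
  have e1 : Dl s n l t Z = ulim fun i => DF (S.P i) (s i) (n i) (l i) (t i) (Z i) / S.nm i :=
    Dl_eq hs ht Z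
  have e2 : Dl (S := S') s n l t (one (S := S')) =
      ulim fun i => DF (S'.P i) (s i) (n i) (l i) (t i) (one (S := S') i) / S'.nm i :=
    Dl_eq (S := S') hs' ht' _
  have h1 := ulim_sub (u1.sub u2) (UB.const_mul N u3)
  rw [ulim_sub u1 u2, ulim_const_mul N u3, ← e1] at h1
  have h2 := ulim_sub (w1.sub w2) (UB.const_mul N w3)
  rw [ulim_sub w1 w2, ulim_const_mul N w3, ← e2] at h2
  have h3 : v ≤ ulim fun i =>
      valX lam (S.P i) (s i) (n i) (l i) (t i) (W i) (Z i) / S.nm i -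
        excFl lam (S.P i) (tubes n l i) (Z i) / S.nm i -
        N * (DF (S.P i) (s i) (n i) (l i) (t i) (Z i) / S.nm i) := by
    rw [h1]
    have : valS lam s n l t W Z =
      ulim fun i => valX lam (S.P i) (s i) (n i) (l i) (t i) (W i) (Z i) / S.nm i := rfl
    rw [← this]
    have h4 : S.excl lam (tubes n l) Z =
      ulim fun i => excFl lam (S.P i) (tubes n l i) (Z i) / S.nm i := rfl
    rw [← h4]
    linarith
  have h4 : (ulim fun i =>
      valX lam (S.P i) (s i) (n i) (l i) (t i) (W i) (Z i) / S.nm i -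
        excFl lam (S.P i) (tubes n l i) (Z i) / S.nm i -
        N * (DF (S.P i) (s i) (n i) (l i) (t i) (Z i) / S.nm i)) ≤
      ulim fun i =>
      valX lam (S'.P i) (s i) (n i) (l i) (t i) (W i) (one (S := S') i) / S'.nm i -
        excFl lam (S'.P i) (tubes (S := S') n l i) (one (S := S') i) / S'.nm i -
        N * (DF (S'.P i) (s i) (n i) (l i) (t i) (one (S := S') i) / S'.nm i) := by
    refine ulim_le_of_sub ((u1.sub u2).sub (UB.const_mul N u3)) ((w1.sub w2).sub (UB.const_mul N w3))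
      (S.const_div_nm 1) ?_
    filter_upwards [S.nm_pos, hg] with i hi hgi
    have h5 := div_le_div_of_nonneg_right (hz2 i hgi) hi.le
    rw [sub_div, sub_div, sub_div, sub_div, sub_div, mul_div_assoc, mul_div_assoc] at h5
    have h6 : valX lam (S.P i) (s i) (n i) (l i) (t i) (W i) (Z i) / S.nm i -
        excFl lam (S.P i) (tbx (n i) (l i)) (Z i) / S.nm i -
        N * (DF (S.P i) (s i) (n i) (l i) (t i) (Z i) / S.nm i) ≤
      valX lam ((S.P i).cond (Z i) (z i)) (s i) (n i) (l i) (t i) (W i) (fun _ => ()) / S.nm i -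
        excFl lam ((S.P i).cond (Z i) (z i)) (tbx (n i) (l i)) (fun _ => ()) / S.nm i -
        N * (DF ((S.P i).cond (Z i) (z i)) (s i) (n i) (l i) (t i) (fun _ => ()) / S.nm i) +
        1 / S.nm i := by linarith
    exact h6
  have h5 := h3.trans h4
  rw [h2] at h5
  have h6 : valS (S := S') lam s n l t W (one (S := S')) =
      ulim fun i => valX lam (S'.P i) (s i) (n i) (l i) (t i) (W i) (one (S := S') i) / S'.nm i := rfl
  rw [h6]
  have h7 : S'.excl lam (tubes n l) (one (S := S')) =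
      ulim fun i => excFl lam (S'.P i) (tubes (S := S') n l i) (one (S := S') i) / S'.nm i := rfl
  rw [h7]
  linarith

end Norm

end Vale.Agent.P127.U
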