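import Vale.Agent.P127.U.Lam.NormA
import Vale.Agent.P127.U.Fill

/-!
# P127 / U / Lam : normalisation of the extremal system, part B : start (helper119)

* `start` : an extremal system gives, on an extension, a box of the level `L` whose value is at least
  `β + X(0) + N D`.
* `shape_const` : conditioning on the exact shape of the box.
-/

set_option autoImplicit false

namespace Vale.Agent.P127.U

open Filter Topology Vale.Agent.P127 Vale.Agent.P127.Stk Sys

namespace Norm

open JSB Lam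

variable {S : Sys} {γ : Type} {lam : ℝ}

/-- **start** : the box which attains the excess at the level `L` -/
theorem start (hlam : 0 ≤ lam ∧ lam ≤ 1) {N β : ℝ} {n : ℕ → ℕ} {l : S.RV Ln} {t : S.RV ℝ}
    (hx : XtrL N lam β S n l t) :
    ∃ (S' : Sys) (l' : S'.RV Ln) (t' : S'.RV ℝ) (W : S'.BX), S'.Bd n ∧ (∀ i, S'.L i ≤ n i) ∧
      LnA l' ∧ T01 t' ∧ BxA W ∧
      SubA (tubes (fun i => n i - S'.L i) (bl S'.L l' t')) W ∧
      β + S'.excl lam (tubes n l') (one (S := S')) + N * Dl S'.L n l' t' (one (S := S')) ≤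
        valS lam S'.L n l' t' W (one (S := S')) := by
  have hn := hx.bd
  have hl := hx.ln
  have ht := hx.t01
  have hle := hx.le
  set m : ℕ → ℕ := fun i => n i - S.L i with hm
  have hmb : S.Bd m := bd_le hn fun i => Nat.sub_le _ _
  have hB0 : BxA (tubes m (bl S.L l t)) := Sys.tubes_ok hmb (Fi.bl_ok hl)
  obtain ⟨S', e, W, hW, hs, hv, hc⟩ :=
    Lam.excl_att hlam (Sys.pr (pqs S.L (pt l t)) (one (S := S))) hB0
  have hL : S'.L = S.L := e.L_eq
  have hn' : S'.Bd n := by
    obtain ⟨c, h⟩ := hn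
    exact ⟨c, by rw [hL]; exact h⟩
  have hmb' : S'.Bd m := by
    obtain ⟨c, h⟩ := hmb
    exact ⟨c, by rw [hL]; exact h⟩
  have hl' : LnA (e.pull l) := Fi.ext_lnA e hl
  have ht' : T01 (e.pull t) := Fi.ext_t01 e ht
  have hle' : ∀ i, S'.L i ≤ n i := fun i => by rw [hL]; exact hle i
  have hP : e.pullB (tubes m (bl S.L l t)) =
      tubes (fun i => n i - S'.L i) (bl S'.L (e.pull l) (e.pull t)) := by
    rw [hL]
    rfl
  have hmm : (fun i => n i - S'.L i) = m := by rw [hL]
  refine ⟨S', e.pull l, e.pull t, W, hn', hle', hl', ht', hW, ?_, ?_⟩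
  · rw [← hP]
    exact hs
  -- the value
  have hPar : Fi.Par S' n S'.L m :=
    ⟨fun i => by have := hle' i; rw [← hmm]; show S'.L i + (n i - S'.L i) = n i; omega, hn'⟩
  have hbl : LnA (bl S'.L (e.pull l) (e.pull t)) := Fi.bl_ok hl'
  have hB : BxA (tubes m (bl S'.L (e.pull l) (e.pull t))) := Sys.tubes_ok hmb' hbl
  set X := tbs n (e.pull l) with hX
  set Y := tbs m (bl S'.L (e.pull l) (e.pull t)) with hY
  set Z := pqs S'.L (pt (e.pull l) (e.pull t)) with hZ
  set T := tl S'.L n (e.pull l) (e.pull t) with hT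
  have tX : Tame X := Fi.tame_tbs hn' hl'
  have tY : Tame Y := Fi.tame_tbs hmb' hbl
  have tZ : Tame Z := Fi.tame_pqs Bd_L hl' ht'
  have tT : Tame T := by
    refine Tame.mono ?_ (End.tl_fn hPar)
    exact (Fi.tame_ps hPar.bds hl' ht').pr (tY.pr tZ)
  have tW : Tame W.lab := hW.tame
  have hBl : (tubes m (bl S'.L (e.pull l) (e.pull t))).lab =
      (tubes m (bl S'.L (e.pull l) (e.pull t))).lab := rfl
  -- facts pulled back
  have hv' : S'.vall lam (tubes m (bl S'.L (e.pull l) (e.pull t))) W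
      (Sys.pr Z (one (S := S'))) = S.excl lam (tubes m (bl S.L l t))
        (Sys.pr (pqs S.L (pt l t)) (one (S := S))) := by
    rw [← hv, hP, hmm]
    have e1 : e.pull (Sys.pr (pqs S.L (pt l t)) (one (S := S))) = Sys.pr Z (one (S := S')) := by
      rw [hZ, hL]
      rfl
    rw [e1]
  have hci : S'.hc W.lab (Sys.pr X (Sys.pr (tubes m (bl S'.L (e.pull l) (e.pull t))).lab
      (Sys.pr Z (one (S := S'))))) =
      S'.hc W.lab (Sys.pr (tubes m (bl S'.L (e.pull l) (e.pull t))).lab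
      (Sys.pr Z (one (S := S')))) := by
    have := hc _ (tbs n l)
    rw [hP, hmm] at this
    have e1 : e.pull (Sys.pr (pqs S.L (pt l t)) (one (S := S))) = Sys.pr Z (one (S := S')) := by
      rw [hZ, hL]
      rfl
    rw [e1] at this
    exact this
  have hxe := hx.eq
  have e2 : S'.excl lam (tubes n (e.pull l)) (one (S := S')) =
      S.excl lam (tubes n l) (one (S := S)) := Lam.excl_ext e (one (S := S)) (tubes n l)
  have e3 : Dl S'.L n (e.pull l) (e.pull t) (one (S := S')) = Dl S.L n l t (one (S := S)) := by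
    unfold Dl
    rw [Fi.nu_ext e, hL]
    congr 1
    exact e.hc (dg S.L t) (Sys.pr (tbs n l) (one (S := S)))
  have e4 : S'.hc X (Sys.pr T (one (S := S'))) = S.hc (tbs n l) (Sys.pr (tl S.L n l t) (one (S := S))) := by
    rw [hT, hL]
    exact e.hc (tbs n l) (Sys.pr (tl S.L n l t) (one (S := S)))
  rw [e2, e3]
  have e5 : β + S.excl lam (tubes n l) (one (S := S)) + N * Dl S.L n l t (one (S := S)) =
      Xl lam S.L n l t (one (S := S)) := hxe.symm
  rw [e5, valS_eq Bd_L hn' hl' _ hlam hW]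
  -- the penalised size
  have h3 : S'.av (fun i ω => (tubes m (bl S'.L (e.pull l) (e.pull t))).szl lam i ω - W.szl lam i ω) =
      2 * (S'.nu n - S'.nu S'.L) - S'.av (BX.szl lam W) := by
    have e1 : S'.nu m = S'.nu n - S'.nu S'.L := by
      have := Apx.nu_sub (S := S') hn' hle'
      rw [← this, hmm]
    rw [← e1]
    have e6 := av_sub (ol_szl hlam hB) (ol_szl hlam hW)
    have e7 : (fun i ω => (tubes m (bl S'.L (e.pull l) (e.pull t))).szl lam i ω - W.szl lam i ω) =
        fun i ω => BX.szl lam (tubes m (bl S'.L (e.pull l) (e.pull t))) i ω - BX.szl lam W i ω := rfl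
    rw [e7, e6, End.av_const (f := BX.szl lam (tubes m (bl S'.L (e.pull l) (e.pull t)))) (n := m)
      hmb' (c := 2) (fun i ω => by
        show (1 + lam) * (m i : ℝ) + (1 - lam) * (m i : ℝ) = _
        ring)]
  -- the entropies
  have k1 : S'.hc (tubes m (bl S'.L (e.pull l) (e.pull t))).lab
      (Sys.pr W.lab (Sys.pr Z (one (S := S')))) ≤ S'.hc Y (Sys.pr W.lab Z) := by
    refine (Sys.hc_mono_left tY hB.tame (End.fn_pr_left (Coa.fn_lab m _))).trans ?_
    refine hc_mono_right tY (Eventually.of_forall fun _ _ _ _ _ e => ?_)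
    simp only [pr_apply, Prod.mk.injEq] at e ⊢
    exact ⟨e.1, e.2.1⟩
  have k2 : S'.hc X (Sys.pr T (one (S := S'))) ≤ S'.hc X (Sys.pr Y (Sys.pr W.lab Z)) := by
    set B := (tubes m (bl S'.L (e.pull l) (e.pull t))).lab with hBdef
    have tB : Tame B := hB.tame
    have a0 := mi_comm tX tW (Sys.pr B (Sys.pr Z (one (S := S'))))
    unfold Sys.mi at a0
    have a1 : S'.hc X (Sys.pr W.lab (Sys.pr B (Sys.pr Z (one (S := S'))))) =
        S'.hc X (Sys.pr B (Sys.pr Z (one (S := S')))) := by linarith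
    have a2 : S'.hc (Sys.pr Y Z) T = 0 :=
      Fi.hc_zero_pair tY tZ (hc_fn (tbs_tl hPar _ _)) (pqs_tl hPar hl' ht')
    have a3 : S'.hc (Sys.pr B (Sys.pr Z (one (S := S')))) (Sys.pr T (one (S := S'))) = 0 := by
      refine Fi.hc_zero_trans (tB.pr (tZ.mono (Eventually.of_forall fun _ _ _ _ _ e => ?_)))
        (tY.pr tZ) (hc_fn (Eventually.of_forall fun i ω ω' hω hω' e => ?_)) (Fi.hc_zero_mono (tY.pr tZ) a2
          (Eventually.of_forall fun _ _ _ _ _ e => congrArg Prod.fst e))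
      · simp only [pr_apply, Prod.mk.injEq]
        exact ⟨e, trivial⟩
      · simp only [pr_apply, Prod.mk.injEq] at e ⊢
        exact ⟨LocT.tbx_lab.2 e.1, e.2, trivial⟩
    have a4 : S'.hc X (Sys.pr T (one (S := S'))) ≤
        S'.hc X (Sys.pr B (Sys.pr Z (one (S := S')))) := by
      have b1 := hc_cond_zero tX (tB.pr (tZ.mono (Eventually.of_forall fun _ _ _ _ _ e => by
        simp only [pr_apply, Prod.mk.injEq]
        exact ⟨e, trivial⟩))) a3
      rw [← b1]
      exact hc_mono_right tX (Eventually.of_forall fun _ _ _ _ _ e => congrArg Prod.fst e)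
    refine a4.trans ?_
    rw [← a1]
    refine hc_mono_right tX (Eventually.of_forall fun i ω ω' _ _ e => ?_)
    simp only [pr_apply, Prod.mk.injEq] at e ⊢
    exact ⟨LocT.tbx_lab.1 e.2.1, e.1, e.2.2.1⟩
  have k3 := mi_comm tX tY (Sys.pr W.lab Z)
  unfold Sys.mi at k3
  have k4 : S'.hc Y (Sys.pr X (Sys.pr W.lab Z)) = 0 := by
    have b1 : S'.hc Y (Sys.pr (dg S'.L (e.pull t)) X) = 0 :=
      Fi.hc_zero_trans tY hB.tame (hc_fn (Coa.fn_lab' m _)) (Fi.zero_tubelet_tb hPar hl' ht')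
    refine Fi.hc_zero_mono tY b1 (Eventually.of_forall fun _ _ _ _ _ e => ?_)
    simp only [pr_apply, Prod.mk.injEq] at e ⊢
    exact ⟨congrArg Prod.fst e.2.2, e.1⟩
  have k7 : S'.hc X (Sys.pr W.lab Z) = S'.hc X (Sys.pr W.lab (Sys.pr Z (one (S := S')))) :=
    hc_congr (Eventually.of_forall fun _ _ _ _ _ e => congrArg Prod.fst e)
      (Eventually.of_forall fun _ _ _ _ _ e => congrArg Prod.fst e)
      (Eventually.of_forall fun _ _ _ _ _ e => by
        simp only [pr_apply, Prod.mk.injEq] at e ⊢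
        exact ⟨e.1, e.2.1⟩)
      (Eventually.of_forall fun _ _ _ _ _ e => by
        simp only [pr_apply, Prod.mk.injEq] at e ⊢
        exact ⟨e.1, e.2, trivial⟩)
  have k5 := hv'
  unfold Sys.vall at k5
  unfold Xl
  rw [h3] at k5
  rw [← k7]
  have k6 : S.excl lam (tubes (fun i => n i - S.L i) (bl S.L l t)) (Sys.pr (pqs S.L (pt l t)) (one (S := S))) =
    S.excl lam (tubes m (bl S.L l t)) (Sys.pr (pqs S.L (pt l t)) (one (S := S))) := rfl
  rw [k6, ← e4]
  linarith

/-! ### conditioning on the shape -/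

/-- the shape of a box and one bit on its direction -/
noncomputable def shp (W : S.BX) : S.RV (ℕ × ℕ × Bool) := by
  classical
  exact fun i ω => ((W i).k ω, (W i).j ω,
    decide (|Real.sin ((W i).θ ω)| ≤ |Real.cos ((W i).θ ω)|))

/-- the shape has at most `2 (M + 1)^2` values -/
theorem shp_le {W : S.BX} (hW : BxA W) : ∃ M : ℕ → ℕ, S.Bd M ∧
    ∀ (δ : Type) (X : S.RV δ), ∀ᶠ i in (uf : Filter ℕ),
      Stk.hc (S.P i) (shp W i) (X i) ≤ Real.log 2 + 2 * Real.log (M i + 1) := by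
  classical
  obtain ⟨h1, c, hc⟩ := hW
  refine ⟨fun i => ⌊|c| * S.L i⌋₊, ⟨|c|, Eventually.of_forall fun i =>
    Nat.floor_le (mul_nonneg (abs_nonneg _) (Nat.cast_nonneg _))⟩, fun δ X => ?_⟩
  filter_upwards [h1, hc] with i g1 g2
  set M : ℕ := ⌊|c| * S.L i⌋₊ with hM
  have h3 : ∀ ω, 0 < (S.P i).w ω → (W i).k ω ≤ M ∧ (W i).j ω ≤ M := by
    intro ω hω
    have a1 : ((W i).j ω : ℝ) ≤ |c| * S.L i :=
      (g2 ω hω).trans (mul_le_mul_of_nonneg_right (le_abs_self c) (Nat.cast_nonneg _))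
    have a2 : (W i).j ω ≤ M := Nat.le_floor a1
    exact ⟨((g1 ω hω).2.2).trans a2, a2⟩
  have h4 := Stk.hc_le_log (S.P i) (shp W i) (X i) ((M + 1) * ((M + 1) * 2)) (fun ω _ =>
    ⟨Finset.range (M + 1) ×ˢ (Finset.range (M + 1) ×ˢ (Finset.univ : Finset Bool)), by
      rw [Finset.card_product, Finset.card_product, Finset.card_range, Finset.card_univ,
        Fintype.card_bool], fun ω' hω' _ => by
      obtain ⟨b1, b2⟩ := h3 ω' hω'
      simp only [shp, Finset.mem_product, Finset.mem_range, Finset.mem_univ, and_true]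
      exact ⟨by omega, by omega⟩⟩)
  refine h4.trans (le_of_eq ?_)
  push_cast
  rw [Real.log_mul (by positivity) (by positivity), Real.log_mul (by positivity) (by positivity)]
  ring

theorem shp_zero {W : S.BX} (hW : BxA W) {δ : Type} (X : S.RV δ) : S.hc (shp W) X = 0 := by
  obtain ⟨M, hM, h⟩ := shp_le hW
  refine ulim_eq (squeeze_zero' ?_ ?_ (g := fun i => Real.log 2 / S.nm i +
    2 * (Real.log (M i + 1) / S.nm i)) ?_)
  · filter_upwards [S.nm_pos] with i hi
    exact div_nonneg (Stk.hc_nonneg _ _ _) hi.le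
  · filter_upwards [S.nm_pos, h δ X] with i hi h1
    rw [← mul_div_assoc, ← add_div]
    exact div_le_div_of_nonneg_right h1 hi.le
  · have := (S.const_div_nm (Real.log 2)).add ((log_o hM).const_mul 2)
    simpa using this

theorem tame_of_hc_zero {α : Type} {X : S.RV α}
    (h : ∃ M : ℕ → ℕ, S.Bd M ∧ ∀ (δ : Type) (Y : S.RV δ), ∀ᶠ i in (uf : Filter ℕ),
      Stk.hc (S.P i) (X i) (Y i) ≤ Real.log 2 + 2 * Real.log (M i + 1)) : Tame X := by
  obtain ⟨M, ⟨c, hc⟩, h⟩ := h
  refine ⟨1 + 2 * (|c| / Real.log 2), ?_⟩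
  have hlog : 0 < Real.log 2 := Real.log_pos (by norm_num)
  filter_upwards [h Unit one, hc, S.L_pos] with i h1 h2 h3
  have hL : (1:ℝ) ≤ S.L i := by exact_mod_cast h3
  have h4 : Stk.hc (S.P i) (X i) (one (S := S) i) = (S.P i).H (X i) := hc_unit (S.P i) (X i)
  rw [h4] at h1
  refine h1.trans ?_
  have h5 : Real.log ((M i : ℝ) + 1) ≤ M i := by
    have := Real.log_le_sub_one_of_pos (show (0:ℝ) < (M i : ℝ) + 1 by positivity)
    linarith
  have h6 : (M i : ℝ) ≤ |c| * S.L i :=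
    h2.trans (mul_le_mul_of_nonneg_right (le_abs_self c) (Nat.cast_nonneg _))
  have e : (1 + 2 * (|c| / Real.log 2)) * S.nm i = S.L i * Real.log 2 + 2 * (|c| * S.L i) := by
    unfold Sys.nm
    field_simp
  rw [e]
  nlinarith

theorem shp_tame {W : S.BX} (hW : BxA W) : Tame (shp W) := tame_of_hc_zero (shp_le hW)

/-- **conditioning on the exact shape** -/
theorem shape_const (hlam : 0 ≤ lam ∧ lam ≤ 1) {N β : ℝ} {n : ℕ → ℕ} (hN : 0 ≤ N)
    {l : S.RV Ln} {t : S.RV ℝ} {W : S.BX} (hn : S.Bd n) (hle : ∀ i, S.L i ≤ n i)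
    (hl : LnA l) (ht : T01 t) (hW : BxA W)
    (hs : SubA (tubes (fun i => n i - S.L i) (bl S.L l t)) W)
    (h : β + S.excl lam (tubes n l) (one (S := S)) + N * Dl S.L n l t (one (S := S)) ≤
      valS lam S.L n l t W (one (S := S))) :
    ∃ (S' : Sys) (l' : S'.RV Ln) (t' : S'.RV ℝ) (W' : S'.BX) (k j : ℕ → ℕ) (b : ℕ → Bool),
      S'.Bd n ∧ (∀ i, S'.L i ≤ n i) ∧ LnA l' ∧ T01 t' ∧ BxA W' ∧
      SubA (tubes (fun i => n i - S'.L i) (bl S'.L l' t')) W' ∧ Shape W' k j ∧
      (S'.Ae fun i ω => (b i = true → |Real.sin ((W' i).θ ω)| ≤ |Real.cos ((W' i).θ ω)|) ∧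
        (b i = false → |Real.cos ((W' i).θ ω)| ≤ |Real.sin ((W' i).θ ω)|)) ∧
      β + S'.excl lam (tubes n l') (one (S := S')) + N * Dl S'.L n l' t' (one (S := S')) ≤
        valS lam S'.L n l' t' W' (one (S := S')) := by
  classical
  set Z := shp W with hZ
  have tZ : Tame Z := shp_tame hW
  have t1 : Tame (one (S := S)) := ⟨0, Eventually.of_forall fun i => by
    have := Stk.hc_zero (S.P i) (X := fun _ => ()) (Y := fun _ : S.Ω i => ()) (fun _ _ _ _ _ => rfl)
    rw [hc_unit] at this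
    rw [zero_mul]
    exact this.le⟩
  have tX : Tame (tbs n l) := tame_tbs hn hl
  have tD : Tame (dg S.L t) := tame_dg_t Bd_L ht
  have tP : Tame (pqs S.L (pt l t)) := Fi.tame_pqs Bd_L hl ht
  have z1 : ∀ {δ : Type} (X : S.RV δ), S.hc (one (S := S)) X = 0 := fun X =>
    hc_fn (Eventually.of_forall fun _ _ _ _ _ _ => rfl)
  have e1 : valS lam S.L n l t W (one (S := S)) ≤ valS lam S.L n l t W Z := by
    rw [valS_eq Bd_L hn hl t hlam hW, valS_eq Bd_L hn hl t hlam hW]
    have h1 : S.hc (tbs n l) (Sys.pr W.lab (Sys.pr (pqs S.L (pt l t)) (one (S := S)))) ≤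
        S.hc (tbs n l) (Sys.pr W.lab (Sys.pr (pqs S.L (pt l t)) Z)) := by
      rw [← hc_cond_zero tX tZ (shp_zero hW (Sys.pr W.lab (Sys.pr (pqs S.L (pt l t)) (one (S := S)))))]
      refine hc_mono_right tX (Eventually.of_forall fun _ _ _ _ _ e => ?_)
      simp only [pr_apply, Prod.mk.injEq] at e ⊢
      exact ⟨e.2.1, e.2.2.1, e.1⟩
    linarith
  have e2 : S.excl lam (tubes n l) Z ≤ S.excl lam (tubes n l) (one (S := S)) := by
    have := Lam.excl_le_add hlam (C := Z) (tubes_ok hn hl) t1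
    rw [z1] at this
    linarith
  have e3 : Dl S.L n l t Z ≤ Dl S.L n l t (one (S := S)) := by
    unfold Dl
    have h1 : S.hc (dg S.L t) (Sys.pr (tbs n l) (one (S := S))) ≤
        S.hc (dg S.L t) (Sys.pr (tbs n l) Z) := by
      rw [← hc_cond_zero tD tZ (shp_zero hW (Sys.pr (tbs n l) (one (S := S))))]
      refine hc_mono_right tD (Eventually.of_forall fun _ _ _ _ _ e => ?_)
      simp only [pr_apply, Prod.mk.injEq] at e ⊢
      exact ⟨e.2.1, e.1⟩
    linarith
  have h' : β + S.excl lam (tubes n l) Z + N * Dl S.L n l t Z ≤ valS lam S.L n l t W Z := by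
    have := mul_le_mul_of_nonneg_left e3 hN
    linarith
  obtain ⟨z, hz, hv⟩ := sel hlam Bd_L hn hl ht hW Z h'
  have hZe := condS_eq hz
  refine ⟨condS S Z z, l, t, W, fun i => (z i).1, fun i => (z i).2.1, fun i => (z i).2.2, hn, hle,
    condS_ae hl, condS_ae ht, ?_, ?_, ?_, ?_, hv⟩
  · obtain ⟨h1, c, h2⟩ := hW
    exact ⟨condS_ae h1, c, condS_ae h2⟩
  · obtain ⟨c, h1⟩ := hs
    exact ⟨c, condS_ae h1⟩
  · filter_upwards [hZe] with i hi ω hω
    have := hi ω hω
    rw [← this]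
    exact ⟨rfl, rfl⟩
  · filter_upwards [hZe] with i hi ω hω
    have h1 := hi ω hω
    have h2 : (z i).2.2 = decide (|Real.sin ((W i).θ ω)| ≤ |Real.cos ((W i).θ ω)|) := by
      rw [← h1]
      rfl
    rw [h2]
    constructor
    · intro h3
      exact of_decide_eq_true h3
    · intro h3
      exact (not_le.1 (of_decide_eq_false h3)).le

end Norm

end Vale.Agent.P127.U
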