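import Vale.Agent.P127.U.Lam.NormB
import Vale.Agent.P127.U.End.TubeL

/-!
# P127 / U / Lam : normalisation of the extremal system, part C : zoom (helper119)

* `bl1_zm` : the ball line of the blown up line is the blown up ball line.
* `zoom` : restriction to the tube of precision `k` and blow up.
-/

set_option autoImplicit false

namespace Vale.Agent.P127.U

open Filter Topology Vale.Agent.P127 Vale.Agent.P127.Stk Sys

namespace Norm

open JSB Lam Lam.Ball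

/-! ### geometry -/

/-- the ball line of the blown up line -/
theorem bl1_zm (L k : ℕ) (l : Ln) (t : ℝ) :
    bl1 L (LocT.zm k l) t = LocT.zm k (bl1 L l t) := by
  unfold bl1 LocT.zm
  refine Prod.ext ?_ rfl
  funext j
  show Int.fract ((2 : ℝ) ^ L * pos (LocT.zm k l) (qa L t) j) =
    Int.fract ((2 : ℝ) ^ k * Int.fract ((2 : ℝ) ^ L * pos l (qa L t) j))
  rw [LocT.pos_zm]
  have h1 : (2 : ℝ) ^ L * qa L t = (fl1 L t : ℝ) := by
    unfold qa
    field_simp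
  set p : ℝ := pos l (qa L t) j with hp
  have h2 : (2 : ℝ) ^ L * ((2 : ℝ) ^ k * p - ((tb k l).1 j + qa L t * (tb k l).2 j)) =
      (2 : ℝ) ^ k * Int.fract ((2 : ℝ) ^ L * p) +
        ((2 ^ k * ⌊(2 : ℝ) ^ L * p⌋ - 2 ^ L * (tb k l).1 j - fl1 L t * (tb k l).2 j : ℤ) : ℝ) := by
    have h3 : Int.fract ((2 : ℝ) ^ L * p) = (2 : ℝ) ^ L * p - ⌊(2 : ℝ) ^ L * p⌋ := rfl
    rw [h3]
    push_cast
    rw [← h1]
    ring
  rw [h2, Int.fract_add_intCast]

theorem vec_of_co {φ : ℝ} {v w : Fin 2 → ℝ} {a : ℝ} (h0 : |co φ v 0 - co φ w 0| ≤ a)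
    (h1 : |co φ v 1 - co φ w 1| ≤ a) (i : Fin 2) : |v i - w i| ≤ 2 * a := by
  have hc := Real.abs_cos_le_one φ
  have hs := Real.abs_sin_le_one φ
  have ha : 0 ≤ a := (abs_nonneg _).trans h0
  have hsc := Real.sin_sq_add_cos_sq φ
  set x := co φ v 0 - co φ w 0 with hx
  set y := co φ v 1 - co φ w 1 with hy
  have e0 : v 0 - w 0 = Real.cos φ * x - Real.sin φ * y := by
    simp only [hx, hy, co, Matrix.cons_val_zero, Matrix.cons_val_one]
    linear_combination (-(v 0 - w 0)) * hsc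
  have e1 : v 1 - w 1 = Real.sin φ * x + Real.cos φ * y := by
    simp only [hx, hy, co, Matrix.cons_val_zero, Matrix.cons_val_one]
    linear_combination (-(v 1 - w 1)) * hsc
  have k1 : |Real.cos φ * x| ≤ a := by
    rw [abs_mul]
    calc |Real.cos φ| * |x| ≤ 1 * a := mul_le_mul hc h0 (abs_nonneg _) zero_le_one
      _ = a := one_mul a
  have k2 : |Real.sin φ * y| ≤ a := by
    rw [abs_mul]
    calc |Real.sin φ| * |y| ≤ 1 * a := mul_le_mul hs h1 (abs_nonneg _) zero_le_one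
      _ = a := one_mul a
  have k3 : |Real.sin φ * x| ≤ a := by
    rw [abs_mul]
    calc |Real.sin φ| * |x| ≤ 1 * a := mul_le_mul hs h0 (abs_nonneg _) zero_le_one
      _ = a := one_mul a
  have k4 : |Real.cos φ * y| ≤ a := by
    rw [abs_mul]
    calc |Real.cos φ| * |y| ≤ 1 * a := mul_le_mul hc h1 (abs_nonneg _) zero_le_one
      _ = a := one_mul a
  fin_cases i
  · show |v 0 - w 0| ≤ 2 * a
    rw [e0]
    rw [abs_le] at k1 k2 ⊢
    constructor <;> linarith [k1.1, k1.2, k2.1, k2.2]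
  · show |v 1 - w 1| ≤ 2 * a
    rw [e1]
    rw [abs_le] at k3 k4 ⊢
    constructor <;> linarith [k3.1, k3.2, k4.1, k4.2]

/-- closeness from equal labels -/
theorem lab_vec {θ θ' : ℝ} {k j : ℕ} (hkj : k ≤ j) {l l' : Ln} (e : lab θ k j l = lab θ' k j l') :
    fl1 (j - k) θ = fl1 (j - k) θ' ∧
    (|co (qa (j - k) θ) l.1 0 - co (qa (j - k) θ) l'.1 0| ≤ (1 / 2 : ℝ) ^ k ∧
      |co (qa (j - k) θ) l.1 1 - co (qa (j - k) θ) l'.1 1| ≤ (1 / 2 : ℝ) ^ j) ∧
    (|co (qa (j - k) θ) l.2 0 - co (qa (j - k) θ) l'.2 0| ≤ (1 / 2 : ℝ) ^ k ∧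
      |co (qa (j - k) θ) l.2 1 - co (qa (j - k) θ) l'.2 1| ≤ (1 / 2 : ℝ) ^ j) ∧
    (∀ i, |l.1 i - l'.1 i| ≤ 2 * (1 / 2 : ℝ) ^ k) ∧ (∀ i, |l.2 i - l'.2 i| ≤ 2 * (1 / 2 : ℝ) ^ k) := by
  unfold lab at e
  simp only [Prod.mk.injEq, true_and] at e
  obtain ⟨e1, e2, e3⟩ := e
  have hq : qa (j - k) θ' = qa (j - k) θ := by
    unfold qa
    rw [e1]
  rw [hq] at e2 e3
  unfold fkj at e2 e3
  simp only [Prod.mk.injEq] at e2 e3
  have a1 := fl1_close e2.1
  have a2 := fl1_close e2.2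
  have a3 := fl1_close e3.1
  have a4 := fl1_close e3.2
  have hh : (1 / 2 : ℝ) ^ j ≤ (1 / 2) ^ k := Lam.Ball.half_le hkj
  exact ⟨e1, ⟨a1, a2⟩, ⟨a3, a4⟩, vec_of_co a1 (a2.trans hh), vec_of_co a3 (a4.trans hh)⟩

/-- the label of the blown up box -/
theorem lab_zm_close {θ θ' : ℝ} {k j : ℕ} (hkj : k ≤ j) {l l' : Ln} (e : lab θ k j l = lab θ' k j l')
    (e2 : tb k l = tb k l') :
    LabCl 2 (lab θ 0 (j - k) (LocT.zm k l)) (lab θ' 0 (j - k) (LocT.zm k l')) := by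
  obtain ⟨e1, ⟨a1, a2⟩, ⟨a3, a4⟩, -, -⟩ := lab_vec hkj e
  have hq : qa (j - k) θ' = qa (j - k) θ := by
    unfold qa
    rw [e1]
  have h2k : (0 : ℝ) < 2 ^ k := by positivity
  have hp : (1 / 2 : ℝ) ^ k = 1 / 2 ^ k := by rw [div_pow, one_pow]
  have hp2 : (2 : ℝ) ^ k * (1 / 2 : ℝ) ^ j = (1 / 2 : ℝ) ^ (j - k) := by
    have : (1 / 2 : ℝ) ^ j = (1 / 2) ^ (j - k) * (1 / 2) ^ k := by rw [← pow_add]; congr 1; omega
    rw [this, hp]
    field_simp
  have key : ∀ (v w : Fin 2 → ℝ) (φ : ℝ) (i : Fin 2), (∀ r, fl k v r = fl k w r) →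
      co φ (fun r => Int.fract ((2 : ℝ) ^ k * v r)) i - co φ (fun r => Int.fract ((2 : ℝ) ^ k * w r)) i =
        2 ^ k * (co φ v i - co φ w i) := by
    intro v w φ i h
    have h1 : ∀ r, Int.fract ((2 : ℝ) ^ k * v r) - Int.fract ((2 : ℝ) ^ k * w r) =
        2 ^ k * (v r - w r) := by
      intro r
      have h2 : ⌊(2 : ℝ) ^ k * v r⌋ = ⌊(2 : ℝ) ^ k * w r⌋ := h r
      unfold Int.fract
      rw [h2]
      ring
    rw [← co_sub, ← co_sub]
    simp only [h1]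
    fin_cases i <;> simp [co] <;> ring
  have f1 : ∀ r, fl k l.1 r = fl k l'.1 r := fun r => congrFun (congrArg Prod.fst e2) r
  have f2 : ∀ r, fl k l.2 r = fl k l'.2 r := fun r => congrFun (congrArg Prod.snd e2) r
  have g0 : ∀ (m : ℕ) (x y : ℝ), |x - y| ≤ (1 / 2 : ℝ) ^ m → |fl1 m x - fl1 m y| ≤ (2 : ℤ) := by
    intro m x y h
    have := fl1_sub_le (m := m) (N := 1) (x := x) (y := y) (by simpa using h)
    simpa using this
  have m1 : |co (qa (j - k) θ) (fun r => Int.fract ((2 : ℝ) ^ k * l.1 r)) 0 -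
      co (qa (j - k) θ) (fun r => Int.fract ((2 : ℝ) ^ k * l'.1 r)) 0| ≤ (1 / 2 : ℝ) ^ 0 := by
    rw [key _ _ _ _ f1, abs_mul, abs_of_pos h2k, pow_zero]
    calc (2 : ℝ) ^ k * _ ≤ 2 ^ k * (1 / 2 : ℝ) ^ k := mul_le_mul_of_nonneg_left a1 h2k.le
      _ = 1 := by rw [hp]; field_simp
  have m2 : |co (qa (j - k) θ) (fun r => Int.fract ((2 : ℝ) ^ k * l.1 r)) 1 -
      co (qa (j - k) θ) (fun r => Int.fract ((2 : ℝ) ^ k * l'.1 r)) 1| ≤ (1 / 2 : ℝ) ^ (j - k) := by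
    rw [key _ _ _ _ f1, abs_mul, abs_of_pos h2k, ← hp2]
    exact mul_le_mul_of_nonneg_left a2 h2k.le
  have m3 : |co (qa (j - k) θ) (fun r => Int.fract ((2 : ℝ) ^ k * l.2 r)) 0 -
      co (qa (j - k) θ) (fun r => Int.fract ((2 : ℝ) ^ k * l'.2 r)) 0| ≤ (1 / 2 : ℝ) ^ 0 := by
    rw [key _ _ _ _ f2, abs_mul, abs_of_pos h2k, pow_zero]
    calc (2 : ℝ) ^ k * _ ≤ 2 ^ k * (1 / 2 : ℝ) ^ k := mul_le_mul_of_nonneg_left a3 h2k.le
      _ = 1 := by rw [hp]; field_simp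
  have m4 : |co (qa (j - k) θ) (fun r => Int.fract ((2 : ℝ) ^ k * l.2 r)) 1 -
      co (qa (j - k) θ) (fun r => Int.fract ((2 : ℝ) ^ k * l'.2 r)) 1| ≤ (1 / 2 : ℝ) ^ (j - k) := by
    rw [key _ _ _ _ f2, abs_mul, abs_of_pos h2k, ← hp2]
    exact mul_le_mul_of_nonneg_left a4 h2k.le
  refine ⟨rfl, rfl, ?_, ?_, ?_, ?_, ?_⟩
  · show fl1 (j - k - 0) θ = fl1 (j - k - 0) θ'
    rw [Nat.sub_zero]
    exact e1
  · show |fl1 0 (co (qa (j - k - 0) θ) (fun r => Int.fract ((2 : ℝ) ^ k * l.1 r)) 0) -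
      fl1 0 (co (qa (j - k - 0) θ') (fun r => Int.fract ((2 : ℝ) ^ k * l'.1 r)) 0)| ≤ ((2 : ℕ) : ℤ)
    rw [Nat.sub_zero, hq]
    exact_mod_cast g0 _ _ _ m1
  · show |fl1 (j - k) (co (qa (j - k - 0) θ) (fun r => Int.fract ((2 : ℝ) ^ k * l.1 r)) 1) -
      fl1 (j - k) (co (qa (j - k - 0) θ') (fun r => Int.fract ((2 : ℝ) ^ k * l'.1 r)) 1)| ≤ ((2 : ℕ) : ℤ)
    rw [Nat.sub_zero, hq]
    exact_mod_cast g0 _ _ _ m2
  · show |fl1 0 (co (qa (j - k - 0) θ) (fun r => Int.fract ((2 : ℝ) ^ k * l.2 r)) 0) -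
      fl1 0 (co (qa (j - k - 0) θ') (fun r => Int.fract ((2 : ℝ) ^ k * l'.2 r)) 0)| ≤ ((2 : ℕ) : ℤ)
    rw [Nat.sub_zero, hq]
    exact_mod_cast g0 _ _ _ m3
  · show |fl1 (j - k) (co (qa (j - k - 0) θ) (fun r => Int.fract ((2 : ℝ) ^ k * l.2 r)) 1) -
      fl1 (j - k) (co (qa (j - k - 0) θ') (fun r => Int.fract ((2 : ℝ) ^ k * l'.2 r)) 1)| ≤ ((2 : ℕ) : ℤ)
    rw [Nat.sub_zero, hq]
    exact_mod_cast g0 _ _ _ m4

/-! ### systems -/

variable {S : Sys} {γ : Type} {lam : ℝ}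

/-- a label known up to closeness -/
theorem lab_zero (N : ℕ) (X : S.RV Lab) (Y : S.RV γ)
    (h : ∀ᶠ i in (uf : Filter ℕ), ∀ ω ω', 0 < (S.P i).w ω → 0 < (S.P i).w ω' →
      Y i ω' = Y i ω → LabCl N (X i ω') (X i ω)) : S.hc X Y = 0 := by
  refine hc_zero_of_le (Real.log (((2 * N + 1) ^ 4 : ℕ) : ℝ)) ?_
  filter_upwards [h] with i hi
  exact ExcB.hc_labCl' (S.P i) (X i) (Y i) N hi

/-- change of the lines, of the box and of the precision, in the value form -/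
theorem trans (hlam : 0 ≤ lam ∧ lam ≤ 1) {N β : ℝ} (hN : 0 ≤ N) {n n' : ℕ → ℕ} {l l' : S.RV Ln}
    {t : S.RV ℝ} {W W' : S.BX} {Z : S.RV γ} (hn : S.Bd n) (hn' : S.Bd n')
    (hl : LnA l) (hl' : LnA l') (ht : T01 t) (hW : BxA W) (hW' : BxA W') (tZ : Tame Z)
    (a1 : S.hc (tbs n l) (Sys.pr (tbs n' l') Z) = 0)
    (a2 : S.hc (Sys.pr W'.lab (Sys.pr (pqs S.L (pt l' t)) Z))
      (Sys.pr W.lab (Sys.pr (pqs S.L (pt l t)) (one (S := S)))) = 0)
    (a3 : S.hc (Sys.pr (tbs n' l') Z) (tbs n l) = 0)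
    (b : S.av (BX.szl lam W') - 2 * S.nu n' = S.av (BX.szl lam W) - 2 * S.nu n)
    (c : S.excl lam (tubes n' l') Z ≤ S.excl lam (tubes n l) (one (S := S)))
    (h : β + S.excl lam (tubes n l) (one (S := S)) + N * Dl S.L n l t (one (S := S)) ≤
      valS lam S.L n l t W (one (S := S))) :
    β + S.excl lam (tubes n' l') Z + N * Dl S.L n' l' t Z ≤ valS lam S.L n' l' t W' Z := by
  have tX : Tame (tbs n l) := tame_tbs hn hl
  have tX' : Tame (tbs n' l') := tame_tbs hn' hl'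
  have tD : Tame (dg S.L t) := tame_dg_t Bd_L ht
  have tP : Tame (pqs S.L (pt l t)) := Fi.tame_pqs Bd_L hl ht
  have tP' : Tame (pqs S.L (pt l' t)) := Fi.tame_pqs Bd_L hl' ht
  rw [valS_eq Bd_L hn' hl' t hlam hW']
  rw [valS_eq Bd_L hn hl t hlam hW] at h
  set V := Sys.pr W.lab (Sys.pr (pqs S.L (pt l t)) (one (S := S))) with hV
  set V' := Sys.pr W'.lab (Sys.pr (pqs S.L (pt l' t)) Z) with hV'
  have tV' : Tame V' := hW'.tame.pr (tP'.pr tZ)
  have h1 : S.hc (tbs n l) V ≤ S.hc (tbs n' l') V' := by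
    have e1 : S.hc (tbs n l) V ≤ S.hc (tbs n l) V' := by
      rw [← hc_cond_zero tX tV' a2]
      exact hc_mono_right tX (Eventually.of_forall fun _ _ _ _ _ e => congrArg Prod.fst e)
    have e2 : S.hc (tbs n l) (Sys.pr (tbs n' l') V') = 0 :=
      Fi.hc_zero_mono tX a1 (Eventually.of_forall fun _ _ _ _ _ e => by
        simp only [hV', pr_apply, Prod.mk.injEq] at e ⊢
        exact ⟨e.1, e.2.2.2⟩)
    have e3 := hc_le_of_zero tX tX' e2
    exact e1.trans e3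
  have h2 : Dl S.L n' l' t Z ≤ Dl S.L n l t (one (S := S)) := by
    unfold Dl
    have e1 : S.hc (dg S.L t) (Sys.pr (tbs n l) (one (S := S))) ≤
        S.hc (dg S.L t) (Sys.pr (tbs n' l') Z) := by
      rw [Sys.hc_one_right, ← hc_cond_zero tD (tX'.pr tZ) a3]
      exact hc_mono_right tD (Eventually.of_forall fun _ _ _ _ _ e => congrArg Prod.fst e)
    linarith
  have h3 := mul_le_mul_of_nonneg_left h2 hN
  linarith

/-- the condition after the zoom is known from the condition before -/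
theorem zoom_cond {n k j : ℕ → ℕ} {l : S.RV Ln} {t : S.RV ℝ} {W : S.BX} (hn : S.Bd n)
    (hkj : ∀ i, k i ≤ j i) (hj : ∀ i, S.L i + j i ≤ n i) (hl : LnA l) (ht : T01 t) (hW : BxA W)
    (hWl : S.Ae fun i ω => (W i).l ω = bl S.L l t i ω) (hsh : Shape W k j)
    (hB' : BxA (S := S) fun i => ⟨bl S.L (fun i ω => LocT.zm (k i) (l i ω)) t i, (W i).θ, fun _ => 0,
      fun _ => j i - k i⟩) :
    S.hc (Sys.pr (BX.lab (S := S) fun i => ⟨bl S.L (fun i ω => LocT.zm (k i) (l i ω)) t i, (W i).θ,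
        fun _ => 0, fun _ => j i - k i⟩)
        (Sys.pr (pqs S.L (pt (fun i ω => LocT.zm (k i) (l i ω)) t))
          (Sys.pr (tbs k l) (one (S := S)))))
      (Sys.pr W.lab (Sys.pr (pqs S.L (pt l t)) (one (S := S)))) = 0 := by
  set l' : S.RV Ln := fun i ω => LocT.zm (k i) (l i ω) with hl'def
  set W' : S.BX := fun i => ⟨bl S.L l' t i, (W i).θ, fun _ => 0, fun _ => j i - k i⟩ with hW'def
  set V := Sys.pr W.lab (Sys.pr (pqs S.L (pt l t)) (one (S := S))) with hV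
  have hl' : LnA l' := Eventually.of_forall fun i ω _ => LocT.zm_ok _ _
  have hkn : ∀ i, k i ≤ n i := fun i => by have := hkj i; have := hj i; omega
  have hbk : S.Bd k := bd_le hn hkn
  have hbl : LnA (bl S.L l t) := Fi.bl_ok hl
  have tM : Tame (dgv S.L (Fi.ps S.L l t)) := Fi.tame_ps Bd_L hl ht
  have tM1 : Tame (tbs k (bl S.L l t)) := tame_tbs hbk hbl
  have tZ : Tame (tbs k l) := tame_tbs hbk hl
  have tP : Tame (pqs S.L (pt l t)) := Fi.tame_pqs Bd_L hl ht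
  have tP' : Tame (pqs S.L (pt l' t)) := Fi.tame_pqs Bd_L hl' ht
  have tW' : Tame W'.lab := hB'.tame
  have half0 : ∀ m : ℕ, (0:ℝ) < (1 / 2 : ℝ) ^ m := fun m => by positivity
  -- the integer part of the position at the time `t_L`
  have z1 : S.hc (dgv S.L (Fi.ps S.L l t)) V = 0 :=
    Fi.hc_zero_mono tM (End.cell_pt hl) (Eventually.of_forall fun _ _ _ _ _ e => by
      simp only [hV, pr_apply, Prod.mk.injEq] at e
      exact e.2.1)
  -- equal labels of `W`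
  have hlab : ∀ᶠ i in (uf : Filter ℕ), ∀ ω ω', 0 < (S.P i).w ω → 0 < (S.P i).w ω' →
      W.lab i ω = W.lab i ω' →
      lab ((W i).θ ω) (k i) (j i) (bl S.L l t i ω) = lab ((W i).θ ω') (k i) (j i) (bl S.L l t i ω') := by
    filter_upwards [hWl, hsh] with i h1 h2 ω ω' hω hω' e
    have e' : lab ((W i).θ ω) ((W i).k ω) ((W i).j ω) ((W i).l ω) =
      lab ((W i).θ ω') ((W i).k ω') ((W i).j ω') ((W i).l ω') := e
    rw [h1 ω hω, h1 ω' hω', (h2 ω hω).1, (h2 ω hω).2, (h2 ω' hω').1, (h2 ω' hω').2] at e'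
    exact e'
  -- the tube of the ball line of precision `k`
  have z2 : S.hc (tbs k (bl S.L l t)) V = 0 := by
    have c1 : S.hc (dgv k fun i ω => (bl S.L l t i ω).1) V = 0 := by
      refine Fi.hc_zero_fl k 2 _ _ ?_
      filter_upwards [hlab] with i h1 ω ω' hω hω' e r
      simp only [hV, pr_apply, Prod.mk.injEq] at e
      have := (lab_vec (hkj i) (h1 ω' ω hω' hω e.1)).2.2.2.1 r
      exact_mod_cast this
    have c2 : S.hc (dgv k fun i ω => (bl S.L l t i ω).2) V = 0 := by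
      refine Fi.hc_zero_fl k 2 _ _ ?_
      filter_upwards [hlab] with i h1 ω ω' hω hω' e r
      simp only [hV, pr_apply, Prod.mk.injEq] at e
      have := (lab_vec (hkj i) (h1 ω' ω hω' hω e.1)).2.2.2.2 r
      exact_mod_cast this
    have t1 : Tame (S := S) (dgv k fun i ω => (bl S.L l t i ω).1) := tM1.mono
      (Eventually.of_forall fun _ _ _ _ _ e => congrArg Prod.fst e)
    have t2 : Tame (S := S) (dgv k fun i ω => (bl S.L l t i ω).2) := tM1.mono
      (Eventually.of_forall fun _ _ _ _ _ e => congrArg Prod.snd e)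
    exact Fi.hc_zero_pair t1 t2 c1 c2
  -- the tube of precision `k`
  have z3 : S.hc (tbs k l) (Sys.pr (dgv S.L (Fi.ps S.L l t)) V) = 0 := by
    have hclose : ∀ᶠ i in (uf : Filter ℕ), ∀ ω ω', 0 < (S.P i).w ω → 0 < (S.P i).w ω' →
        (Sys.pr (dgv S.L (Fi.ps S.L l t)) V) i ω' = (Sys.pr (dgv S.L (Fi.ps S.L l t)) V) i ω →
        (∀ r, |(l i ω').1 r - (l i ω).1 r| ≤ (4 : ℕ) * (1 / 2 : ℝ) ^ k i) ∧
        (∀ r, |(l i ω').2 r - (l i ω).2 r| ≤ (4 : ℕ) * (1 / 2 : ℝ) ^ k i) := by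
      filter_upwards [hlab, ht] with i h1 h2 ω ω' hω hω' e
      simp only [hV, pr_apply, Prod.mk.injEq] at e
      obtain ⟨e1, e2, e3, -⟩ := e
      obtain ⟨-, -, -, g1, g2⟩ := lab_vec (hkj i) (h1 ω' ω hω' hω e2)
      have et : fl1 (S.L i) (t i ω') = fl1 (S.L i) (t i ω) := congrArg Prod.fst e3
      have eq : qa (S.L i) (t i ω') = qa (S.L i) (t i ω) := by unfold qa; rw [et]
      have hq1 : |qa (S.L i) (t i ω)| ≤ 1 := by
        have h0 : (0:ℝ) < 2 ^ S.L i := by positivity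
        obtain ⟨b1, b2⟩ := h2 ω hω
        unfold qa fl1
        rw [abs_div, abs_of_pos h0, div_le_one h0]
        have c1 : (0:ℤ) ≤ ⌊(2:ℝ) ^ S.L i * t i ω⌋ := Int.floor_nonneg.2 (by positivity)
        have c2 := Int.floor_le ((2:ℝ) ^ S.L i * t i ω)
        rw [abs_of_nonneg (by exact_mod_cast c1)]
        calc ((⌊(2:ℝ) ^ S.L i * t i ω⌋ : ℤ) : ℝ) ≤ 2 ^ S.L i * t i ω := c2
          _ ≤ 2 ^ S.L i * 1 := mul_le_mul_of_nonneg_left b2 h0.le
          _ = _ := mul_one _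
      have g2' : ∀ r, |(l i ω').2 r - (l i ω).2 r| ≤ 2 * (1 / 2 : ℝ) ^ k i := g2
      have hp : ∀ r, |pos (l i ω') (qa (S.L i) (t i ω')) r - pos (l i ω) (qa (S.L i) (t i ω)) r| ≤
          2 * (1 / 2 : ℝ) ^ k i := by
        intro r
        have f1 : ⌊(2:ℝ) ^ S.L i * pos (l i ω') (qa (S.L i) (t i ω')) r⌋ =
            ⌊(2:ℝ) ^ S.L i * pos (l i ω) (qa (S.L i) (t i ω)) r⌋ := congrFun e1 r
        have f2 : |Int.fract ((2:ℝ) ^ S.L i * pos (l i ω') (qa (S.L i) (t i ω')) r) -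
            Int.fract ((2:ℝ) ^ S.L i * pos (l i ω) (qa (S.L i) (t i ω)) r)| ≤
            2 * (1 / 2 : ℝ) ^ k i := g1 r
        have f3 : Int.fract ((2:ℝ) ^ S.L i * pos (l i ω') (qa (S.L i) (t i ω')) r) -
            Int.fract ((2:ℝ) ^ S.L i * pos (l i ω) (qa (S.L i) (t i ω)) r) =
            (2:ℝ) ^ S.L i * (pos (l i ω') (qa (S.L i) (t i ω')) r -
              pos (l i ω) (qa (S.L i) (t i ω)) r) := by
          unfold Int.fract
          rw [f1]
          ring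
        rw [f3, abs_mul, abs_of_pos (by positivity : (0:ℝ) < 2 ^ S.L i)] at f2
        have f4 : (1:ℝ) ≤ 2 ^ S.L i := one_le_pow₀ (by norm_num)
        refine le_trans ?_ f2
        exact le_mul_of_one_le_left (abs_nonneg _) f4
      refine ⟨fun r => ?_, fun r => (g2' r).trans ?_⟩
      · have f5 : (l i ω').1 r - (l i ω).1 r =
            (pos (l i ω') (qa (S.L i) (t i ω')) r - pos (l i ω) (qa (S.L i) (t i ω)) r) -
              qa (S.L i) (t i ω) * ((l i ω').2 r - (l i ω).2 r) := by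
          rw [eq]
          unfold pos
          ring
        rw [f5]
        have f6 : |qa (S.L i) (t i ω) * ((l i ω').2 r - (l i ω).2 r)| ≤ 2 * (1 / 2 : ℝ) ^ k i := by
          rw [abs_mul]
          calc _ ≤ 1 * (2 * (1 / 2 : ℝ) ^ k i) := mul_le_mul hq1 (g2' r) (abs_nonneg _) zero_le_one
            _ = _ := one_mul _
        have f7 := hp r
        push_cast
        rw [abs_le] at f6 f7 ⊢
        constructor <;> linarith [f6.1, f6.2, f7.1, f7.2]
      · push_cast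
        have := half0 (k i)
        linarith
    have c1 : S.hc (dgv k fun i ω => (l i ω).1) (Sys.pr (dgv S.L (Fi.ps S.L l t)) V) = 0 := by
      refine Fi.hc_zero_fl k 4 _ _ ?_
      filter_upwards [hclose] with i h1 ω ω' hω hω' e r
      exact (h1 ω ω' hω hω' e).1 r
    have c2 : S.hc (dgv k fun i ω => (l i ω).2) (Sys.pr (dgv S.L (Fi.ps S.L l t)) V) = 0 := by
      refine Fi.hc_zero_fl k 4 _ _ ?_
      filter_upwards [hclose] with i h1 ω ω' hω hω' e r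
      exact (h1 ω ω' hω hω' e).2 r
    have t1 : Tame (S := S) (dgv k fun i ω => (l i ω).1) := tZ.mono
      (Eventually.of_forall fun _ _ _ _ _ e => congrArg Prod.fst e)
    have t2 : Tame (S := S) (dgv k fun i ω => (l i ω).2) := tZ.mono
      (Eventually.of_forall fun _ _ _ _ _ e => congrArg Prod.snd e)
    exact Fi.hc_zero_pair t1 t2 c1 c2
  -- the new label
  have z4 : S.hc W'.lab (Sys.pr (tbs k (bl S.L l t)) V) = 0 := by
    refine lab_zero 2 _ _ ?_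
    filter_upwards [hlab] with i h1 ω ω' hω hω' e
    simp only [hV, pr_apply, Prod.mk.injEq] at e
    obtain ⟨e1, e2, -⟩ := e
    have e3 := lab_zm_close (hkj i) (h1 ω' ω hω' hω e2) e1
    have b1 : ∀ ω, bl S.L l' t i ω = LocT.zm (k i) (bl S.L l t i ω) := fun ω =>
      bl1_zm (S.L i) (k i) (l i ω) (t i ω)
    show LabCl 2 (lab ((W i).θ ω') 0 (j i - k i) (bl S.L l' t i ω'))
      (lab ((W i).θ ω) 0 (j i - k i) (bl S.L l' t i ω))
    rw [b1, b1]
    exact e3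
  -- the new point
  have z5 : S.hc (pqs S.L (pt l' t))
      (Sys.pr (tbs k l) (Sys.pr (dgv S.L (Fi.ps S.L l t)) V)) = 0 := by
    have t1 : Tame (dg S.L t) := tame_dg_t Bd_L ht
    have t2 : Tame (S := S) (dgv S.L fun i ω => pos (l' i ω) (t i ω)) :=
      tP'.mono (Eventually.of_forall fun _ _ _ _ _ e => congrArg Prod.snd e)
    have c1 : S.hc (dg S.L t) (Sys.pr (tbs k l) (Sys.pr (dgv S.L (Fi.ps S.L l t)) V)) = 0 :=
      hc_fn (Eventually.of_forall fun i ω ω' _ _ e => by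
        simp only [hV, pr_apply, Prod.mk.injEq] at e
        exact congrArg Prod.fst e.2.2.2.1)
    have c2 : S.hc (dgv S.L fun i ω => pos (l' i ω) (t i ω))
        (Sys.pr (tbs k l) (Sys.pr (dgv S.L (Fi.ps S.L l t)) V)) = 0 := by
      refine Fi.hc_zero_fl S.L 4 _ _ ?_
      filter_upwards [hlab, ht] with i h1 h2 ω ω' hω hω' e r
      simp only [hV, pr_apply, Prod.mk.injEq] at e
      obtain ⟨e0, e1, e2, e3, -⟩ := e
      obtain ⟨-, -, -, g1, g2⟩ := lab_vec (hkj i) (h1 ω' ω hω' hω e2)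
      have et : fl1 (S.L i) (t i ω') = fl1 (S.L i) (t i ω) := congrArg Prod.fst e3
      have eq : qa (S.L i) (t i ω') = qa (S.L i) (t i ω) := by unfold qa; rw [et]
      have h2k : (0:ℝ) < 2 ^ k i := by positivity
      have h2L : (0:ℝ) < 2 ^ S.L i := by positivity
      have f1 : ⌊(2:ℝ) ^ S.L i * pos (l i ω') (qa (S.L i) (t i ω')) r⌋ =
          ⌊(2:ℝ) ^ S.L i * pos (l i ω) (qa (S.L i) (t i ω)) r⌋ := congrFun e1 r
      have f2 : |Int.fract ((2:ℝ) ^ S.L i * pos (l i ω') (qa (S.L i) (t i ω')) r) -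
          Int.fract ((2:ℝ) ^ S.L i * pos (l i ω) (qa (S.L i) (t i ω)) r)| ≤
          2 * (1 / 2 : ℝ) ^ k i := g1 r
      have f3 : Int.fract ((2:ℝ) ^ S.L i * pos (l i ω') (qa (S.L i) (t i ω')) r) -
          Int.fract ((2:ℝ) ^ S.L i * pos (l i ω) (qa (S.L i) (t i ω)) r) =
          (2:ℝ) ^ S.L i * (pos (l i ω') (qa (S.L i) (t i ω')) r -
            pos (l i ω) (qa (S.L i) (t i ω)) r) := by
        unfold Int.fract
        rw [f1]
        ring
      rw [f3, abs_mul, abs_of_pos h2L] at f2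
      -- positions at the time `t_L`
      have f4 : pos (l' i ω') (qa (S.L i) (t i ω')) r - pos (l' i ω) (qa (S.L i) (t i ω)) r =
          2 ^ k i * (pos (l i ω') (qa (S.L i) (t i ω')) r - pos (l i ω) (qa (S.L i) (t i ω)) r) := by
        have p1 : pos (l' i ω') (qa (S.L i) (t i ω')) r = _ := LocT.pos_zm (k i) (l i ω') _ r
        have p2 : pos (l' i ω) (qa (S.L i) (t i ω)) r = _ := LocT.pos_zm (k i) (l i ω) _ r
        have e0' : tb (k i) (l i ω') = tb (k i) (l i ω) := e0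
        rw [p1, p2, e0', eq]
        ring
      have f5 : |pos (l' i ω') (qa (S.L i) (t i ω')) r - pos (l' i ω) (qa (S.L i) (t i ω)) r| ≤
          2 * (1 / 2 : ℝ) ^ S.L i := by
        rw [f4, abs_mul, abs_of_pos h2k]
        have hp : (1 / 2 : ℝ) ^ k i = 1 / 2 ^ k i := by rw [div_pow, one_pow]
        have hpL : (1 / 2 : ℝ) ^ S.L i = 1 / 2 ^ S.L i := by rw [div_pow, one_pow]
        rw [hp] at f2
        rw [hpL]
        rw [← mul_div_assoc, mul_one, le_div_iff₀ h2k] at f2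
        rw [← mul_div_assoc, mul_one, le_div_iff₀ h2L]
        linarith
      -- moving the time
      have f6 : ∀ ω, |pos (l' i ω) (t i ω) r - pos (l' i ω) (qa (S.L i) (t i ω)) r| ≤
          (1 / 2 : ℝ) ^ S.L i := by
        intro ω
        have c3 : pos (l' i ω) (t i ω) r - pos (l' i ω) (qa (S.L i) (t i ω)) r =
            (t i ω - qa (S.L i) (t i ω)) * (l' i ω).2 r := by unfold pos; ring
        rw [c3, abs_mul]
        have c4 := qa_close (S.L i) (t i ω)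
        have c5 := (LocT.zm_ok (k i) (l i ω)).2 r
        have := mul_le_mul c4 c5 (abs_nonneg _) (by positivity)
        rw [mul_one] at this
        exact this
      have f7 := f6 ω
      have f8 := f6 ω'
      push_cast
      rw [abs_le] at f5 f7 f8 ⊢
      constructor <;> linarith [f5.1, f5.2, f7.1, f7.2, f8.1, f8.2]
    exact Fi.hc_zero_pair t1 t2 c1 c2
  -- composition
  have t1 : Tame (one (S := S)) := tZ.mono (Eventually.of_forall fun _ _ _ _ _ _ => rfl)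
  have tV : Tame V := hW.tame.pr (tP.pr t1)
  have y2 : S.hc W'.lab V = 0 := by
    refine Fi.hc_zero_trans tW' (tM1.pr tV) z4 (Fi.hc_zero_pair tM1 tV z2 ?_)
    exact hc_fn (Eventually.of_forall fun _ _ _ _ _ e => e)
  have yV : S.hc V V = 0 := hc_fn (Eventually.of_forall fun _ _ _ _ _ e => e)
  have y3 : S.hc (tbs k l) V = 0 :=
    Fi.hc_zero_trans tZ (tM.pr tV) z3 (Fi.hc_zero_pair tM tV z1 yV)
  have y5 : S.hc (pqs S.L (pt l' t)) V = 0 :=
    Fi.hc_zero_trans tP' (tZ.pr (tM.pr tV)) z5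
      (Fi.hc_zero_pair tZ (tM.pr tV) y3 (Fi.hc_zero_pair tM tV z1 yV))
  have y6 : S.hc (one (S := S)) V = 0 := hc_fn (Eventually.of_forall fun _ _ _ _ _ _ => rfl)
  exact Fi.hc_zero_pair tW' (tP'.pr (tZ.pr t1)) y2
    (Fi.hc_zero_pair tP' (tZ.pr t1) y5 (Fi.hc_zero_pair tZ t1 y3 y6))

end Norm

end Vale.Agent.P127.U
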