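import Vale.Agent.P127.U.Lam.NormC

/-!
# P127 / U / Lam : normalisation of the extremal system, part D : the zoom step (helper119)

* `sbox` : the box of the ball system with wide exponent `0` and thin exponent `q`.
* `zoom` : blow up of the tube of precision `k` and selection of its value.
-/

set_option autoImplicit false

namespace Vale.Agent.P127.U

open Filter Topology Vale.Agent.P127 Vale.Agent.P127.Stk Sys

namespace Norm

open JSB Lam Lam.Ball

variable {S : Sys} {γ : Type} {lam : ℝ}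

/-- the box of shape `(0, q)` and direction `θ` of the ball system of level `L` -/
noncomputable def sbox (q : ℕ → ℕ) (θ : S.RV ℝ) (l : S.RV Ln) (t : S.RV ℝ) : S.BX := fun i =>
  ⟨bl S.L l t i, θ i, fun _ => 0, fun _ => q i⟩

theorem sbox_ok {q : ℕ → ℕ} (hq : S.Bd q) {θ : S.RV ℝ} (hθ : S.Ae fun i ω => |θ i ω| ≤ 4)
    {l : S.RV Ln} (hl : LnA l) (t : S.RV ℝ) : BxA (sbox q θ l t) := by
  obtain ⟨c, hc⟩ := hq
  refine ⟨?_, c, ?_⟩
  · have hb : LnA (bl S.L l t) := Fi.bl_ok hl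
    filter_upwards [hb, hθ] with i h1 h2 ω hω
    exact ⟨h1 ω hω, h2 ω hω, Nat.zero_le _⟩
  · filter_upwards [hc] with i hi ω _
    exact hi

theorem sbox_sub {n q : ℕ → ℕ} (h : ∀ i, S.L i + q i ≤ n i) {θ : S.RV ℝ}
    (hθ : S.Ae fun i ω => |θ i ω| ≤ 4) (l : S.RV Ln) (t : S.RV ℝ) :
    SubA (tubes (fun i => n i - S.L i) (bl S.L l t)) (sbox q θ l t) := by
  refine ⟨1, ?_⟩
  filter_upwards [hθ] with i hi ω hω
  have hqn : q i ≤ n i - S.L i := by have := h i; omega
  refine ⟨rfl, hi ω hω, Nat.zero_le _, Nat.zero_le _, hqn, ?_⟩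
  have h1 : (1 / 2 : ℝ) ^ (n i - S.L i) ≤ (1 / 2) ^ q i := Lam.Ball.half_le hqn
  have h2 : |Real.sin ((tubes (fun i => n i - S.L i) (bl S.L l t) i).θ ω - (sbox q θ l t i).θ ω)| ≤ 1 :=
    Real.abs_sin_le_one _
  exact mul_le_mul h2 h1 (by positivity) zero_le_one

/-- average of the penalised size for a deterministic shape -/
theorem av_shape {k j : ℕ → ℕ} (hk : S.Bd k) (hj : S.Bd j) {W : S.BX} (h : Shape W k j) :
    S.av (BX.szl lam W) = (1 + lam) * S.nu k + (1 - lam) * S.nu j := by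
  unfold Sys.av Sys.nu
  rw [← ulim_const_mul (1 + lam) hk.ub, ← ulim_const_mul (1 - lam) hj.ub,
    ← ulim_add (hk.ub.const_mul (1 + lam)) (hj.ub.const_mul (1 - lam))]
  refine ulim_congr ?_
  filter_upwards [h] with i hi
  have h0 : (S.P i).ex (BX.szl lam W i) = (S.P i).ex fun _ => ((1 + lam) * (k i : ℝ) + (1 - lam) * j i) := by
    refine (S.P i).ex_congr fun ω hω => ?_
    obtain ⟨g1, g2⟩ := hi ω hω
    show (1 + lam) * (((W i).k ω : ℕ) : ℝ) + (1 - lam) * (((W i).j ω : ℕ) : ℝ) = _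
    rw [g1, g2]
  show (S.P i).ex (BX.szl lam W i) / (S.L i : ℝ) = _
  rw [h0, (S.P i).ex_const]
  ring

/-- **zoom** : the tube of precision `k` blown up -/
theorem zoom (hlam : 0 ≤ lam ∧ lam ≤ 1) {N β : ℝ} (hN : 0 ≤ N) {n k j : ℕ → ℕ} {l : S.RV Ln}
    {t : S.RV ℝ} {W : S.BX} (hn : S.Bd n)
    (hkj : ∀ i, k i ≤ j i) (hj : ∀ i, S.L i + j i ≤ n i) (hl : LnA l) (ht : T01 t) (hW : BxA W)
    (hWl : S.Ae fun i ω => (W i).l ω = bl S.L l t i ω) (hsh : Shape W k j)
    (h : β + S.excl lam (tubes n l) (one (S := S)) + N * Dl S.L n l t (one (S := S)) ≤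
      valS lam S.L n l t W (one (S := S))) :
    ∃ (S' : Sys) (l' : S'.RV Ln) (t' : S'.RV ℝ) (θ : S'.RV ℝ), S'.L = S.L ∧
      S'.Bd (fun i => n i - k i) ∧ LnA l' ∧ T01 t' ∧
      (∀ p : ℕ → ℝ → Prop, (S.Ae fun i ω => p i ((W i).θ ω)) → S'.Ae fun i ω => p i (θ i ω)) ∧
      β + S'.excl lam (tubes (fun i => n i - k i) l') (one (S := S')) +
          N * Dl S'.L (fun i => n i - k i) l' t' (one (S := S')) ≤
        valS lam S'.L (fun i => n i - k i) l' t' (sbox (fun i => j i - k i) θ l' t')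
          (one (S := S')) := by
  set l' : S.RV Ln := fun i ω => LocT.zm (k i) (l i ω) with hl'def
  set n' : ℕ → ℕ := fun i => n i - k i with hn'def
  set Z := Sys.pr (tbs k l) (one (S := S)) with hZ
  set θ : S.RV ℝ := fun i => (W i).θ with hθdef
  set W' : S.BX := sbox (fun i => j i - k i) θ l' t with hW'def
  have hkn : ∀ i, k i ≤ n i := fun i => by have := hkj i; have := hj i; omega
  have hbk : S.Bd k := bd_le hn hkn
  have hbj : S.Bd j := bd_le hn fun i => by have := hj i; omega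
  have hbn' : S.Bd n' := bd_le hn fun i => Nat.sub_le _ _
  have hbq : S.Bd (fun i => j i - k i) := bd_le hbj fun i => Nat.sub_le _ _
  have hl' : LnA l' := Eventually.of_forall fun i ω _ => LocT.zm_ok _ _
  have hθ4 : S.Ae fun i ω => |θ i ω| ≤ 4 := by
    filter_upwards [hW.1] with i hi ω hω
    exact (hi ω hω).2.1
  have hW' : BxA W' := sbox_ok hbq hθ4 hl' t
  have t1 : Tame (one (S := S)) := (tame_tbs hn hl).mono
    (Eventually.of_forall fun _ _ _ _ _ _ => rfl)
  have tZ : Tame Z := (tame_tbs hbk hl).pr t1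
  have a1 : S.hc (tbs n l) (Sys.pr (tbs n' l') Z) = 0 := hc_fn
    (Eventually.of_forall fun i ω ω' _ _ e => by
      simp only [hZ, pr_apply, Prod.mk.injEq] at e
      exact LocT.tb_of_zm (hkn i) e.1 e.2.1)
  have a3 : S.hc (Sys.pr (tbs n' l') Z) (tbs n l) = 0 := hc_fn
    (Eventually.of_forall fun i ω ω' _ _ e => by
      simp only [hZ, pr_apply, Prod.mk.injEq]
      exact ⟨LocT.zm_of_tb (hkn i) e, LocT.tb_of_tb (hkn i) e, trivial⟩)
  have a2 : S.hc (Sys.pr W'.lab (Sys.pr (pqs S.L (pt l' t)) Z))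
      (Sys.pr W.lab (Sys.pr (pqs S.L (pt l t)) (one (S := S)))) = 0 :=
    zoom_cond hn hkj hj hl ht hW hWl hsh hW'
  have b : S.av (BX.szl lam W') - 2 * S.nu n' = S.av (BX.szl lam W) - 2 * S.nu n := by
    have hsh' : Shape W' (fun _ => 0) (fun i => j i - k i) :=
      Eventually.of_forall fun i ω _ => ⟨rfl, rfl⟩
    have hb0 : S.Bd (fun _ => 0) := bd_le hn fun _ => Nat.zero_le _
    rw [av_shape hbk hbj hsh, av_shape hb0 hbq hsh']
    have e1 : S.nu (fun i => j i - k i) = S.nu j - S.nu k := Apx.nu_sub hbj hkj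
    have e2 : S.nu n' = S.nu n - S.nu k := Apx.nu_sub hn hkn
    have e3 : S.nu (fun _ => 0) = 0 := by
      unfold Sys.nu
      simp only [Nat.cast_zero, zero_div]
      exact ulim_const 0
    rw [e1, e2, e3]
    ring
  have c : S.excl lam (tubes n' l') Z ≤ S.excl lam (tubes n l) (one (S := S)) := by
    have hB := tubes_ok hn hl
    have hB' := tubes_ok hbn' hl'
    have c1 : S.excl lam (tubes n' l') Z ≤ S.excl lam (tubes n l) Z := by
      refine ulim_le_of_sub (Lam.ub_exc hlam hB' _) (Lam.ub_exc hlam hB _)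
        (S.const_div_nm (Real.log (((2 * 1 + 1) ^ 4 : ℕ) : ℝ))) ?_
      filter_upwards [S.nm_pos] with i hi
      rw [← add_div]
      exact div_le_div_of_nonneg_right
        (End.excFl_zm hlam (S.P i) (l i) (fun _ => ()) (hkn i)) hi.le
    exact c1.trans (Lam.excl_cond hlam _ _ hB)
  have h' := trans hlam hN hn hbn' hl hl' ht hW hW' tZ a1 a2 a3 b c h
  obtain ⟨z, hz, hv⟩ := sel hlam Bd_L hbn' hl' ht hW' Z h'
  refine ⟨condS S Z z, l', t, θ, rfl, hbn', condS_ae hl', condS_ae ht, ?_, hv⟩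
  intro p hp
  exact condS_ae hp

end Norm

end Vale.Agent.P127.U
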