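import Vale.Agent.P127.U.Lam.NormD
import Vale.Agent.P127.U.Lam.Swap
import Vale.Agent.P127.U.Coarse

/-!
# P127 / U / Lam : normalisation of the extremal system, part E : coarse precision and direction (helper119)

* `coarse` : the value form at a coarser precision.
* `ang`, `turn` : the direction of the box is within `π / 4` of the first axis after an exchange of the
  coordinates.
-/

set_option autoImplicit false

namespace Vale.Agent.P127.U

open Filter Topology Vale.Agent.P127 Vale.Agent.P127.Stk Sys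

namespace Norm

open JSB Lam Lam.Ball

variable {S : Sys} {γ : Type} {lam : ℝ}

/-- **coarser precision** -/
theorem coarse (hlam : 0 ≤ lam ∧ lam ≤ 1) {N β : ℝ} (hN : 0 ≤ N) {n m : ℕ → ℕ} {l : S.RV Ln}
    {t : S.RV ℝ} {W : S.BX} (hn : S.Bd n) (hmn : ∀ i, m i ≤ n i) (hl : LnA l) (ht : T01 t)
    (hW : BxA W)
    (h : β + S.excl lam (tubes n l) (one (S := S)) + N * Dl S.L n l t (one (S := S)) ≤
      valS lam S.L n l t W (one (S := S))) :
    β + S.excl lam (tubes m l) (one (S := S)) + N * Dl S.L m l t (one (S := S)) ≤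
      valS lam S.L m l t W (one (S := S)) := by
  have hm : S.Bd m := bd_le hn hmn
  have tn : Tame (tbs n l) := tame_tbs hn hl
  have tm : Tame (tbs m l) := tame_tbs hm hl
  have tdL : Tame (dg S.L t) := tame_dg_t Bd_L ht
  have tP : Tame (pqs S.L (pt l t)) := Fi.tame_pqs Bd_L hl ht
  have t1 : Tame (one (S := S)) := tn.mono (Eventually.of_forall fun _ _ _ _ _ _ => rfl)
  rw [valS_eq Bd_L hn hl t hlam hW] at h
  rw [valS_eq Bd_L hm hl t hlam hW]
  set V := Sys.pr W.lab (Sys.pr (pqs S.L (pt l t)) (one (S := S))) with hV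
  have tV : Tame V := hW.tame.pr (tP.pr t1)
  have bn := tubes_ok hn hl
  have bm := tubes_ok hm hl
  -- the excess
  have g := Lam.excl_coarse hlam (one (S := S)) bn bm (Coa.subA_tubes hmn l)
  have hav : (S.av fun i ω => (tubes n l).szl lam i ω - (tubes m l).szl lam i ω) =
      2 * (S.nu n - S.nu m) := by
    have hb : S.Bd (fun i => n i - m i) := bd_le hn fun i => Nat.sub_le _ _
    have a1 : (S.av fun i ω => (tubes n l).szl lam i ω - (tubes m l).szl lam i ω) =
        2 * S.nu (fun i => n i - m i) := by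
      unfold Sys.av Sys.nu
      rw [← ulim_const_mul 2 hb.ub]
      refine ulim_congr (Eventually.of_forall fun i => ?_)
      have h0 : (fun ω => (tubes n l).szl lam i ω - (tubes m l).szl lam i ω) =
          fun _ => 2 * ((n i - m i : ℕ) : ℝ) := by
        funext ω
        show ((1 + lam) * (n i : ℝ) + (1 - lam) * (n i : ℝ)) -
          ((1 + lam) * (m i : ℝ) + (1 - lam) * (m i : ℝ)) = 2 * ((n i - m i : ℕ) : ℝ)
        rw [Nat.cast_sub (hmn i)]
        ring
      show (S.P i).ex (fun ω => (tubes n l).szl lam i ω - (tubes m l).szl lam i ω) / (S.L i : ℝ) = _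
      rw [h0, (S.P i).ex_const, mul_div_assoc]
    rw [a1, Apx.nu_sub hn hmn]
  have g2 : S.hc (tubes m l).lab (Sys.pr (tubes n l).lab (one (S := S))) = 0 := by
    refine hc_fn ?_
    filter_upwards [Coa.fn_lab m l, Coa.fn_tbs hmn l, Coa.fn_lab' n l] with i g1 g2 g3 ω ω' p p' e
    exact g1 ω ω' p p' (g2 ω ω' p p' (g3 ω ω' p p' (congrArg Prod.fst e)))
  -- the entropy of the tubes
  have k1 : S.hc (tbs n l) V ≤ S.hc (tbs m l) V + S.hc (tubes n l).lab
      (Sys.pr (tubes m l).lab (one (S := S))) := by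
    have e2 : S.hc (tbs n l) V ≤ S.hc (tbs n l) (Sys.pr (tbs m l) V) + S.hc (tbs m l) V :=
      hc_le_add tn tm V
    have e3 : S.hc (tbs n l) (Sys.pr (tbs m l) V) ≤ S.hc (tubes n l).lab
        (Sys.pr (tubes m l).lab (one (S := S))) := by
      have e4 : S.hc (tbs n l) (Sys.pr (tbs m l) V) ≤ S.hc (tbs n l)
          (Sys.pr (tubes m l).lab (one (S := S))) := by
        refine hc_mono_right tn ?_
        filter_upwards [Coa.fn_lab m l] with i g1 ω ω' p p' e
        exact Prod.ext (g1 ω ω' p p' (congrArg Prod.fst e)) rfl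
      refine e4.trans (hc_mono_left bn.tame tn ?_)
      filter_upwards [Coa.fn_lab' n l] with i g1 ω ω' p p' e
      exact g1 ω ω' p p' (congrArg Prod.fst e)
    linarith
  -- the deficit
  have k2 : Dl S.L m l t (one (S := S)) ≤ Dl S.L n l t (one (S := S)) := by
    have g : S.hc (dg S.L t) (Sys.pr (tbs n l) (one (S := S))) ≤
        S.hc (dg S.L t) (Sys.pr (tbs m l) (one (S := S))) := by
      refine hc_mono_right tdL ?_
      filter_upwards [Coa.fn_tbs hmn l] with i g2 ω ω' p p' e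
      exact Prod.ext (g2 ω ω' p p' (congrArg Prod.fst e)) rfl
    unfold Dl
    linarith
  have k3 := mul_le_mul_of_nonneg_left k2 hN
  linarith

/-! ### the direction of the box -/

/-- the angle in `[-π / 4, π / 4]` of the same line -/
noncomputable def ang (ψ : ℝ) : ℝ := Real.arctan (Real.sin ψ / Real.cos ψ)

theorem ang_le {ψ : ℝ} (h : |Real.sin ψ| ≤ |Real.cos ψ|) : |ang ψ| ≤ Real.pi / 4 := by
  have hx : |Real.sin ψ / Real.cos ψ| ≤ 1 := by
    rw [abs_div]
    exact div_le_one_of_le₀ h (abs_nonneg _)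
  rw [abs_le] at hx ⊢
  unfold ang
  constructor
  · have := Real.arctan_mono hx.1
    rwa [Real.arctan_neg, Real.arctan_one] at this
  · have := Real.arctan_mono hx.2
    rwa [Real.arctan_one] at this

theorem ang_cases {ψ : ℝ} (h : |Real.sin ψ| ≤ |Real.cos ψ|) : ∃ e : ℝ, (e = 1 ∨ e = -1) ∧
    Real.cos (ang ψ) = e * Real.cos ψ ∧ Real.sin (ang ψ) = e * Real.sin ψ := by
  have hsc := Real.sin_sq_add_cos_sq ψ
  have hc : Real.cos ψ ≠ 0 := by
    intro h0
    rw [h0, abs_zero] at h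
    have h1 : Real.sin ψ = 0 := abs_nonpos_iff.1 h
    rw [h0, h1] at hsc
    norm_num at hsc
  have h1 : 1 + (Real.sin ψ / Real.cos ψ) ^ 2 = (1 / |Real.cos ψ|) ^ 2 := by
    rw [div_pow, div_pow, sq_abs, one_pow]
    field_simp
    linarith
  have h2 : Real.sqrt (1 + (Real.sin ψ / Real.cos ψ) ^ 2) = 1 / |Real.cos ψ| := by
    rw [h1]
    exact Real.sqrt_sq (by positivity)
  have ha : |Real.cos ψ| ≠ 0 := abs_ne_zero.2 hc
  have h3 : Real.cos (ang ψ) = |Real.cos ψ| := by
    unfold ang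
    rw [Real.cos_arctan, h2]
    field_simp
  have h4 : Real.sin (ang ψ) = Real.sin ψ / Real.cos ψ * |Real.cos ψ| := by
    unfold ang
    rw [Real.sin_arctan, h2]
    field_simp
  rcases le_total 0 (Real.cos ψ) with h5 | h5
  · refine ⟨1, Or.inl rfl, ?_, ?_⟩
    · rw [h3, abs_of_nonneg h5, one_mul]
    · rw [h4, abs_of_nonneg h5]
      field_simp
  · refine ⟨-1, Or.inr rfl, ?_, ?_⟩
    · rw [h3, abs_of_nonpos h5]
      ring
    · rw [h4, abs_of_nonpos h5]
      field_simp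

/-- the gauge does not change -/
theorem gq_ang {ψ : ℝ} (h : |Real.sin ψ| ≤ |Real.cos ψ|) (k j : ℕ) (v : Fin 2 → ℝ) :
    Str.gq (ang ψ) k j v = Str.gq ψ k j v := by
  obtain ⟨e, he, h1, h2⟩ := ang_cases h
  have he2 : e ^ 2 = 1 := by rcases he with rfl | rfl <;> norm_num
  unfold Str.gq
  rw [Str.co0, Str.co1, Str.co0, Str.co1, h1, h2]
  have a1 : ((2:ℝ) ^ k * (e * Real.cos ψ * v 0 + e * Real.sin ψ * v 1)) ^ 2 =
      e ^ 2 * (2 ^ k * (Real.cos ψ * v 0 + Real.sin ψ * v 1)) ^ 2 := by ring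
  have a2 : ((2:ℝ) ^ j * (-(e * Real.sin ψ) * v 0 + e * Real.cos ψ * v 1)) ^ 2 =
      e ^ 2 * (2 ^ j * (-Real.sin ψ * v 0 + Real.cos ψ * v 1)) ^ 2 := by ring
  rw [a1, a2, he2, one_mul, one_mul]

theorem swt_ok {θ : ℝ} (h : |Real.cos θ| ≤ |Real.sin θ|) :
    |Real.sin (Swp.swt θ)| ≤ |Real.cos (Swp.swt θ)| := by
  obtain ⟨e, he, h1, h2⟩ := Swp.swt_cases θ
  rw [h1, h2, abs_mul, abs_mul]
  exact mul_le_mul_of_nonneg_left h (abs_nonneg _)

/-- the new angle -/
noncomputable def tang (b : Bool) (θ : ℝ) : ℝ := bif b then ang θ else ang (Swp.swt θ)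

/-- the new line -/
def tln (b : Bool) (l : Ln) : Ln := bif b then l else Swp.swl l

/-- the condition on the angle -/
def AOk (b : Bool) (θ : ℝ) : Prop :=
  (b = true → |Real.sin θ| ≤ |Real.cos θ|) ∧ (b = false → |Real.cos θ| ≤ |Real.sin θ|)

theorem tang_le {b : Bool} {θ : ℝ} (h : AOk b θ) : |tang b θ| ≤ Real.pi / 4 := by
  cases b
  · exact ang_le (swt_ok (h.2 rfl))
  · exact ang_le (h.1 rfl)

theorem tang_le4 {b : Bool} {θ : ℝ} (h : AOk b θ) : |tang b θ| ≤ 4 := by
  have h1 := tang_le h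
  have h2 := Real.pi_le_four
  linarith

/-- the map of the vectors -/
def tv (b : Bool) (v : Fin 2 → ℝ) : Fin 2 → ℝ := bif b then v else Swp.sw v

theorem gq_tang {b : Bool} {θ : ℝ} (h : AOk b θ) (k j : ℕ) (v : Fin 2 → ℝ) :
    Str.gq (tang b θ) k j (tv b v) = Str.gq θ k j v := by
  cases b
  · show Str.gq (ang (Swp.swt θ)) k j (Swp.sw v) = _
    rw [gq_ang (swt_ok (h.2 rfl)), Swp.gq_sw]
  · exact gq_ang (h.1 rfl) k j v

section finite

variable {Ω : Type} {γ : Type*}

/-- the new box -/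
noncomputable def turn (b : Bool) (B : Bx Ω) : Bx Ω :=
  ⟨fun ω => tln b (B.l ω), fun ω => tang b (B.θ ω), B.k, B.j⟩

variable [Fintype Ω]

/-- the label of the new box is known -/
theorem hc_turn (P : Law Ω) (b : Bool) (W : Bx Ω)
    (hW : ∀ ω, 0 < P.w ω → |W.θ ω| ≤ 4 ∧ W.k ω ≤ W.j ω ∧ AOk b (W.θ ω)) (C : Ω → γ) :
    Stk.hc P (turn b W).lab (fun ω => (W.lab ω, C ω)) ≤ MJ.Kc 2 := by
  have h := Str.hc_lin' P W (turn b W) (fun _ v => tv b v) (fun _ _ => 0) (fun _ _ => 0) C 0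
    (fun ω hω => ⟨tang_le4 (hW ω hω).2.2, (hW ω hω).2.1, (hW ω hω).2.1,
      fun i => by rw [sub_zero]; cases b <;> rfl,
      fun i => by rw [sub_zero]; cases b <;> rfl, fun v => by
        have := gq_tang (hW ω hω).2.2 (W.k ω) (W.j ω) v
        show Str.gq (W.θ ω) (W.k ω) (W.j ω) v ≤
          ((2:ℝ) ^ 0) ^ 2 * Str.gq (tang b (W.θ ω)) (W.k ω) (W.j ω) (tv b v)
        rw [this]
        norm_num, fun v => by
        have := gq_tang (hW ω hω).2.2 (W.k ω) (W.j ω) v
        show Str.gq (tang b (W.θ ω)) (W.k ω) (W.j ω) (tv b v) ≤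
          ((2:ℝ) ^ 0) ^ 2 * Str.gq (W.θ ω) (W.k ω) (W.j ω) v
        rw [this]
        norm_num, fun v w => by
        funext i
        cases b <;> fin_cases i <;> rfl, fun w => ⟨tv b w, by
          cases b
          · exact Swp.sw_sw w
          · rfl⟩⟩)
    (fun _ _ _ _ _ => ⟨rfl, rfl, rfl⟩)
  exact h

/-- the label of the box is known from the new box -/
theorem hc_turn' (P : Law Ω) (b : Bool) (W : Bx Ω)
    (hW : ∀ ω, 0 < P.w ω → |W.θ ω| ≤ 4 ∧ W.k ω ≤ W.j ω ∧ AOk b (W.θ ω)) (C : Ω → γ) :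
    Stk.hc P W.lab (fun ω => ((turn b W).lab ω, C ω)) ≤ MJ.Kc 2 := by
  have h := Str.hc_lin P W (turn b W) (fun _ v => tv b v) (fun _ _ => 0) (fun _ _ => 0) C 0
    (fun ω hω => ⟨(hW ω hω).1, (hW ω hω).2.1, (hW ω hω).2.1,
      fun i => by rw [sub_zero]; cases b <;> rfl,
      fun i => by rw [sub_zero]; cases b <;> rfl, fun v => by
        have := gq_tang (hW ω hω).2.2 (W.k ω) (W.j ω) v
        show Str.gq (W.θ ω) (W.k ω) (W.j ω) v ≤
          ((2:ℝ) ^ 0) ^ 2 * Str.gq (tang b (W.θ ω)) (W.k ω) (W.j ω) (tv b v)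
        rw [this]
        norm_num, fun v => by
        have := gq_tang (hW ω hω).2.2 (W.k ω) (W.j ω) v
        show Str.gq (tang b (W.θ ω)) (W.k ω) (W.j ω) (tv b v) ≤
          ((2:ℝ) ^ 0) ^ 2 * Str.gq (W.θ ω) (W.k ω) (W.j ω) v
        rw [this]
        norm_num, fun v w => by
        funext i
        cases b <;> fin_cases i <;> rfl⟩)
    (fun _ _ _ _ _ => ⟨rfl, rfl, rfl⟩)
  exact h

end finite

/-- **the direction of the box is close to the first axis** -/
theorem turnS (hlam : 0 ≤ lam ∧ lam ≤ 1) {N β : ℝ} (hN : 0 ≤ N) {n q : ℕ → ℕ} {l : S.RV Ln}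
    {t : S.RV ℝ} {θ : S.RV ℝ} {b : ℕ → Bool} (hn : S.Bd n) (hq : S.Bd q) (hl : LnA l) (ht : T01 t)
    (hθ : S.Ae fun i ω => |θ i ω| ≤ 4) (hb : S.Ae fun i ω => AOk (b i) (θ i ω))
    (h : β + S.excl lam (tubes n l) (one (S := S)) + N * Dl S.L n l t (one (S := S)) ≤
      valS lam S.L n l t (sbox q θ l t) (one (S := S))) :
    β + S.excl lam (tubes n fun i ω => tln (b i) (l i ω)) (one (S := S)) +
        N * Dl S.L n (fun i ω => tln (b i) (l i ω)) t (one (S := S)) ≤
      valS lam S.L n (fun i ω => tln (b i) (l i ω)) t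
        (sbox q (fun i ω => tang (b i) (θ i ω)) (fun i ω => tln (b i) (l i ω)) t)
        (one (S := S)) := by
  set l' : S.RV Ln := fun i ω => tln (b i) (l i ω) with hl'def
  set θ' : S.RV ℝ := fun i ω => tang (b i) (θ i ω) with hθ'def
  have hl' : LnA l' := by
    filter_upwards [hl] with i hi ω hω
    show LnOk (tln (b i) (l i ω))
    cases b i
    · exact Swp.swl_ok (hi ω hω)
    · exact hi ω hω
  have hθ' : S.Ae fun i ω => |θ' i ω| ≤ 4 := by
    filter_upwards [hb] with i hi ω hω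
    exact tang_le4 (hi ω hω)
  have hW : BxA (sbox q θ l t) := sbox_ok hq hθ hl t
  have hW' : BxA (sbox q θ' l' t) := sbox_ok hq hθ' hl' t
  have hturn : ∀ i, sbox q θ' l' t i = turn (b i) (sbox q θ l t i) := by
    intro i
    have e1 : bl S.L l' t i = fun ω => tln (b i) (bl S.L l t i ω) := by
      show blF (S.L i) (l' i) (t i) = _
      simp only [hl'def]
      cases b i
      · exact Swp.blF_sw _ _ _
      · rfl
    show (⟨bl S.L l' t i, θ' i, fun _ => 0, fun _ => q i⟩ : Bx (S.Ω i)) =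
      ⟨fun ω => tln (b i) (bl S.L l t i ω), fun ω => tang (b i) (θ i ω), fun _ => 0, fun _ => q i⟩
    rw [e1]
  have tn : Tame (tbs n l) := tame_tbs hn hl
  have t1 : Tame (one (S := S)) := tn.mono (Eventually.of_forall fun _ _ _ _ _ _ => rfl)
  have tP : Tame (pqs S.L (pt l t)) := Fi.tame_pqs Bd_L hl ht
  have tP' : Tame (pqs S.L (pt l' t)) := Fi.tame_pqs Bd_L hl' ht
  have htb : ∀ (b : Bool) (k : ℕ) (x y : Ln), tb k (tln b x) = tb k (tln b y) ↔ tb k x = tb k y := by
    intro b k x y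
    cases b
    · exact Swp.tb_sw_iff
    · exact Iff.rfl
  refine trans hlam hN hn hn hl hl' ht hW hW' t1 ?_ ?_ ?_ ?_ ?_ h
  · exact hc_fn (Eventually.of_forall fun i ω ω' _ _ e => by
      simp only [pr_apply, Prod.mk.injEq] at e
      exact (htb _ _ _ _).1 e.1)
  · have tW' : Tame (sbox q θ' l' t).lab := hW'.tame
    have e1 := hc_pair tW' (tP'.pr t1) (Sys.pr (sbox q θ l t).lab (Sys.pr (pqs S.L (pt l t)) (one (S := S))))
    rw [e1]
    have e2 : S.hc (sbox q θ' l' t).lab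
        (Sys.pr (sbox q θ l t).lab (Sys.pr (pqs S.L (pt l t)) (one (S := S)))) = 0 := by
      refine hc_zero_of_le (MJ.Kc 2) ?_
      filter_upwards [hθ, hb] with i h1 h2
      have h3 := hc_turn (S.P i) (b i) (sbox q θ l t i)
        (fun ω hω => ⟨h1 ω hω, Nat.zero_le _, h2 ω hω⟩) (Sys.pr (pqs S.L (pt l t)) (one (S := S)) i)
      rw [← hturn i] at h3
      exact h3
    have e3 : S.hc (Sys.pr (pqs S.L (pt l' t)) (one (S := S))) (Sys.pr (sbox q θ' l' t).lab
        (Sys.pr (sbox q θ l t).lab (Sys.pr (pqs S.L (pt l t)) (one (S := S))))) = 0 := by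
      refine hc_fn (Eventually.of_forall fun i ω ω' _ _ e => ?_)
      simp only [pr_apply, Prod.mk.injEq] at e ⊢
      refine ⟨?_, trivial⟩
      have e4 : pq (S.L i) (pt l t i ω) = pq (S.L i) (pt l t i ω') := e.2.2.1
      show pq (S.L i) (ptF (l' i) (t i) ω) = pq (S.L i) (ptF (l' i) (t i) ω')
      have e5 : l' i = fun ω => tln (b i) (l i ω) := rfl
      rw [e5]
      cases b i
      · have e6 : (fun ω => tln false (l i ω)) = Swp.swL (l i) := rfl
        rw [e6, Swp.ptF_sw]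
        exact Swp.pq_sw_iff.2 e4
      · exact e4
    rw [e2, e3, add_zero]
  · refine hc_fn (Eventually.of_forall fun i ω ω' _ _ e => ?_)
    simp only [pr_apply, Prod.mk.injEq]
    exact ⟨(htb _ _ _ _).2 e, trivial⟩
  · rfl
  · have hB := tubes_ok hn hl
    have hB' := tubes_ok hn hl'
    refine ulim_le_of_sub (Lam.ub_exc hlam hB' _) (Lam.ub_exc hlam hB _)
      (S.const_div_nm Swp.Ks) ?_
    filter_upwards [S.nm_pos, hl] with i hi h1
    rw [← add_div]
    refine div_le_div_of_nonneg_right ?_ hi.le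
    show excFl lam (S.P i) (tbx (n i) fun ω => tln (b i) (l i ω)) (fun _ => ()) ≤
      excFl lam (S.P i) (tbx (n i) (l i)) (fun _ => ()) + Swp.Ks
    cases b i
    · exact Swp.excFl_sw_ge hlam (S.P i) (n i) (l i) h1 _
    · have := Swp.Ks_nonneg
      show excFl lam (S.P i) (tbx (n i) (l i)) (fun _ => ()) ≤ _
      linarith

end Norm

end Vale.Agent.P127.U
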