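import Vale.Agent.P127.U.Lam.NormE

/-!
# P127 / U / Lam : normalisation of the extremal system, part F : rounding (helper119)

* `rnd n l` : the line with coordinates rounded to `n` digits.
* `hc_near` : labels of boxes with nearby lines.
* `roundS` : the value form for the rounded lines.
-/

set_option autoImplicit false

namespace Vale.Agent.P127.U

open Filter Topology Vale.Agent.P127 Vale.Agent.P127.Stk Sys

namespace Norm

open JSB Lam Lam.Ball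

/-- the rounded line -/
noncomputable def rnd (n : ℕ) (l : Ln) : Ln := (fun j => qa n (l.1 j), fun j => qa n (l.2 j))

theorem fl1_qa (n : ℕ) (x : ℝ) : fl1 n (qa n x) = fl1 n x := by
  have h : (2 : ℝ) ^ n * qa n x = ((fl1 n x : ℤ) : ℝ) := by
    unfold qa
    field_simp
  show ⌊(2 : ℝ) ^ n * qa n x⌋ = _
  rw [h, Int.floor_intCast]

theorem tb_rnd (n : ℕ) (l : Ln) : tb n (rnd n l) = tb n l :=
  Prod.ext (funext fun j => fl1_qa n (l.1 j)) (funext fun j => fl1_qa n (l.2 j))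

theorem rnd_congr {n : ℕ} {l l' : Ln} (h : tb n l = tb n l') : rnd n l = rnd n l' :=
  Prod.ext (funext fun j => Apx.qa_congr (congrFun (congrArg Prod.fst h) j))
    (funext fun j => Apx.qa_congr (congrFun (congrArg Prod.snd h) j))

theorem qa_abs {n : ℕ} {x : ℝ} (h : |x| ≤ 1) : |qa n x| ≤ 1 := by
  rw [abs_le] at h ⊢
  refine ⟨?_, (Apx.qa_le n x).trans h.2⟩
  have hp : (0 : ℝ) < 2 ^ n := by positivity
  unfold qa
  rw [le_div_iff₀ hp]
  have h1 : (-(2 ^ n : ℤ)) ≤ fl1 n x := by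
    show _ ≤ ⌊(2 : ℝ) ^ n * x⌋
    rw [Int.le_floor]
    push_cast
    nlinarith [h.1]
  have h2 : ((-(2 ^ n : ℤ) : ℤ) : ℝ) ≤ (fl1 n x : ℝ) := by exact_mod_cast h1
  push_cast at h2
  linarith

theorem rnd_ok {n : ℕ} {l : Ln} (h : LnOk l) : LnOk (rnd n l) :=
  ⟨fun i => qa_abs (h.1 i), fun i => qa_abs (h.2 i)⟩

theorem pos_rnd {n : ℕ} (l : Ln) {t : ℝ} (ht : |t| ≤ 1) (j : Fin 2) :
    |pos (rnd n l) t j - pos l t j| ≤ 2 * (1 / 2 : ℝ) ^ n := by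
  have e : pos (rnd n l) t j - pos l t j = -((l.1 j - qa n (l.1 j)) + t * (l.2 j - qa n (l.2 j))) := by
    show (qa n (l.1 j) + t * qa n (l.2 j)) - (l.1 j + t * l.2 j) = _
    ring
  have h1 := Apx.abs_sub_qa n (l.1 j)
  have h2 := Apx.abs_sub_qa n (l.2 j)
  rw [e, abs_neg]
  have h3 : |t * (l.2 j - qa n (l.2 j))| ≤ (1 / 2 : ℝ) ^ n := by
    rw [abs_mul]
    calc |t| * |l.2 j - qa n (l.2 j)| ≤ 1 * (1 / 2 : ℝ) ^ n := by gcongr
      _ = _ := one_mul _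
  exact (abs_add_le _ _).trans (by linarith)

/-! ### the gauge -/

theorem gq_add (θ : ℝ) (k j : ℕ) (u r : Fin 2 → ℝ) :
    Str.gq θ k j (fun i => u i + r i) ≤ 2 * Str.gq θ k j u + 2 * Str.gq θ k j r := by
  unfold Str.gq
  rw [Str.co0, Str.co1, Str.co0, Str.co1, Str.co0, Str.co1]
  have a1 : (2:ℝ) ^ k * (Real.cos θ * (u 0 + r 0) + Real.sin θ * (u 1 + r 1)) =
      2 ^ k * (Real.cos θ * u 0 + Real.sin θ * u 1) + 2 ^ k * (Real.cos θ * r 0 + Real.sin θ * r 1) := by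
    ring
  have a2 : (2:ℝ) ^ j * (-Real.sin θ * (u 0 + r 0) + Real.cos θ * (u 1 + r 1)) =
      2 ^ j * (-Real.sin θ * u 0 + Real.cos θ * u 1) + 2 ^ j * (-Real.sin θ * r 0 + Real.cos θ * r 1) := by
    ring
  rw [a1, a2]
  nlinarith [sq_nonneg (2 ^ k * (Real.cos θ * u 0 + Real.sin θ * u 1) -
      2 ^ k * (Real.cos θ * r 0 + Real.sin θ * r 1)),
    sq_nonneg (2 ^ j * (-Real.sin θ * u 0 + Real.cos θ * u 1) -
      2 ^ j * (-Real.sin θ * r 0 + Real.cos θ * r 1))]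

theorem gq_small {θ : ℝ} {k j : ℕ} (h : k ≤ j) {r : Fin 2 → ℝ}
    (hr : ∀ i, |r i| ≤ 4 * (1 / 2 : ℝ) ^ j) : Str.gq θ k j r ≤ 128 := by
  unfold Str.gq
  rw [Str.co0, Str.co1]
  have hc := Real.abs_cos_le_one θ
  have hs := Real.abs_sin_le_one θ
  have e : (2:ℝ) ^ j * (1 / 2 : ℝ) ^ j = 1 := by rw [← mul_pow]; norm_num
  have hp : (0:ℝ) < (2:ℝ) ^ j := by positivity
  have key : ∀ (a b : ℝ), |a| ≤ 1 → |b| ≤ 1 → ∀ m : ℕ, m ≤ j →
      ((2:ℝ) ^ m * (a * r 0 + b * r 1)) ^ 2 ≤ 64 := by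
    intro a b ha hb m hm
    have h1 : |a * r 0 + b * r 1| ≤ 8 * (1 / 2 : ℝ) ^ j := by
      refine (abs_add_le _ _).trans ?_
      rw [abs_mul, abs_mul]
      have k0 : |a| * |r 0| ≤ 1 * (4 * (1 / 2 : ℝ) ^ j) := by
        have := hr 0
        gcongr
      have k1 : |b| * |r 1| ≤ 1 * (4 * (1 / 2 : ℝ) ^ j) := by
        have := hr 1
        gcongr
      linarith
    have h2 : |(2:ℝ) ^ m * (a * r 0 + b * r 1)| ≤ 8 := by
      rw [abs_mul, abs_of_pos (by positivity : (0:ℝ) < 2 ^ m)]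
      have h3 : (2:ℝ) ^ m ≤ 2 ^ j := pow_le_pow_right₀ (by norm_num) hm
      calc (2:ℝ) ^ m * |a * r 0 + b * r 1| ≤ 2 ^ j * (8 * (1 / 2 : ℝ) ^ j) := by gcongr
        _ = 8 * ((2:ℝ) ^ j * (1 / 2 : ℝ) ^ j) := by ring
        _ = 8 := by rw [e, mul_one]
    calc ((2:ℝ) ^ m * (a * r 0 + b * r 1)) ^ 2 = |(2:ℝ) ^ m * (a * r 0 + b * r 1)| ^ 2 := (sq_abs _).symm
      _ ≤ 8 ^ 2 := by gcongr
      _ = 64 := by norm_num
  have k1 := key (Real.cos θ) (Real.sin θ) hc hs k h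
  have k2 := key (-Real.sin θ) (Real.cos θ) (by rwa [abs_neg]) hc j le_rfl
  linarith

section finite

variable {Ω : Type} [Fintype Ω] {γ : Type*}

/-- **labels of boxes with nearby lines**, up to integer shifts `D` -/
theorem hc_near (P : Law Ω) (W X : Bx Ω) (D : Ω → Fin 2 → ℤ) (C : Ω → γ)
    (h : ∀ ω, 0 < P.w ω → X.θ ω = W.θ ω ∧ X.k ω = W.k ω ∧ X.j ω = W.j ω ∧ |W.θ ω| ≤ 4 ∧
      W.k ω ≤ W.j ω ∧
      (∀ i, |(X.l ω).1 i - ((W.l ω).1 i - D ω i)| ≤ 2 * (1 / 2 : ℝ) ^ W.j ω) ∧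
      ∀ i, |(X.l ω).2 i - (W.l ω).2 i| ≤ 2 * (1 / 2 : ℝ) ^ W.j ω) :
    Stk.hc P X.lab (fun ω => (W.lab ω, (D ω, C ω))) ≤ MJ.Kc 5 := by
  refine MJ.hc_gauge P X _ 5 (fun ω hω => ?_) ?_
  · obtain ⟨h1, h2, h3, h4, h5, -, -⟩ := h ω hω
    rw [h1, h2, h3]
    exact ⟨h4, h5⟩
  intro ω ω' hω hω' e
  simp only [Prod.mk.injEq] at e
  obtain ⟨e1, e2, -⟩ := e
  obtain ⟨a1, a2, a3, a4, a5, a6, a7⟩ := h ω hω
  obtain ⟨b1, b2, b3, b4, b5, b6, b7⟩ := h ω' hω'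
  obtain ⟨c1, c2, c3, c4, c5⟩ := MJ.gauge_of_lab a5 e1
  have n1 : ∀ r : Fin 2 → ℝ, (∀ i, |r i| ≤ 4 * (1 / 2 : ℝ) ^ W.j ω) → ∀ u : Fin 2 → ℝ,
      Str.bg W ω u ≤ 8 → Str.bg W ω (fun i => u i + r i) ≤ 1024 := by
    intro r hr u hu
    have g1 := gq_add (W.θ ω) (W.k ω) (W.j ω) u r
    have g2 := gq_small (θ := W.θ ω) a5 hr
    have hu' : Str.gq (W.θ ω) (W.k ω) (W.j ω) u ≤ 8 := hu
    show Str.gq (W.θ ω) (W.k ω) (W.j ω) (fun i => u i + r i) ≤ 1024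
    linarith
  have n2 : ∀ v, Str.bg X ω v = Str.bg W ω v := by
    intro v
    show Str.gq (X.θ ω) (X.k ω) (X.j ω) v = Str.gq (W.θ ω) (W.k ω) (W.j ω) v
    rw [a1, a2, a3]
  have n3 : ∀ v, Str.bg X ω' v = Str.bg W ω' v := by
    intro v
    show Str.gq (X.θ ω') (X.k ω') (X.j ω') v = Str.gq (W.θ ω') (W.k ω') (W.j ω') v
    rw [b1, b2, b3]
  have p5 : ((2:ℝ) ^ 5) ^ 2 = 1024 := by norm_num
  rw [p5]
  refine ⟨fun v => ?_, ?_, ?_⟩
  · rw [n2, n3]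
    have r1 : Str.bg W ω' v ≤ 4 * Str.bg W ω v := by
      show Str.gq (W.θ ω') (W.k ω') (W.j ω') v ≤ _
      rw [c1, c2]
      exact Str.gq_rot a5 c3 v
    have r2 : 0 ≤ Str.bg W ω v := Str.gq_nonneg _ _ _ _
    linarith
  · rw [n2]
    have e3 : (fun i => (X.l ω').1 i - (X.l ω).1 i) = fun i => ((W.l ω').1 i - (W.l ω).1 i) +
        (((X.l ω').1 i - ((W.l ω').1 i - D ω' i)) - ((X.l ω).1 i - ((W.l ω).1 i - D ω i))) := by
      funext i
      have : (D ω' i : ℝ) = D ω i := by rw [e2]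
      linarith
    rw [e3]
    refine n1 _ (fun i => ?_) _ c4
    have g1 := a6 i
    have g2 := b6 i
    rw [c2] at g2
    calc |((X.l ω').1 i - ((W.l ω').1 i - D ω' i)) - ((X.l ω).1 i - ((W.l ω).1 i - D ω i))| ≤
        |(X.l ω').1 i - ((W.l ω').1 i - D ω' i)| + |(X.l ω).1 i - ((W.l ω).1 i - D ω i)| :=
          abs_sub _ _
      _ ≤ _ := by linarith
  · rw [n2]
    have e3 : (fun i => (X.l ω').2 i - (X.l ω).2 i) = fun i => ((W.l ω').2 i - (W.l ω).2 i) +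
        (((X.l ω').2 i - (W.l ω').2 i) - ((X.l ω).2 i - (W.l ω).2 i)) := by
      funext i
      ring
    rw [e3]
    refine n1 _ (fun i => ?_) _ c5
    have g1 := a7 i
    have g2 := b7 i
    rw [c2] at g2
    calc |((X.l ω').2 i - (W.l ω').2 i) - ((X.l ω).2 i - (W.l ω).2 i)| ≤
        |(X.l ω').2 i - (W.l ω').2 i| + |(X.l ω).2 i - (W.l ω).2 i| := abs_sub _ _
      _ ≤ _ := by linarith

/-- labels of boxes with nearby lines, without shifts -/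
theorem hc_near0 (P : Law Ω) (W X : Bx Ω) (C : Ω → γ)
    (h : ∀ ω, 0 < P.w ω → X.θ ω = W.θ ω ∧ X.k ω = W.k ω ∧ X.j ω = W.j ω ∧ |W.θ ω| ≤ 4 ∧
      W.k ω ≤ W.j ω ∧ (∀ i, |(X.l ω).1 i - (W.l ω).1 i| ≤ 2 * (1 / 2 : ℝ) ^ W.j ω) ∧
      ∀ i, |(X.l ω).2 i - (W.l ω).2 i| ≤ 2 * (1 / 2 : ℝ) ^ W.j ω) :
    Stk.hc P X.lab (fun ω => (W.lab ω, C ω)) ≤ MJ.Kc 5 := by
  have h1 := hc_near P W X (fun _ _ => 0) C (fun ω hω => by
    obtain ⟨a1, a2, a3, a4, a5, a6, a7⟩ := h ω hω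
    refine ⟨a1, a2, a3, a4, a5, fun i => ?_, a7⟩
    have := a6 i
    simpa using this)
  refine le_trans (Stk.hc_mono_right P _ fun ω ω' _ _ e => ?_) h1
  simp only [Prod.mk.injEq] at e ⊢
  exact ⟨e.1, trivial, e.2⟩

/-- **the excess of the rounded lines** -/
theorem excFl_rnd {lam : ℝ} (hl : 0 ≤ lam ∧ lam ≤ 1) (P : Law Ω) (n : ℕ) (l : Ω → Ln)
    (hg : ∀ ω, 0 < P.w ω → LnOk (l ω)) (C : Ω → γ) :
    excFl lam P (tbx n fun ω => rnd n (l ω)) C ≤ excFl lam P (tbx n l) C + MJ.Kc 5 := by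
  have h0 : ∀ ω, 0 < P.w ω → BxOk (tbx n fun ω => rnd n (l ω)) ω := fun ω hω =>
    ⟨rnd_ok (hg ω hω), by show |(0:ℝ)| ≤ 4; norm_num, le_rfl⟩
  refine csSup_le ⟨0, Lam.zero_mem_exSet h0⟩ ?_
  rintro v ⟨Ω', _, P', π, W, h1, h2, rfl⟩
  set W' : Bx Ω' := ⟨fun ω => l (π ω), W.θ, W.k, W.j⟩ with hW'
  have h3 : ∀ ω, 0 < P'.w ω → Sub 1 ((tbx n l).comp π) W' ω := fun ω hω => by
    obtain ⟨a1, a2, a3, a4, a5, a6⟩ := h2 ω hω
    exact Swp.sub_tbx (l := fun ω => l (π ω)) rfl a2 a3 a5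
  have h4 := Lam.exV_le_excF hl (C := C) h1 h3
  refine le_trans ?_ (add_le_add_left h4 _)
  have k1 : Stk.hc P' W'.lab (fun ω => (W.lab ω, C (π ω))) ≤ MJ.Kc 5 := by
    refine hc_near0 P' W W' (fun ω => C (π ω)) fun ω hω => ?_
    obtain ⟨a1, a2, a3, a4, a5, a6⟩ := h2 ω hω
    have a5' : W.j ω ≤ n := a5
    have a7 : (1 / 2 : ℝ) ^ n ≤ (1 / 2) ^ W.j ω := half_le a5'
    have a8 : (0:ℝ) ≤ (1 / 2) ^ W.j ω := by positivity
    refine ⟨rfl, rfl, rfl, a2, a3, fun i => ?_, fun i => ?_⟩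
    · show |(l (π ω)).1 i - (W.l ω).1 i| ≤ _
      rw [a1]
      show |(l (π ω)).1 i - qa n ((l (π ω)).1 i)| ≤ _
      linarith [Apx.abs_sub_qa n ((l (π ω)).1 i)]
    · show |(l (π ω)).2 i - (W.l ω).2 i| ≤ _
      rw [a1]
      show |(l (π ω)).2 i - qa n ((l (π ω)).2 i)| ≤ _
      linarith [Apx.abs_sub_qa n ((l (π ω)).2 i)]
  have k2 : Stk.hc P' ((tbx n fun ω => rnd n (l ω)).comp π).lab (fun ω => (W.lab ω, C (π ω))) ≤
      Stk.hc P' ((tbx n l).comp π).lab (fun ω => (W'.lab ω, C (π ω))) + MJ.Kc 5 := by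
    have g1 := Apx.hc_cmp P' ((tbx n fun ω => rnd n (l ω)).comp π).lab ((tbx n l).comp π).lab
      (fun ω => (W.lab ω, C (π ω))) (fun ω => (W'.lab ω, C (π ω)))
    have g2 : Stk.hc P' ((tbx n fun ω => rnd n (l ω)).comp π).lab
        (fun ω => (((tbx n l).comp π).lab ω, (W.lab ω, C (π ω)))) = 0 := by
      refine Stk.hc_zero P' fun ω ω' _ _ e => ?_
      have e1 : (tbx n fun ω => l (π ω)).lab ω = (tbx n fun ω => l (π ω)).lab ω' := congrArg Prod.fst e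
      show (tbx n fun ω => rnd n (l (π ω))).lab ω = (tbx n fun ω => rnd n (l (π ω))).lab ω'
      rw [LocT.tbx_lab] at e1 ⊢
      rw [tb_rnd, tb_rnd]
      exact e1
    have g3 : Stk.hc P' (fun ω => (W'.lab ω, C (π ω))) (fun ω => (W.lab ω, C (π ω))) ≤ MJ.Kc 5 := by
      refine (Stk.hc_le_add P' (fun ω => (W'.lab ω, C (π ω))) W'.lab
        (fun ω => (W.lab ω, C (π ω)))).trans ?_
      have : Stk.hc P' (fun ω => (W'.lab ω, C (π ω)))
          (fun ω => (W'.lab ω, (W.lab ω, C (π ω)))) = 0 :=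
        Stk.hc_zero P' fun _ _ _ _ e => Prod.ext (congrArg (fun q => q.1) e)
          (congrArg (fun q => q.2.2) e)
      linarith
    linarith
  unfold exVl
  have h6 : (P'.ex fun ω => ((tbx n fun ω => rnd n (l ω)).comp π).szl lam ω - W.szl lam ω) =
      P'.ex fun ω => ((tbx n l).comp π).szl lam ω - W'.szl lam ω := rfl
  rw [h6]
  linarith

/-- the constant of the rounding -/
noncomputable def Kr : ℝ := MJ.Kc 5 + 2 * Real.log 13 + 2 * Real.log 13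

/-- **the condition of the rounded lines is known** -/
theorem hc_rnd (P : Law Ω) {L q n : ℕ} (hn : L + q ≤ n) (l : Ω → Ln) (t θ : Ω → ℝ)
    (ht : ∀ ω, 0 < P.w ω → |t ω| ≤ 1) (hθ : ∀ ω, 0 < P.w ω → |θ ω| ≤ 4) :
    Stk.hc P (fun ω => ((⟨blF L (fun ω => rnd n (l ω)) t, θ, fun _ => 0, fun _ => q⟩ : Bx Ω).lab ω,
        pq L (ptF (fun ω => rnd n (l ω)) t ω)))
      (fun ω => ((⟨blF L l t, θ, fun _ => 0, fun _ => q⟩ : Bx Ω).lab ω, pq L (ptF l t ω))) ≤ Kr := by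
  set X : Bx Ω := ⟨blF L (fun ω => rnd n (l ω)) t, θ, fun _ => 0, fun _ => q⟩ with hX
  set W : Bx Ω := ⟨blF L l t, θ, fun _ => 0, fun _ => q⟩ with hW
  set D : Ω → Fin 2 → ℤ := fun ω j =>
    ⌊(2 : ℝ) ^ L * pos (rnd n (l ω)) (qa L (t ω)) j⌋ - ⌊(2 : ℝ) ^ L * pos (l ω) (qa L (t ω)) j⌋ with hD
  set V : Ω → _ := fun ω => (W.lab ω, pq L (ptF l t ω)) with hV
  have hLn : L ≤ n := by omega
  have e0 : (2:ℝ) ^ L * (1 / 2 : ℝ) ^ n ≤ (1 / 2) ^ q := by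
    have e1 : (1 / 2 : ℝ) ^ n ≤ (1 / 2) ^ (L + q) := half_le hn
    have e2 : (2:ℝ) ^ L * (1 / 2 : ℝ) ^ (L + q) = (1 / 2) ^ q := by
      rw [pow_add, ← mul_assoc, ← mul_pow]
      norm_num
    calc (2:ℝ) ^ L * (1 / 2 : ℝ) ^ n ≤ (2:ℝ) ^ L * (1 / 2 : ℝ) ^ (L + q) := by gcongr
      _ = _ := e2
  have hq1 : (1 / 2 : ℝ) ^ q ≤ 1 := pow_le_one₀ (by norm_num) (by norm_num)
  have ht' : ∀ ω, 0 < P.w ω → |qa L (t ω)| ≤ 1 := fun ω hω => qa_abs (ht ω hω)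
  have hdiff : ∀ ω, 0 < P.w ω → ∀ j, |(2 : ℝ) ^ L * pos (rnd n (l ω)) (qa L (t ω)) j -
      (2 : ℝ) ^ L * pos (l ω) (qa L (t ω)) j| ≤ 2 * (1 / 2 : ℝ) ^ q := by
    intro ω hω j
    rw [← mul_sub, abs_mul, abs_of_pos (by positivity : (0:ℝ) < 2 ^ L)]
    have := pos_rnd (n := n) (l ω) (ht' ω hω) j
    calc (2:ℝ) ^ L * |pos (rnd n (l ω)) (qa L (t ω)) j - pos (l ω) (qa L (t ω)) j| ≤
        (2:ℝ) ^ L * (2 * (1 / 2 : ℝ) ^ n) := by gcongr
      _ = 2 * ((2:ℝ) ^ L * (1 / 2 : ℝ) ^ n) := by ring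
      _ ≤ _ := by gcongr
  -- the label
  have k1 : Stk.hc P X.lab (fun ω => (W.lab ω, (D ω, pq L (ptF l t ω)))) ≤ MJ.Kc 5 := by
    refine hc_near P W X D _ fun ω hω => ⟨rfl, rfl, rfl, hθ ω hω, Nat.zero_le _, fun i => ?_,
      fun i => ?_⟩
    · show |Int.fract ((2 : ℝ) ^ L * pos (rnd n (l ω)) (qa L (t ω)) i) -
        (Int.fract ((2 : ℝ) ^ L * pos (l ω) (qa L (t ω)) i) - (D ω i : ℝ))| ≤ 2 * (1 / 2 : ℝ) ^ q
      have e1 : Int.fract ((2 : ℝ) ^ L * pos (rnd n (l ω)) (qa L (t ω)) i) -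
        (Int.fract ((2 : ℝ) ^ L * pos (l ω) (qa L (t ω)) i) - (D ω i : ℝ)) =
        (2 : ℝ) ^ L * pos (rnd n (l ω)) (qa L (t ω)) i - (2 : ℝ) ^ L * pos (l ω) (qa L (t ω)) i := by
        simp only [hD, Int.fract]
        push_cast
        ring
      rw [e1]
      exact hdiff ω hω i
    · show |qa n ((l ω).2 i) - (l ω).2 i| ≤ 2 * (1 / 2 : ℝ) ^ q
      rw [abs_sub_comm]
      have := Apx.abs_sub_qa n ((l ω).2 i)
      have h3 : (1 / 2 : ℝ) ^ n ≤ (1 / 2) ^ q := half_le (by omega)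
      have h4 : (0:ℝ) ≤ (1 / 2) ^ q := by positivity
      linarith
  -- the shift
  have k2 : Stk.hc P D V ≤ 2 * Real.log 13 := by
    have g : ∀ (ω : Ω), fl 0 (fun j => (D ω j : ℝ)) = D ω := by
      intro ω
      funext j
      show ⌊(2:ℝ) ^ 0 * (D ω j : ℝ)⌋ = D ω j
      rw [pow_zero, one_mul, Int.floor_intCast]
    have g1 := Apx.hc_fl_apx P 0 5 (fun ω j => (D ω j : ℝ)) V (fun ω ω' hω hω' _ j => ?_)
    · simp only [g] at g1
      refine g1.trans (le_of_eq ?_)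
      norm_num
    · have b : ∀ ω, 0 < P.w ω → |(D ω j : ℝ)| ≤ 5 / 2 + 1 / 2 := by
        intro ω hω
        have h1 := hdiff ω hω j
        have a1 := Int.floor_le ((2 : ℝ) ^ L * pos (rnd n (l ω)) (qa L (t ω)) j)
        have a2 := Int.lt_floor_add_one ((2 : ℝ) ^ L * pos (rnd n (l ω)) (qa L (t ω)) j)
        have a3 := Int.floor_le ((2 : ℝ) ^ L * pos (l ω) (qa L (t ω)) j)
        have a4 := Int.lt_floor_add_one ((2 : ℝ) ^ L * pos (l ω) (qa L (t ω)) j)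
        rw [abs_le] at h1
        simp only [hD]
        push_cast
        rw [abs_le]
        constructor <;> linarith
      have c1 : |(D ω j : ℝ)| < 3 ∨ |(D ω j : ℝ)| = 3 := by
        rcases (b ω hω).lt_or_eq with h | h
        · left; linarith
        · right; linarith
      have c2 := b ω hω
      have c3 := b ω' hω'
      have c4 : |D ω j| ≤ 2 ∧ |D ω' j| ≤ 2 := by
        have hstrict : ∀ ω, 0 < P.w ω → |D ω j| < 3 := by
          intro ω hω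
          have h1 := hdiff ω hω j
          have a1 := Int.floor_le ((2 : ℝ) ^ L * pos (rnd n (l ω)) (qa L (t ω)) j)
          have a2 := Int.lt_floor_add_one ((2 : ℝ) ^ L * pos (rnd n (l ω)) (qa L (t ω)) j)
          have a3 := Int.floor_le ((2 : ℝ) ^ L * pos (l ω) (qa L (t ω)) j)
          have a4 := Int.lt_floor_add_one ((2 : ℝ) ^ L * pos (l ω) (qa L (t ω)) j)
          rw [abs_le] at h1
          have : |(D ω j : ℝ)| < 3 := by
            simp only [hD]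
            push_cast
            rw [abs_lt]
            constructor <;> linarith
          exact_mod_cast this
        exact ⟨by have := hstrict ω hω; omega, by have := hstrict ω' hω'; omega⟩
      have c5 : |D ω j - D ω' j| ≤ 5 := by
        rw [abs_le] at c4 ⊢
        rw [abs_le] at c4
        omega
      have c6 : |(D ω j : ℝ) - (D ω' j : ℝ)| ≤ 5 := by exact_mod_cast c5
      simpa using c6
  -- the point
  have k3 : Stk.hc P (fun ω => pq L (ptF (fun ω => rnd n (l ω)) t ω)) V ≤ 2 * Real.log 13 := by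
    have g1 := Apx.hc_fl_apx P L 5 (fun ω => pos (rnd n (l ω)) (t ω)) V (fun ω ω' hω hω' e j => ?_)
    · have g2 : Stk.hc P (fun ω => pq L (ptF (fun ω => rnd n (l ω)) t ω)) V ≤
          Stk.hc P (fun ω => fl L (pos (rnd n (l ω)) (t ω))) V := by
        refine Stk.hc_mono_left P fun ω ω' _ _ e => ?_
        simp only [Prod.mk.injEq, hV] at e
        refine Prod.ext ?_ e.1
        exact congrArg (fun q => q.1) e.2.2
      refine g2.trans (g1.trans (le_of_eq ?_))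
      norm_num
    · simp only [Prod.mk.injEq, hV] at e
      have e2 : fl L (pos (l ω) (t ω)) = fl L (pos (l ω') (t ω')) := congrArg (fun q => q.2) e.2
      have e3 := Apx.fl_close e2 j
      have e4 := pos_rnd (n := n) (l ω) (ht ω hω) j
      have e5 := pos_rnd (n := n) (l ω') (ht ω' hω') j
      have e6 : (1 / 2 : ℝ) ^ n ≤ (1 / 2) ^ L := half_le hLn
      rw [abs_le] at e3 e4 e5
      rw [abs_le]
      push_cast
      constructor <;> linarith [e3.1, e3.2, e4.1, e4.2, e5.1, e5.2]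
  have h1 : Stk.hc P (fun ω => (X.lab ω, pq L (ptF (fun ω => rnd n (l ω)) t ω))) V ≤
      Stk.hc P X.lab V + Stk.hc P (fun ω => pq L (ptF (fun ω => rnd n (l ω)) t ω)) V :=
    Apx.hc_pair_le P _ _ V
  have h2 : Stk.hc P X.lab V ≤ Stk.hc P X.lab (fun ω => (D ω, V ω)) + Stk.hc P D V :=
    Apx.hc_via P X.lab D V
  have h3 : Stk.hc P X.lab (fun ω => (D ω, V ω)) ≤
      Stk.hc P X.lab (fun ω => (W.lab ω, (D ω, pq L (ptF l t ω)))) := by
    refine Stk.hc_mono_right P _ fun ω ω' _ _ e => ?_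
    simp only [hV, Prod.mk.injEq] at e ⊢
    exact ⟨e.2.1, e.1, e.2.2⟩
  unfold Kr
  linarith

end finite

variable {S : Sys} {lam : ℝ}

/-- **rounding of the lines** -/
theorem roundS (hlam : 0 ≤ lam ∧ lam ≤ 1) {N β : ℝ} (hN : 0 ≤ N) {n q : ℕ → ℕ} {l : S.RV Ln}
    {t : S.RV ℝ} {θ : S.RV ℝ} (hn : S.Bd n) (hq : S.Bd q) (hqn : ∀ i, S.L i + q i ≤ n i)
    (hl : LnA l) (ht : T01 t) (hθ : S.Ae fun i ω => |θ i ω| ≤ 4)
    (h : β + S.excl lam (tubes n l) (one (S := S)) + N * Dl S.L n l t (one (S := S)) ≤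
      valS lam S.L n l t (sbox q θ l t) (one (S := S))) :
    β + S.excl lam (tubes n fun i ω => rnd (n i) (l i ω)) (one (S := S)) +
        N * Dl S.L n (fun i ω => rnd (n i) (l i ω)) t (one (S := S)) ≤
      valS lam S.L n (fun i ω => rnd (n i) (l i ω)) t
        (sbox q θ (fun i ω => rnd (n i) (l i ω)) t) (one (S := S)) := by
  set l' : S.RV Ln := fun i ω => rnd (n i) (l i ω) with hl'def
  have hl' : LnA l' := by
    filter_upwards [hl] with i hi ω hω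
    exact rnd_ok (hi ω hω)
  have hW : BxA (sbox q θ l t) := sbox_ok hq hθ hl t
  have hW' : BxA (sbox q θ l' t) := sbox_ok hq hθ hl' t
  have tn : Tame (tbs n l) := tame_tbs hn hl
  have t1 : Tame (one (S := S)) := tn.mono (Eventually.of_forall fun _ _ _ _ _ _ => rfl)
  refine trans hlam hN hn hn hl hl' ht hW hW' t1 ?_ ?_ ?_ ?_ ?_ h
  · exact hc_fn (Eventually.of_forall fun i ω ω' _ _ e => by
      simp only [pr_apply, Prod.mk.injEq] at e
      have e1 : tb (n i) (rnd (n i) (l i ω)) = tb (n i) (rnd (n i) (l i ω')) := e.1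
      rw [tb_rnd, tb_rnd] at e1
      exact e1)
  · refine hc_zero_of_le Kr ?_
    filter_upwards [hθ, ht] with i h1 h2
    have h3 := hc_rnd (S.P i) (hqn i) (l i) (t i) (θ i)
      (fun ω hω => by
        have h4 := h2 ω hω
        rw [abs_le]
        constructor <;> linarith [h4.1, h4.2]) h1
    refine le_trans ?_ h3
    refine (Stk.hc_mono_left (S.P i) (X' := fun ω => ((sbox q θ l' t i).lab ω,
      pq (S.L i) (ptF (l' i) (t i) ω))) fun ω ω' _ _ e => ?_).trans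
      (Stk.hc_mono_right (S.P i) _ fun ω ω' _ _ e => ?_)
    · have e1 := congrArg (fun q => q.1) e
      simp only [Prod.mk.injEq] at e1
      exact Prod.ext e1.1 (Prod.ext e1.2 rfl)
    · exact Prod.ext (congrArg (fun q => q.1) e) (congrArg (fun q => q.2.1) e)
  · refine hc_fn (Eventually.of_forall fun i ω ω' _ _ e => ?_)
    simp only [pr_apply, Prod.mk.injEq]
    refine ⟨?_, trivial⟩
    show tb (n i) (rnd (n i) (l i ω)) = tb (n i) (rnd (n i) (l i ω'))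
    rw [tb_rnd, tb_rnd]
    exact e
  · rfl
  · have hB := tubes_ok hn hl
    have hB' := tubes_ok hn hl'
    refine ulim_le_of_sub (Lam.ub_exc hlam hB' _) (Lam.ub_exc hlam hB _)
      (S.const_div_nm (MJ.Kc 5)) ?_
    filter_upwards [S.nm_pos, hl] with i hi h1
    rw [← add_div]
    refine div_le_div_of_nonneg_right ?_ hi.le
    exact excFl_rnd hlam (S.P i) (n i) (l i) h1 _

end Norm

end Vale.Agent.P127.U
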