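import Vale.Agent.P127.U.Lam.PathV

/-!
# P127 / U / Lam : windows of the path (helper465)

* `EFH_win_of` : a window of the path from a window at the origin of the state system;
* `EFH_ext` : extension;  `EFH_start` : the states of level `0`;
* `EFH_zero`, `EF_le_XF`, `EF_win_of`, `EF_ext` : without the price of the shape.
-/

set_option autoImplicit false

namespace Vale.Agent.P127.U.Pf

open Filter Topology Vale.Agent.P127 Vale.Agent.P127.Stk Vale.Agent.P127.U Vale.Agent.P127.U.Apx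
  Sys HX

variable {Ω : Type} [Fintype Ω] {γ : Type}

theorem goodF_state (P : Law Ω) (a r : ℕ) (l : Ω → Ln) (t v : Ω → ℝ) :
    GoodF P (lnS a r l t v) (tfF a t) := fun ω _ =>
  ⟨st1_ok a r (l ω) (t ω) (v ω), Int.fract_nonneg _, (Int.fract_lt_one _).le⟩

theorem slope_state (P : Law Ω) (r : ℕ) (v : Ω → ℝ) : ∀ ω, 0 < P.w ω → |tfF r v ω| ≤ 1 :=
  fun ω _ => by
    show |Int.fract _| ≤ 1
    rw [abs_of_nonneg (Int.fract_nonneg _)]
    exact (Int.fract_lt_one _).le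

/-- the constant of a window -/
noncomputable def cW (Λ : ℝ) : ℝ := cV Λ + (12 + 4 * Λ) * Real.log 13

/-- **a window of the path** -/
theorem EFH_win_of {lam Λ : ℝ} (hl : 0 ≤ lam ∧ lam ≤ 1) (hΛ : 0 ≤ Λ) (P : Law Ω) {n a w r ρ : ℕ}
    (h : a + w + (r + ρ) ≤ n) (l : Ω → Ln) (t v : Ω → ℝ) (C : Ω → γ) :
    EFH P lam Λ n (a + w) (r + ρ) l t v C ≤ EFH P lam Λ n a r l t v C +
      (XFH lam Λ P w (n - a - r) (lnS a r l t v) (tfF a t) (fun ω => (cell a r l t v ω, C ω)) -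
        excH lam Λ P (n - a - r) (lnS a r l t v) (fun ω => (cell a r l t v ω, C ω))) +
      Λ * Real.log (ρ + 5) + cW Λ := by
  have k1 := EFH_comp P hl hΛ n a w r ρ l t v C
  have k2 := EFH_le_XFH (lam := lam) (Λ := Λ) hl hΛ (n := n - a - r) (a := w) (r := ρ)
    (show w + ρ ≤ n - a - r by omega) (goodF_state P a r l t v) (slope_state P r v)
    (fun ω => (cell a r l t v ω, C ω))
  unfold cW
  linarith

/-- **extension along the path** -/
theorem EFH_ext {lam Λ : ℝ} (hl : 0 ≤ lam ∧ lam ≤ 1) (hΛ : 0 ≤ Λ) (P : Law Ω) {n a w r ρ : ℕ}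
    (h : a + w + (r + ρ) ≤ n) (l : Ω → Ln) (t v : Ω → ℝ) (C : Ω → γ) :
    EFH P lam Λ n (a + w) (r + ρ) l t v C ≤ EFH P lam Λ n a r l t v C + 2 * w * Real.log 2 +
      Λ * Real.log (ρ + 5) + (cW Λ + (cS + (2 * Real.log 9 + 5 * Real.log 7))) := by
  have k1 := EFH_win_of hl hΛ P h l t v C
  have k2 := XFH_up hl hΛ (s := w) (n := n - a - r) (show w ≤ n - a - r by omega)
    (goodF_state P a r l t v) (fun ω => (cell a r l t v ω, C ω))
  linarith

/-- **the states of level `0`** -/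
theorem EFH_start {lam Λ : ℝ} (hl : 0 ≤ lam ∧ lam ≤ 1) (hΛ : 0 ≤ Λ) {P : Law Ω} {n r : ℕ}
    (h : r ≤ n) {l : Ω → Ln} {t v : Ω → ℝ} (hg : GoodF P l t)
    (hv : ∀ ω, 0 < P.w ω → |v ω| ≤ 1) (C : Ω → γ) :
    EFH P lam Λ n 0 r l t v C ≤ excH lam Λ P n l C + Λ * Real.log (r + 5) +
      (cV Λ + (cS + (2 * Real.log 9 + 5 * Real.log 7))) := by
  have k1 := EFH_le_XFH (lam := lam) (Λ := Λ) hl hΛ (n := n) (a := 0) (r := r) (by omega) hg hv C
  have k2 := XFH_up (lam := lam) (N := Λ) hl hΛ (s := 0) (n := n) (Nat.zero_le _) hg C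
  push_cast at k2
  linarith

/-! ### without the price of the shape -/

theorem EFH_zero (P : Law Ω) (lam : ℝ) (n a r : ℕ) (l : Ω → Ln) (t v : Ω → ℝ) (C : Ω → γ) :
    EFH P lam 0 n a r l t v C = EF P lam n a r l t v C := by
  unfold EFH EF
  rw [excH_zero]

/-- (a) : `EF a r ≤ XF a` -/
theorem EF_le_XF {lam : ℝ} (hl : 0 ≤ lam ∧ lam ≤ 1) {P : Law Ω} {n a r : ℕ}
    (h : a + r ≤ n) {l : Ω → Ln} {t v : Ω → ℝ} (hg : GoodF P l t)
    (hv : ∀ ω, 0 < P.w ω → |v ω| ≤ 1) (C : Ω → γ) :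
    EF P lam n a r l t v C ≤ XF lam P a n l t C + cV 0 := by
  have k := EFH_le_XFH (lam := lam) (Λ := 0) hl le_rfl h hg hv C
  rw [EFH_zero, XFH_zero] at k
  linarith

theorem EF_win_of {lam : ℝ} (hl : 0 ≤ lam ∧ lam ≤ 1) (P : Law Ω) {n a w r ρ : ℕ}
    (h : a + w + (r + ρ) ≤ n) (l : Ω → Ln) (t v : Ω → ℝ) (C : Ω → γ) :
    EF P lam n (a + w) (r + ρ) l t v C ≤ EF P lam n a r l t v C +
      (XF lam P w (n - a - r) (lnS a r l t v) (tfF a t) (fun ω => (cell a r l t v ω, C ω)) -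
        excFl lam P (tbx (n - a - r) (lnS a r l t v)) (fun ω => (cell a r l t v ω, C ω))) +
      cW 0 := by
  have k := EFH_win_of (lam := lam) (Λ := 0) hl le_rfl P h l t v C
  rw [EFH_zero, EFH_zero, XFH_zero, excH_zero] at k
  linarith

theorem EF_ext {lam : ℝ} (hl : 0 ≤ lam ∧ lam ≤ 1) (P : Law Ω) {n a w r ρ : ℕ}
    (h : a + w + (r + ρ) ≤ n) (l : Ω → Ln) (t v : Ω → ℝ) (C : Ω → γ) :
    EF P lam n (a + w) (r + ρ) l t v C ≤ EF P lam n a r l t v C + 2 * w * Real.log 2 +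
      (cW 0 + (cS + (2 * Real.log 9 + 5 * Real.log 7))) := by
  have k := EFH_ext (lam := lam) (Λ := 0) hl le_rfl P h l t v C
  rw [EFH_zero, EFH_zero] at k
  linarith

end Vale.Agent.P127.U.Pf
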