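import Vale.Agent.P127.U.Lam.IncA
import Vale.Agent.P127.U.Lam.PathW

/-!
# P127 / U / Inc : `PView` from `EFH_le_XFH` (helper499)
-/

set_option autoImplicit false

namespace Vale.Agent.P127.U.Inc

open Vale.Agent.P127 Vale.Agent.P127.Stk Vale.Agent.P127.U Vale.Agent.P127.U.Pf

/-- **VIEW** with an arbitrarily small rate -/
theorem pView {lam Λ κ : ℝ} (hl : 0 ≤ lam ∧ lam ≤ 1) (hΛ : 0 ≤ Λ) (hκ : 0 < κ) :
    ∃ c : ℝ, 0 ≤ c ∧ PView lam Λ κ c := by
  have hl2 : 0 < Real.log 2 := Real.log_pos (by norm_num)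
  set M : ℝ := Λ / (κ * Real.log 2) + 1 with hM
  have hκ2 : 0 < κ * Real.log 2 := mul_pos hκ hl2
  have h1 : 1 ≤ M := by
    have : 0 ≤ Λ / (κ * Real.log 2) := by positivity
    linarith
  have hM0 : 0 < M := by linarith
  have h2 : Λ / M ≤ κ * Real.log 2 := by
    rw [div_le_iff₀ hM0, hM, mul_add, mul_one, mul_div_cancel₀ _ hκ2.ne']
    linarith
  refine ⟨|κ * Real.log 2 * 5 + Λ * Real.log M + cV Λ|, abs_nonneg _, ?_⟩
  intro Ω _ γ P l t v n w ρ C hg hv hn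
  have k := EFH_le_XFH (lam := lam) (Λ := Λ) hl hΛ hn hg hv C
  have h3 : Real.log ((ρ : ℝ) + 5) ≤ ((ρ : ℝ) + 5) / M + Real.log M := by
    have hp : (0 : ℝ) < (ρ : ℝ) + 5 := by positivity
    have h4 := Real.log_le_sub_one_of_pos (show 0 < ((ρ : ℝ) + 5) / M by positivity)
    rw [Real.log_div hp.ne' hM0.ne'] at h4
    linarith
  have h5 : Λ * Real.log ((ρ : ℝ) + 5) ≤ κ * Real.log 2 * ((ρ : ℝ) + 5) + Λ * Real.log M := by
    have h6 := mul_le_mul_of_nonneg_left h3 hΛ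
    have h7 : Λ * (((ρ : ℝ) + 5) / M) ≤ κ * Real.log 2 * ((ρ : ℝ) + 5) := by
      have : Λ * (((ρ : ℝ) + 5) / M) = Λ / M * ((ρ : ℝ) + 5) := by ring
      rw [this]
      exact mul_le_mul_of_nonneg_right h2 (by positivity)
    rw [mul_add] at h6
    linarith
  have h8 := le_abs_self (κ * Real.log 2 * 5 + Λ * Real.log M + cV Λ)
  have h9 : κ * Real.log 2 * ((ρ : ℝ) + 5) = κ * ρ * Real.log 2 + κ * Real.log 2 * 5 := by ring
  linarith

end Vale.Agent.P127.U.Inc
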