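import Vale.Agent.P127.U.Lam.Win

/-!
# P127 / U / Lam : the states of a path (helper465)

Shear frames.  `v` is a slope, `v_r = qa r v`, `t_a = qa a t`.
* `shv r v x = (x 0, 2^r (x 1 - v_r x 0))` stretched coordinates of a vector;
* `st1 a r l t v` the line in the stretched coordinates of the slab of slope `v`, thickness `2^-(a+r)`
  in the ball of radius `2^-a`;
* `cell1 a r l t v` the label of this slab in this ball (with the time, the slope and the position).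
* `st1_st1` : exact semigroup; `cell_of_cell` : exact; `hc_cell` : up to `O(1)` values.
-/

set_option autoImplicit false

namespace Vale.Agent.P127.U.Pf

open Filter Topology Vale.Agent.P127 Vale.Agent.P127.Stk Vale.Agent.P127.U.Apx

/-- stretched coordinates of a vector -/
noncomputable def shv (r : ℕ) (v : ℝ) (x : Fin 2 → ℝ) : Fin 2 → ℝ :=
  ![x 0, 2 ^ r * (x 1 - qa r v * x 0)]

/-- the state `(a, r)` of a line -/
noncomputable def st1 (a r : ℕ) (l : Ln) (t v : ℝ) : Ln :=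
  (fun j => Int.fract (2 ^ a * shv r v (pos l (qa a t)) j), fun j => Int.fract (shv r v l.2 j))

/-- the cell of the state `(a, r)` -/
noncomputable def cell1 (a r : ℕ) (l : Ln) (t v : ℝ) : ℤ × ℤ × (Fin 2 → ℤ) × (Fin 2 → ℤ) :=
  (fl1 a t, fl1 r v, fl 0 (shv r v l.2), fl a (shv r v (pos l (qa a t))))

theorem shv0 (r : ℕ) (v : ℝ) (x : Fin 2 → ℝ) : shv r v x 0 = x 0 := rfl

theorem shv1 (r : ℕ) (v : ℝ) (x : Fin 2 → ℝ) : shv r v x 1 = 2 ^ r * (x 1 - qa r v * x 0) := rfl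

theorem st1_ok (a r : ℕ) (l : Ln) (t v : ℝ) : LnOk (st1 a r l t v) := by
  constructor <;>
  · intro j
    show |Int.fract _| ≤ 1
    rw [abs_of_nonneg (Int.fract_nonneg _)]
    exact (Int.fract_lt_one _).le

/-- digits of the fractional part -/
theorem fl1_fr (s w : ℕ) (t : ℝ) :
    fl1 w (Int.fract ((2 : ℝ) ^ s * t)) = fl1 (s + w) t - 2 ^ w * fl1 s t := by
  have h := Lam.Ball.fl1_tfr (Nat.le_add_right s w) t
  rw [Nat.add_sub_cancel_left] at h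
  exact h

theorem qa_fr (s w : ℕ) (t : ℝ) :
    qa w (Int.fract ((2 : ℝ) ^ s * t)) = (2 : ℝ) ^ s * (qa (s + w) t - qa s t) := by
  have h := Lam.Ball.qa_tfr (Nat.le_add_right s w) t
  rw [Nat.add_sub_cancel_left] at h
  exact h

theorem two_qa (w : ℕ) (x : ℝ) : (2 : ℝ) ^ w * qa w x = fl1 w x := by
  unfold qa
  field_simp

theorem shv_shv (r ρ : ℕ) (v : ℝ) (x : Fin 2 → ℝ) :
    shv ρ (Int.fract ((2 : ℝ) ^ r * v)) (shv r v x) = shv (r + ρ) v x := by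
  have e1 : shv ρ (Int.fract ((2 : ℝ) ^ r * v)) (shv r v x) 1 = shv (r + ρ) v x 1 := by
    rw [shv1, shv1, shv1, shv0, qa_fr, pow_add]
    ring
  funext j
  fin_cases j
  · rfl
  · exact e1

/-- the integer part -/
def shz (w ρ : ℕ) (τ V : ℤ) (A B : Fin 2 → ℤ) : Fin 2 → ℤ :=
  ![2 ^ w * A 0 + τ * B 0, 2 ^ ρ * (2 ^ w * A 1 + τ * B 1) - V * (2 ^ w * A 0 + τ * B 0)]

/-- direction of the state line in stretched coordinates -/
theorem shv_dir (r ρ : ℕ) (v : ℝ) (y : Fin 2 → ℝ) (j : Fin 2) :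
    shv ρ (Int.fract ((2 : ℝ) ^ r * v)) (fun i => Int.fract (shv r v y i)) j =
      shv (r + ρ) v y j - shz 0 ρ 0 (fl1 ρ (Int.fract ((2 : ℝ) ^ r * v))) (fun i => ⌊shv r v y i⌋) 0 j := by
  rw [← shv_shv]
  have e2 := two_qa ρ (Int.fract ((2 : ℝ) ^ r * v))
  generalize Int.fract ((2 : ℝ) ^ r * v) = v' at e2 ⊢
  fin_cases j
  · show Int.fract (shv r v y 0) = shv r v y 0 - ((2 ^ 0 * ⌊shv r v y 0⌋ + 0 * 0 : ℤ) : ℝ)
    rw [Int.fract]
    push_cast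
    ring
  · show 2 ^ ρ * (Int.fract (shv r v y 1) - qa ρ v' * Int.fract (shv r v y 0)) =
      2 ^ ρ * (shv r v y 1 - qa ρ v' * shv r v y 0) -
        ((2 ^ ρ * (2 ^ 0 * ⌊shv r v y 1⌋ + 0 * 0) - fl1 ρ v' *
          (2 ^ 0 * ⌊shv r v y 0⌋ + 0 * 0) : ℤ) : ℝ)
    push_cast
    rw [← e2, Int.fract, Int.fract]
    ring

/-- position of the state line in stretched coordinates -/
theorem shv_pos (a w r ρ : ℕ) (l : Ln) (t v : ℝ) (j : Fin 2) :
    2 ^ w * shv ρ (Int.fract ((2 : ℝ) ^ r * v))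
        (pos (st1 a r l t v) (qa w (Int.fract ((2 : ℝ) ^ a * t)))) j =
      2 ^ (a + w) * shv (r + ρ) v (pos l (qa (a + w) t)) j -
        shz w ρ (fl1 w (Int.fract ((2 : ℝ) ^ a * t))) (fl1 ρ (Int.fract ((2 : ℝ) ^ r * v)))
          (fl a (shv r v (pos l (qa a t)))) (fl 0 (shv r v l.2)) j := by
  rw [← shv_shv]
  have e2 := two_qa ρ (Int.fract ((2 : ℝ) ^ r * v))
  have e3 := two_qa w (Int.fract ((2 : ℝ) ^ a * t))
  have e4 := qa_fr a w t
  set τ' := Int.fract ((2 : ℝ) ^ a * t) with hτ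
  set v' := Int.fract ((2 : ℝ) ^ r * v) with hv
  -- positions
  have e5 : ∀ i, pos (st1 a r l t v) (qa w τ') i = 2 ^ a * shv r v (pos l (qa (a + w) t)) i -
      (fl a (shv r v (pos l (qa a t))) i + qa w τ' * fl 0 (shv r v l.2) i) := by
    intro i
    have f1 : shv r v (pos l (qa (a + w) t)) i =
        shv r v (pos l (qa a t)) i + (qa (a + w) t - qa a t) * shv r v l.2 i := by
      fin_cases i
      · show l.1 0 + qa (a + w) t * l.2 0 = l.1 0 + qa a t * l.2 0 + (qa (a + w) t - qa a t) * l.2 0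
        ring
      · show 2 ^ r * ((l.1 1 + qa (a + w) t * l.2 1) - qa r v * (l.1 0 + qa (a + w) t * l.2 0)) =
          2 ^ r * ((l.1 1 + qa a t * l.2 1) - qa r v * (l.1 0 + qa a t * l.2 0)) +
          (qa (a + w) t - qa a t) * (2 ^ r * (l.2 1 - qa r v * l.2 0))
        ring
    show Int.fract (2 ^ a * shv r v (pos l (qa a t)) i) + qa w τ' * Int.fract (shv r v l.2 i) = _
    rw [f1, Int.fract, Int.fract, e4]
    show 2 ^ a * shv r v (pos l (qa a t)) i - (⌊2 ^ a * shv r v (pos l (qa a t)) i⌋ : ℝ) +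
      2 ^ a * (qa (a + w) t - qa a t) * (shv r v l.2 i - (⌊shv r v l.2 i⌋ : ℝ)) =
      2 ^ a * (shv r v (pos l (qa a t)) i + (qa (a + w) t - qa a t) * shv r v l.2 i) -
      ((⌊2 ^ a * shv r v (pos l (qa a t)) i⌋ : ℝ) +
        2 ^ a * (qa (a + w) t - qa a t) * (⌊2 ^ 0 * shv r v l.2 i⌋ : ℝ))
    rw [pow_zero, one_mul]
    ring
  fin_cases j
  · show 2 ^ w * pos (st1 a r l t v) (qa w τ') 0 =
      2 ^ (a + w) * shv r v (pos l (qa (a + w) t)) 0 -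
      ((2 ^ w * fl a (shv r v (pos l (qa a t))) 0 + fl1 w τ' * fl 0 (shv r v l.2) 0 : ℤ) : ℝ)
    rw [e5]
    push_cast
    rw [← e3, pow_add]
    ring
  · show 2 ^ w * (2 ^ ρ * (pos (st1 a r l t v) (qa w τ') 1 - qa ρ v' * pos (st1 a r l t v) (qa w τ') 0)) =
      2 ^ (a + w) * (2 ^ ρ * (shv r v (pos l (qa (a + w) t)) 1 - qa ρ v' * shv r v (pos l (qa (a + w) t)) 0)) -
      ((2 ^ ρ * (2 ^ w * fl a (shv r v (pos l (qa a t))) 1 + fl1 w τ' * fl 0 (shv r v l.2) 1) -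
        fl1 ρ v' * (2 ^ w * fl a (shv r v (pos l (qa a t))) 0 + fl1 w τ' * fl 0 (shv r v l.2) 0) : ℤ) : ℝ)
    rw [e5, e5]
    push_cast
    rw [← e3, ← e2, pow_add]
    ring

/-- **exact semigroup** -/
theorem st1_st1 (a w r ρ : ℕ) (l : Ln) (t v : ℝ) :
    st1 w ρ (st1 a r l t v) (Int.fract ((2 : ℝ) ^ a * t)) (Int.fract ((2 : ℝ) ^ r * v)) =
      st1 (a + w) (r + ρ) l t v := by
  refine Prod.ext ?_ ?_
  · funext j
    show Int.fract (2 ^ w * shv ρ (Int.fract ((2 : ℝ) ^ r * v))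
        (pos (st1 a r l t v) (qa w (Int.fract ((2 : ℝ) ^ a * t)))) j) =
      Int.fract (2 ^ (a + w) * shv (r + ρ) v (pos l (qa (a + w) t)) j)
    rw [shv_pos, Int.fract_sub_intCast]
  · funext j
    show Int.fract (shv ρ (Int.fract ((2 : ℝ) ^ r * v)) (fun i => Int.fract (shv r v l.2 i)) j) =
      Int.fract (shv (r + ρ) v l.2 j)
    rw [shv_dir, Int.fract_sub_intCast]

theorem fr_fr (a w : ℕ) (t : ℝ) :
    Int.fract ((2 : ℝ) ^ w * Int.fract ((2 : ℝ) ^ a * t)) = Int.fract ((2 : ℝ) ^ (a + w) * t) := by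
  have e : (2 : ℝ) ^ w * Int.fract ((2 : ℝ) ^ a * t) =
      (2 : ℝ) ^ (a + w) * t - ((2 ^ w * ⌊(2 : ℝ) ^ a * t⌋ : ℤ) : ℝ) := by
    rw [Int.fract]
    push_cast
    rw [pow_add]
    ring
  rw [e, Int.fract_sub_intCast]

/-- the fine cell is the inner cell plus a function of the coarse cell -/
theorem cell_eq (a w r ρ : ℕ) (l : Ln) (t v : ℝ) :
    fl1 (a + w) t = fl1 w (Int.fract ((2 : ℝ) ^ a * t)) + 2 ^ w * fl1 a t ∧
    fl1 (r + ρ) v = fl1 ρ (Int.fract ((2 : ℝ) ^ r * v)) + 2 ^ ρ * fl1 r v ∧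
    (∀ j, fl 0 (shv (r + ρ) v l.2) j =
      fl 0 (shv ρ (Int.fract ((2 : ℝ) ^ r * v)) (st1 a r l t v).2) j +
        shz 0 ρ 0 (fl1 ρ (Int.fract ((2 : ℝ) ^ r * v))) (fl 0 (shv r v l.2)) 0 j) ∧
    (∀ j, fl (a + w) (shv (r + ρ) v (pos l (qa (a + w) t))) j =
      fl w (shv ρ (Int.fract ((2 : ℝ) ^ r * v))
        (pos (st1 a r l t v) (qa w (Int.fract ((2 : ℝ) ^ a * t))))) j +
        shz w ρ (fl1 w (Int.fract ((2 : ℝ) ^ a * t))) (fl1 ρ (Int.fract ((2 : ℝ) ^ r * v)))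
          (fl a (shv r v (pos l (qa a t)))) (fl 0 (shv r v l.2)) j) := by
  refine ⟨by rw [fl1_fr]; ring, by rw [fl1_fr]; ring, fun j => ?_, fun j => ?_⟩
  · have h := shv_dir r ρ v l.2 j
    have e1 : (fun i => ⌊shv r v l.2 i⌋) = fl 0 (shv r v l.2) := by
      funext i
      show _ = ⌊2 ^ 0 * shv r v l.2 i⌋
      rw [pow_zero, one_mul]
    rw [e1] at h
    show ⌊2 ^ 0 * shv (r + ρ) v l.2 j⌋ = ⌊2 ^ 0 * shv ρ (Int.fract ((2 : ℝ) ^ r * v))
      (fun i => Int.fract (shv r v l.2 i)) j⌋ + _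
    rw [h, pow_zero, one_mul, one_mul, Int.floor_sub_intCast]
    ring
  · have h := shv_pos a w r ρ l t v j
    show ⌊2 ^ (a + w) * shv (r + ρ) v (pos l (qa (a + w) t)) j⌋ = ⌊2 ^ w * shv ρ (Int.fract ((2 : ℝ) ^ r * v))
        (pos (st1 a r l t v) (qa w (Int.fract ((2 : ℝ) ^ a * t)))) j⌋ + _
    rw [h, Int.floor_sub_intCast]
    ring

section family

variable {Ω : Type}

/-- the line in the state `(a, r)` -/
noncomputable def lnS (a r : ℕ) (l : Ω → Ln) (t v : Ω → ℝ) : Ω → Ln := fun ω =>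
  st1 a r (l ω) (t ω) (v ω)

/-- the cell of the state `(a, r)` -/
noncomputable def cell (a r : ℕ) (l : Ω → Ln) (t v : Ω → ℝ) :
    Ω → ℤ × ℤ × (Fin 2 → ℤ) × (Fin 2 → ℤ) := fun ω => cell1 a r (l ω) (t ω) (v ω)

theorem lnS_lnS (a w r ρ : ℕ) (l : Ω → Ln) (t v : Ω → ℝ) :
    lnS w ρ (lnS a r l t v) (tfF a t) (tfF r v) = lnS (a + w) (r + ρ) l t v :=
  funext fun ω => st1_st1 a w r ρ (l ω) (t ω) (v ω)

theorem tfF_tfF (a w : ℕ) (t : Ω → ℝ) : tfF w (tfF a t) = tfF (a + w) t :=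
  funext fun ω => fr_fr a w (t ω)

/-- **the fine cell is a function of the coarse cell and the inner cell** -/
theorem cell_of (a w r ρ : ℕ) (l : Ω → Ln) (t v : Ω → ℝ) {ω ω' : Ω}
    (h : cell a r l t v ω = cell a r l t v ω')
    (h' : cell w ρ (lnS a r l t v) (tfF a t) (tfF r v) ω =
      cell w ρ (lnS a r l t v) (tfF a t) (tfF r v) ω') :
    cell (a + w) (r + ρ) l t v ω = cell (a + w) (r + ρ) l t v ω' := by
  obtain ⟨a1, a2, a3, a4⟩ := cell_eq a w r ρ (l ω) (t ω) (v ω)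
  obtain ⟨b1, b2, b3, b4⟩ := cell_eq a w r ρ (l ω') (t ω') (v ω')
  have c1 : fl1 a (t ω) = fl1 a (t ω') := congrArg Prod.fst h
  have c2 : fl1 r (v ω) = fl1 r (v ω') := congrArg (fun q => q.2.1) h
  have c3 : fl 0 (shv r (v ω) (l ω).2) = fl 0 (shv r (v ω') (l ω').2) := congrArg (fun q => q.2.2.1) h
  have c4 : fl a (shv r (v ω) (pos (l ω) (qa a (t ω)))) = fl a (shv r (v ω') (pos (l ω') (qa a (t ω')))) :=
    congrArg (fun q => q.2.2.2) h
  have d1 : fl1 w (Int.fract ((2 : ℝ) ^ a * t ω)) = fl1 w (Int.fract ((2 : ℝ) ^ a * t ω')) :=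
    congrArg Prod.fst h'
  have d2 : fl1 ρ (Int.fract ((2 : ℝ) ^ r * v ω)) = fl1 ρ (Int.fract ((2 : ℝ) ^ r * v ω')) :=
    congrArg (fun q => q.2.1) h'
  have d3 : fl 0 (shv ρ (Int.fract ((2 : ℝ) ^ r * v ω)) (st1 a r (l ω) (t ω) (v ω)).2) =
      fl 0 (shv ρ (Int.fract ((2 : ℝ) ^ r * v ω')) (st1 a r (l ω') (t ω') (v ω')).2) :=
    congrArg (fun q => q.2.2.1) h'
  have d4 : fl w (shv ρ (Int.fract ((2 : ℝ) ^ r * v ω))
        (pos (st1 a r (l ω) (t ω) (v ω)) (qa w (Int.fract ((2 : ℝ) ^ a * t ω))))) =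
      fl w (shv ρ (Int.fract ((2 : ℝ) ^ r * v ω'))
        (pos (st1 a r (l ω') (t ω') (v ω')) (qa w (Int.fract ((2 : ℝ) ^ a * t ω'))))) :=
    congrArg (fun q => q.2.2.2) h'
  refine Prod.ext ?_ (Prod.ext ?_ (Prod.ext ?_ ?_))
  · show fl1 (a + w) (t ω) = fl1 (a + w) (t ω')
    rw [a1, b1, d1, c1]
  · show fl1 (r + ρ) (v ω) = fl1 (r + ρ) (v ω')
    rw [a2, b2, d2, c2]
  · show fl 0 (shv (r + ρ) (v ω) (l ω).2) = fl 0 (shv (r + ρ) (v ω') (l ω').2)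
    funext j
    rw [a3, b3, d3, d2, c3]
  · show fl (a + w) (shv (r + ρ) (v ω) (pos (l ω) (qa (a + w) (t ω)))) =
      fl (a + w) (shv (r + ρ) (v ω') (pos (l ω') (qa (a + w) (t ω'))))
    funext j
    rw [a4, b4, d4, d1, d2, c3, c4]

/-- the inner cell is a function of the coarse cell and the fine cell -/
theorem inner_of (a w r ρ : ℕ) (l : Ω → Ln) (t v : Ω → ℝ) {ω ω' : Ω}
    (h : cell a r l t v ω = cell a r l t v ω')
    (h' : cell (a + w) (r + ρ) l t v ω = cell (a + w) (r + ρ) l t v ω') :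
    cell w ρ (lnS a r l t v) (tfF a t) (tfF r v) ω =
      cell w ρ (lnS a r l t v) (tfF a t) (tfF r v) ω' := by
  obtain ⟨a1, a2, a3, a4⟩ := cell_eq a w r ρ (l ω) (t ω) (v ω)
  obtain ⟨b1, b2, b3, b4⟩ := cell_eq a w r ρ (l ω') (t ω') (v ω')
  have c1 : fl1 a (t ω) = fl1 a (t ω') := congrArg Prod.fst h
  have c2 : fl1 r (v ω) = fl1 r (v ω') := congrArg (fun q => q.2.1) h
  have c3 : fl 0 (shv r (v ω) (l ω).2) = fl 0 (shv r (v ω') (l ω').2) := congrArg (fun q => q.2.2.1) h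
  have c4 : fl a (shv r (v ω) (pos (l ω) (qa a (t ω)))) = fl a (shv r (v ω') (pos (l ω') (qa a (t ω')))) :=
    congrArg (fun q => q.2.2.2) h
  have d1 : fl1 (a + w) (t ω) = fl1 (a + w) (t ω') := congrArg Prod.fst h'
  have d2 : fl1 (r + ρ) (v ω) = fl1 (r + ρ) (v ω') := congrArg (fun q => q.2.1) h'
  have d3 : fl 0 (shv (r + ρ) (v ω) (l ω).2) = fl 0 (shv (r + ρ) (v ω') (l ω').2) :=
    congrArg (fun q => q.2.2.1) h'
  have d4 : fl (a + w) (shv (r + ρ) (v ω) (pos (l ω) (qa (a + w) (t ω)))) =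
      fl (a + w) (shv (r + ρ) (v ω') (pos (l ω') (qa (a + w) (t ω')))) :=
    congrArg (fun q => q.2.2.2) h'
  have e1 : fl1 w (Int.fract ((2 : ℝ) ^ a * t ω)) = fl1 w (Int.fract ((2 : ℝ) ^ a * t ω')) := by
    rw [a1, b1, c1] at d1
    linarith
  have e2 : fl1 ρ (Int.fract ((2 : ℝ) ^ r * v ω)) = fl1 ρ (Int.fract ((2 : ℝ) ^ r * v ω')) := by
    rw [a2, b2, c2] at d2
    linarith
  refine Prod.ext e1 (Prod.ext e2 (Prod.ext ?_ ?_))
  · show fl 0 (shv ρ (Int.fract ((2 : ℝ) ^ r * v ω)) (st1 a r (l ω) (t ω) (v ω)).2) =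
      fl 0 (shv ρ (Int.fract ((2 : ℝ) ^ r * v ω')) (st1 a r (l ω') (t ω') (v ω')).2)
    funext j
    have := congrFun d3 j
    rw [a3, b3, e2, c3] at this
    linarith
  · show fl w (shv ρ (Int.fract ((2 : ℝ) ^ r * v ω))
        (pos (st1 a r (l ω) (t ω) (v ω)) (qa w (Int.fract ((2 : ℝ) ^ a * t ω))))) =
      fl w (shv ρ (Int.fract ((2 : ℝ) ^ r * v ω'))
        (pos (st1 a r (l ω') (t ω') (v ω')) (qa w (Int.fract ((2 : ℝ) ^ a * t ω')))))
    funext j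
    have := congrFun d4 j
    rw [a4, b4, e1, e2, c3, c4] at this
    linarith

end family

end Vale.Agent.P127.U.Pf
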