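import Vale.Agent.P127.U.Lam.PathH
import Vale.Agent.P127.U.Lam.IncDefs
import Vale.Agent.P127.U.Lam.Swap

/-!
# P127 / U / Lam : the end value of the functional of the path (helper23)

* `cel_iff` : the cells of `IncDefs` (= `Mic.box`) and of `PathA` are the same up to reshaping
* `fin_EF`, `fin_EFH` : the trivial label (the cell itself) is a competitor, no error term
* `valE_le_EF`, `valE_le_EFH`, `valE_le_EFH_C` : in terms of `Inc.valE`
-/

set_option autoImplicit false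

namespace Vale.Agent.P127.U.Pf

open Filter Topology Vale.Agent.P127 Vale.Agent.P127.Stk Vale.Agent.P127.U.Apx Sys

/-- reshaping of the cells -/
def reC (c : ℤ × ℤ × (Fin 2 → ℤ) × (Fin 2 → ℤ)) : ℤ × ℤ × ℤ × ℤ × ℤ × ℤ :=
  (c.1, c.2.1, c.2.2.1 0, c.2.2.1 1, c.2.2.2 0, c.2.2.2 1)

theorem reC_inj {c c' : ℤ × ℤ × (Fin 2 → ℤ) × (Fin 2 → ℤ)} (h : reC c = reC c') : c = c' := by
  unfold reC at h
  simp only [Prod.mk.injEq] at h
  obtain ⟨h1, h2, h3, h4, h5, h6⟩ := h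
  refine Prod.ext h1 (Prod.ext h2 (Prod.ext ?_ ?_))
  · funext i
    fin_cases i
    · exact h3
    · exact h4
  · funext i
    fin_cases i
    · exact h5
    · exact h6

theorem cel_eq {Ω : Type} (l : Ω → Ln) (t v : Ω → ℝ) (s q : ℕ) (ω : Ω) :
    Inc.cel l t v s q ω = reC (cell s q l t v ω) := by
  unfold reC
  refine Prod.ext rfl (Prod.ext rfl (Prod.ext ?_ (Prod.ext ?_ (Prod.ext ?_ ?_))))
  · rfl
  · show ⌊(2:ℝ) ^ q * ((l ω).2 1 - qa q (v ω) * (l ω).2 0)⌋ =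
      ⌊(2:ℝ) ^ 0 * (2 ^ q * ((l ω).2 1 - qa q (v ω) * (l ω).2 0))⌋
    rw [pow_zero, one_mul]
  · rfl
  · show ⌊(2:ℝ) ^ (s + q) * ((l ω).1 1 + qa s (t ω) * (l ω).2 1 -
        qa q (v ω) * ((l ω).1 0 + qa s (t ω) * (l ω).2 0))⌋ =
      ⌊(2:ℝ) ^ s * (2 ^ q * ((l ω).1 1 + qa s (t ω) * (l ω).2 1 -
        qa q (v ω) * ((l ω).1 0 + qa s (t ω) * (l ω).2 0)))⌋
    rw [pow_add, mul_assoc]

/-- **same cells** -/
theorem cel_iff {Ω : Type} {l : Ω → Ln} {t v : Ω → ℝ} {s q : ℕ} {ω ω' : Ω} :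
    Inc.cel l t v s q ω = Inc.cel l t v s q ω' ↔ cell s q l t v ω = cell s q l t v ω' := by
  rw [cel_eq, cel_eq]
  exact ⟨reC_inj, fun h => by rw [h]⟩

/-- the state is a function of the cell -/
theorem st_of_cell {Ω : Type} {l : Ω → Ln} {t v : Ω → ℝ} {a r : ℕ} {ω ω' : Ω}
    (h : cell a r l t v ω = cell a r l t v ω') : Inc.st t v a r ω = Inc.st t v a r ω' :=
  Prod.ext (congrArg (fun q => q.1) h) (congrArg (fun q => q.2.1) h)

section finite

variable {Ω : Type} [Fintype Ω] {γ : Type*} (P : Law Ω)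

/-- the trivial box -/
noncomputable def bx0 (l : Ω → Ln) : Bx Ω := ⟨l, fun _ => 0, fun _ => 0, fun _ => 0⟩

theorem qa_zero : qa 0 (0:ℝ) = 0 := by
  unfold qa fl1
  simp

omit [Fintype Ω] in
/-- the label of the trivial box around a line with coordinates in `[0, 1)` -/
theorem bx0_lab (a r : ℕ) (l : Ω → Ln) (t v : Ω → ℝ) (ω : Ω) :
    (bx0 (lnS a r l t v)).lab ω = (0, 0, 0, (0, 0), (0, 0)) := by
  have hf : ∀ x : ℝ, ⌊(2:ℝ) ^ 0 * (Real.cos (qa (0 - 0) 0) * Int.fract x + Real.sin (qa (0 - 0) 0) * 0)⌋ = 0 := by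
    intro x
    rw [Nat.sub_self, qa_zero, Real.cos_zero, Real.sin_zero]
    rw [Int.floor_eq_zero_iff]
    constructor
    · have := Int.fract_nonneg x
      linarith
    · have := Int.fract_lt_one x
      linarith
  have h0 : ∀ w : Fin 2 → ℝ, (∀ i, 0 ≤ w i ∧ w i < 1) → fkj 0 0 (co (qa (0 - 0) 0) w) = (0, 0) := by
    intro w hw
    unfold fkj co fl1
    rw [Nat.sub_self, qa_zero, Real.cos_zero, Real.sin_zero]
    refine Prod.ext ?_ ?_
    · show ⌊(2:ℝ) ^ 0 * (1 * w 0 + 0 * w 1)⌋ = 0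
      rw [Int.floor_eq_zero_iff]
      constructor
      · have := (hw 0).1
        linarith
      · have := (hw 0).2
        linarith
    · show ⌊(2:ℝ) ^ 0 * (-0 * w 0 + 1 * w 1)⌋ = 0
      rw [Int.floor_eq_zero_iff]
      constructor
      · have := (hw 1).1
        linarith
      · have := (hw 1).2
        linarith
  unfold Bx.lab U.lab
  refine Prod.ext rfl (Prod.ext rfl (Prod.ext ?_ (Prod.ext ?_ ?_)))
  · show fl1 (0 - 0) (0:ℝ) = 0
    unfold fl1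
    simp
  · exact h0 _ fun i => ⟨Int.fract_nonneg _, Int.fract_lt_one _⟩
  · exact h0 _ fun i => ⟨Int.fract_nonneg _, Int.fract_lt_one _⟩

/-- value of the trivial box -/
theorem excFl_ge_bx0 {lam : ℝ} (hlam : 0 ≤ lam ∧ lam ≤ 1) (m a r : ℕ) (l : Ω → Ln) (t v : Ω → ℝ)
    {δ : Type*} (Z : Ω → δ) :
    Stk.hc P (tbx m (lnS a r l t v)).lab Z - Real.log 2 * (2 * (m : ℝ)) ≤
      excFl lam P (tbx m (lnS a r l t v)) Z := by
  have hs : ∀ ω, 0 < P.w ω → Sub 1 (tbx m (lnS a r l t v)) (bx0 (lnS a r l t v)) ω := by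
    intro ω _
    refine ⟨rfl, by show |(0:ℝ)| ≤ 4; norm_num, le_rfl, Nat.zero_le _, Nat.zero_le _, ?_⟩
    show |Real.sin (0 - 0)| * (1 / 2 : ℝ) ^ m ≤ 1 * (1 / 2 : ℝ) ^ 0
    rw [sub_self, Real.sin_zero, abs_zero, zero_mul]
    norm_num
  have k1 : exVl lam P (tbx m (lnS a r l t v)) (bx0 (lnS a r l t v)) Z ≤
      excFl lam P (tbx m (lnS a r l t v)) Z := le_csSup (Lam.exSet_bddAbove hlam P _ Z) (Lam.mem_exSet hs)
  have k2 : Stk.hc P (tbx m (lnS a r l t v)).lab Z ≤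
      Stk.hc P (tbx m (lnS a r l t v)).lab (fun ω => ((bx0 (lnS a r l t v)).lab ω, Z ω)) :=
    Stk.hc_mono_right P _ fun ω ω' _ _ e => by
      refine Prod.ext ?_ e
      show (bx0 (lnS a r l t v)).lab ω = (bx0 (lnS a r l t v)).lab ω'
      rw [bx0_lab, bx0_lab]
  have k3 : (P.ex fun ω => (tbx m (lnS a r l t v)).szl lam ω - (bx0 (lnS a r l t v)).szl lam ω) =
      2 * (m : ℝ) := by
    have e : (fun ω => (tbx m (lnS a r l t v)).szl lam ω - (bx0 (lnS a r l t v)).szl lam ω) =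
        fun _ => 2 * (m : ℝ) := by
      funext ω
      show ((1 + lam) * (m : ℝ) + (1 - lam) * (m : ℝ)) -
        ((1 + lam) * ((0 : ℕ) : ℝ) + (1 - lam) * ((0 : ℕ) : ℝ)) = _
      push_cast
      ring
    rw [e, P.ex_const]
  unfold exVl at k1
  rw [k3] at k1
  linarith

/-- **the end value** : the cell itself as a label -/
theorem fin_EF {lam : ℝ} (hlam : 0 ≤ lam ∧ lam ≤ 1) {n h q : ℕ} (hn : h + q ≤ n) (l : Ω → Ln)
    (t v : Ω → ℝ) (C : Ω → γ) :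
    Stk.hc P (fun ω => tb n (l ω)) (fun ω => (cell h q l t v ω, C ω)) -
        (2 * ((n : ℝ) - h) - (1 - lam) * q) * Real.log 2 ≤ EF P lam n h q l t v C := by
  have k1 := excFl_ge_bx0 P hlam (n - h - q) h q l t v (fun ω => (cell h q l t v ω, C ω))
  have k4 := hc_via P (fun ω => tb n (l ω)) (tbx (n - h - q) (lnS h q l t v)).lab
    (fun ω => (cell h q l t v ω, C ω))
  have k5 : Stk.hc P (fun ω => tb n (l ω)) (fun ω => ((tbx (n - h - q) (lnS h q l t v)).lab ω,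
      (cell h q l t v ω, C ω))) = RF P n h q l t v C :=
    Swp.hc_iff P (fun _ _ _ _ => Iff.rfl) fun ω ω' _ _ => by
      simp only [Prod.mk.injEq]
      rw [LocT.tbx_lab]
  have k6 : ((n - h - q : ℕ) : ℝ) = (n : ℝ) - h - q := by
    rw [Nat.cast_sub (by omega), Nat.cast_sub (by omega)]
  rw [k5] at k4
  rw [k6] at k1
  unfold EF
  have e : (2 * ((n : ℝ) - h) - (1 - lam) * q) * Real.log 2 =
      Real.log 2 * (2 * ((n : ℝ) - h - q)) + (1 + lam) * q * Real.log 2 := by ring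
  rw [e]
  linarith

theorem fin_EFH {lam Λ : ℝ} (hlam : 0 ≤ lam ∧ lam ≤ 1) (hΛ : 0 ≤ Λ) {n h q : ℕ} (hn : h + q ≤ n)
    (l : Ω → Ln) (t v : Ω → ℝ) (C : Ω → γ) :
    Stk.hc P (fun ω => tb n (l ω)) (fun ω => (cell h q l t v ω, C ω)) -
        (2 * ((n : ℝ) - h) - (1 - lam) * q) * Real.log 2 ≤ EFH P lam Λ n h q l t v C :=
  (fin_EF P hlam hn l t v C).trans (EF_le_EFH P hlam hΛ n h q l t v C)

/-- in terms of `Inc.valE` -/
theorem valE_eq (lam : ℝ) (l : Ω → Ln) (t v : Ω → ℝ) (n h q : ℕ) :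
    Inc.valE lam P l t v n h q =
      Stk.hc P (fun ω => tb n (l ω)) (fun ω => (cell h q l t v ω, ())) -
        (2 * ((n : ℝ) - h) - (1 - lam) * q) * Real.log 2 := by
  unfold Inc.valE
  congr 1
  exact Swp.hc_iff P (fun _ _ _ _ => Iff.rfl) fun ω ω' _ _ => by
    rw [cel_iff]
    simp only [Prod.mk.injEq, and_true]

theorem valE_le_EF {lam : ℝ} (hlam : 0 ≤ lam ∧ lam ≤ 1) {n h q : ℕ} (hn : h + q ≤ n)
    (l : Ω → Ln) (t v : Ω → ℝ) : Inc.valE lam P l t v n h q ≤ EF P lam n h q l t v (fun _ => ()) := by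
  rw [valE_eq]
  exact fin_EF P hlam hn l t v (fun _ => ())

theorem valE_le_EFH {lam Λ : ℝ} (hlam : 0 ≤ lam ∧ lam ≤ 1) (hΛ : 0 ≤ Λ) {n h q : ℕ} (hn : h + q ≤ n)
    (l : Ω → Ln) (t v : Ω → ℝ) :
    Inc.valE lam P l t v n h q ≤ EFH P lam Λ n h q l t v (fun _ => ()) := by
  rw [valE_eq]
  exact fin_EFH P hlam hΛ hn l t v (fun _ => ())

end finite

end Vale.Agent.P127.U.Pf
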