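import Vale.Agent.P127.U.Lam.FinDefs

/-!
# P127 / U / Lam : the path functional `E_i` (helper824), definitions

Finite laws.  `l` line, `t` time, `v` slope of the slab (`|v| ≤ 1`), `n` precision of the lines.
At the step `(a, r)` the slab `S` has the level `a` (time cell `t_a`), the slope `v_r` and the
thickness `2^-(a+r)`.

* `lp a r l t v` : the line in the coordinates of the slab (position at the time `t_a`).
* `cp a r l t v` : the cell of the line: `t_a`, `v_r` and the integer parts.
* `valP lam P a r n l t v C A` : direct value of the box `A` around `lp`: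
  `H(l | A, cell, C) - (2 (n - a) - (1 - lam) r - szl A) log 2`.
* `EF lam P a r n l t v C` : the path functional, the supremum of the values over soft boxes.
-/

set_option autoImplicit false

namespace Vale.Agent.P127.U.PF

open Filter Topology Vale.Agent.P127 Vale.Agent.P127.Stk

variable {Ω : Type} {γ : Type*}

/-- second component of a vector in the frame of the slope `u` -/
def sh (u : ℝ) (x : Fin 2 → ℝ) : ℝ := x 1 - u * x 0

/-- position at the rounded time `t_a` -/
noncomputable def pp (a : ℕ) (l : Ω → Ln) (t : Ω → ℝ) (ω : Ω) : Fin 2 → ℝ := pos (l ω) (qa a (t ω))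

/-- the line in the coordinates of the slab of level `a` and slope `v_r` -/
noncomputable def lp (a r : ℕ) (l : Ω → Ln) (t v : Ω → ℝ) : Ω → Ln := fun ω =>
  (![Int.fract ((2 : ℝ) ^ a * pp a l t ω 0),
      Int.fract ((2 : ℝ) ^ (a + r) * sh (qa r (v ω)) (pp a l t ω))],
   ![(l ω).2 0, Int.fract ((2 : ℝ) ^ r * sh (qa r (v ω)) (l ω).2)])

/-- the cell of the slab of level `a` and slope `v_r` -/
noncomputable def cp (a r : ℕ) (l : Ω → Ln) (t v : Ω → ℝ) : Ω → (ℤ × ℤ) × ℤ × ℤ × ℤ := fun ω =>
  ((fl1 a (t ω), fl1 r (v ω)), fl1 a (pp a l t ω 0), fl1 (a + r) (sh (qa r (v ω)) (pp a l t ω)),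
    fl1 r (sh (qa r (v ω)) (l ω).2))

variable [Fintype Ω]

/-- direct value of the box `A` around the line `lp a r l t v` -/
noncomputable def valP (lam : ℝ) (P : Law Ω) (a r n : ℕ) (l : Ω → Ln) (t v : Ω → ℝ) (C : Ω → γ)
    (A : Bx Ω) : ℝ :=
  Stk.hc P (fun ω => tb n (l ω)) (fun ω => (A.lab ω, cp a r l t v ω, C ω)) -
    Real.log 2 * P.ex fun ω => 2 * ((n : ℝ) - a) - (1 - lam) * r - A.szl lam ω

/-- the path functional -/
noncomputable def EF (lam : ℝ) (P : Law Ω) (a r n : ℕ) (l : Ω → Ln) (t v : Ω → ℝ) (C : Ω → γ) : ℝ :=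
  excFl lam P (tbx (n - a - r) (lp a r l t v)) (fun ω => (cp a r l t v ω, C ω)) +
    Stk.hc P (fun ω => tb n (l ω))
      (fun ω => (tb (n - a - r) (lp a r l t v ω), cp a r l t v ω, C ω)) -
    (1 + lam) * r * Real.log 2

end Vale.Agent.P127.U.PF
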