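import Vale.Agent.P127.U.Lam.PathW

/-!
# P127 / U / Lam : complements on the states of a path (helper465)

* `state_of` : tube and cell of the state are known from the line and `(t_a, v_r)` up to few values;
* `EFH_win` : window inequality in terms of `(t_a, v_r)`;
* `le_EFH` : every label of the state gives a lower bound for `EFH` (direct value).
-/

set_option autoImplicit false

namespace Vale.Agent.P127.U.Pf

open Filter Topology Vale.Agent.P127 Vale.Agent.P127.Stk Vale.Agent.P127.U Vale.Agent.P127.U.Apx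
  Sys ExcB HX

variable {Ω : Type} [Fintype Ω] {γ : Type}

/-- **the tube and the cell of the state from the line and `(t_a, v_r)`** -/
theorem state_of {T : Type*} (P : Law Ω) {n a r : ℕ} (h : a + r ≤ n) {l : Ω → Ln} {t v : Ω → ℝ}
    (hg : GoodF P l t) (hv : ∀ ω, 0 < P.w ω → |v ω| ≤ 1) (C : Ω → T) :
    Stk.hc P (fun ω => (tb (n - a - r) (lnS a r l t v ω), (cell a r l t v ω, C ω)))
      (fun ω => (tb n (l ω), ((fl1 a (t ω), fl1 r (v ω)), C ω))) ≤ 4 * Real.log 13 := by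
  set Z := fun ω => (tb n (l ω), ((fl1 a (t ω), fl1 r (v ω)), C ω)) with hZ
  have e2 : ∀ k : ℕ, (1 / 2 : ℝ) ^ k * 2 ^ k = 1 := fun k => by rw [← mul_pow]; norm_num
  have key : ∀ x : Ω → Fin 2 → ℝ, (∀ ω ω', 0 < P.w ω → 0 < P.w ω' → Z ω = Z ω' →
      ∀ i, |x ω i - x ω' i| ≤ 2 * (1 / 2 : ℝ) ^ n) → ∀ b : ℕ, b ≤ a →
      Stk.hc P (fun ω => fl (b + (n - a - r)) (shv r (v ω) (x ω))) Z ≤ 2 * Real.log 13 := by
    intro x hx b hb
    have h1 := hc_fl_apx P (ι := Fin 2) (b + (n - a - r)) 4 (fun ω => shv r (v ω) (x ω)) Z (by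
      intro ω ω' p p' e
      have d0 := hx ω ω' p p' e 0
      have d1 := hx ω ω' p p' e 1
      have e3 : fl1 r (v ω) = fl1 r (v ω') := congrArg (fun q => q.2.1.2) e
      have q1 := qa_congr e3
      have hq := abs_qa_le1 (hv ω' p') r
      have hk : (1 / 2 : ℝ) ^ n ≤ (1 / 2) ^ (r + (b + (n - a - r))) :=
        pow_le_pow_of_le_one (by norm_num) (by norm_num) (by omega)
      have hr0 : (0 : ℝ) < (1 / 2) ^ (b + (n - a - r)) := by positivity
      have hr1 : (1 : ℝ) ≤ 2 ^ r := one_le_pow₀ (by norm_num)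
      rw [pow_add] at hk
      rw [Fin.forall_fin_two]
      push_cast
      constructor
      · rw [shv0, shv0]
        have : (1 / 2 : ℝ) ^ r ≤ 1 := pow_le_one₀ (by norm_num) (by norm_num)
        nlinarith
      · rw [shv1, shv1, q1]
        have e4 : (2 : ℝ) ^ r * (x ω 1 - qa r (v ω') * x ω 0) - 2 ^ r * (x ω' 1 - qa r (v ω') * x ω' 0) =
            2 ^ r * ((x ω 1 - x ω' 1) - qa r (v ω') * (x ω 0 - x ω' 0)) := by ring
        rw [e4, abs_mul, abs_of_pos (by positivity : (0:ℝ) < 2 ^ r)]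
        have k1 : |(x ω 1 - x ω' 1) - qa r (v ω') * (x ω 0 - x ω' 0)| ≤ 4 * (1 / 2 : ℝ) ^ n := by
          refine (abs_sub _ _).trans ?_
          rw [abs_mul]
          have : |qa r (v ω')| * |x ω 0 - x ω' 0| ≤ 1 * (2 * (1 / 2 : ℝ) ^ n) :=
            mul_le_mul hq d0 (abs_nonneg _) zero_le_one
          linarith
        calc 2 ^ r * |(x ω 1 - x ω' 1) - qa r (v ω') * (x ω 0 - x ω' 0)|
            ≤ 2 ^ r * (4 * ((1 / 2 : ℝ) ^ r * (1 / 2) ^ (b + (n - a - r)))) := by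
              gcongr
              exact k1.trans (by gcongr)
          _ = 4 * (1 / 2 : ℝ) ^ (b + (n - a - r)) * ((1 / 2 : ℝ) ^ r * 2 ^ r) := by ring
          _ = _ := by rw [e2, mul_one])
    refine h1.trans (le_of_eq_of_le (by rw [Fintype.card_fin]) ?_)
    have := log_le13 (x := 2 * ((4 : ℕ) : ℝ) + 3) (by norm_num) (by norm_num)
    push_cast at this ⊢
    linarith
  have k1 := key (fun ω => pos (l ω) (qa a (t ω))) (by
    intro ω ω' p p' e j
    have e1 : tb n (l ω) = tb n (l ω') := congrArg Prod.fst e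
    have e3 : fl1 a (t ω) = fl1 a (t ω') := congrArg (fun q => q.2.1.1) e
    have a1 := fl_close (congrArg Prod.fst e1) j
    have a2 := fl_close (congrArg Prod.snd e1) j
    rw [qa_congr e3]
    have q0 : 0 ≤ qa a (t ω') := by
      unfold qa fl1
      have : (0:ℤ) ≤ ⌊(2:ℝ) ^ a * t ω'⌋ :=
        Int.floor_nonneg.2 (mul_nonneg (by positivity) (hg ω' p').2.1)
      have h2 : (0:ℝ) ≤ (⌊(2:ℝ) ^ a * t ω'⌋ : ℝ) := by exact_mod_cast this
      positivity
    have q1 : qa a (t ω') ≤ 1 := (qa_le a (t ω')).trans (hg ω' p').2.2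
    have e3 : pos (l ω) (qa a (t ω')) j - pos (l ω') (qa a (t ω')) j =
        ((l ω).1 j - (l ω').1 j) + qa a (t ω') * ((l ω).2 j - (l ω').2 j) := by
      unfold pos; ring
    rw [e3]
    calc |((l ω).1 j - (l ω').1 j) + qa a (t ω') * ((l ω).2 j - (l ω').2 j)|
        ≤ |(l ω).1 j - (l ω').1 j| + |qa a (t ω') * ((l ω).2 j - (l ω').2 j)| := abs_add_le _ _
      _ ≤ (1 / 2) ^ n + 1 * (1 / 2) ^ n := by
          rw [abs_mul, abs_of_nonneg q0]
          gcongr
      _ = _ := by ring) a le_rfl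
  have k2 := key (fun ω => (l ω).2) (by
    intro ω ω' p p' e j
    have e1 : tb n (l ω) = tb n (l ω') := congrArg Prod.fst e
    have a2 := fl_close (congrArg Prod.snd e1) j
    have : (0:ℝ) < (1 / 2) ^ n := by positivity
    linarith) 0 (Nat.zero_le _)
  have k3 := hc_via P (fun ω => (tb (n - a - r) (lnS a r l t v ω), (cell a r l t v ω, C ω)))
    (fun ω => (fl (a + (n - a - r)) (shv r (v ω) (pos (l ω) (qa a (t ω)))),
      fl (0 + (n - a - r)) (shv r (v ω) (l ω).2))) Z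
  have k4 := hc_pair_le P (fun ω => fl (a + (n - a - r)) (shv r (v ω) (pos (l ω) (qa a (t ω)))))
    (fun ω => fl (0 + (n - a - r)) (shv r (v ω) (l ω).2)) Z
  have k5 : Stk.hc P (fun ω => (tb (n - a - r) (lnS a r l t v ω), (cell a r l t v ω, C ω)))
      (fun ω => ((fl (a + (n - a - r)) (shv r (v ω) (pos (l ω) (qa a (t ω)))),
        fl (0 + (n - a - r)) (shv r (v ω) (l ω).2)), Z ω)) = 0 := by
    apply Stk.hc_zero
    intro ω ω' _ _ e
    have e1 : fl (a + (n - a - r)) (shv r (v ω) (pos (l ω) (qa a (t ω)))) =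
        fl (a + (n - a - r)) (shv r (v ω') (pos (l ω') (qa a (t ω')))) :=
      congrArg (fun q => q.1.1) e
    have e3 : fl (0 + (n - a - r)) (shv r (v ω) (l ω).2) =
        fl (0 + (n - a - r)) (shv r (v ω') (l ω').2) := congrArg (fun q => q.1.2) e
    have e4 : fl1 a (t ω) = fl1 a (t ω') := congrArg (fun q => q.2.2.1.1) e
    have e4' : fl1 r (v ω) = fl1 r (v ω') := congrArg (fun q => q.2.2.1.2) e
    have e7 : C ω = C ω' := congrArg (fun q => q.2.2.2) e
    have e5 : fl 0 (shv r (v ω) (l ω).2) = fl 0 (shv r (v ω') (l ω').2) :=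
      fl_of_fl (Nat.le_add_right _ _) _ _ e3
    have e6 : fl a (shv r (v ω) (pos (l ω) (qa a (t ω)))) =
        fl a (shv r (v ω') (pos (l ω') (qa a (t ω')))) := fl_of_fl (Nat.le_add_right _ _) _ _ e1
    refine Prod.ext (Prod.ext ?_ ?_) (Prod.ext (Prod.ext e4 (Prod.ext e4' (Prod.ext e5 e6))) e7)
    · show fl (n - a - r) (fun i => Int.fract (2 ^ a * shv r (v ω) (pos (l ω) (qa a (t ω))) i)) =
        fl (n - a - r) (fun i => Int.fract (2 ^ a * shv r (v ω') (pos (l ω') (qa a (t ω'))) i))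
      funext j
      rw [fl_fr, fl_fr, e1, e6]
    · show fl (n - a - r) (fun i => Int.fract (shv r (v ω) (l ω).2 i)) =
        fl (n - a - r) (fun i => Int.fract (shv r (v ω') (l ω').2 i))
      funext j
      have f1 := fl_fr 0 (n - a - r) (shv r (v ω) (l ω).2) j
      have f2 := fl_fr 0 (n - a - r) (shv r (v ω') (l ω').2) j
      simp only [pow_zero, one_mul] at f1 f2
      rw [f1, f2, e3, e5]
  linarith

/-- the deficit in terms of `(t_a, v_r)` -/
theorem DF_state' (P : Law Ω) {n a r w : ℕ} (h : a + r ≤ n) {l : Ω → Ln} {t v : Ω → ℝ}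
    (hg : GoodF P l t) (hv : ∀ ω, 0 < P.w ω → |v ω| ≤ 1) (C : Ω → γ) :
    DF P w (n - a - r) (lnS a r l t v) (tfF a t) (fun ω => (cell a r l t v ω, C ω)) ≤
      w * Real.log 2 - Stk.hc P (fun ω => fl1 (a + w) (t ω))
        (fun ω => (tb n (l ω), ((fl1 a (t ω), fl1 r (v ω)), C ω))) + 8 * Real.log 13 := by
  have k1 := DF_state P (w := w) h hg hv C
  have k2 := state_of P h hg hv C
  have k3 := hc_cmp P (fun ω => fl1 (a + w) (t ω)) (fun ω => fl1 (a + w) (t ω))
    (fun ω => (tb n (l ω), ((fl1 a (t ω), fl1 r (v ω)), C ω)))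
    (fun ω => (tb n (l ω), (cell a r l t v ω, C ω)))
  have k4 : Stk.hc P (fun ω => fl1 (a + w) (t ω)) (fun ω => (fl1 (a + w) (t ω),
      (tb n (l ω), ((fl1 a (t ω), fl1 r (v ω)), C ω)))) = 0 :=
    Stk.hc_zero P fun _ _ _ _ e => congrArg Prod.fst e
  have k5 : Stk.hc P (fun ω => (tb n (l ω), (cell a r l t v ω, C ω)))
      (fun ω => (tb n (l ω), ((fl1 a (t ω), fl1 r (v ω)), C ω))) ≤ 4 * Real.log 13 := by
    have m1 := hc_pair_le P (fun ω => tb n (l ω)) (fun ω => (cell a r l t v ω, C ω))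
      (fun ω => (tb n (l ω), ((fl1 a (t ω), fl1 r (v ω)), C ω)))
    have m2 : Stk.hc P (fun ω => tb n (l ω))
        (fun ω => (tb n (l ω), ((fl1 a (t ω), fl1 r (v ω)), C ω))) = 0 :=
      Stk.hc_zero P fun _ _ _ _ e => congrArg Prod.fst e
    have m3 : Stk.hc P (fun ω => (cell a r l t v ω, C ω))
        (fun ω => (tb n (l ω), ((fl1 a (t ω), fl1 r (v ω)), C ω))) ≤
        Stk.hc P (fun ω => (tb (n - a - r) (lnS a r l t v ω), (cell a r l t v ω, C ω)))
          (fun ω => (tb n (l ω), ((fl1 a (t ω), fl1 r (v ω)), C ω))) :=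
      Stk.hc_mono_left P fun ω ω' _ _ e => congrArg (fun q => q.1.2) e
    linarith
  linarith

/-- **the window inequality along the path** from the window inequality at the origin -/
theorem EFH_win {lam Λ N B0 c : ℝ} (hl : 0 ≤ lam ∧ lam ≤ 1) (hΛ : 0 ≤ Λ) (hN : 0 ≤ N)
    (hW : ∀ (δ : Type) (l' : Ω → Ln) (t' : Ω → ℝ) (s n' : ℕ) (Q : Law Ω) (C' : Ω → δ),
      GoodF Q l' t' → s ≤ n' →
      XFH lam Λ Q s n' l' t' C' ≤ excH lam Λ Q n' l' C' + B0 * s * Real.log 2 +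
        N * DF Q s n' l' t' C' + c)
    (P : Law Ω) {n a w r ρ : ℕ} (h : a + w + (r + ρ) ≤ n) {l : Ω → Ln} {t v : Ω → ℝ}
    (hg : GoodF P l t) (hv : ∀ ω, 0 < P.w ω → |v ω| ≤ 1) (C : Ω → γ) :
    EFH P lam Λ n (a + w) (r + ρ) l t v C ≤ EFH P lam Λ n a r l t v C + B0 * w * Real.log 2 +
      N * (w * Real.log 2 - Stk.hc P (fun ω => fl1 (a + w) (t ω))
        (fun ω => (tb n (l ω), ((fl1 a (t ω), fl1 r (v ω)), C ω)))) +
      Λ * Real.log (ρ + 5) + (cW Λ + c + N * (8 * Real.log 13)) := by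
  have k1 := EFH_win_of hl hΛ P h l t v C
  have k2 := hW _ (lnS a r l t v) (tfF a t) w (n - a - r) P (fun ω => (cell a r l t v ω, C ω))
    (goodF_state P a r l t v) (by omega)
  have k3 := mul_le_mul_of_nonneg_left (DF_state' P (w := w) (show a + r ≤ n by omega) hg hv C) hN
  rw [mul_add] at k3
  linarith

/-- **direct lower bound for the functional of the state** -/
theorem le_EFH {lam Λ : ℝ} (hl : 0 ≤ lam ∧ lam ≤ 1) (hΛ : 0 ≤ Λ) {P : Law Ω} {n a r : ℕ}
    (h : a + r ≤ n) {l : Ω → Ln} {t v : Ω → ℝ} (hg : GoodF P l t)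
    (hv : ∀ ω, 0 < P.w ω → |v ω| ≤ 1) (C : Ω → γ) {Ω' : Type} [Fintype Ω'] {P' : Law Ω'}
    {π : Ω' → Ω} (h1 : ∀ ω, P'.pr π ω = P.w ω) {A : Bx Ω'} (m : ℕ)
    (hA : ∀ ω, 0 < P'.w ω → A.l ω = lnS a r l t v (π ω) ∧ |A.θ ω| ≤ 4 ∧ A.k ω ≤ A.j ω ∧
      A.j ω ≤ n - a - r + m) :
    Stk.hc P' (fun ω => tb n (l (π ω))) (fun ω => (A.lab ω, (cell a r l t v (π ω), C (π ω)))) -
        Real.log 2 * P'.ex (fun ω => 2 * ((n : ℝ) - a) - (1 - lam) * r - A.szl lam ω) +
      Λ * Stk.hc P' (fun ω => (A.k ω, A.j ω))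
          (fun ω => (tb n (l (π ω)), (cell a r l t v (π ω), C (π ω)))) ≤
      EFH P lam Λ n a r l t v C + cG Λ m := by
  have hp : ∀ ω, 0 < P'.w ω → 0 < P.w (π ω) := fun ω hω => by
    rw [← h1]
    exact P'.pr_pos π hω
  have hg' : GoodF P' (fun ω => l (π ω)) (fun ω => t (π ω)) := fun ω hω => hg (π ω) (hp ω hω)
  have hv' : ∀ ω, 0 < P'.w ω → |v (π ω)| ≤ 1 := fun ω hω => hv (π ω) (hp ω hω)
  set X : Ω' → _ := fun ω => tb n (l (π ω)) with hX
  set B : Ω' → _ := fun ω => tb (n - a - r) (lnS a r l t v (π ω)) with hB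
  set D : Ω' → _ := fun ω => (cell a r l t v (π ω), C (π ω)) with hD
  have s1 : ∀ ω, 0 < P'.w ω → Sub 1 ((tbx (n - a - r) (lnS a r l t v)).comp π) (crs m A) ω := by
    intro ω hω
    obtain ⟨b1, b2, b3, b4⟩ := hA ω hω
    have b5 : A.j ω - m ≤ n - a - r := by omega
    refine ⟨b1, b2, min_le_right _ _, (min_le_right _ _).trans b5, b5, ?_⟩
    show |Real.sin ((0 : ℝ) - A.θ ω)| * (1 / 2 : ℝ) ^ (n - a - r) ≤ 1 * (1 / 2 : ℝ) ^ (A.j ω - m)
    have c1 := Real.abs_sin_le_one ((0 : ℝ) - A.θ ω)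
    have c2 : (1 / 2 : ℝ) ^ (n - a - r) ≤ (1 / 2 : ℝ) ^ (A.j ω - m) :=
      pow_le_pow_of_le_one (by norm_num) (by norm_num) b5
    have c3 : (0 : ℝ) < (1 / 2 : ℝ) ^ (n - a - r) := by positivity
    calc _ ≤ 1 * (1 / 2 : ℝ) ^ (n - a - r) := mul_le_mul_of_nonneg_right c1 c3.le
      _ ≤ _ := mul_le_mul_of_nonneg_left c2 zero_le_one
  have k1 := le_excH hl hΛ (P := P) (n := n - a - r) (l := lnS a r l t v)
    (C := fun ω => (cell a r l t v ω, C ω)) h1 s1
  have k2 := Lam.exV_crs hl P' ((tbx (n - a - r) (lnS a r l t v)).comp π) A D m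
    fun ω hω => (hA ω hω).2.2.1
  have k3 : exVl lam P' ((tbx (n - a - r) (lnS a r l t v)).comp π) A D =
      Stk.hc P' B (fun ω => (A.lab ω, D ω)) -
        Real.log 2 * P'.ex (fun ω => 2 * ((n : ℝ) - a - r) - A.szl lam ω) := by
    have b1 : Stk.hc P' ((tbx (n - a - r) (lnS a r l t v)).comp π).lab (fun ω => (A.lab ω, D ω)) =
        Stk.hc P' B (fun ω => (A.lab ω, D ω)) :=
      hc_tbx P' (n - a - r) (fun ω => lnS a r l t v (π ω)) _
    have b2 : (P'.ex fun ω => ((tbx (n - a - r) (lnS a r l t v)).comp π).szl lam ω - A.szl lam ω) =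
        P'.ex fun ω => 2 * ((n : ℝ) - a - r) - A.szl lam ω := by
      refine P'.ex_congr fun ω _ => ?_
      have e1 : ((tbx (n - a - r) (lnS a r l t v)).comp π).szl lam ω =
          (1 + lam) * ((n - a - r : ℕ) : ℝ) + (1 - lam) * ((n - a - r : ℕ) : ℝ) := rfl
      rw [e1, Nat.cast_sub (by omega), Nat.cast_sub (by omega)]
      ring
    unfold exVl
    rw [b1, b2]
  have a2 : RF P n a r l t v C = Stk.hc P' X (fun ω => (B ω, D ω)) :=
    (Stk.hc_of_law P' P π h1 (fun ω => tb n (l ω))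
      (fun ω => (tb (n - a - r) (lnS a r l t v ω), (cell a r l t v ω, C ω)))).symm
  have k4 : Stk.hc P' X (fun ω => (A.lab ω, D ω)) ≤ Stk.hc P' B (fun ω => (A.lab ω, D ω)) +
      Stk.hc P' X (fun ω => (B ω, D ω)) := by
    have b1 := Stk.hc_le_add' P' X B (fun ω => (A.lab ω, D ω))
    have b2 : Stk.hc P' X (fun ω => (B ω, (A.lab ω, D ω))) ≤ Stk.hc P' X (fun ω => (B ω, D ω)) :=
      Stk.hc_mono_right P' X fun ω ω' _ _ e => by
        simp only [Prod.mk.injEq] at e ⊢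
        exact ⟨e.1, e.2.2⟩
    linarith
  -- the shape
  have k6 : Stk.hc P' (fun ω => (A.k ω, A.j ω))
      (fun ω => (((crs m A).k ω, (crs m A).j ω), (X ω, D ω))) ≤ 2 * Real.log (m + 1) := by
    have g := Stk.hc_le_log P' (fun ω => (A.k ω, A.j ω))
      (fun ω => (((crs m A).k ω, (crs m A).j ω), (X ω, D ω))) ((m + 1) ^ 2)
      fun ω _ => ⟨(Finset.Icc ((crs m A).k ω) ((crs m A).k ω + m)) ×ˢ
        (Finset.Icc ((crs m A).j ω) ((crs m A).j ω + m)), by
          rw [Finset.card_product, Nat.card_Icc, Nat.card_Icc]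
          have e1 : (crs m A).k ω + m + 1 - (crs m A).k ω = m + 1 := by omega
          have e2 : (crs m A).j ω + m + 1 - (crs m A).j ω = m + 1 := by omega
          rw [e1, e2]
          exact (sq (m + 1)).ge, fun ω' hω' e => by
          simp only [Prod.mk.injEq] at e
          have e1 : (crs m A).k ω = min (A.k ω') (A.j ω' - m) := e.1.1.symm
          have e2 : (crs m A).j ω = A.j ω' - m := e.1.2.symm
          have e3 := (hA ω' hω').2.2.1
          rw [e1, e2]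
          simp only [Finset.mem_product, Finset.mem_Icc]
          omega⟩
    have e : Real.log (((m + 1) ^ 2 : ℕ) : ℝ) = 2 * Real.log (m + 1) := by
      push_cast
      rw [Real.log_pow]
      push_cast
      ring
    rwa [e] at g
  have k7 : Stk.hc P' (fun ω => (A.k ω, A.j ω)) (fun ω => (X ω, D ω)) ≤
      Stk.hc P' (fun ω => ((crs m A).k ω, (crs m A).j ω)) (fun ω => (B ω, D ω)) +
        (2 * Real.log (m + 1) + 6 * Real.log 13) := by
    have b1 := Stk.hc_le_add' P' (fun ω => (A.k ω, A.j ω))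
      (fun ω => ((crs m A).k ω, (crs m A).j ω)) (fun ω => (X ω, D ω))
    have b2 := hc_cmp P' (fun ω => ((crs m A).k ω, (crs m A).j ω))
      (fun ω => ((crs m A).k ω, (crs m A).j ω)) (fun ω => (X ω, D ω)) (fun ω => (B ω, D ω))
    have b3 : Stk.hc P' (fun ω => ((crs m A).k ω, (crs m A).j ω))
        (fun ω => (((crs m A).k ω, (crs m A).j ω), (X ω, D ω))) = 0 :=
      Stk.hc_zero P' fun _ _ _ _ e => congrArg Prod.fst e
    have b4 : Stk.hc P' (fun ω => (B ω, D ω)) (fun ω => (X ω, D ω)) ≤ 4 * Real.log 13 := by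
      have c1 := tube_of P' h hg' hv' (fun ω => C (π ω))
      have c2 := hc_pair_le P' B D (fun ω => (X ω, D ω))
      have c3 : Stk.hc P' D (fun ω => (X ω, D ω)) = 0 :=
        Stk.hc_zero P' fun _ _ _ _ e => congrArg Prod.snd e
      have c4 : Stk.hc P' B (fun ω => (X ω, D ω)) ≤ 4 * Real.log 13 := c1
      linarith
    have l0 := log13_nonneg
    linarith
  have k8 := mul_le_mul_of_nonneg_left k7 hΛ
  rw [mul_add] at k8
  have a12 : P'.ex (fun ω => 2 * ((n : ℝ) - a) - (1 - lam) * r - A.szl lam ω) =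
      P'.ex (fun ω => 2 * ((n : ℝ) - a - r) - A.szl lam ω) + (1 + lam) * r := by
    have e : ((1 + lam) * (r : ℝ)) = P'.ex (fun _ => (1 + lam) * (r : ℝ)) := by rw [P'.ex_const]
    rw [e, ← P'.ex_add]
    refine P'.ex_congr fun ω _ => ?_
    ring
  have e13 : Real.log 2 * ((1 + lam) * (r : ℝ)) = (1 + lam) * r * Real.log 2 := by ring
  have k9 : Stk.hc P' (fun ω => ((crs m A).k ω, (crs m A).j ω))
      (fun ω => (tb (n - a - r) (lnS a r l t v (π ω)), (cell a r l t v (π ω), C (π ω)))) =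
      Stk.hc P' (fun ω => ((crs m A).k ω, (crs m A).j ω)) (fun ω => (B ω, D ω)) := rfl
  rw [k9] at k1
  have k10 : exVl lam P' ((tbx (n - a - r) (lnS a r l t v)).comp π) (crs m A)
      (fun ω => (cell a r l t v (π ω), C (π ω))) =
      exVl lam P' ((tbx (n - a - r) (lnS a r l t v)).comp π) (crs m A) D := rfl
  rw [k10] at k1
  have l9 : 0 ≤ Real.log 9 := Real.log_nonneg (by norm_num)
  unfold EFH cG
  rw [a2, a12, mul_add, e13]
  linarith

end Vale.Agent.P127.U.Pf
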