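import Vale.Agent.P127.U.Lam.RedA
import Vale.Agent.P127.U.Lam.JL
import Vale.Agent.P127.U.LocT

/-!
# P127 / U / Lam : reduction, part B (helper624)

* `excR` : bounded, monotone, average over the values of a condition
* `OkS`, `Phi` : the systems of `PFix` and the functional; trivial bound, splitting
-/

set_option autoImplicit false

namespace Vale.Agent.P127.U.Red

open Filter Topology Vale.Agent.P127 Vale.Agent.P127.Stk Vale.Agent.P127.U Sys Lam JSB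

variable {lam : ℝ}

section fin

variable {Ω : Type} [Fintype Ω] {γ : Type*}

theorem tbx_comp {Ω' : Type} (n : ℕ) (l : Ω → Ln) (π : Ω' → Ω) :
    (tbx n l).comp π = tbx n (fun ω => l (π ω)) := rfl

theorem hc_tbx (P : Law Ω) (n : ℕ) (l : Ω → Ln) (Y : Ω → γ) :
    Stk.hc P (tbx n l).lab Y = Stk.hc P (fun ω => tb n (l ω)) Y := by
  refine Stk.hc_congr P ?_ ?_ (fun _ _ _ _ e => e) fun _ _ _ _ e => e
  · intro ω ω' _ _ e
    exact LocT.tbx_lab.2 (congrArg Prod.fst e)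
  · intro ω ω' _ _ e
    exact LocT.tbx_lab.1 (congrArg Prod.fst e)

omit [Fintype Ω] in
/-- a box around the line is above the tube -/
theorem sub_tbx {n : ℕ} {l : Ω → Ln} {A : Bx Ω} {ω : Ω} (h1 : A.l ω = l ω) (h2 : |A.θ ω| ≤ 4)
    (h3 : A.k ω ≤ A.j ω) (h4 : A.j ω ≤ n) : Sub 1 (tbx n l) A ω := by
  refine ⟨h1, h2, h3, h3.trans h4, h4, ?_⟩
  show |Real.sin (0 - A.θ ω)| * (1 / 2 : ℝ) ^ n ≤ 1 * (1 / 2 : ℝ) ^ A.j ω
  exact mul_le_mul (Real.abs_sin_le_one _)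
    (pow_le_pow_of_le_one (by norm_num) (by norm_num) h4) (by positivity) (by norm_num)

theorem excR_bdd (hl : 0 ≤ lam ∧ lam ≤ 1) (P : Law Ω) (n : ℕ) (l : Ω → Ln) (C : Ω → γ) (k J : ℕ) :
    BddAbove (exSetR lam P n l C k J) := by
  refine ⟨P.H (tbx n l).lab, ?_⟩
  rintro v ⟨Ω', _, P', π, A, h1, h2, rfl⟩
  have h3 := Lam.exV_le_H hl (C := fun ω => C (π ω)) fun ω hω => (h2 ω hω).1
  have h4 := Stk.H_law_aux P' P π h1 (tbx n l).lab
  refine h3.trans (le_of_eq ?_)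
  rw [← h4]
  rfl

theorem exV_le_excR (hl : 0 ≤ lam ∧ lam ≤ 1) {P : Law Ω} {n : ℕ} {l : Ω → Ln} {C : Ω → γ} {k J : ℕ}
    {Ω' : Type} [Fintype Ω'] {P' : Law Ω'} {π : Ω' → Ω} {A : Bx Ω'}
    (h1 : ∀ ω, P'.pr π ω = P.w ω)
    (h2 : ∀ ω, 0 < P'.w ω → Sub 1 ((tbx n l).comp π) A ω ∧ k ≤ A.k ω ∧ A.j ω ≤ J) :
    exVl lam P' ((tbx n l).comp π) A (fun ω => C (π ω)) ≤ excR lam P n l C k J :=
  le_csSup (excR_bdd hl P n l C k J) ⟨Ω', inferInstance, P', π, A, h1, h2, rfl⟩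

theorem excR_nonempty {P : Law Ω} {n : ℕ} {l : Ω → Ln} {C : Ω → γ} {k J : ℕ} (h1 : k ≤ J)
    (h2 : k ≤ n) : (exSetR lam P n l C k J).Nonempty := by
  refine ⟨_, Ω, inferInstance, P, id, ⟨l, fun _ => 0, fun _ => k, fun _ => k⟩, Stk.pr_id P, ?_, rfl⟩
  intro ω _
  refine ⟨sub_tbx rfl ?_ le_rfl h2, le_rfl, h1⟩
  show |(0 : ℝ)| ≤ 4
  rw [abs_zero]
  norm_num

theorem excR_near {P : Law Ω} {n : ℕ} {l : Ω → Ln} {C : Ω → γ} {k J : ℕ} (h1 : k ≤ J)
    (h2 : k ≤ n) :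
    ∃ (Ω' : Type) (_ : Fintype Ω') (P' : Law Ω') (π : Ω' → Ω) (A : Bx Ω'),
      (∀ ω, P'.pr π ω = P.w ω) ∧
      (∀ ω, 0 < P'.w ω → Sub 1 ((tbx n l).comp π) A ω ∧ k ≤ A.k ω ∧ A.j ω ≤ J) ∧
      excR lam P n l C k J - 1 ≤ exVl lam P' ((tbx n l).comp π) A fun ω => C (π ω) := by
  obtain ⟨v, ⟨Ω', i, P', π, W, h1, h2, rfl⟩, h3⟩ := exists_lt_of_lt_csSup
    (s := exSetR lam P n l C k J) (excR_nonempty h1 h2) (sub_one_lt (sSup (exSetR lam P n l C k J)))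
  exact ⟨Ω', i, P', π, W, h1, h2, h3.le⟩

/-- more conditions, less excess -/
theorem excR_mono {δ : Type*} (hl : 0 ≤ lam ∧ lam ≤ 1) {P : Law Ω} {n : ℕ} {l : Ω → Ln} {C : Ω → γ}
    {C' : Ω → δ} {k J : ℕ} (h1 : k ≤ J) (h2 : k ≤ n) (h : ∀ ω ω', C ω = C ω' → C' ω = C' ω') :
    excR lam P n l C k J ≤ excR lam P n l C' k J := by
  refine csSup_le (excR_nonempty h1 h2) ?_
  rintro v ⟨Ω', _, P', π, W, h1, h2, rfl⟩
  refine le_trans ?_ (exV_le_excR hl (C := C') h1 h2)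
  unfold exVl
  have := Stk.hc_mono_right P' ((tbx n l).comp π).lab (Y := fun ω => (W.lab ω, C' (π ω)))
    (Y' := fun ω => (W.lab ω, C (π ω))) (fun ω ω' _ _ e => by
      simp only [Prod.mk.injEq] at e ⊢
      exact ⟨e.1, h _ _ e.2⟩)
  linarith

/-- the restricted excess is at most the excess -/
theorem excR_le_excF (hl : 0 ≤ lam ∧ lam ≤ 1) {P : Law Ω} {n : ℕ} {l : Ω → Ln} {C : Ω → γ}
    {k J : ℕ} (h1 : k ≤ J) (h2 : k ≤ n) : excR lam P n l C k J ≤ excFl lam P (tbx n l) C := by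
  refine csSup_le (excR_nonempty h1 h2) ?_
  rintro v ⟨Ω', _, P', π, W, h1, h2, rfl⟩
  exact Lam.exV_le_excF hl (C := C) h1 fun ω hω => (h2 ω hω).1

/-- the excess given `(D, C)` is at least the average of the excesses given `D` for the values of
`C` -/
theorem excR_cond_sum (hl : 0 ≤ lam ∧ lam ≤ 1) {δ : Type*} {γ : Type} (P : Law Ω) (n : ℕ)
    (l : Ω → Ln) (D : Ω → δ) (C : Ω → γ) {k J : ℕ} (h1 : k ≤ J) (h2 : k ≤ n) :
    ∑ z ∈ img C, P.pr C z * excR lam (P.cond C z) n l D k J ≤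
      excR lam P n l (fun ω => (D ω, C ω)) k J + 1 := by
  classical
  set B := tbx n l with hB
  have hnear := fun z : {z // z ∈ img C} => excR_near (lam := lam) (P := P.cond C z.1) (l := l)
    (C := D) h1 h2
  choose Ω' iF Q π W g1 g2 g3 using hnear
  have a0 : ∀ z : {z // z ∈ img C}, 0 ≤ P.pr C z.1 := fun z => P.pr_nonneg _ _
  have a1 : ∑ z : {z // z ∈ img C}, P.pr C z.1 = 1 := by
    rw [Finset.sum_coe_sort (img C) (fun z => P.pr C z)]
    exact P.sum_pr_image C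
  set M : Law (Σ z, Ω' z) := sumL (fun z : {z // z ∈ img C} => P.pr C z.1) a0 a1 Q with hM
  have hMw : ∀ p : (Σ z, Ω' z), M.w p = P.pr C p.1.1 * (Q p.1).w p.2 := fun p => rfl
  set ρ : (Σ z, Ω' z) → Ω := fun p => π p.1 p.2 with hρ
  set W' : Bx (Σ z, Ω' z) := ⟨fun p => (W p.1).l p.2, fun p => (W p.1).θ p.2,
    fun p => (W p.1).k p.2, fun p => (W p.1).j p.2⟩ with hW'
  have hpos : ∀ p : (Σ z, Ω' z), 0 < M.w p → 0 < P.pr C p.1.1 ∧ 0 < (Q p.1).w p.2 := by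
    intro p hp
    rw [hMw] at hp
    have b1 := P.pr_nonneg C p.1.1
    have b2 := (Q p.1).nn p.2
    constructor
    · rcases b1.eq_or_lt with h2 | h2
      · rw [← h2, zero_mul] at hp
        exact absurd hp (lt_irrefl 0)
      · exact h2
    · rcases b2.eq_or_lt with h2 | h2
      · rw [← h2, mul_zero] at hp
        exact absurd hp (lt_irrefl 0)
      · exact h2
  have hC : ∀ p : (Σ z, Ω' z), 0 < M.w p → C (ρ p) = p.1.1 := by
    intro p hp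
    obtain ⟨b1, b2⟩ := hpos p hp
    refine cond_supp' P C p.1.1 b1 ?_
    rw [← g1 p.1 (ρ p)]
    exact (Q p.1).pr_pos (π p.1) b2
  have hpr : ∀ ω, M.pr ρ ω = P.w ω := by
    intro ω
    rw [hM, sumL_pr]
    have e : ∀ z : {z // z ∈ img C}, (Q z).pr (fun ω' => ρ ⟨z, ω'⟩) ω = (P.cond C z.1).w ω :=
      fun z => g1 z ω
    simp only [e]
    rw [Finset.sum_coe_sort (img C) (fun z => P.pr C z * (P.cond C z).w ω)]
    exact cond_avg P C ω
  have hsub : ∀ p, 0 < M.w p → Sub 1 (B.comp ρ) W' p ∧ k ≤ W'.k p ∧ W'.j p ≤ J :=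
    fun p hp => g2 p.1 p.2 (hpos p hp).2
  have hle : exVl lam M (B.comp ρ) W' (fun p => (D (ρ p), C (ρ p))) ≤
      excR lam P n l (fun ω => (D ω, C ω)) k J :=
    exV_le_excR hl (C := fun ω => (D ω, C ω)) hpr hsub
  have hge : ∑ z : {z // z ∈ img C}, P.pr C z.1 *
      exVl lam (Q z) (B.comp (π z)) (W z) (fun ω => D (π z ω)) ≤
      exVl lam M (B.comp ρ) W' (fun p => (D (ρ p), C (ρ p))) := by
    have e1 : Stk.hc M (B.comp ρ).lab (fun p => ((W'.lab p, D (ρ p)), p.1)) ≤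
        Stk.hc M (B.comp ρ).lab (fun p => (W'.lab p, (D (ρ p), C (ρ p)))) := by
      refine hc_mono_right M _ ?_
      intro p p' hp hp' e
      simp only [Prod.mk.injEq] at e
      show (W'.lab p, (D (ρ p), C (ρ p))) = (W'.lab p', (D (ρ p'), C (ρ p')))
      rw [hC p hp, hC p' hp', e.1.1, e.1.2, e.2]
    have e2 := sumL_hc (a := fun z : {z // z ∈ img C} => P.pr C z.1) (h0 := a0) (h1 := a1)
      (Q := Q) (B.comp ρ).lab (fun p => (W'.lab p, D (ρ p)))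
    have e3 := sumL_ex (a := fun z : {z // z ∈ img C} => P.pr C z.1) (h0 := a0) (h1 := a1)
      (Q := Q) (fun p => (B.comp ρ).szl lam p - W'.szl lam p)
    rw [← hM] at e2 e3
    rw [e2] at e1
    have e4 : ∑ z : {z // z ∈ img C}, P.pr C z.1 *
        exVl lam (Q z) (B.comp (π z)) (W z) (fun ω => D (π z ω)) =
        ∑ z : {z // z ∈ img C}, P.pr C z.1 * Stk.hc (Q z) (fun ω => (B.comp ρ).lab ⟨z, ω⟩)
          (fun ω => (W'.lab ⟨z, ω⟩, D (ρ ⟨z, ω⟩))) -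
        Real.log 2 * ∑ z : {z // z ∈ img C}, P.pr C z.1 *
          (Q z).ex (fun ω => (B.comp ρ).szl lam ⟨z, ω⟩ - W'.szl lam ⟨z, ω⟩) := by
      rw [Finset.mul_sum, ← Finset.sum_sub_distrib]
      refine Finset.sum_congr rfl fun z _ => ?_
      unfold exVl
      have f1 : (B.comp (π z)).lab = fun ω => (B.comp ρ).lab ⟨z, ω⟩ := rfl
      have f2 : (W z).lab = fun ω => W'.lab ⟨z, ω⟩ := rfl
      have f3 : (fun ω => (B.comp (π z)).szl lam ω - (W z).szl lam ω) =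
        fun ω => (B.comp ρ).szl lam ⟨z, ω⟩ - W'.szl lam ⟨z, ω⟩ := rfl
      rw [f1, f2, f3]
      ring
    rw [e4]
    unfold exVl
    rw [e3]
    linarith
  have hav : ∑ z ∈ img C, P.pr C z * excR lam (P.cond C z) n l D k J - 1 ≤
      ∑ z : {z // z ∈ img C}, P.pr C z.1 *
        exVl lam (Q z) (B.comp (π z)) (W z) (fun ω => D (π z ω)) := by
    have e : ∑ z ∈ img C, P.pr C z * excR lam (P.cond C z) n l D k J - 1 =
        ∑ z : {z // z ∈ img C}, P.pr C z.1 * (excR lam (P.cond C z.1) n l D k J - 1) := by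
      simp only [mul_sub, mul_one, Finset.sum_sub_distrib]
      rw [a1, Finset.sum_coe_sort (img C)
        (fun z => P.pr C z * excR lam (P.cond C z) n l D k J)]
    rw [e]
    exact Finset.sum_le_sum fun z _ => mul_le_mul_of_nonneg_left (g3 z) (a0 z)
  linarith

/-! ### the value of a label -/

/-- value of a label `A` of the level `0` -/
noncomputable def v0 (lam : ℝ) (P : Law Ω) (n : ℕ) (l : Ω → Ln) (A : Bx Ω) : ℝ :=
  Stk.hc P (fun ω => tb n (l ω)) (fun ω => (A.lab ω, ())) -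
    Real.log 2 * (2 * (n : ℝ) - P.ex fun ω => A.szl lam ω)

theorem v0_eq (P : Law Ω) (n : ℕ) (l : Ω → Ln) (A : Bx Ω) :
    exVl lam P (tbx n l) A (fun _ => ()) = v0 lam P n l A := by
  unfold exVl v0
  rw [hc_tbx]
  have e : (P.ex fun ω => (tbx n l).szl lam ω - A.szl lam ω) =
      2 * (n : ℝ) - P.ex fun ω => A.szl lam ω := by
    rw [P.ex_sub]
    have : (P.ex fun ω => (tbx n l).szl lam ω) = 2 * (n : ℝ) := by
      rw [show (fun ω => (tbx n l).szl lam ω) = fun _ => 2 * (n : ℝ) from by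
        funext ω
        show (1 + lam) * (n : ℝ) + (1 - lam) * (n : ℝ) = 2 * n
        ring]
      exact P.ex_const _
    rw [this]
  rw [e]

theorem v0_le (hl : 0 ≤ lam ∧ lam ≤ 1) {P : Law Ω} {n : ℕ} {l : Ω → Ln} {k J : ℕ}
    {Ω' : Type} [Fintype Ω'] {P' : Law Ω'} {π : Ω' → Ω} {A : Bx Ω'} (hJ : J ≤ n)
    (h1 : ∀ ω, P'.pr π ω = P.w ω)
    (h2 : ∀ ω, 0 < P'.w ω → A.l ω = l (π ω) ∧ |A.θ ω| ≤ 4 ∧ A.k ω ≤ A.j ω ∧ k ≤ A.k ω ∧
      A.j ω ≤ J) :
    v0 lam P' n (fun ω => l (π ω)) A ≤ excR lam P n l (fun _ => ()) k J := by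
  rw [← v0_eq]
  refine exV_le_excR hl (C := fun _ => ()) h1 fun ω hω => ?_
  obtain ⟨a1, a2, a3, a4, a5⟩ := h2 ω hω
  exact ⟨sub_tbx a1 a2 a3 (a5.trans hJ), a4, a5⟩

/-- the hypotheses of `PFix` -/
structure OkS (P : Law Ω) (l : Ω → Ln) (t : Ω → ℝ) (s n k j : ℕ) (W : Bx Ω) : Prop where
  g : GoodF P l t
  kj : k ≤ j
  sn : s + j ≤ n
  w : ∀ ω, 0 < P.w ω → W.l ω = blF s l t ω ∧ |W.θ ω| ≤ 4 ∧ W.k ω = k ∧ W.j ω = j

theorem OkS.cond {P : Law Ω} {l : Ω → Ln} {t : Ω → ℝ} {s n k j : ℕ} {W : Bx Ω}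
    (h : OkS P l t s n k j W) {ζ : Type*} (Z : Ω → ζ) (z : ζ) :
    OkS (P.cond Z z) l t s n k j W :=
  ⟨fun ω hω => h.g ω (cond_supp P Z z hω), h.kj, h.sn, fun ω hω => h.w ω (cond_supp P Z z hω)⟩

/-- value of the label of the level `s` -/
noncomputable def vW (lam : ℝ) (P : Law Ω) (l : Ω → Ln) (t : Ω → ℝ) (s n k j : ℕ) (W : Bx Ω)
    (C : Ω → γ) : ℝ :=
  Stk.hc P (fun ω => tb n (l ω)) (fun ω => (W.lab ω, pq s (ptF l t ω), C ω)) -
    Real.log 2 * (2 * ((n : ℝ) - s) - ((1 + lam) * k + (1 - lam) * j))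

/-- the functional -/
noncomputable def Phi (N lam : ℝ) (P : Law Ω) (l : Ω → Ln) (t : Ω → ℝ) (s n k j : ℕ) (W : Bx Ω) :
    ℝ :=
  vW lam P l t s n k j W (fun _ => ()) - excR lam P n l (fun _ => ()) k (s + j) -
    N * DF P s n l t (fun _ => ())

theorem DF_ge {P : Law Ω} {l : Ω → Ln} {t : Ω → ℝ} (h : GoodF P l t) (s n : ℕ) (C : Ω → γ) :
    -Real.log 2 ≤ DF P s n l t C := by
  unfold DF
  have h1 : Stk.hc P (fun ω => fl1 s (t ω)) (fun ω => (tb n (l ω), C ω)) ≤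
      Real.log ((2 ^ s + 1 : ℕ) : ℝ) := by
    refine Stk.hc_le_log P _ _ _ fun ω _ => ?_
    refine ⟨Finset.Icc (0 : ℤ) (2 ^ s), ?_, fun ω' hω' _ => ?_⟩
    · rw [Int.card_Icc]
      have : (2 : ℤ) ^ s + 1 - 0 = ((2 ^ s + 1 : ℕ) : ℤ) := by push_cast; ring
      rw [this, Int.toNat_natCast]
    · obtain ⟨-, h0, h1⟩ := h ω' hω'
      rw [Finset.mem_Icc]
      have p : (0 : ℝ) < 2 ^ s := by positivity
      unfold fl1
      constructor
      · exact Int.floor_nonneg.2 (mul_nonneg p.le h0)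
      · have h2 : (⌊(2 : ℝ) ^ s * t ω'⌋ : ℝ) ≤ ((2 ^ s : ℤ) : ℝ) := by
          push_cast
          refine (Int.floor_le _).trans ?_
          nlinarith
        exact_mod_cast h2
  have h2 : Real.log ((2 ^ s + 1 : ℕ) : ℝ) ≤ s * Real.log 2 + Real.log 2 := by
    have e : (s : ℝ) * Real.log 2 + Real.log 2 = Real.log ((2 : ℝ) ^ (s + 1)) := by
      rw [Real.log_pow]
      push_cast
      ring
    rw [e]
    apply Real.log_le_log (by positivity)
    push_cast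
    have : (1 : ℝ) ≤ 2 ^ s := one_le_pow₀ (by norm_num)
    rw [pow_succ]
    linarith
  linarith

/-- the constant of the extension -/
noncomputable def cE : ℝ := cL 4 + 2 * Real.log 5

theorem cE_nonneg : 0 ≤ cE := add_nonneg (cL_nonneg 4) (by positivity)

/-- the value of the extended label -/
theorem vW_le_v0 {P : Law Ω} {l : Ω → Ln} {t : Ω → ℝ} {s n k j : ℕ} {W : Bx Ω}
    (h : OkS P l t s n k j W) :
    vW lam P l t s n k j W (fun _ => ()) ≤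
      v0 lam P n l (lev0 l W) + 2 * s * Real.log 2 + cE := by
  have h1 := ext_le P (W := W) h.g (fun ω hω => by
    obtain ⟨a1, a2, a3, a4⟩ := h.w ω hω
    exact ⟨a1, a2, by rw [a3, a4]; exact h.kj⟩) (fun _ => ())
  have h2 := Stk.hc_le_add' P (fun ω => tb n (l ω)) (lev0 l W).lab
    (fun ω => (W.lab ω, pq s (ptF l t ω), ()))
  have h3 : Stk.hc P (fun ω => tb n (l ω))
      (fun ω => ((lev0 l W).lab ω, (W.lab ω, pq s (ptF l t ω), ()))) ≤
      Stk.hc P (fun ω => tb n (l ω)) (fun ω => ((lev0 l W).lab ω, ())) := by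
    refine Stk.hc_mono_right P _ fun ω ω' _ _ e => ?_
    simp only [Prod.mk.injEq] at e ⊢
    exact ⟨e.1, trivial⟩
  have h4 : (P.ex fun ω => (lev0 l W).szl lam ω) = (1 + lam) * k + (1 - lam) * j := by
    rw [← P.ex_const ((1 + lam) * (k : ℝ) + (1 - lam) * j)]
    refine P.ex_congr fun ω hω => ?_
    obtain ⟨-, -, a3, a4⟩ := h.w ω hω
    show (1 + lam) * ((W.k ω : ℕ) : ℝ) + (1 - lam) * ((W.j ω : ℕ) : ℝ) = _
    rw [a3, a4]
  unfold vW v0 cE
  rw [h4]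
  have e : Real.log 2 * (2 * ((n : ℝ) - s) - ((1 + lam) * k + (1 - lam) * j)) =
    Real.log 2 * (2 * (n : ℝ) - ((1 + lam) * k + (1 - lam) * j)) - 2 * s * Real.log 2 := by ring
  rw [e]
  linarith

theorem v0_lev0_le (hl : 0 ≤ lam ∧ lam ≤ 1) {P : Law Ω} {l : Ω → Ln} {t : Ω → ℝ} {s n k j : ℕ}
    {W : Bx Ω} (h : OkS P l t s n k j W) :
    v0 lam P n l (lev0 l W) ≤ excR lam P n l (fun _ => ()) k (s + j) := by
  refine v0_le hl h.sn (π := id) (Stk.pr_id P) fun ω hω => ?_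
  obtain ⟨-, a2, a3, a4⟩ := h.w ω hω
  refine ⟨rfl, a2, ?_, ?_, ?_⟩
  · show W.k ω ≤ W.j ω
    rw [a3, a4]; exact h.kj
  · show k ≤ W.k ω
    rw [a3]
  · show W.j ω ≤ s + j
    rw [a4]; omega

/-- trivial bound -/
theorem Phi_le {N : ℝ} (hN : 0 ≤ N) (hl : 0 ≤ lam ∧ lam ≤ 1) {P : Law Ω} {l : Ω → Ln} {t : Ω → ℝ}
    {s n k j : ℕ} {W : Bx Ω} (h : OkS P l t s n k j W) :
    Phi N lam P l t s n k j W ≤ 2 * s * Real.log 2 + (cE + N * Real.log 2) := by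
  have h1 := vW_le_v0 (lam := lam) h
  have h2 := v0_lev0_le hl h
  have h3 := mul_le_mul_of_nonneg_left (DF_ge h.g s n (fun _ => ())) hN
  unfold Phi
  linarith

/-- splitting -/
theorem Phi_split {N : ℝ} (hN : 0 ≤ N) (hl : 0 ≤ lam ∧ lam ≤ 1) {P : Law Ω} {l : Ω → Ln}
    {t : Ω → ℝ} {s n k j : ℕ} {W : Bx Ω} (h : OkS P l t s n k j W) {ζ : Type} (Z : Ω → ζ) :
    Phi N lam P l t s n k j W ≤
      ∑ z ∈ img Z, P.pr Z z * Phi N lam (P.cond Z z) l t s n k j W + (1 + N) * P.H Z + 1 := by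
  have hk1 : k ≤ s + j := by have := h.kj; omega
  have hk2 : k ≤ n := hk1.trans h.sn
  -- entropy of the line
  have e1 : Stk.hc P (fun ω => tb n (l ω)) (fun ω => (W.lab ω, pq s (ptF l t ω), ())) ≤
      ∑ z ∈ img Z, P.pr Z z * Stk.hc (P.cond Z z) (fun ω => tb n (l ω))
        (fun ω => (W.lab ω, pq s (ptF l t ω), ())) + P.H Z := by
    have a1 := Stk.hc_le_add' P (fun ω => tb n (l ω)) Z (fun ω => (W.lab ω, pq s (ptF l t ω), ()))
    have a2 := Stk.hc_le_H P Z (fun ω => (W.lab ω, pq s (ptF l t ω), ()))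
    have a3 := hc_cond_sum P (fun ω => tb n (l ω)) (fun ω => (W.lab ω, pq s (ptF l t ω), ())) Z
    have a4 : Stk.hc P (fun ω => tb n (l ω)) (fun ω => (Z ω, (W.lab ω, pq s (ptF l t ω), ()))) ≤
        Stk.hc P (fun ω => tb n (l ω)) (fun ω => ((W.lab ω, pq s (ptF l t ω), ()), Z ω)) := by
      refine Stk.hc_mono_right P _ fun ω ω' _ _ e => ?_
      simp only [Prod.mk.injEq] at e ⊢
      exact ⟨⟨e.2.1, e.2.2.1, trivial⟩, e.1⟩
    linarith
  -- entropy of the time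
  have e2 : Stk.hc P (fun ω => fl1 s (t ω)) (fun ω => (tb n (l ω), ())) ≤
      ∑ z ∈ img Z, P.pr Z z * Stk.hc (P.cond Z z) (fun ω => fl1 s (t ω))
        (fun ω => (tb n (l ω), ())) + P.H Z := by
    have a1 := Stk.hc_le_add' P (fun ω => fl1 s (t ω)) Z (fun ω => (tb n (l ω), ()))
    have a2 := Stk.hc_le_H P Z (fun ω => (tb n (l ω), ()))
    have a3 := hc_cond_sum P (fun ω => fl1 s (t ω)) (fun ω => (tb n (l ω), ())) Z
    have a4 : Stk.hc P (fun ω => fl1 s (t ω)) (fun ω => (Z ω, (tb n (l ω), ()))) ≤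
        Stk.hc P (fun ω => fl1 s (t ω)) (fun ω => ((tb n (l ω), ()), Z ω)) := by
      refine Stk.hc_mono_right P _ fun ω ω' _ _ e => ?_
      simp only [Prod.mk.injEq] at e ⊢
      exact ⟨⟨e.2.1, trivial⟩, e.1⟩
    linarith
  -- the excess
  have e3 := excR_cond_sum hl P n l (fun _ => ()) Z hk1 hk2
  have e4 := excR_mono hl (P := P) (l := l) (C := fun ω => ((), Z ω)) (C' := fun _ => ()) hk1 hk2
    (fun _ _ _ => rfl)
  have e5 := P.sum_pr_image Z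
  unfold Phi vW DF
  simp only [mul_sub, Finset.sum_sub_distrib, ← Finset.sum_mul, e5, one_mul]
  simp only [mul_left_comm _ N, ← Finset.mul_sum]
  have e6 := mul_le_mul_of_nonneg_left e2 hN
  nlinarith

end fin

end Vale.Agent.P127.U.Red
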