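import Vale.Agent.P127.U.Lam.RedB
import Vale.Agent.P127.U.H420.ShapeCost

/-!
# P127 / U / Lam : reduction, part C (helper624)

* `sub_finH` finite SUB with the entropy of the angle level
* `ex_lv_le` : the boxes of the same shape given the line are close in the mean, if the value is large
-/

set_option autoImplicit false

namespace Vale.Agent.P127.U.Red

open Filter Topology Vale.Agent.P127 Vale.Agent.P127.Stk Vale.Agent.P127.U Sys Apx C2 SubF

section count

variable {Ω : Type} [Fintype Ω] {γ : Type*} (P : Law Ω)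

/-- **finite SUB** : two boxes of the same line and the same shape, with the entropy of the level -/
theorem sub_finH {ξ : Type*} (h : ℝ) (A A' : Bx Ω) (X : Ω → ξ) (C : Ω → γ)
    (hok : ∀ ω, 0 < P.w ω → Nr ((1 / 2 : ℝ) ^ A.j ω) (A'.l ω) (A.l ω) ∧ A'.k ω = A.k ω ∧ A'.j ω = A.j ω ∧
      A.k ω ≤ A.j ω ∧ True ∧ |A.θ ω| ≤ 4 ∧ |A'.θ ω| ≤ 4) (hH : P.H (lv A A') ≤ h) :
    hc P X (fun ω => (A.lab ω, C ω)) + hc P X (fun ω => (A'.lab ω, C ω)) ≤
      hc P X (fun ω => ((mt A A').lab ω, C ω)) + hc P X (fun ω => ((jn A A').lab ω, C ω)) +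
      mi P A.lab A'.lab (fun ω => (X ω, C ω)) + 100 + 3 * h := by
  set s : Ω → ℕ := lv A A' with hs
  have hS : ∀ {β : Type _} (Z : Ω → β), hc P s Z ≤ h := fun Z => (hc_le_H P s Z).trans hH
  have h0 := shannon P X A.lab A'.lab (jn A A').lab (mt A A').lab C
  -- the join from `A`
  have h1 : hc P (jn A A').lab (fun ω => (A.lab ω, C ω)) ≤ h +
      5 * Real.log (2 * (95 : ℕ) + 3) := by
    have g1 := hc_via P (jn A A').lab s (fun ω => (A.lab ω, C ω))
    have g2 := hS (fun ω => (A.lab ω, C ω))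
    have g3 := join_le P A A.l A.θ s (fun _ => 0) (fun ω => (s ω, A.lab ω, C ω))
      (fun ω hω => ⟨⟨(hok ω hω).2.2.2.1, lv_le A A' ω, by
        rw [Int.cast_zero, zero_mul, add_zero, sub_self, abs_zero]
        positivity⟩, Nr.refl (by positivity) _⟩)
      (fun ω ω' _ _ e => by
        simp only [Prod.mk.injEq] at e
        exact ⟨e.2.1, e.1, rfl⟩)
    have g4 : hc P (jn A A').lab (fun ω => (s ω, A.lab ω, C ω)) ≤
      5 * Real.log (2 * (95 : ℕ) + 3) := g3
    linarith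
  -- the join from `A'`
  set m : Ω → ℤ := fun ω => dm (A'.θ ω) (A.θ ω) with hm
  have h2 : hc P (jn A A').lab (fun ω => (A'.lab ω, C ω)) ≤ h + Real.log 9 +
      5 * Real.log (2 * (95 : ℕ) + 3) := by
    have g1 := hc_via P (jn A A').lab s (fun ω => (A'.lab ω, C ω))
    have g2 := hS (fun ω => (A'.lab ω, C ω))
    have g1' := hc_via P (jn A A').lab m (fun ω => (s ω, A'.lab ω, C ω))
    have g2' := H_dm_le P m (fun ω => (s ω, A'.lab ω, C ω)) (fun ω hω =>
      dm_le (by linarith [(hok ω hω).2.2.2.2.2.2]) (by linarith [(hok ω hω).2.2.2.2.2.1]))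
    have g3 := join_le P A' A.l A.θ s m (fun ω => (m ω, s ω, A'.lab ω, C ω))
      (fun ω hω => by
        obtain ⟨a1, a2, a3, a4, -, -, -⟩ := hok ω hω
        refine ⟨⟨by rw [a2, a3]; exact a4, by rw [a2, a3]; exact lv_le A A' ω, ?_⟩, by
          rw [a3]; exact a1.symm⟩
        have b1 := dl_le_sin (A'.θ ω) (A.θ ω)
        have b2 := lv_spec A A' ω
        have b3 : |Real.sin (A.θ ω - A'.θ ω)| = |Real.sin (A'.θ ω - A.θ ω)| := by
          rw [← abs_neg (Real.sin (A.θ ω - A'.θ ω)), ← Real.sin_neg, neg_sub]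
        rw [b3] at b1
        have e : A.θ ω - (A'.θ ω + m ω * Real.pi) = dl (A'.θ ω) (A.θ ω) := by
          rw [hm]
          unfold dl
          ring
        rw [e]
        linarith)
      (fun ω ω' _ _ e => by
        simp only [Prod.mk.injEq] at e
        exact ⟨e.2.2.1, e.2.1, e.1⟩)
    have g4 : hc P (jn A A').lab (fun ω => (m ω, s ω, A'.lab ω, C ω)) ≤
        5 * Real.log (2 * (95 : ℕ) + 3) := by
      refine le_trans (le_of_eq ?_) g3
      refine hc_congr P ?_ ?_ (fun ω ω' _ _ e => e) (fun ω ω' _ _ e => e)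
      · intro ω ω' p p' e
        have e1 := congrArg Prod.fst e
        simp only at e1
        unfold Bx.lab jn
        simp only
        rw [(hok ω p).2.1, (hok ω' p').2.1] at e1
        exact e1
      · intro ω ω' p p' e
        have e1 := congrArg Prod.fst e
        unfold Bx.lab jn at e1
        simp only at e1 ⊢
        rw [(hok ω p).2.1, (hok ω' p').2.1]
        exact e1
    linarith
  -- the meet
  have h3 : hc P (mt A A').lab (fun ω => (A.lab ω, A'.lab ω, C ω)) ≤ h +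
      5 * Real.log (2 * (7 : ℕ) + 3) := by
    have g1 := hc_via P (mt A A').lab s (fun ω => (A.lab ω, A'.lab ω, C ω))
    have g2 := hS (fun ω => (A.lab ω, A'.lab ω, C ω))
    have g3 := meet_le P A A' s (fun ω => (s ω, A.lab ω, A'.lab ω, C ω))
      (fun ω hω => by
        obtain ⟨a1, a2, a3, a4, -, -, -⟩ := hok ω hω
        exact ⟨a1, a2, a3, a4, lv_le A A' ω, fun h => (lv_lt A A' ω h).le⟩)
      (fun ω ω' _ _ e => by
        simp only [Prod.mk.injEq] at e
        exact ⟨e.2.1, e.2.2.1, e.1⟩)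
    have g4 : hc P (mt A A').lab (fun ω => (s ω, A.lab ω, A'.lab ω, C ω)) ≤
        5 * Real.log (2 * (7 : ℕ) + 3) := g3
    linarith
  have l1 : Real.log (2 * (95 : ℕ) + 3) ≤ 7 := by
    have : Real.log (2 * (95 : ℕ) + 3) ≤ Real.log (2 ^ 8) :=
      Real.log_le_log (by norm_num) (by norm_num)
    rw [Real.log_pow] at this
    have h2 := Real.log_two_lt_d9
    push_cast at this ⊢
    linarith
  have l2 : Real.log (2 * (7 : ℕ) + 3) ≤ 4 := by
    have : Real.log (2 * (7 : ℕ) + 3) ≤ Real.log (2 ^ 5) :=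
      Real.log_le_log (by norm_num) (by norm_num)
    rw [Real.log_pow] at this
    have h2 := Real.log_two_lt_d9
    push_cast at this ⊢
    linarith
  have l3 : Real.log 9 ≤ 4 := by
    have : Real.log 9 ≤ Real.log (2 ^ 4) := Real.log_le_log (by norm_num) (by norm_num)
    rw [Real.log_pow] at this
    have h2 := Real.log_two_lt_d9
    push_cast at this
    linarith
  linarith

end count

section two

variable {lam : ℝ} {Ω : Type} [Fintype Ω]

/-- expectation of the defect of the angle level of the two copies -/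
noncomputable def ED (Q : Law (Fin (1 + 1) → Ω)) (l : Ω → Ln) (W : Bx Ω) (k j : ℕ) : ℝ :=
  Q.ex fun w => ((j : ℝ) - k) -
    (lv ((lev0 l W).comp fun w : Fin (1 + 1) → Ω => w 0)
      ((lev0 l W).comp fun w : Fin (1 + 1) → Ω => w 1) w : ℝ)

/-- **SUB** for the two copies -/
theorem ex_lv_le (hl : 0 ≤ lam ∧ lam ≤ 1) {P : Law Ω} {l : Ω → Ln} {t : Ω → ℝ} {s n k j : ℕ}
    {W : Bx Ω} (h : OkS P l t s n k j W) {Q : Law (Fin (1 + 1) → Ω)}
    (hQ : ∀ w, Q.w w = cw P (fun ω => tb n (l ω)) 1 w) :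
    0 ≤ ED Q l W k j ∧
    lam * Real.log 2 * ED Q l W k j ≤ excR lam P n l (fun _ => ()) k (s + j) -
      v0 lam P n l (lev0 l W) + 50 + 3 / 2 * (Real.log 4 + 2 * Real.log (1 + ED Q l W k j)) := by
  set A := lev0 l W with hA
  set A0 : Bx (Fin (1 + 1) → Ω) := A.comp fun w => w 0 with hA0
  set A1 : Bx (Fin (1 + 1) → Ω) := A.comp fun w => w 1 with hA1
  have hsup : ∀ w, 0 < Q.w w → 0 < P.w (w 0) ∧ 0 < P.w (w 1) ∧ tb n (l (w 1)) = tb n (l (w 0)) := by
    intro w hw
    obtain ⟨a1, a2⟩ := cw_supp hQ hw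
    exact ⟨a2 0, a2 1, a1 1⟩
  have hk : ∀ w, 0 < Q.w w → A0.k w = k ∧ A0.j w = j ∧ A1.k w = k ∧ A1.j w = j ∧ |A0.θ w| ≤ 4 ∧
      |A1.θ w| ≤ 4 := by
    intro w hw
    obtain ⟨p0, p1, -⟩ := hsup w hw
    obtain ⟨-, b2, b3, b4⟩ := h.w _ p0
    obtain ⟨-, c2, c3, c4⟩ := h.w _ p1
    exact ⟨b3, b4, c3, c4, b2, c2⟩
  set u : (Fin (1 + 1) → Ω) → ℕ := lv A0 A1 with hu
  have hule : ∀ w, 0 < Q.w w → u w ≤ j - k := by
    intro w hw
    have h1 := lv_le A0 A1 w
    obtain ⟨b1, b2, -⟩ := hk w hw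
    rw [b1, b2] at h1
    exact h1
  have hkj := h.kj
  have hsn := h.sn
  have hE : ED Q l W k j = Q.ex fun w => ((j : ℝ) - k) - (u w : ℝ) := rfl
  set E := ED Q l W k j with hEd
  have hnn : ∀ w, 0 < Q.w w → (0 : ℝ) ≤ ((j : ℝ) - k) - (u w : ℝ) := by
    intro w hw
    have h1 : (u w : ℝ) ≤ ((j - k : ℕ) : ℝ) := by exact_mod_cast hule w hw
    rw [Nat.cast_sub hkj] at h1
    linarith
  have hE0 : 0 ≤ E := by
    rw [hE]
    have := Q.ex_mono (f := fun _ => (0:ℝ)) (g := fun w => ((j : ℝ) - k) - (u w : ℝ)) hnn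
    rwa [Q.ex_const] at this
  refine ⟨hE0, ?_⟩
  -- the entropy of the level
  have hH : Q.H u ≤ Real.log 4 + 2 * Real.log (1 + E) := by
    have h1 := ShapeCost.hc_int_le Q (fun w => ((j : ℤ) - k) - (u w : ℤ)) (fun _ => ())
    have h2 : Stk.hc Q (fun w => ((j : ℤ) - k) - (u w : ℤ)) (fun _ => ()) = Q.H u := by
      have g1 : Stk.hc Q (fun w => ((j : ℤ) - k) - (u w : ℤ)) (fun _ => ()) =
          Stk.hc Q u (fun _ => ()) := by
        refine Stk.hc_congr Q ?_ ?_ (fun _ _ _ _ e => e) (fun _ _ _ _ e => e)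
        · intro w w' _ _ e
          have e1 : u w = u w' := congrArg Prod.fst e
          show ((j : ℤ) - k) - (u w : ℤ) = ((j : ℤ) - k) - (u w' : ℤ)
          rw [e1]
        · intro w w' _ _ e
          have e1 : ((j : ℤ) - k) - (u w : ℤ) = ((j : ℤ) - k) - (u w' : ℤ) := congrArg Prod.fst e
          omega
      rw [g1]
      unfold Stk.hc
      have g2 : Q.H (fun w => (u w, ())) = Q.H u := Q.H_congr fun w w' => by
        simp only [Prod.mk.injEq, and_true]
      have g3 : Q.H (fun _ : Fin (1 + 1) → Ω => ()) = 0 := by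
        have h2 : Q.H (fun _ : Fin (1 + 1) → Ω => ()) ≤ Real.log (Fintype.card Unit) :=
          Q.H_le_log_card _
        simp only [Fintype.card_unit, Nat.cast_one, Real.log_one] at h2
        exact le_antisymm h2 (Q.H_nonneg _)
      rw [g2, g3, sub_zero]
    rw [h2] at h1
    have h3 : (Q.ex fun w => |((((j : ℤ) - k) - (u w : ℤ) : ℤ) : ℝ)|) = E := by
      rw [hE]
      refine Q.ex_congr fun w hw => ?_
      push_cast
      exact abs_of_nonneg (hnn w hw)
    rwa [h3] at h1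
  set X : (Fin (1 + 1) → Ω) → _ := fun w => tb n (l (w 0)) with hX
  have key := sub_finH Q (Real.log 4 + 2 * Real.log (1 + E)) A0 A1 X (fun _ => ())
    (fun w hw => by
      obtain ⟨p0, p1, p2⟩ := hsup w hw
      obtain ⟨b1, b2, b3, b4, b5, b6⟩ := hk w hw
      refine ⟨?_, by rw [b3, b1], by rw [b4, b2], by rw [b1, b2]; exact hkj, trivial, b5, b6⟩
      rw [b2]
      exact nr_of_tb (by omega) p2) hH
  -- the three entropies
  have k1 : Stk.hc Q X (fun w => (A0.lab w, ())) =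
      Stk.hc P (fun ω => tb n (l ω)) (fun ω => (A.lab ω, ())) :=
    cw_hc hQ 0 (fun ω => tb n (l ω)) (fun ω => (A.lab ω, ()))
  have k2 : Stk.hc Q X (fun w => (A1.lab w, ())) =
      Stk.hc P (fun ω => tb n (l ω)) (fun ω => (A.lab ω, ())) := by
    rw [← cw_hc hQ 1 (fun ω => tb n (l ω)) (fun ω => (A.lab ω, ()))]
    refine Stk.hc_congr Q ?_ ?_ (fun _ _ _ _ e => e) (fun _ _ _ _ e => e)
    · intro w w' hw hw' e
      have e1 : tb n (l (w 1)) = tb n (l (w' 1)) := congrArg Prod.fst e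
      show tb n (l (w 0)) = tb n (l (w' 0))
      rw [← (hsup w hw).2.2, ← (hsup w' hw').2.2, e1]
    · intro w w' hw hw' e
      have e1 : tb n (l (w 0)) = tb n (l (w' 0)) := congrArg Prod.fst e
      show tb n (l (w 1)) = tb n (l (w' 1))
      rw [(hsup w hw).2.2, (hsup w' hw').2.2, e1]
  have k3 : Stk.mi Q A0.lab A1.lab (fun w => (X w, ())) = 0 := by
    unfold Stk.mi
    have g1 : Stk.hc Q A0.lab (fun w => (X w, ())) = Stk.hc P A.lab (fun ω => tb n (l ω)) := by
      rw [← cw_hc hQ 0 A.lab (fun ω => tb n (l ω))]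
      refine Stk.hc_congr Q (fun _ _ _ _ e => congrArg Prod.fst e)
        (fun _ _ _ _ e => congrArg Prod.fst e) ?_ ?_
      · intro w w' _ _ e
        have e' : tb n (l (w 0)) = tb n (l (w' 0)) := e
        show (tb n (l (w 0)), ()) = (tb n (l (w' 0)), ())
        rw [e']
      · intro w w' _ _ e
        exact congrArg Prod.fst e
    have g2 : Stk.hc Q A0.lab (fun w => (A1.lab w, (X w, ()))) =
        Stk.hc P A.lab (fun ω => tb n (l ω)) := by
      rw [← cw_indep hQ 0 A.lab (fun w => A.lab (w 1)) (fun w w' e => by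
        show A.lab (w 1) = A.lab (w' 1)
        rw [e 1 (by decide)])]
      refine Stk.hc_congr Q (fun _ _ _ _ e => congrArg Prod.fst e)
        (fun _ _ _ _ e => congrArg Prod.fst e) ?_ ?_
      · intro w w' _ _ e
        have e1 : A.lab (w 1) = A.lab (w' 1) := congrArg Prod.fst e
        have e2 : tb n (l (w 0)) = tb n (l (w' 0)) := congrArg Prod.snd e
        show (A.lab (w 1), (tb n (l (w 0)), ())) = (A.lab (w' 1), (tb n (l (w' 0)), ()))
        rw [e1, e2]
      · intro w w' _ _ e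
        have e1 : A.lab (w 1) = A.lab (w' 1) := congrArg Prod.fst e
        have e2 : tb n (l (w 0)) = tb n (l (w' 0)) := congrArg (fun z => z.2.1) e
        show (A.lab (w 1), tb n (l (w 0))) = (A.lab (w' 1), tb n (l (w' 0)))
        rw [e1, e2]
    rw [g1, g2, sub_self]
  -- the values of the meet and of the join
  have m1 : v0 lam Q n (fun w => l (w 0)) (mt A0 A1) ≤ excR lam P n l (fun _ => ()) k (s + j) := by
    refine v0_le hl hsn (π := fun w : Fin (1 + 1) → Ω => w 0) (cw_marg hQ 0) fun w hw => ?_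
    obtain ⟨b1, b2, b3, b4, b5, b6⟩ := hk w hw
    have h1 := hule w hw
    refine ⟨rfl, b5, ?_, ?_, ?_⟩
    · show A0.j w - u w ≤ A0.j w
      exact Nat.sub_le _ _
    · show k ≤ A0.j w - u w
      rw [b2]
      omega
    · show A0.j w ≤ s + j
      rw [b2]
      omega
  have m2 : v0 lam Q n (fun w => l (w 0)) (jn A0 A1) ≤ excR lam P n l (fun _ => ()) k (s + j) := by
    refine v0_le hl hsn (π := fun w : Fin (1 + 1) → Ω => w 0) (cw_marg hQ 0) fun w hw => ?_
    obtain ⟨b1, b2, b3, b4, b5, b6⟩ := hk w hw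
    have h1 := hule w hw
    refine ⟨rfl, b5, ?_, ?_, ?_⟩
    · show A0.k w ≤ A0.k w + u w
      exact Nat.le_add_right _ _
    · show k ≤ A0.k w
      rw [b1]
    · show A0.k w + u w ≤ s + j
      rw [b1]
      omega
  have m3 : (Q.ex fun w => (mt A0 A1).szl lam w) + (Q.ex fun w => (jn A0 A1).szl lam w) =
      2 * ((1 + lam) * k + (1 - lam) * j) + 2 * lam * E := by
    rw [← Q.ex_add, hE, ← Q.ex_const_mul, ← Q.ex_const (2 * ((1 + lam) * (k:ℝ) + (1 - lam) * j)),
      ← Q.ex_add]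
    refine Q.ex_congr fun w hw => ?_
    obtain ⟨b1, b2, -⟩ := hk w hw
    have h1 := hule w hw
    have h2 : u w ≤ A0.j w := by rw [b2]; omega
    show ((1 + lam) * ((A0.j w - u w : ℕ) : ℝ) + (1 - lam) * ((A0.j w : ℕ) : ℝ)) +
      ((1 + lam) * ((A0.k w : ℕ) : ℝ) + (1 - lam) * ((A0.k w + u w : ℕ) : ℝ)) = _
    rw [Nat.cast_sub h2, b1, b2]
    push_cast
    ring
  have m4 : v0 lam P n l A = Stk.hc P (fun ω => tb n (l ω)) (fun ω => (A.lab ω, ())) -
      Real.log 2 * (2 * (n : ℝ) - ((1 + lam) * k + (1 - lam) * j)) := by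
    unfold v0
    have h4 : (P.ex fun ω => A.szl lam ω) = (1 + lam) * k + (1 - lam) * j := by
      rw [← P.ex_const ((1 + lam) * (k : ℝ) + (1 - lam) * j)]
      refine P.ex_congr fun ω hω => ?_
      obtain ⟨-, -, a3, a4⟩ := h.w ω hω
      show (1 + lam) * ((W.k ω : ℕ) : ℝ) + (1 - lam) * ((W.j ω : ℕ) : ℝ) = _
      rw [a3, a4]
    rw [h4]
  have m5 : v0 lam Q n (fun w => l (w 0)) (mt A0 A1) + v0 lam Q n (fun w => l (w 0)) (jn A0 A1) =
      Stk.hc Q X (fun w => ((mt A0 A1).lab w, ())) + Stk.hc Q X (fun w => ((jn A0 A1).lab w, ())) -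
      Real.log 2 * (4 * (n : ℝ) - (2 * ((1 + lam) * k + (1 - lam) * j) + 2 * lam * E)) := by
    rw [← m3]
    unfold v0
    ring
  rw [k1, k2, k3] at key
  rw [m4]
  nlinarith

end two

end Vale.Agent.P127.U.Red
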