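import Vale.Agent.P127.U.Lam.RedC

/-!
# P127 / U / Lam : reduction, part D (helper624)

* `exists_argmax` : if two copies given `W` nearly agree with probability `≥ 3/4`, then the variable is
  a function of `W` with probability bounded from below
-/

set_option autoImplicit false

namespace Vale.Agent.P127.U.Red

open Filter Topology Vale.Agent.P127 Vale.Agent.P127.Stk Vale.Agent.P127.U Sys

section argmax

variable {Ω : Type} [Fintype Ω] {S : Type*}

theorem exists_argmax_aux (P : Law Ω) (W : Ω → S) (c : Ω → ℤ) :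
    ∃ g : S → ℤ, ∀ y a, P.pr (fun ω => (W ω, c ω)) (y, a) ≤ P.pr (fun ω => (W ω, c ω)) (y, g y) := by
  classical
  have hne : Nonempty Ω := by
    by_contra hcon
    rw [not_nonempty_iff] at hcon
    have := P.sum_one
    simp at this
  have key : ∀ y : S, ∃ b : ℤ, ∀ a, P.pr (fun ω => (W ω, c ω)) (y, a) ≤
      P.pr (fun ω => (W ω, c ω)) (y, b) := by
    intro y
    obtain ⟨b, -, hb⟩ := Finset.exists_max_image (Finset.univ.image c)
      (fun a => P.pr (fun ω => (W ω, c ω)) (y, a)) ⟨c hne.some, Finset.mem_image_of_mem _ (Finset.mem_univ _)⟩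
    refine ⟨b, fun a => ?_⟩
    by_cases ha : a ∈ Finset.univ.image c
    · exact hb a ha
    · have : P.pr (fun ω => (W ω, c ω)) (y, a) = 0 := by
        unfold Law.pr
        refine Finset.sum_eq_zero fun ω hω => ?_
        exfalso
        have e : (W ω, c ω) = (y, a) := by simpa using hω
        have e2 : c ω = a := congrArg Prod.snd e
        exact ha (e2 ▸ Finset.mem_image_of_mem _ (Finset.mem_univ ω))
      rw [this]
      exact P.pr_nonneg _ _
  choose g hg using key
  exact ⟨g, hg⟩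

open Classical in
theorem two_copy_le (P : Law Ω) (W : Ω → S) (c : Ω → ℤ) {Q : Law (Fin (1 + 1) → Ω)}
    (hQ : ∀ w, Q.w w = cw P W 1 w) {g : S → ℤ}
    (hg : ∀ y a, P.pr (fun ω => (W ω, c ω)) (y, a) ≤ P.pr (fun ω => (W ω, c ω)) (y, g y)) (d : ℤ) :
    prE Q (fun w => c (w 1) - c (w 0) = d) ≤ prE P (fun ω => c ω = g (W ω)) := by
  have e1 : prE Q (fun w => c (w 1) - c (w 0) = d) =
      ∑ a : Ω, ∑ b : Ω, if c b - c a = d ∧ W b = W a then P.w a * P.w b / P.pr W (W a) else 0 := by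
    unfold prE
    rw [Finset.sum_filter, ← Fintype.sum_prod_type']
    refine (Fintype.sum_equiv (finTwoArrowEquiv Ω).symm _ _ fun p => ?_).symm
    have h2 : Q.w ((finTwoArrowEquiv Ω).symm p) =
        if W p.2 = W p.1 then P.w p.1 * P.w p.2 / P.pr W (W p.1) else 0 := by
      rw [hQ]
      unfold cw
      have h3 : (∀ i, W ((finTwoArrowEquiv Ω).symm p i) = W ((finTwoArrowEquiv Ω).symm p 0)) ↔
          W p.2 = W p.1 := by
        rw [Fin.forall_fin_two]
        constructor
        · exact fun h => h.2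
        · exact fun h => ⟨rfl, h⟩
      have h4 : ∏ i, P.w ((finTwoArrowEquiv Ω).symm p i) = P.w p.1 * P.w p.2 := by
        rw [Fin.prod_univ_two]
        rfl
      rw [h4, pow_one]
      split_ifs with h5 h6 h6
      · rfl
      · exact absurd (h3.1 h5) h6
      · exact absurd (h3.2 h6) h5
      · rfl
    have h5 : (c ((finTwoArrowEquiv Ω).symm p 1) - c ((finTwoArrowEquiv Ω).symm p 0) = d) ↔
      c p.2 - c p.1 = d := Iff.rfl
    rw [h2]
    by_cases q1 : c p.2 - c p.1 = d
    · by_cases q2 : W p.2 = W p.1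
      · rw [if_pos ⟨q1, q2⟩, if_pos (h5.2 q1), if_pos q2]
      · rw [if_neg (fun h => q2 h.2), if_pos (h5.2 q1), if_neg q2]
    · rw [if_neg (fun h => q1 h.1), if_neg (fun h => q1 (h5.1 h))]
  have e2 : ∀ a : Ω, (∑ b : Ω, if c b - c a = d ∧ W b = W a then P.w a * P.w b / P.pr W (W a) else 0) ≤
      ∑ b : Ω, if W b = W a ∧ c b = g (W a) then P.w a * P.w b / P.pr W (W a) else 0 := by
    intro a
    have f1 : (∑ b : Ω, if c b - c a = d ∧ W b = W a then P.w a * P.w b / P.pr W (W a) else 0) =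
        P.w a / P.pr W (W a) * P.pr (fun ω => (W ω, c ω)) (W a, c a + d) := by
      generalize P.pr W (W a) = R
      unfold Law.pr
      rw [Finset.mul_sum, Finset.sum_filter]
      refine Finset.sum_congr rfl fun b _ => ?_
      have : (c b - c a = d ∧ W b = W a) ↔ ((W b, c b) = (W a, c a + d)) := by
        rw [Prod.mk.injEq]
        constructor
        · rintro ⟨h1, h2⟩
          exact ⟨h2, by omega⟩
        · rintro ⟨h1, h2⟩
          exact ⟨by omega, h1⟩
      by_cases q : c b - c a = d ∧ W b = W a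
      · rw [if_pos q, if_pos (this.1 q)]
        ring
      · rw [if_neg q, if_neg (fun h => q (this.2 h))]
    have f2 : (∑ b : Ω, if W b = W a ∧ c b = g (W a) then P.w a * P.w b / P.pr W (W a) else 0) =
        P.w a / P.pr W (W a) * P.pr (fun ω => (W ω, c ω)) (W a, g (W a)) := by
      generalize P.pr W (W a) = R
      unfold Law.pr
      rw [Finset.mul_sum, Finset.sum_filter]
      refine Finset.sum_congr rfl fun b _ => ?_
      have : (W b = W a ∧ c b = g (W a)) ↔ ((W b, c b) = (W a, g (W a))) := by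
        rw [Prod.mk.injEq]
      by_cases q : W b = W a ∧ c b = g (W a)
      · rw [if_pos q, if_pos (this.1 q)]
        ring
      · rw [if_neg q, if_neg (fun h => q (this.2 h))]
    rw [f1, f2]
    exact mul_le_mul_of_nonneg_left (hg _ _) (div_nonneg (P.nn a) (P.pr_nonneg _ _))
  have e3 : (∑ a : Ω, ∑ b : Ω, if W b = W a ∧ c b = g (W a) then P.w a * P.w b / P.pr W (W a) else 0) ≤
      prE P (fun ω => c ω = g (W ω)) := by
    unfold prE
    rw [Finset.sum_comm, Finset.sum_filter]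
    refine Finset.sum_le_sum fun b _ => ?_
    have f1 : (∑ a : Ω, if W b = W a ∧ c b = g (W a) then P.w a * P.w b / P.pr W (W a) else 0) =
        (if c b = g (W b) then P.w b else 0) * (P.pr W (W b) / P.pr W (W b)) := by
      have f0 : P.pr W (W b) = ∑ a : Ω, if W a = W b then P.w a else 0 := by
        unfold Law.pr
        rw [Finset.sum_filter]
      have f00 : (if c b = g (W b) then P.w b else 0) * (P.pr W (W b) / P.pr W (W b)) =
          ∑ a : Ω, (if c b = g (W b) then P.w b else 0) * (if W a = W b then P.w a else 0) /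
            P.pr W (W b) := by
        rw [← Finset.sum_div, ← Finset.mul_sum, ← f0, mul_div_assoc]
      rw [f00]
      refine Finset.sum_congr rfl fun a _ => ?_
      by_cases q1 : W a = W b
      · rw [if_pos q1]
        by_cases q2 : c b = g (W b)
        · rw [if_pos ⟨q1.symm, by rw [q1]; exact q2⟩, if_pos q2, q1]
          ring
        · rw [if_neg (fun h => q2 (by rw [← q1]; exact h.2)), if_neg q2]
          ring
      · rw [if_neg (fun h => q1 h.1.symm), if_neg q1, mul_zero, zero_div]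
    rw [f1]
    have f2 : P.pr W (W b) / P.pr W (W b) ≤ 1 := div_self_le_one _
    have f3 : 0 ≤ (if c b = g (W b) then P.w b else 0) := by
      split_ifs
      · exact P.nn b
      · exact le_rfl
    refine (mul_le_of_le_one_right f3 f2).trans (le_of_eq ?_)
    congr
  rw [e1]
  exact (Finset.sum_le_sum fun a _ => e2 a).trans e3

/-- if two copies of `c` given `W` differ by an element of a set of `N` elements with probability
`≥ p`, then `c` is a function of `W` with probability `≥ p / N` -/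
theorem exists_argmax (P : Law Ω) (W : Ω → S) (c : Ω → ℤ) {Q : Law (Fin (1 + 1) → Ω)}
    (hQ : ∀ w, Q.w w = cw P W 1 w) (D : Finset ℤ) {N : ℕ} (hN : 0 < N) (hD : D.card ≤ N) {p : ℝ}
    (hp : p ≤ prE Q (fun w => c (w 1) - c (w 0) ∈ D)) :
    ∃ g : S → ℤ, p / N ≤ prE P (fun ω => c ω = g (W ω)) := by
  classical
  obtain ⟨g, hg⟩ := exists_argmax_aux P W c
  refine ⟨g, ?_⟩
  have h1 : prE Q (fun w => c (w 1) - c (w 0) ∈ D) ≤
      ∑ d ∈ D, prE Q (fun w => c (w 1) - c (w 0) = d) := by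
    unfold prE
    simp only [Finset.sum_filter]
    rw [Finset.sum_comm]
    refine Finset.sum_le_sum fun w _ => ?_
    split_ifs with h
    · rw [Finset.sum_ite_eq D (c (w 1) - c (w 0)) (fun _ => Q.w w), if_pos h]
    · exact Finset.sum_nonneg fun d _ => by
        split_ifs
        · exact Q.nn w
        · exact le_rfl
  have h2 : ∑ d ∈ D, prE Q (fun w => c (w 1) - c (w 0) = d) ≤
      ∑ _d ∈ D, prE P (fun ω => c ω = g (W ω)) :=
    Finset.sum_le_sum fun d _ => two_copy_le P W c hQ hg d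
  rw [Finset.sum_const, nsmul_eq_mul] at h2
  have h3 : (D.card : ℝ) ≤ N := by exact_mod_cast hD
  have h4 : 0 ≤ prE P (fun ω => c ω = g (W ω)) := prE_nonneg _ _
  have hN' : (0 : ℝ) < N := by exact_mod_cast hN
  rw [div_le_iff₀ hN']
  nlinarith

theorem prE_mono_ae {P : Law Ω} {E F : Ω → Prop} (h : ∀ ω, 0 < P.w ω → E ω → F ω) :
    prE P E ≤ prE P F := by
  classical
  unfold prE
  rw [Finset.sum_filter, Finset.sum_filter]
  refine Finset.sum_le_sum fun ω _ => ?_
  rcases (P.nn ω).eq_or_lt with h0 | h0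
  · rw [← h0]
    simp
  · by_cases hE : E ω
    · rw [if_pos hE, if_pos (h ω h0 hE)]
    · rw [if_neg hE]
      split_ifs
      · exact h0.le
      · exact le_rfl

theorem prE_markov {P : Law Ω} {f : Ω → ℝ} {E : Ω → Prop} {m : ℝ}
    (h : ∀ ω, 0 < P.w ω → 0 ≤ f ω) (hE : ∀ ω, 0 < P.w ω → E ω → m ≤ f ω) :
    m * prE P E ≤ P.ex f := by
  classical
  unfold prE Law.ex
  rw [Finset.sum_filter, Finset.mul_sum]
  refine Finset.sum_le_sum fun ω _ => ?_
  rcases (P.nn ω).eq_or_lt with h0 | h0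
  · rw [← h0]
    simp
  · by_cases q : E ω
    · rw [if_pos q]
      have := mul_le_mul_of_nonneg_left (hE ω h0 q) h0.le
      linarith
    · rw [if_neg q, mul_zero]
      exact mul_nonneg h0.le (h ω h0)

end argmax

section digits

open Str

/-- the differences of the digits of two angles whose sine is small -/
noncomputable def difD (r : ℕ) : Finset ℤ := by
  classical exact
  pis.biUnion fun δ => Finset.Icc (⌊(2 : ℝ) ^ r * δ⌋ - 18) (⌊(2 : ℝ) ^ r * δ⌋ + 18)

theorem card_difD (r : ℕ) : (difD r).card ≤ 259 := by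
  classical
  unfold difD
  refine (Finset.card_biUnion_le_card_mul _ _ 37 ?_).trans ?_
  · intro δ _
    rw [Int.card_Icc]
    omega
  · have := card_pis
    omega

theorem mem_difD {r : ℕ} {θ θ' : ℝ} (h : |θ| ≤ 4) (h' : |θ'| ≤ 4)
    (hs : |Real.sin (θ' - θ)| ≤ 8 * (1 / 2 : ℝ) ^ r) : fl1 r θ' - fl1 r θ ∈ difD r := by
  classical
  obtain ⟨δ, hδ, h1⟩ := sin_small' (x := θ' - θ) ((abs_sub _ _).trans (by linarith))
  unfold difD
  rw [Finset.mem_biUnion]
  refine ⟨δ, hδ, ?_⟩
  have p : (0 : ℝ) < 2 ^ r := by positivity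
  have e : (2 : ℝ) ^ r * (1 / 2) ^ r = 1 := by rw [← mul_pow]; norm_num
  have h2 : |(2 : ℝ) ^ r * θ' - 2 ^ r * θ - 2 ^ r * δ| ≤ 16 := by
    have e1 : (2 : ℝ) ^ r * θ' - 2 ^ r * θ - 2 ^ r * δ = 2 ^ r * (θ' - θ - δ) := by ring
    rw [e1, abs_mul, abs_of_pos p]
    calc (2 : ℝ) ^ r * |θ' - θ - δ| ≤ 2 ^ r * (2 * (8 * (1 / 2 : ℝ) ^ r)) := by
          refine mul_le_mul_of_nonneg_left (h1.trans ?_) p.le
          linarith
      _ = 16 * ((2 : ℝ) ^ r * (1 / 2) ^ r) := by ring
      _ = 16 := by rw [e, mul_one]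
  rw [abs_le] at h2
  have a1 := Int.floor_le ((2 : ℝ) ^ r * θ')
  have a2 := Int.lt_floor_add_one ((2 : ℝ) ^ r * θ')
  have b1 := Int.floor_le ((2 : ℝ) ^ r * θ)
  have b2 := Int.lt_floor_add_one ((2 : ℝ) ^ r * θ)
  have d1 := Int.floor_le ((2 : ℝ) ^ r * δ)
  have d2 := Int.lt_floor_add_one ((2 : ℝ) ^ r * δ)
  rw [Finset.mem_Icc]
  unfold fl1
  constructor
  · have : ((⌊(2 : ℝ) ^ r * δ⌋ - 18 : ℤ) : ℝ) ≤ ((⌊(2 : ℝ) ^ r * θ'⌋ - ⌊(2 : ℝ) ^ r * θ⌋ : ℤ) : ℝ) := by
      push_cast
      linarith [h2.1]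
    exact_mod_cast this
  · have : ((⌊(2 : ℝ) ^ r * θ'⌋ - ⌊(2 : ℝ) ^ r * θ⌋ : ℤ) : ℝ) ≤ ((⌊(2 : ℝ) ^ r * δ⌋ + 18 : ℤ) : ℝ) := by
      push_cast
      linarith [h2.2]
    exact_mod_cast this

end digits

/-- **majority** : if the value is at least the restricted excess, then all but `O(s + 1)` digits of
the direction are a function of the line with probability `≥ 1 / 346` -/
theorem majority {lam : ℝ} (h0 : 0 < lam) (h1 : lam ≤ 1) :
    ∃ M0 : ℕ, ∀ (Ω : Type) [Fintype Ω] (P : Law Ω) (l : Ω → Ln) (t : Ω → ℝ) (s n k j : ℕ)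
      (W : Bx Ω), OkS P l t s n k j W →
      excR lam P n l (fun _ => ()) k (s + j) ≤ vW lam P l t s n k j W (fun _ => ()) →
      ∃ (r : ℕ) (g : (Fin 2 → ℤ) × (Fin 2 → ℤ) → ℤ), r ≤ j - k ∧ (j - k) ≤ r + M0 * (s + 1) ∧
        1 / 346 ≤ prE P (fun ω => fl1 r (W.θ ω) = g (tb n (l ω))) := by
  have hl : 0 ≤ lam ∧ lam ≤ 1 := ⟨h0.le, h1⟩
  have hlog : 0 < Real.log 2 := Real.log_pos (by norm_num)
  set a := lam * Real.log 2 / 6 with ha
  have ha0 : 0 < a := by positivity
  set C1 := cE + 50 + 3 / 2 * Real.log 4 + lam * Real.log 2 / 2 - 3 - 3 * Real.log a with hC1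
  set M := 2 / (lam * Real.log 2) * (2 * Real.log 2 + |C1|) with hM
  have hM0 : 0 ≤ M := by positivity
  refine ⟨⌈4 * M⌉₊ + 1, ?_⟩
  intro Ω _ P l t s n k j W h hv
  set M0 := ⌈4 * M⌉₊ + 1 with hM0d
  have hMle : 4 * M ≤ M0 := by
    have := Nat.le_ceil (4 * M)
    rw [hM0d]
    push_cast
    linarith
  obtain ⟨Q, hQ⟩ := cw_exists P (fun ω => tb n (l ω)) 1
  obtain ⟨hE0, hE⟩ := ex_lv_le hl h hQ
  set E := ED Q l W k j with hEd
  have h2 := vW_le_v0 (lam := lam) h
  have h3 : Real.log (1 + E) ≤ a * (1 + E) - 1 - Real.log a := by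
    have g1 := Real.log_le_sub_one_of_pos (show 0 < a * (1 + E) by positivity)
    rw [Real.log_mul ha0.ne' (by positivity)] at g1
    linarith
  have h4 : lam * Real.log 2 / 2 * E ≤ 2 * s * Real.log 2 + C1 := by
    have : 3 * (a * (1 + E)) = lam * Real.log 2 / 2 + lam * Real.log 2 / 2 * E := by
      rw [ha]; ring
    rw [hC1]
    linarith
  have hEle : E ≤ M * (s + 1) := by
    have g1 : lam * Real.log 2 / 2 * E ≤ (2 * Real.log 2 + |C1|) * (s + 1) := by
      have q1 := le_abs_self C1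
      have q2 := abs_nonneg C1
      have q3 : (0 : ℝ) ≤ s := Nat.cast_nonneg _
      nlinarith [mul_nonneg q2 q3]
    have g2 : E = 2 / (lam * Real.log 2) * (lam * Real.log 2 / 2 * E) := by
      field_simp
    rw [g2, hM, mul_assoc]
    exact mul_le_mul_of_nonneg_left g1 (by positivity)
  -- the digits
  set r := (j - k) - M0 * (s + 1) with hr
  set A0 : Bx (Fin (1 + 1) → Ω) := (lev0 l W).comp fun w => w 0 with hA0
  set A1 : Bx (Fin (1 + 1) → Ω) := (lev0 l W).comp fun w => w 1 with hA1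
  have hsup : ∀ w, 0 < Q.w w → 0 < P.w (w 0) ∧ 0 < P.w (w 1) := by
    intro w hw
    obtain ⟨a1, a2⟩ := cw_supp hQ hw
    exact ⟨a2 0, a2 1⟩
  have hlv : ∀ w, 0 < Q.w w → SubF.lv A0 A1 w ≤ j - k := by
    intro w hw
    have g1 := SubF.lv_le A0 A1 w
    obtain ⟨p0, -⟩ := hsup w hw
    obtain ⟨-, -, b3, b4⟩ := h.w _ p0
    have b3' : A0.k w = k := b3
    have b4' : A0.j w = j := b4
    rwa [b3', b4'] at g1
  have hkj := h.kj
  have hbad : prE Q (fun w => SubF.lv A0 A1 w < r) ≤ 1 / 4 := by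
    have g1 : ((M0 : ℝ) * (s + 1)) * prE Q (fun w => SubF.lv A0 A1 w < r) ≤ E := by
      refine prE_markov (P := Q) (f := fun w => ((j : ℝ) - k) - (SubF.lv A0 A1 w : ℝ))
        (fun w hw => ?_) fun w hw hlt => ?_
      · have q1 : (SubF.lv A0 A1 w : ℝ) ≤ ((j - k : ℕ) : ℝ) := by exact_mod_cast hlv w hw
        rw [Nat.cast_sub hkj] at q1
        linarith
      · have q1 : SubF.lv A0 A1 w + M0 * (s + 1) + k ≤ j := by omega
        have q2 : (SubF.lv A0 A1 w : ℝ) + M0 * (s + 1) + k ≤ j := by exact_mod_cast q1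
        linarith
    have g2 : (0 : ℝ) < M0 * (s + 1) := by
      have : (0 : ℝ) < M0 := by
        rw [hM0d]
        positivity
      positivity
    have g3 : M * (s + 1) ≤ (M0 * (s + 1)) * (1 / 4) := by
      have : (0 : ℝ) ≤ s + 1 := by positivity
      nlinarith
    have g4 : ((M0 : ℝ) * (s + 1)) * prE Q (fun w => SubF.lv A0 A1 w < r) ≤
      ((M0 : ℝ) * (s + 1)) * (1 / 4) := by linarith
    exact le_of_mul_le_mul_left g4 g2
  have hgood : 3 / 4 ≤ prE Q (fun w => fl1 r (W.θ (w 1)) - fl1 r (W.θ (w 0)) ∈ difD r) := by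
    have g1 := prE_not Q (fun w => fl1 r (W.θ (w 1)) - fl1 r (W.θ (w 0)) ∈ difD r)
    have g2 : prE Q (fun w => ¬ fl1 r (W.θ (w 1)) - fl1 r (W.θ (w 0)) ∈ difD r) ≤
        prE Q (fun w => SubF.lv A0 A1 w < r) := by
      refine prE_mono_ae fun w hw hn => ?_
      by_contra hcon
      push Not at hcon
      obtain ⟨p0, p1⟩ := hsup w hw
      refine hn (mem_difD (h.w _ p0).2.1 (h.w _ p1).2.1 ?_)
      refine (SubF.lv_spec A0 A1 w).trans ?_
      exact mul_le_mul_of_nonneg_left (pow_le_pow_of_le_one (by norm_num) (by norm_num) hcon)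
        (by norm_num)
    linarith
  obtain ⟨g, hg⟩ := exists_argmax P (fun ω => tb n (l ω)) (fun ω => fl1 r (W.θ ω)) hQ (difD r)
    (N := 259) (by norm_num) (card_difD r) hgood
  refine ⟨r, g, Nat.sub_le _ _, by omega, le_trans ?_ hg⟩
  norm_num

end Vale.Agent.P127.U.Red
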