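import Vale.Agent.P127.U.Lam.RedD

/-!
# P127 / U / Lam : reduction, part E (helper624)

The stretched lines when `r` digits of the direction are a function of the line.

* `frm`, `lst` the frame box and the stretched line; `fr_x` both are known from the line,
  `fr_w` both labels of the level `s` agree.
-/

set_option autoImplicit false

namespace Vale.Agent.P127.U.Red

open Filter Topology Vale.Agent.P127 Vale.Agent.P127.Stk Vale.Agent.P127.U Sys Str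

/-! ### small lemmas on gauges and stretching -/

theorem stv_sq (φ : ℝ) (a b : ℕ) (v : Fin 2 → ℝ) :
    stv φ a b v 0 ^ 2 + stv φ a b v 1 ^ 2 = gq φ a b v := rfl

theorem stv_abs {φ : ℝ} {a b : ℕ} {v : Fin 2 → ℝ} {c : ℝ} (hc : 0 ≤ c) (h : gq φ a b v ≤ c ^ 2)
    (i : Fin 2) : |stv φ a b v i| ≤ c := by
  rw [← stv_sq] at h
  refine abs_le_of_sq_le_sq ?_ hc
  fin_cases i
  · show stv φ a b v 0 ^ 2 ≤ c ^ 2
    nlinarith [sq_nonneg (stv φ a b v 1)]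
  · show stv φ a b v 1 ^ 2 ≤ c ^ 2
    nlinarith [sq_nonneg (stv φ a b v 0)]

theorem stv_lin (φ : ℝ) (a b : ℕ) (c d : ℝ) (u v : Fin 2 → ℝ) (i : Fin 2) :
    stv φ a b (fun i => c * u i + d * v i) i = c * stv φ a b u i + d * stv φ a b v i := by
  fin_cases i
  · show (2:ℝ) ^ a * co φ _ 0 = c * ((2:ℝ) ^ a * co φ u 0) + d * ((2:ℝ) ^ a * co φ v 0)
    simp only [co0]
    ring
  · show (2:ℝ) ^ b * co φ _ 1 = c * ((2:ℝ) ^ b * co φ u 1) + d * ((2:ℝ) ^ b * co φ v 1)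
    simp only [co1]
    ring

/-- gauge of a difference of two lines of the same tube -/
theorem gq_small {θ : ℝ} {k j n : ℕ} {v : Fin 2 → ℝ} (hkj : k ≤ j) (hj : j ≤ n)
    (hv : ∀ i, |v i| ≤ (1 / 2 : ℝ) ^ n) : gq θ k j v ≤ 8 := by
  have p : (2 : ℝ) ^ j * (1 / 2) ^ n ≤ 1 := by
    calc (2 : ℝ) ^ j * (1 / 2) ^ n ≤ 2 ^ j * (1 / 2) ^ j := by
          refine mul_le_mul_of_nonneg_left ?_ (by positivity)
          exact pow_le_pow_of_le_one (by norm_num) (by norm_num) hj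
      _ = 1 := by rw [← mul_pow]; norm_num
  have key : ∀ (m : ℕ), m ≤ j → ∀ i, |(2 : ℝ) ^ m * co θ v i| ≤ 2 := by
    intro m hm i
    rw [abs_mul, abs_of_pos (by positivity)]
    calc (2 : ℝ) ^ m * |co θ v i| ≤ 2 ^ j * (2 * (1 / 2 : ℝ) ^ n) := by
          refine mul_le_mul (pow_le_pow_right₀ (by norm_num) hm) (C2.co_bd θ v hv i)
            (abs_nonneg _) (by positivity)
      _ = 2 * ((2 : ℝ) ^ j * (1 / 2) ^ n) := by ring
      _ ≤ 2 := by linarith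
  unfold gq
  have h0 := abs_le.1 (key k hkj 0)
  have h1 := abs_le.1 (key j le_rfl 1)
  nlinarith [h0.1, h0.2, h1.1, h1.2]

/-- digits of lines which are known up to `M 2^-m` -/
theorem hc_tb_apx {Ω : Type} [Fintype Ω] {γ : Type*} (P : Law Ω) (m M : ℕ) (L : Ω → Ln) (Z : Ω → γ)
    (h : ∀ ω ω', 0 < P.w ω → 0 < P.w ω' → Z ω = Z ω' → (∀ i, |(L ω).1 i - (L ω').1 i| ≤
      M * (1 / 2 : ℝ) ^ m) ∧ ∀ i, |(L ω).2 i - (L ω').2 i| ≤ M * (1 / 2 : ℝ) ^ m) :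
    Stk.hc P (fun ω => tb m (L ω)) Z ≤ 4 * Real.log (2 * M + 3) := by
  have h1 := Apx.hc_fl_apx P m M (fun ω => (L ω).1) Z fun ω ω' p p' e => (h ω ω' p p' e).1
  have h2 := Apx.hc_fl_apx P m M (fun ω => (L ω).2) Z fun ω ω' p p' e => (h ω ω' p p' e).2
  have h3 := Apx.hc_pair_le P (fun ω => fl m (L ω).1) (fun ω => fl m (L ω).2) Z
  simp only [Fintype.card_fin, Nat.cast_ofNat] at h1 h2
  have h4 : Stk.hc P (fun ω => tb m (L ω)) Z =
    Stk.hc P (fun ω => (fl m (L ω).1, fl m (L ω).2)) Z := rfl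
  linarith

/-! ### the frame -/

section frame

variable {Ω : Type}

/-- the frame box -/
def frm (l : Ω → Ln) (W : Bx Ω) (k r : ℕ) : Bx Ω := ⟨l, W.θ, fun _ => k, fun _ => k + r⟩

/-- the stretched line -/
noncomputable def lst (l : Ω → Ln) (W : Bx Ω) (k r : ℕ) : Ω → Ln := fun ω =>
  stl (qa r (W.θ ω)) k (k + r) (l ω)

variable {l : Ω → Ln} {W : Bx Ω} {k r : ℕ}

theorem frm_lab {ω ω' : Ω} (e : (frm l W k r).lab ω' = (frm l W k r).lab ω) :
    fl1 r (W.θ ω') = fl1 r (W.θ ω) ∧ qa r (W.θ ω') = qa r (W.θ ω) ∧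
    fkj k (k + r) (co (qa r (W.θ ω)) (l ω').1) = fkj k (k + r) (co (qa r (W.θ ω)) (l ω).1) ∧
    fkj k (k + r) (co (qa r (W.θ ω)) (l ω').2) = fkj k (k + r) (co (qa r (W.θ ω)) (l ω).2) := by
  have e' : lab (W.θ ω') k (k + r) (l ω') = lab (W.θ ω) k (k + r) (l ω) := e
  unfold lab at e'
  rw [Nat.add_sub_cancel_left] at e'
  simp only [Prod.mk.injEq] at e'
  obtain ⟨-, -, e1, e2, e3⟩ := e'
  have eq : qa r (W.θ ω') = qa r (W.θ ω) := by unfold qa; rw [e1]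
  rw [eq] at e2 e3
  exact ⟨e1, eq, e2, e3⟩

/-- difference of the stretched lines -/
theorem lst_sub {ω ω' : Ω} (e : (frm l W k r).lab ω' = (frm l W k r).lab ω) (i : Fin 2) :
    (lst l W k r ω').1 i - (lst l W k r ω).1 i =
      stv (qa r (W.θ ω)) k (k + r) (fun i => (l ω').1 i - (l ω).1 i) i ∧
    (lst l W k r ω').2 i - (lst l W k r ω).2 i =
      stv (qa r (W.θ ω)) k (k + r) (fun i => (l ω').2 i - (l ω).2 i) i := by
  obtain ⟨-, e2, e3, e4⟩ := frm_lab e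
  have h1 := congrFun (stv_fract e3) i
  have h2 := congrFun (stv_fract e4) i
  unfold lst stl
  simp only
  rw [e2]
  exact ⟨h1.symm, h2.symm⟩

/-- the rounded frame is coarser than the box -/
theorem gq_fr {j : ℕ} (hr : k + r ≤ j) (ω : Ω) (v : Fin 2 → ℝ) :
    gq (qa r (W.θ ω)) k (k + r) v ≤ ((2:ℝ) ^ 1) ^ 2 * gq (W.θ ω) k j v := by
  have h1 : gq (qa r (W.θ ω)) k (k + r) v ≤ 4 * gq (W.θ ω) k (k + r) v := by
    refine gq_rot (Nat.le_add_right _ _) ?_ v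
    rw [Nat.add_sub_cancel_left]
    exact sin_le_of_qa
  have h2 := gq_mono (θ := W.θ ω) (le_refl k) hr v
  norm_num
  linarith

end frame

/-! ### known from the line -/

section known

variable {Ω : Type} [Fintype Ω] {γ : Type*} {l : Ω → Ln} {W : Bx Ω} {k r n : ℕ}

/-- the label of the frame is known from the line and the digits of the direction -/
theorem hc_frm_x (P : Law Ω) (hk : k + r ≤ n) (hθ : ∀ ω, 0 < P.w ω → |W.θ ω| ≤ 4)
    {g : (Fin 2 → ℤ) × (Fin 2 → ℤ) → ℤ}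
    (hg : ∀ ω, 0 < P.w ω → fl1 r (W.θ ω) = g (tb n (l ω))) (Y : Ω → γ) :
    Stk.hc P (frm l W k r).lab (fun ω => (tb n (l ω), Y ω)) ≤ cL 2 := by
  refine hc_lab_le P _ _ 2 (fun ω hω => ⟨hθ ω hω, Nat.le_add_right _ _⟩) ?_
  intro ω ω' p p' e
  have e1 : tb n (l ω') = tb n (l ω) := congrArg Prod.fst e
  have e2 : fl1 r (W.θ ω') = fl1 r (W.θ ω) := by rw [hg ω p, hg ω' p', e1]
  have e2' : fl1 (k + r - k) (W.θ ω') = fl1 (k + r - k) (W.θ ω) := by
    rw [Nat.add_sub_cancel_left]; exact e2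
  have hkr : k ≤ k + r := Nat.le_add_right _ _
  have r1 : ∀ w, gq (W.θ ω') k (k + r) w ≤ 4 * gq (W.θ ω) k (k + r) w :=
    gq_rot hkr (sin_of_fl1 e2')
  have r2 : ∀ w, gq (W.θ ω) k (k + r) w ≤ 4 * gq (W.θ ω') k (k + r) w :=
    gq_rot hkr (sin_of_fl1 e2'.symm)
  have e3 : fl n (l ω').1 = fl n (l ω).1 := congrArg Prod.fst e1
  have e4 : fl n (l ω').2 = fl n (l ω).2 := congrArg Prod.snd e1
  refine ⟨fun v => (r1 v).trans ?_, fun v => (r2 v).trans ?_, ?_, ?_⟩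
  · have := gq_nonneg (W.θ ω) k (k + r) v
    show _ ≤ ((2:ℝ) ^ 2) ^ 2 * gq (W.θ ω) k (k + r) v
    norm_num
    linarith
  · have := gq_nonneg (W.θ ω') k (k + r) v
    show _ ≤ ((2:ℝ) ^ 2) ^ 2 * gq (W.θ ω') k (k + r) v
    norm_num
    linarith
  · refine (gq_small (θ := W.θ ω) hkr hk fun i => Apx.fl_close e3 i).trans (by norm_num)
  · refine (gq_small (θ := W.θ ω) hkr hk fun i => Apx.fl_close e4 i).trans (by norm_num)

/-- the stretched line is known from the line and the frame -/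
theorem hc_lst_x (P : Law Ω) {n' : ℕ} (hn : k + r + n' ≤ n + 2) (Y : Ω → γ) :
    Stk.hc P (fun ω => tb n' (lst l W k r ω))
      (fun ω => ((frm l W k r).lab ω, (tb n (l ω), Y ω))) ≤ 4 * Real.log (2 * (8 : ℕ) + 3) := by
  refine hc_tb_apx P n' 8 _ _ ?_
  intro ω ω' _ _ e
  have e0 : (frm l W k r).lab ω = (frm l W k r).lab ω' := congrArg Prod.fst e
  have e1 : tb n (l ω) = tb n (l ω') := congrArg (fun z => z.2.1) e
  have e3 : fl n (l ω).1 = fl n (l ω').1 := congrArg Prod.fst e1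
  have e4 : fl n (l ω).2 = fl n (l ω').2 := congrArg Prod.snd e1
  have p : (2 : ℝ) ^ (k + r) * (1 / 2) ^ n ≤ 4 * (1 / 2) ^ n' := by
    have q1 : (1 / 2 : ℝ) ^ (n + 2) ≤ (1 / 2) ^ (k + r + n') :=
      pow_le_pow_of_le_one (by norm_num) (by norm_num) hn
    have q2 : (2 : ℝ) ^ (k + r) * (1 / 2) ^ (k + r) = 1 := by rw [← mul_pow]; norm_num
    calc (2 : ℝ) ^ (k + r) * (1 / 2) ^ n = 4 * (2 ^ (k + r) * (1 / 2) ^ (n + 2)) := by
          rw [pow_add (1 / 2 : ℝ) n 2]; ring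
      _ ≤ 4 * (2 ^ (k + r) * (1 / 2) ^ (k + r + n')) := by gcongr
      _ = 4 * (2 ^ (k + r) * (1 / 2) ^ (k + r)) * (1 / 2) ^ n' := by rw [pow_add]; ring
      _ = 4 * (1 / 2) ^ n' := by rw [q2, mul_one]
  have key : ∀ (v : Fin 2 → ℝ), (∀ i, |v i| ≤ (1 / 2 : ℝ) ^ n) → ∀ i,
      |stv (qa r (W.θ ω')) k (k + r) v i| ≤ ((8 : ℕ) : ℝ) * (1 / 2 : ℝ) ^ n' := by
    intro v hv i
    have h2 := C2.co_bd (qa r (W.θ ω')) v hv
    have h3 : ∀ (m : ℕ) (i : Fin 2), m ≤ k + r →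
        |(2 : ℝ) ^ m * co (qa r (W.θ ω')) v i| ≤ ((8 : ℕ) : ℝ) * (1 / 2 : ℝ) ^ n' := by
      intro m i hm
      rw [abs_mul, abs_of_pos (by positivity)]
      calc (2 : ℝ) ^ m * |co (qa r (W.θ ω')) v i| ≤ 2 ^ (k + r) * (2 * (1 / 2 : ℝ) ^ n) :=
            mul_le_mul (pow_le_pow_right₀ (by norm_num) hm) (h2 i) (abs_nonneg _) (by positivity)
        _ = 2 * ((2 : ℝ) ^ (k + r) * (1 / 2) ^ n) := by ring
        _ ≤ 2 * (4 * (1 / 2) ^ n') := by linarith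
        _ = _ := by push_cast; ring
    fin_cases i
    · exact h3 k 0 (Nat.le_add_right _ _)
    · exact h3 (k + r) 1 le_rfl
  refine ⟨fun i => ?_, fun i => ?_⟩
  · rw [(lst_sub e0 i).1]
    exact key _ (fun i => Apx.fl_close e3 i) i
  · rw [(lst_sub e0 i).2]
    exact key _ (fun i => Apx.fl_close e4 i) i

end known

end Vale.Agent.P127.U.Red
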