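import Vale.Agent.P127.U.Lam.RedE

/-!
# P127 / U / Lam : reduction, part F (helper624)

The value of the label of the level `s` is at most the penalised excess of the stretched lines at the
level `s`.
-/

set_option autoImplicit false

namespace Vale.Agent.P127.U.Red

open Filter Topology Vale.Agent.P127 Vale.Agent.P127.Stk Vale.Agent.P127.U Sys Str

section pointwise

variable {Ω : Type} {l : Ω → Ln} {W : Bx Ω} {t : Ω → ℝ} {s k j r : ℕ}

/-- two points with the same label of `W` -/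
theorem w_data {ω ω' : Ω} (hkj : k ≤ j) (h : W.l ω = blF s l t ω ∧ W.k ω = k ∧ W.j ω = j)
    (h' : W.l ω' = blF s l t ω' ∧ W.k ω' = k ∧ W.j ω' = j) (e : W.lab ω' = W.lab ω) :
    (∀ v, gq (W.θ ω') k j v ≤ 16 * gq (W.θ ω) k j v) ∧
    (∀ v, gq (W.θ ω) k j v ≤ 16 * gq (W.θ ω') k j v) ∧
    gq (W.θ ω) k j (fun i => (blF s l t ω').1 i - (blF s l t ω).1 i) ≤ 16 ∧
    gq (W.θ ω) k j (fun i => (l ω').2 i - (l ω).2 i) ≤ 16 := by
  obtain ⟨a1, a2, a3, a4⟩ := LR_of_lab (B := W) (ω := ω) (ω' := ω') (by rw [h.2.1, h.2.2]; exact hkj) e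
  rw [h.2.1, h.2.2, h'.2.1, h'.2.2] at a1 a2
  rw [h.2.1, h.2.2, h.1, h'.1] at a3 a4
  have e16 : ((2 : ℝ) ^ 2) ^ 2 = 16 := by norm_num
  rw [e16] at a3 a4
  refine ⟨fun v => ?_, fun v => ?_, a3, a4⟩
  · have := a1 v
    rwa [e16] at this
  · have := a2 v
    rwa [e16] at this

/-- positions of the stretched lines -/
theorem pos_lst_sub {ω ω' : Ω} (eF : (frm l W k r).lab ω' = (frm l W k r).lab ω)
    (eI : ipF s l t ω' = ipF s l t ω) (et : fl1 s (t ω') = fl1 s (t ω)) (i : Fin 2) :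
    pos (lst l W k r ω') (qa s (t ω')) i - pos (lst l W k r ω) (qa s (t ω)) i =
      (1 / 2 : ℝ) ^ s * stv (qa r (W.θ ω)) k (k + r)
        (fun i => (blF s l t ω').1 i - (blF s l t ω).1 i) i := by
  have eq : qa s (t ω') = qa s (t ω) := by unfold qa; rw [et]
  obtain ⟨h1, h2⟩ := lst_sub eF i
  have e1 : pos (lst l W k r ω') (qa s (t ω')) i - pos (lst l W k r ω) (qa s (t ω)) i =
      1 * ((lst l W k r ω').1 i - (lst l W k r ω).1 i) +
        qa s (t ω) * ((lst l W k r ω').2 i - (lst l W k r ω).2 i) := by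
    rw [eq]
    unfold pos
    ring
  rw [e1, h1, h2, ← stv_lin]
  have e2 : (fun i => (1 : ℝ) * ((l ω').1 i - (l ω).1 i) + qa s (t ω) * ((l ω').2 i - (l ω).2 i)) =
      fun i => (1 / 2 : ℝ) ^ s * ((blF s l t ω').1 i - (blF s l t ω).1 i) +
        0 * ((blF s l t ω').1 i - (blF s l t ω).1 i) := by
    funext i
    have p1 := pos_split s l t ω i
    have p2 := pos_split s l t ω' i
    rw [eI, eq] at p2
    have q1 : (l ω).1 i = pos (l ω) (qa s (t ω)) i - qa s (t ω) * (l ω).2 i := by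
      unfold pos; ring
    have q2 : (l ω').1 i = pos (l ω') (qa s (t ω)) i - qa s (t ω) * (l ω').2 i := by
      unfold pos; ring
    rw [q1, q2, p1, p2]
    ring
  rw [e2, stv_lin]
  ring

/-- balls of the stretched lines -/
theorem blF_lst_sub {ω ω' : Ω} (eF : (frm l W k r).lab ω' = (frm l W k r).lab ω)
    (eI : ipF s l t ω' = ipF s l t ω) (et : fl1 s (t ω') = fl1 s (t ω))
    (eI' : ipF s (lst l W k r) t ω' = ipF s (lst l W k r) t ω) (i : Fin 2) :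
    (blF s (lst l W k r) t ω').1 i - (blF s (lst l W k r) t ω).1 i =
      stv (qa r (W.θ ω)) k (k + r) (fun i => (blF s l t ω').1 i - (blF s l t ω).1 i) i := by
  have h1 := pos_lst_sub eF eI et i
  have p1 := pos_split s (lst l W k r) t ω i
  have p2 := pos_split s (lst l W k r) t ω' i
  rw [eI'] at p2
  rw [p1, p2] at h1
  have hp : (0 : ℝ) < (1 / 2 : ℝ) ^ s := by positivity
  have h2 : (1 / 2 : ℝ) ^ s * ((blF s (lst l W k r) t ω').1 i - (blF s (lst l W k r) t ω).1 i) =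
      (1 / 2 : ℝ) ^ s * stv (qa r (W.θ ω)) k (k + r)
        (fun i => (blF s l t ω').1 i - (blF s l t ω).1 i) i := by
    rw [← h1]
    ring
  exact mul_left_cancel₀ hp.ne' h2

end pointwise

section fin

variable {Ω : Type} [Fintype Ω] {γ : Type*} {P : Law Ω} {l : Ω → Ln} {t : Ω → ℝ}
  {s n k j r : ℕ} {W : Bx Ω}

/-- the frame is known from the label of the level `s` -/
theorem hc_frm_w (h : OkS P l t s n k j W) (hr : k + r ≤ j) (Y : Ω → γ) :
    Stk.hc P (frm l W k r).lab (fun ω => (W.lab ω, pq s (ptF l t ω), Y ω)) ≤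
      cL 5 + 2 * Real.log 5 := by
  have h1 := Stk.hc_le_add' P (frm l W k r).lab (ipF s l t)
    (fun ω => (W.lab ω, pq s (ptF l t ω), Y ω))
  have h2 : Stk.hc P (ipF s l t) (fun ω => (W.lab ω, pq s (ptF l t ω), Y ω)) ≤ 2 * Real.log 5 := by
    refine le_trans (Stk.hc_mono_right P _ ?_) (hc_ip P h.g (fun ω => (W.lab ω, Y ω)))
    intro ω ω' _ _ e
    simp only [Prod.mk.injEq] at e ⊢
    exact ⟨e.2.1, e.1, e.2.2⟩
  have h3 : Stk.hc P (frm l W k r).lab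
      (fun ω => (ipF s l t ω, W.lab ω, pq s (ptF l t ω), Y ω)) ≤ cL 5 := by
    refine hc_lab_le P _ _ 5 (fun ω hω => ⟨(h.w ω hω).2.1, Nat.le_add_right _ _⟩) ?_
    intro ω ω' p p' e
    simp only [Prod.mk.injEq, pq, ptF] at e
    obtain ⟨a1, a2, a3, a4⟩ := h.w ω p
    obtain ⟨b1, b2, b3, b4⟩ := h.w ω' p'
    obtain ⟨c1, c2, c3, c4⟩ := lev0_LR (l := l) (h.g ω p).2 (by rw [a3, a4]; exact h.kj) a1 b1
      e.2.1 e.1 e.2.2.1.1
    have c1' : ∀ v, gq (W.θ ω') k j v ≤ ((2:ℝ) ^ 4) ^ 2 * gq (W.θ ω) k j v := by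
      intro v
      have := c1 v
      unfold lev0 at this
      simp only at this
      rwa [a3, a4, b3, b4] at this
    have c2' : ∀ v, gq (W.θ ω) k j v ≤ ((2:ℝ) ^ 4) ^ 2 * gq (W.θ ω') k j v := by
      intro v
      have := c2 v
      unfold lev0 at this
      simp only at this
      rwa [a3, a4, b3, b4] at this
    have c3' : gq (W.θ ω) k j (fun i => (l ω').1 i - (l ω).1 i) ≤ ((2:ℝ) ^ 4) ^ 2 := by
      have := c3
      unfold lev0 at this
      simp only at this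
      rwa [a3, a4] at this
    have c4' : gq (W.θ ω) k j (fun i => (l ω').2 i - (l ω).2 i) ≤ ((2:ℝ) ^ 4) ^ 2 := by
      have := c4
      unfold lev0 at this
      simp only at this
      rwa [a3, a4] at this
    have key : ∀ θ θ' : ℝ, (∀ v, gq θ' k j v ≤ ((2:ℝ) ^ 4) ^ 2 * gq θ k j v) →
        |Real.sin (θ - θ')| ≤ 2 ^ 4 * (1 / 2 : ℝ) ^ (k + r - k) := by
      intro θ θ' hc
      obtain ⟨-, -, h3⟩ := cmp_shape h.kj h.kj hc
      rw [Nat.add_sub_cancel_left]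
      have e1 : (2 : ℝ) ^ j = 2 ^ (j - k) * 2 ^ k := by rw [← pow_add]; congr 1; have := h.kj; omega
      have e2 : (2 : ℝ) ^ (j - k) * |Real.sin (θ - θ')| ≤ 2 ^ 4 := by
        have pk : (0 : ℝ) < 2 ^ k := by positivity
        rw [e1] at h3
        have : ((2 : ℝ) ^ (j - k) * |Real.sin (θ - θ')|) * 2 ^ k ≤ 2 ^ 4 * 2 ^ k := by linarith
        exact le_of_mul_le_mul_right this pk
      have e3 : (2 : ℝ) ^ r * |Real.sin (θ - θ')| ≤ 2 ^ 4 := by
        refine le_trans (mul_le_mul_of_nonneg_right ?_ (abs_nonneg _)) e2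
        exact pow_le_pow_right₀ (by norm_num) (by omega)
      calc |Real.sin (θ - θ')| = (1 / 2 : ℝ) ^ r * (2 ^ r * |Real.sin (θ - θ')|) := by
            rw [← mul_assoc, ← mul_pow]; norm_num
        _ ≤ (1 / 2 : ℝ) ^ r * 2 ^ 4 := by gcongr
        _ = _ := by ring
    refine ⟨fun v => ?_, fun v => ?_, ?_, ?_⟩
    · exact gq_frame (m := 4) le_rfl (Nat.le_add_right _ _) b2 (key _ _ c1') v
    · exact gq_frame (m := 4) le_rfl (Nat.le_add_right _ _) a2 (key _ _ c2') v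
    · refine le_trans (gq_mono le_rfl hr _) (c3'.trans ?_)
      norm_num
    · refine le_trans (gq_mono le_rfl hr _) (c4'.trans ?_)
      norm_num
  linarith

/-- the integer part of the stretched position -/
theorem hc_ip_lst (h : OkS P l t s n k j W) (hr : k + r ≤ j) (Y : Ω → γ) :
    Stk.hc P (ipF s (lst l W k r) t)
      (fun ω => (ipF s l t ω, ((frm l W k r).lab ω, (W.lab ω, (pq s (ptF l t ω), Y ω))))) ≤
      2 * Real.log (2 * (8 : ℕ) + 3) := by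
  have h1 := Apx.hc_fl_apx P s 8 (fun ω => pos (lst l W k r ω) (qa s (t ω)))
    (fun ω => (ipF s l t ω, ((frm l W k r).lab ω, (W.lab ω, (pq s (ptF l t ω), Y ω)))))
    (fun ω ω' p p' e i => by
      simp only [Prod.mk.injEq, pq, ptF] at e
      obtain ⟨eI, eF, eW, ⟨et, -⟩, -⟩ := e
      rw [pos_lst_sub (ω := ω') (ω' := ω) eF eI et i, abs_mul, abs_of_pos (by positivity)]
      obtain ⟨a1, a2, a3, a4⟩ := h.w ω p
      obtain ⟨b1, b2, b3, b4⟩ := h.w ω' p'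
      obtain ⟨-, -, c3, -⟩ := w_data (l := l) h.kj ⟨b1, b3, b4⟩ ⟨a1, a3, a4⟩ eW
      have h2 := stv_abs (c := 8) (by norm_num) (((gq_fr hr ω' _).trans (by
        have : ((2:ℝ) ^ 1) ^ 2 * gq (W.θ ω') k j
            (fun i => (blF s l t ω).1 i - (blF s l t ω').1 i) ≤ ((2:ℝ) ^ 1) ^ 2 * 16 :=
          mul_le_mul_of_nonneg_left c3 (by norm_num)
        refine this.trans ?_
        norm_num))) i
      push_cast
      rw [mul_comm]
      exact mul_le_mul_of_nonneg_right h2 (by positivity))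
  simp only [Fintype.card_fin] at h1
  exact h1

/-- the point of the stretched line -/
theorem hc_pq_lst (L : Ω → Ln) (hL : ∀ ω, 0 < P.w ω → LnOk (L ω)) (Y : Ω → γ) :
    Stk.hc P (fun ω => pq s (ptF L t ω)) (fun ω => (ipF s L t ω, (fl1 s (t ω), Y ω))) ≤
      2 * Real.log 5 := by
  have h1 := hc_fl_close P (s := s) 1 (fun ω => pos (L ω) (t ω)) (fun ω => pos (L ω) (qa s (t ω)))
    (fun ω => (fl1 s (t ω), Y ω)) (fun ω hω i => by
      have h2 := qa_close s (t ω)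
      have e : pos (L ω) (t ω) i - pos (L ω) (qa s (t ω)) i = (t ω - qa s (t ω)) * (L ω).2 i := by
        unfold pos; ring
      rw [e, abs_mul]
      push_cast
      calc |t ω - qa s (t ω)| * |(L ω).2 i| ≤ (1 / 2 : ℝ) ^ s * 1 :=
            mul_le_mul h2 ((hL ω hω).2 i) (abs_nonneg _) (by positivity)
        _ = 1 * (1 / 2 : ℝ) ^ s := by ring)
  simp only [Fintype.card_fin, Nat.cast_one, Nat.cast_ofNat] at h1
  norm_num at h1
  refine le_trans (Stk.hc_mono_left P ?_) h1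
  intro ω ω' _ _ e
  simp only [Prod.mk.injEq] at e
  show (fl1 s (t ω), fl s (pos (L ω) (t ω))) = (fl1 s (t ω'), fl s (pos (L ω') (t ω')))
  rw [e.1, e.2.2.1]

/-- the label of the stretched box -/
theorem hc_lab_lst (h : OkS P l t s n k j W) {ψ : Ω → ℝ} {k' j' : Ω → ℕ}
    (hT : ∀ ω, 0 < P.w ω → |ψ ω| ≤ 4 ∧ k' ω ≤ j' ω ∧
      (∀ v, gq (ψ ω) (k' ω) (j' ω) (stv (qa r (W.θ ω)) k (k + r) v) ≤
        ((2:ℝ) ^ 1) ^ 2 * gq (W.θ ω) k j v) ∧
      (∀ v, gq (W.θ ω) k j v ≤ 4 * gq (ψ ω) (k' ω) (j' ω) (stv (qa r (W.θ ω)) k (k + r) v)))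
    (Y : Ω → γ) :
    Stk.hc P (Bx.lab ⟨blF s (lst l W k r) t, ψ, k', j'⟩)
      (fun ω => (ipF s (lst l W k r) t ω, (ipF s l t ω, ((frm l W k r).lab ω,
        (W.lab ω, (pq s (ptF l t ω), Y ω)))))) ≤ cL 4 := by
  refine hc_lab_le P _ _ 4 (fun ω hω => ⟨(hT ω hω).1, (hT ω hω).2.1⟩) ?_
  intro ω ω' p p' e
  simp only [Prod.mk.injEq, pq, ptF] at e
  obtain ⟨eI', eI, eF, eW, ⟨et, -⟩, -⟩ := e
  obtain ⟨a1, a2, a3, a4⟩ := h.w ω p
  obtain ⟨b1, b2, b3, b4⟩ := h.w ω' p'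
  obtain ⟨c1, c2, c3, c4⟩ := w_data (l := l) h.kj ⟨a1, a3, a4⟩ ⟨b1, b3, b4⟩ eW
  obtain ⟨-, -, t1, t2⟩ := hT ω p
  obtain ⟨-, -, t1', t2'⟩ := hT ω' p'
  obtain ⟨-, eq, -, -⟩ := frm_lab eF
  rw [eq] at t1' t2'
  have e4 : ((2:ℝ) ^ 1) ^ 2 = 4 := by norm_num
  have e256 : ((2:ℝ) ^ 4) ^ 2 = 256 := by norm_num
  rw [e4] at t1 t1'
  refine ⟨fun w => ?_, fun w => ?_, ?_, ?_⟩
  · show gq (ψ ω') (k' ω') (j' ω') w ≤ ((2:ℝ) ^ 4) ^ 2 * gq (ψ ω) (k' ω) (j' ω) w
    obtain ⟨v, rfl⟩ := stv_surj (qa r (W.θ ω)) k (k + r) w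
    rw [e256]
    have := t1' v
    have := c1 v
    have := t2 v
    linarith
  · show gq (ψ ω) (k' ω) (j' ω) w ≤ ((2:ℝ) ^ 4) ^ 2 * gq (ψ ω') (k' ω') (j' ω') w
    obtain ⟨v, rfl⟩ := stv_surj (qa r (W.θ ω)) k (k + r) w
    rw [e256]
    have := t1 v
    have := c2 v
    have := t2' v
    linarith
  · show gq (ψ ω) (k' ω) (j' ω) (fun i => (blF s (lst l W k r) t ω').1 i -
      (blF s (lst l W k r) t ω).1 i) ≤ ((2:ℝ) ^ 4) ^ 2
    have e1 : (fun i => (blF s (lst l W k r) t ω').1 i - (blF s (lst l W k r) t ω).1 i) =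
        stv (qa r (W.θ ω)) k (k + r) (fun i => (blF s l t ω').1 i - (blF s l t ω).1 i) :=
      funext fun i => blF_lst_sub eF eI et eI' i
    rw [e1, e256]
    have := t1 (fun i => (blF s l t ω').1 i - (blF s l t ω).1 i)
    linarith
  · show gq (ψ ω) (k' ω) (j' ω) (fun i => (lst l W k r ω').2 i - (lst l W k r ω).2 i) ≤
      ((2:ℝ) ^ 4) ^ 2
    have e1 : (fun i => (lst l W k r ω').2 i - (lst l W k r ω).2 i) =
        stv (qa r (W.θ ω)) k (k + r) (fun i => (l ω').2 i - (l ω).2 i) :=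
      funext fun i => (lst_sub eF i).2
    rw [e1, e256]
    have := t1 (fun i => (l ω').2 i - (l ω).2 i)
    linarith

/-- the tubelet from the tube of the ball -/
theorem hc_tlF {n' : ℕ} (hs : s ≤ n') (L : Ω → Ln) (Y : Ω → γ) :
    Stk.hc P (tlF s n' L t) (fun ω => (ipF s L t ω, ((tbx (n' - s) (blF s L t)).lab ω,
      (fl1 s (t ω), Y ω)))) = 0 := by
  refine Stk.hc_zero P ?_
  intro ω ω' _ _ e
  simp only [Prod.mk.injEq] at e
  obtain ⟨eI, eB, et, -⟩ := e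
  have eB' := LocT.tbx_lab.1 eB
  unfold tb at eB'
  simp only [Prod.mk.injEq] at eB'
  show (fl1 s (t ω), fl n' (pos (L ω) (qa s (t ω))), fl (n' - s) (L ω).2) =
    (fl1 s (t ω'), fl n' (pos (L ω') (qa s (t ω'))), fl (n' - s) (L ω').2)
  have e2 : fl (n' - s) (L ω).2 = fl (n' - s) (L ω').2 := eB'.2
  have e1 : fl n' (pos (L ω) (qa s (t ω))) = fl n' (pos (L ω') (qa s (t ω'))) := by
    funext i
    have h1 := fl_fract s (n' - s) (pos (L ω) (qa s (t ω))) i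
    have h2 := fl_fract s (n' - s) (pos (L ω') (qa s (t ω'))) i
    have h3 : fl (n' - s) (fun i => Int.fract ((2 : ℝ) ^ s * pos (L ω) (qa s (t ω)) i)) i =
      fl (n' - s) (fun i => Int.fract ((2 : ℝ) ^ s * pos (L ω') (qa s (t ω')) i)) i :=
      congrFun eB'.1 i
    have h4 : fl s (pos (L ω) (qa s (t ω))) i = fl s (pos (L ω') (qa s (t ω'))) i := congrFun eI i
    rw [h1, h2, h4] at h3
    have h5 : s + (n' - s) = n' := by omega
    rw [h5] at h3
    linarith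
  rw [et, e1, e2]

/-- the constant of the step -/
noncomputable def cA : ℝ :=
  cL 5 + cL 4 + 8 * Real.log 5 + 2 * Real.log (2 * (8 : ℕ) + 3) + 4 * Real.log 2

/-- chain rule -/
theorem chainA {α₁ α₂ α₃ α₄ α₅ α₆ α₇ α₈ : Type*} (x : Ω → α₁) (y : Ω → α₂) (F : Ω → α₃)
    (Z0 : Ω → α₄) (T : Ω → α₅) (pL : Ω → α₆) (B : Ω → α₇) (tl : Ω → α₈) {a b c : ℝ}
    (ha : Stk.hc P F Z0 ≤ a) (hb : Stk.hc P (fun ω => (T ω, pL ω)) (fun ω => (F ω, Z0 ω)) ≤ b)
    (hc : Stk.hc P tl (fun ω => (B ω, (T ω, (pL ω, F ω)))) ≤ c) :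
    Stk.hc P x Z0 ≤ Stk.hc P x (fun ω => (y ω, F ω)) + Stk.hc P y (fun ω => (tl ω, F ω)) +
      Stk.hc P B (fun ω => (T ω, (pL ω, F ω))) + a + b + c := by
  have c1 : Stk.hc P x Z0 ≤ Stk.hc P x (fun ω => (y ω, F ω)) +
      Stk.hc P (fun ω => (y ω, F ω)) Z0 := by
    have g1 := Stk.hc_le_add' P x (fun ω => (y ω, F ω)) Z0
    have g2 : Stk.hc P x (fun ω => ((y ω, F ω), Z0 ω)) ≤ Stk.hc P x (fun ω => (y ω, F ω)) :=
      Stk.hc_mono_right P x fun ω ω' _ _ e => congrArg Prod.fst e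
    linarith
  have c2 : Stk.hc P (fun ω => (y ω, F ω)) Z0 ≤ Stk.hc P F Z0 +
      Stk.hc P y (fun ω => (F ω, Z0 ω)) := by
    have g1 := Stk.hc_le_add' P (fun ω => (y ω, F ω)) F Z0
    have g2 : Stk.hc P (fun ω => (y ω, F ω)) (fun ω => (F ω, Z0 ω)) ≤
        Stk.hc P y (fun ω => (F ω, Z0 ω)) := by
      refine Stk.hc_mono_left P ?_
      intro ω ω' _ _ e
      have e1 : y ω = y ω' := congrArg Prod.fst e
      have e2 : F ω = F ω' := congrArg (fun z => z.2.1) e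
      show (y ω, F ω) = (y ω', F ω')
      rw [e1, e2]
    linarith
  have c4 : Stk.hc P y (fun ω => (F ω, Z0 ω)) ≤
      Stk.hc P y (fun ω => (T ω, (pL ω, F ω))) +
      Stk.hc P (fun ω => (T ω, pL ω)) (fun ω => (F ω, Z0 ω)) := by
    have g1 := Stk.hc_le_add' P y (fun ω => (T ω, pL ω)) (fun ω => (F ω, Z0 ω))
    have g2 : Stk.hc P y (fun ω => ((T ω, pL ω), (F ω, Z0 ω))) ≤
        Stk.hc P y (fun ω => (T ω, (pL ω, F ω))) := by
      refine Stk.hc_mono_right P y fun ω ω' _ _ e => ?_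
      have e1 : T ω = T ω' := congrArg (fun z => z.1.1) e
      have e2 : pL ω = pL ω' := congrArg (fun z => z.1.2) e
      have e3 : F ω = F ω' := congrArg (fun z => z.2.1) e
      show (T ω, (pL ω, F ω)) = (T ω', (pL ω', F ω'))
      rw [e1, e2, e3]
    linarith
  have c6 : Stk.hc P y (fun ω => (T ω, (pL ω, F ω))) ≤
      Stk.hc P y (fun ω => (tl ω, F ω)) + Stk.hc P tl (fun ω => (T ω, (pL ω, F ω))) := by
    have g1 := Stk.hc_le_add' P y tl (fun ω => (T ω, (pL ω, F ω)))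
    have g2 : Stk.hc P y (fun ω => (tl ω, (T ω, (pL ω, F ω)))) ≤
        Stk.hc P y (fun ω => (tl ω, F ω)) := by
      refine Stk.hc_mono_right P y fun ω ω' _ _ e => ?_
      have e1 : tl ω = tl ω' := congrArg Prod.fst e
      have e2 : F ω = F ω' := congrArg (fun z => z.2.2.2) e
      show (tl ω, F ω) = (tl ω', F ω')
      rw [e1, e2]
    linarith
  have c7 := Stk.hc_le_add' P tl B (fun ω => (T ω, (pL ω, F ω)))
  linarith

/-- the label of the stretched box and the point of the stretched line are known -/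
theorem knownA (h : OkS P l t s n k j W) (hr : k + r ≤ j) {ψ : Ω → ℝ} {k' j' : Ω → ℕ}
    (hT : ∀ ω, 0 < P.w ω → |ψ ω| ≤ 4 ∧ k' ω ≤ j' ω ∧
      (∀ v, gq (ψ ω) (k' ω) (j' ω) (stv (qa r (W.θ ω)) k (k + r) v) ≤
        ((2:ℝ) ^ 1) ^ 2 * gq (W.θ ω) k j v) ∧
      (∀ v, gq (W.θ ω) k j v ≤ 4 * gq (ψ ω) (k' ω) (j' ω) (stv (qa r (W.θ ω)) k (k + r) v))) :
    Stk.hc P (fun ω => (Bx.lab ⟨blF s (lst l W k r) t, ψ, k', j'⟩ ω,
      pq s (ptF (lst l W k r) t ω)))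
      (fun ω => ((frm l W k r).lab ω, (W.lab ω, (pq s (ptF l t ω), ())))) ≤
      2 * Real.log 5 + 2 * Real.log (2 * (8 : ℕ) + 3) + (cL 4 + 2 * Real.log 5) := by
  set L := lst l W k r with hL
  set F := (frm l W k r).lab with hF
  set Tl : Ω → Lab := Bx.lab ⟨blF s L t, ψ, k', j'⟩ with hTl
  set Z0 : Ω → _ := fun ω => (W.lab ω, (pq s (ptF l t ω), ())) with hZ0
  set pL : Ω → _ := fun ω => pq s (ptF L t ω) with hpL
  set I := ipF s l t with hI
  set I' := ipF s L t with hI'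
  have g1 := Stk.hc_le_add' P (fun ω => (Tl ω, pL ω)) I (fun ω => (F ω, Z0 ω))
  have g2 : Stk.hc P I (fun ω => (F ω, Z0 ω)) ≤ 2 * Real.log 5 := by
    refine le_trans (Stk.hc_mono_right P _ ?_) (hc_ip P h.g (fun ω => (F ω, W.lab ω)))
    intro ω ω' _ _ e
    have e1 : F ω = F ω' := congrArg Prod.fst e
    have e2 : W.lab ω = W.lab ω' := congrArg (fun z => z.2.1) e
    have e3 : pq s (ptF l t ω) = pq s (ptF l t ω') := congrArg (fun z => z.2.2.1) e
    show (pq s (ptF l t ω), (F ω, W.lab ω)) = (pq s (ptF l t ω'), (F ω', W.lab ω'))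
    rw [e1, e2, e3]
  have g3 := Stk.hc_le_add' P (fun ω => (Tl ω, pL ω)) I' (fun ω => (I ω, (F ω, Z0 ω)))
  have g4 : Stk.hc P I' (fun ω => (I ω, (F ω, Z0 ω))) ≤ 2 * Real.log (2 * (8 : ℕ) + 3) :=
    hc_ip_lst h hr (fun _ => ())
  have g5 := Apx.hc_pair_le P Tl pL (fun ω => (I' ω, (I ω, (F ω, Z0 ω))))
  have g6 : Stk.hc P Tl (fun ω => (I' ω, (I ω, (F ω, Z0 ω)))) ≤ cL 4 :=
    hc_lab_lst h hT (fun _ => ())
  have g7 : Stk.hc P pL (fun ω => (I' ω, (I ω, (F ω, Z0 ω)))) ≤ 2 * Real.log 5 := by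
    refine le_trans (Stk.hc_mono_right P _ ?_)
      (hc_pq_lst (s := s) (t := t) L (fun ω _ => stl_ok _ _ _ _) (fun _ => ()))
    intro ω ω' _ _ e
    have e1 : I' ω = I' ω' := congrArg Prod.fst e
    have e3 : pq s (ptF l t ω) = pq s (ptF l t ω') := congrArg (fun z => z.2.2.2.2.1) e
    have e4 : fl1 s (t ω) = fl1 s (t ω') := congrArg Prod.fst e3
    show (I' ω, (fl1 s (t ω), ())) = (I' ω', (fl1 s (t ω'), ()))
    rw [e4, e1]
  linarith

/-- the tubelet is known from the tube of the ball and the point -/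
theorem knownB {δ : Type*} {n' : ℕ} (hs : s ≤ n') {L : Ω → Ln} (hL : GoodF P L t) (T : Ω → δ)
    (F : Ω → γ) :
    Stk.hc P (tlF s n' L t) (fun ω => ((tbx (n' - s) (blF s L t)).lab ω,
      (T ω, (pq s (ptF L t ω), F ω)))) ≤ 2 * Real.log 5 := by
  set B := (tbx (n' - s) (blF s L t)).lab with hB
  set tl := tlF s n' L t with htl
  set pL : Ω → _ := fun ω => pq s (ptF L t ω) with hpL
  have g2 := Stk.hc_le_add' P tl (ipF s L t) (fun ω => (B ω, (T ω, (pL ω, F ω))))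
  have g3 : Stk.hc P (ipF s L t) (fun ω => (B ω, (T ω, (pL ω, F ω)))) ≤ 2 * Real.log 5 := by
    refine le_trans (Stk.hc_mono_right P _ ?_) (hc_ip P hL (fun _ => ()))
    intro ω ω' _ _ e
    have e1 : pL ω = pL ω' := congrArg (fun z => z.2.2.1) e
    show (pL ω, ()) = (pL ω', ())
    rw [e1]
  have g4 : Stk.hc P tl (fun ω => (ipF s L t ω, (B ω, (T ω, (pL ω, F ω))))) ≤ 0 := by
    refine le_trans (Stk.hc_mono_right P _ ?_)
      (hc_tlF (P := P) (t := t) (s := s) (n' := n') hs L (fun _ => ())).le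
    intro ω ω' _ _ e
    have e1 : ipF s L t ω = ipF s L t ω' := congrArg Prod.fst e
    have e2 : B ω = B ω' := congrArg (fun z => z.2.1) e
    have e3 : pL ω = pL ω' := congrArg (fun z => z.2.2.2.1) e
    have e4 : fl1 s (t ω) = fl1 s (t ω') := congrArg Prod.fst e3
    show (ipF s L t ω, (B ω, (fl1 s (t ω), ()))) = (ipF s L t ω', (B ω', (fl1 s (t ω'), ())))
    rw [e1, e2, e4]
  linarith

/-- sizes -/
theorem szA {lam : ℝ} (hl : 0 ≤ lam ∧ lam ≤ 1) {n' : ℕ} (hs : s ≤ n') {L L' : Ω → Ln} {ψ : Ω → ℝ}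
    {k' j' : Ω → ℕ} (hu : ∀ ω, k + j ≤ k' ω + j' ω + (k + (k + r)) + 2) :
    (P.ex fun ω => (tbx (n' - s) L).szl lam ω - Bx.szl lam ⟨L', ψ, k', j'⟩ ω) ≤
      2 * ((n' : ℝ) - s) - (1 - lam) * ((j : ℝ) - k - r) + 4 := by
  rw [← P.ex_const (2 * ((n' : ℝ) - s) - (1 - lam) * ((j : ℝ) - k - r) + 4)]
  refine P.ex_mono fun ω _ => ?_
  have e1 : (tbx (n' - s) L).szl lam ω = 2 * ((n' : ℝ) - s) := by
    show (1 + lam) * ((n' - s : ℕ) : ℝ) + (1 - lam) * ((n' - s : ℕ) : ℝ) = _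
    rw [Nat.cast_sub hs]
    ring
  have e2 : Bx.szl lam ⟨L', ψ, k', j'⟩ ω = (1 + lam) * (k' ω : ℝ) + (1 - lam) * (j' ω : ℝ) := rfl
  rw [e1, e2]
  have e3 : (k : ℝ) + j ≤ k' ω + j' ω + (k + (k + r)) + 2 := by exact_mod_cast hu ω
  have e4 : (0 : ℝ) ≤ k' ω := Nat.cast_nonneg _
  have e5 := mul_le_mul_of_nonneg_left e3 (show 0 ≤ 1 - lam by linarith [hl.2])
  have e6 := mul_nonneg hl.1 e4
  nlinarith [hl.1, hl.2]

theorem exV_le_self {lam : ℝ} (hl : 0 ≤ lam ∧ lam ≤ 1) {B T : Bx Ω} {C : Ω → γ}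
    (h : ∀ ω, 0 < P.w ω → Sub 1 B T ω) : exVl lam P B T C ≤ excFl lam P B C :=
  le_csSup (Lam.exSet_bddAbove hl P B C) (Lam.mem_exSet h)

theorem vW_le_XF_aux {lam : ℝ} (hl : 0 ≤ lam ∧ lam ≤ 1) (h : OkS P l t s n k j W) (hr : k + r ≤ j)
    {n' : ℕ} (hs : s ≤ n') (hgL : GoodF P (lst l W k r) t) {ψ : Ω → ℝ} {k' j' : Ω → ℕ}
    (u1 : ∀ ω, |ψ ω| ≤ 4) (u2 : ∀ ω, k' ω ≤ j' ω) (u3 : ∀ ω, j' ω ≤ n' - s)
    (u4 : ∀ ω, k + j ≤ k' ω + j' ω + (k + (k + r)) + 2)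
    (u5 : ∀ ω v, gq (ψ ω) (k' ω) (j' ω) (stv (qa r (W.θ ω)) k (k + r) v) ≤
        ((2:ℝ) ^ 1) ^ 2 * gq (W.θ ω) k j v)
    (u6 : ∀ ω v, gq (W.θ ω) k j v ≤
      4 * gq (ψ ω) (k' ω) (j' ω) (stv (qa r (W.θ ω)) k (k + r) v)) :
    vW lam P l t s n k j W (fun _ => ()) ≤
      XF lam P s n' (lst l W k r) t (fun ω => (frm l W k r).lab ω) +
      Stk.hc P (fun ω => tb n (l ω))
        (fun ω => (tb n' (lst l W k r ω), (frm l W k r).lab ω)) -
      Real.log 2 * (2 * (n : ℝ) - 2 * n' - (2 * k + r) + lam * r) + cA := by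
  have key := chainA (P := P) (fun ω => tb n (l ω)) (fun ω => tb n' (lst l W k r ω))
    (frm l W k r).lab (fun ω => (W.lab ω, (pq s (ptF l t ω), ())))
    (Bx.lab ⟨blF s (lst l W k r) t, ψ, k', j'⟩) (fun ω => pq s (ptF (lst l W k r) t ω))
    (tbx (n' - s) (blF s (lst l W k r) t)).lab (tlF s n' (lst l W k r) t)
    (hc_frm_w h hr (fun _ => ()))
    (knownA h hr (fun ω _ => ⟨u1 ω, u2 ω, u5 ω, u6 ω⟩)) (knownB hs hgL _ _)
  have c8 : exVl lam P (tbx (n' - s) (blF s (lst l W k r) t))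
      ⟨blF s (lst l W k r) t, ψ, k', j'⟩
      (fun ω => (pq s (ptF (lst l W k r) t ω), (frm l W k r).lab ω)) ≤
      excFl lam P (tbx (n' - s) (blF s (lst l W k r) t))
        (fun ω => (pq s (ptF (lst l W k r) t ω), (frm l W k r).lab ω)) :=
    exV_le_self hl fun ω _ => sub_tbx rfl (u1 ω) (u2 ω) (u3 ω)
  have c9 := szA (P := P) (k := k) (j := j) (r := r) hl hs (L := blF s (lst l W k r) t)
    (L' := blF s (lst l W k r) t) (ψ := ψ) u4
  have hlog : 0 < Real.log 2 := Real.log_pos (by norm_num)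
  have c10 := mul_le_mul_of_nonneg_left c9 hlog.le
  have e4 : Real.log 2 * (2 * ((n' : ℝ) - s) - (1 - lam) * ((j : ℝ) - k - r) + 4) =
      Real.log 2 * (2 * ((n : ℝ) - s) - ((1 + lam) * k + (1 - lam) * j)) -
      Real.log 2 * (2 * (n : ℝ) - 2 * n' - (2 * k + r) + lam * r) + 4 * Real.log 2 := by ring
  rw [e4] at c10
  have e0 : vW lam P l t s n k j W (fun _ => ()) = Stk.hc P (fun ω => tb n (l ω))
    (fun ω => (W.lab ω, (pq s (ptF l t ω), ()))) -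
    Real.log 2 * (2 * ((n : ℝ) - s) - ((1 + lam) * k + (1 - lam) * j)) := rfl
  have e1 : XF lam P s n' (lst l W k r) t (fun ω => (frm l W k r).lab ω) =
    excFl lam P (tbx (n' - s) (blF s (lst l W k r) t))
      (fun ω => (pq s (ptF (lst l W k r) t ω), (frm l W k r).lab ω)) +
    Stk.hc P (fun ω => tb n' (lst l W k r ω))
      (fun ω => (tlF s n' (lst l W k r) t ω, (frm l W k r).lab ω)) := rfl
  have e2 : exVl lam P (tbx (n' - s) (blF s (lst l W k r) t))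
      ⟨blF s (lst l W k r) t, ψ, k', j'⟩
      (fun ω => (pq s (ptF (lst l W k r) t ω), (frm l W k r).lab ω)) =
    Stk.hc P (tbx (n' - s) (blF s (lst l W k r) t)).lab
      (fun ω => (Bx.lab ⟨blF s (lst l W k r) t, ψ, k', j'⟩ ω,
        (pq s (ptF (lst l W k r) t ω), (frm l W k r).lab ω))) -
    Real.log 2 * (P.ex fun ω => (tbx (n' - s) (blF s (lst l W k r) t)).szl lam ω -
      Bx.szl lam ⟨blF s (lst l W k r) t, ψ, k', j'⟩ ω) := rfl
  rw [e2] at c8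
  rw [e0, e1]
  unfold cA
  clear e0 e1 e2 e4 c9
  generalize (Stk.hc P (fun ω => tb n (l ω))
    (fun ω => (W.lab ω, (pq s (ptF l t ω), ())))) = a1 at *
  generalize (Stk.hc P (fun ω => tb n (l ω))
        (fun ω => (tb n' (lst l W k r ω), (frm l W k r).lab ω))) = a2 at *
  generalize (Stk.hc P (fun ω => tb n' (lst l W k r ω))
      (fun ω => (tlF s n' (lst l W k r) t ω, (frm l W k r).lab ω))) = a3 at *
  generalize (Stk.hc P (tbx (n' - s) (blF s (lst l W k r) t)).lab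
      (fun ω => (Bx.lab ⟨blF s (lst l W k r) t, ψ, k', j'⟩ ω,
        (pq s (ptF (lst l W k r) t ω), (frm l W k r).lab ω)))) = a4 at *
  linarith

/-- **the value of the label of the level `s`** is at most `X(s)` of the stretched lines, plus the
entropy of the line given its coarse tube -/
theorem vW_le_XF {lam : ℝ} (hl : 0 ≤ lam ∧ lam ≤ 1) (h : OkS P l t s n k j W) (hr : k + r ≤ j)
    {n' : ℕ} (hn' : n' = s + (j - (k + r)) + 2) :
    vW lam P l t s n k j W (fun _ => ()) ≤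
      XF lam P s n' (lst l W k r) t (fun ω => (frm l W k r).lab ω) +
      Stk.hc P (fun ω => tb n (l ω))
        (fun ω => (tb n' (lst l W k r ω), (frm l W k r).lab ω)) -
      Real.log 2 * (2 * (n : ℝ) - 2 * n' - (2 * k + r) + lam * r) + cA := by
  have hkj := h.kj
  -- the stretched box
  have hT : ∀ ω, ∃ (ψ : ℝ) (k' j' : ℕ), |ψ| ≤ 2 ∧ k' ≤ j' ∧
      k' + j' + (k + (k + r)) ≤ k + j + 2 * 1 ∧ k + j ≤ k' + j' + (k + (k + r)) + 2 ∧
      (∀ v, gq ψ k' j' (stv (qa r (W.θ ω)) k (k + r) v) ≤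
        ((2:ℝ) ^ 1) ^ 2 * gq (W.θ ω) k j v) ∧
      (∀ v, gq (W.θ ω) k j v ≤ 4 * gq ψ k' j' (stv (qa r (W.θ ω)) k (k + r) v)) :=
    fun ω => strb (qa r (W.θ ω)) k (k + r) (W.θ ω) k j 1 (gq_fr hr ω)
  choose ψ k' j' u1 u2 u3 u4 u5 u6 using hT
  have hs : s ≤ n' := by omega
  have hgL : GoodF P (lst l W k r) t := fun ω hω => ⟨stl_ok _ _ _ _, (h.g ω hω).2⟩
  exact vW_le_XF_aux hl h hr hs hgL (fun ω => (u1 ω).trans (by norm_num)) u2
    (fun ω => by have := u3 ω; omega) u4 u5 u6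

/-- the coarse tube of the stretched line and the frame are known from the line -/
theorem hc_V_x (h : OkS P l t s n k j W) (hr : k + r ≤ j) {n' : ℕ}
    (hn' : n' = s + (j - (k + r)) + 2) {g : (Fin 2 → ℤ) × (Fin 2 → ℤ) → ℤ}
    (hg : ∀ ω, 0 < P.w ω → fl1 r (W.θ ω) = g (tb n (l ω))) (Y : Ω → γ) :
    Stk.hc P (fun ω => (tb n' (lst l W k r ω), (frm l W k r).lab ω))
      (fun ω => (tb n (l ω), Y ω)) ≤ cL 2 + 4 * Real.log (2 * (8 : ℕ) + 3) := by
  have hsn := h.sn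
  have g1 := Stk.hc_le_add' P (fun ω => (tb n' (lst l W k r ω), (frm l W k r).lab ω))
    (frm l W k r).lab (fun ω => (tb n (l ω), Y ω))
  have g2 := hc_frm_x (l := l) (W := W) (k := k) P (by omega : k + r ≤ n)
    (fun ω hω => (h.w ω hω).2.1) hg Y
  have g3 := hc_lst_x (l := l) (W := W) (k := k) (r := r) (n := n) (n' := n') P (by omega) Y
  have g4 : Stk.hc P (fun ω => (tb n' (lst l W k r ω), (frm l W k r).lab ω))
      (fun ω => ((frm l W k r).lab ω, (tb n (l ω), Y ω))) ≤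
      Stk.hc P (fun ω => tb n' (lst l W k r ω))
      (fun ω => ((frm l W k r).lab ω, (tb n (l ω), Y ω))) := by
    refine Stk.hc_mono_left P ?_
    intro ω ω' _ _ e
    have e1 : tb n' (lst l W k r ω) = tb n' (lst l W k r ω') := congrArg Prod.fst e
    have e2 : (frm l W k r).lab ω = (frm l W k r).lab ω' := congrArg (fun z => z.2.1) e
    show (tb n' (lst l W k r ω), (frm l W k r).lab ω) =
      (tb n' (lst l W k r ω'), (frm l W k r).lab ω')
    rw [e1, e2]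
  linarith

/-- the time deficit of the stretched lines -/
theorem DF_lst (h : OkS P l t s n k j W) (hr : k + r ≤ j) {n' : ℕ}
    (hn' : n' = s + (j - (k + r)) + 2) {g : (Fin 2 → ℤ) × (Fin 2 → ℤ) → ℤ}
    (hg : ∀ ω, 0 < P.w ω → fl1 r (W.θ ω) = g (tb n (l ω))) :
    DF P s n' (lst l W k r) t (fun ω => (frm l W k r).lab ω) ≤
      DF P s n l t (fun _ => ()) + (cL 2 + 4 * Real.log (2 * (8 : ℕ) + 3)) := by
  have g1 := Stk.hc_le_add' P (fun ω => fl1 s (t ω))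
    (fun ω => (tb n' (lst l W k r ω), (frm l W k r).lab ω)) (fun ω => (tb n (l ω), ()))
  have g2 := hc_V_x h hr hn' hg (fun _ => ())
  have g3 : Stk.hc P (fun ω => fl1 s (t ω))
      (fun ω => ((tb n' (lst l W k r ω), (frm l W k r).lab ω), (tb n (l ω), ()))) ≤
      Stk.hc P (fun ω => fl1 s (t ω)) (fun ω => (tb n' (lst l W k r ω), (frm l W k r).lab ω)) :=
    Stk.hc_mono_right P _ fun ω ω' _ _ e => congrArg Prod.fst e
  unfold DF
  linarith

end fin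

end Vale.Agent.P127.U.Red
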