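import Vale.Agent.P127.U.Lam.RedF

/-!
# P127 / U / Lam : reduction, part I (helper624)

* `jfk_cond` : `JFK` with side information
* `CStr` : the statement of the comparison of the excess of the stretched lines (proved in RedH)
* `aligned` : the inequality when the digits of the direction are a function of the line
* `phi_all`, `pFix_of` : the recursion, and `PFix`
-/

set_option autoImplicit false

namespace Vale.Agent.P127.U.Red

open Filter Topology Vale.Agent.P127 Vale.Agent.P127.Stk Vale.Agent.P127.U Sys Lam JSB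

/-- **finite form of `JFK` with side information** -/
theorem jfk_cond {N lam K β : ℝ} (hl : 0 ≤ lam ∧ lam ≤ 1) (hJ : JFK N lam K β) {ε : ℝ}
    (hε : 0 < ε) :
    ∃ c : ℝ, ∀ (Ω : Type) [Fintype Ω] (γ : Type) (P : Law Ω) (l : Ω → Ln) (t : Ω → ℝ) (s n : ℕ)
      (C : Ω → γ), GoodF P l t → s ≤ n → (n : ℝ) ≤ K * s →
      XF lam P s n l t C ≤ (β + ε) * s * Real.log 2 + c +
        excFl lam P (tbx n l) C + N * DF P s n l t C := by
  obtain ⟨c, hc⟩ := hJ ε hε
  refine ⟨c + 1, ?_⟩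
  intro Ω _ γ P l t s n C h hsn hK
  have h1 : ∀ z ∈ img C, P.pr C z * XF lam (P.cond C z) s n l t (fun _ => ()) ≤
      P.pr C z * ((β + ε) * s * Real.log 2 + c) +
      P.pr C z * excFl lam (P.cond C z) (tbx n l) (fun _ => ()) +
      N * (P.pr C z * DF (P.cond C z) s n l t (fun _ => ())) := by
    intro z _
    have h2 := hc Ω (P.cond C z) l t s n (fun ω hω => h ω (cond_supp P C z hω)) hsn hK
    have h3 := mul_le_mul_of_nonneg_left h2 (P.pr_nonneg C z)
    refine h3.trans (le_of_eq ?_)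
    ring
  have h2 := Finset.sum_le_sum h1
  rw [Finset.sum_add_distrib, Finset.sum_add_distrib, ← Finset.sum_mul, ← Finset.mul_sum,
    P.sum_pr_image C, one_mul, ← DF_cond_sum P s n l t C] at h2
  have hok : ∀ ω, 0 < P.w ω → BxOk (tbx n l) ω := fun ω hω => tbx_ok (h ω hω).1
  have h3 := excFl_cond_sum hl P (tbx n l) (fun _ => ()) C hok
  have h4 : excFl lam P (tbx n l) (fun ω => ((), C ω)) = excFl lam P (tbx n l) C :=
    excFl_congr hl _ _ hok fun ω ω' => by
      simp only [Prod.mk.injEq]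
      tauto
  rw [h4] at h3
  have h5 := XF_le_cond_sum hl P s n l t C h
  linarith

/-- comparison of the excess of the stretched lines and of the lines -/
def CStr (lam : ℝ) : Prop :=
  ∃ C : ℝ, ∀ (Ω : Type) [Fintype Ω] (P : Law Ω) (l : Ω → Ln) (t : Ω → ℝ) (s n k j r : ℕ)
    (W : Bx Ω) (g : (Fin 2 → ℤ) × (Fin 2 → ℤ) → ℤ), OkS P l t s n k j W → k + r ≤ j →
    (∀ ω, 0 < P.w ω → fl1 r (W.θ ω) = g (tb n (l ω))) →
    ∀ n' : ℕ, n' = s + (j - (k + r)) + 2 →
    excFl lam P (tbx n' (lst l W k r)) (fun ω => (frm l W k r).lab ω) ≤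
      excR lam P n l (fun _ => ()) k (s + j) +
      Real.log 2 * (2 * (n : ℝ) - 2 * n' - (2 * k + r) + lam * r) -
      Stk.hc P (fun ω => tb n (l ω))
        (fun ω => (tb n' (lst l W k r ω), (frm l W k r).lab ω)) + C

/-- **the aligned case** -/
theorem aligned {N lam K β : ℝ} (hl : 0 ≤ lam ∧ lam ≤ 1) (hN : 0 ≤ N) (hCS : CStr lam)
    (hJ : JFK N lam K β) {ε : ℝ} (hε : 0 < ε) :
    ∃ c : ℝ, ∀ (Ω : Type) [Fintype Ω] (P : Law Ω) (l : Ω → Ln) (t : Ω → ℝ) (s n k j r : ℕ)
      (W : Bx Ω) (g : (Fin 2 → ℤ) × (Fin 2 → ℤ) → ℤ), OkS P l t s n k j W → k + r ≤ j →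
      (∀ ω, 0 < P.w ω → fl1 r (W.θ ω) = g (tb n (l ω))) →
      ((s + (j - (k + r)) + 2 : ℕ) : ℝ) ≤ K * s →
      Phi N lam P l t s n k j W ≤ (β + ε) * s * Real.log 2 + c := by
  obtain ⟨c1, hc1⟩ := jfk_cond hl hJ hε
  obtain ⟨C2, hC2⟩ := hCS
  refine ⟨c1 + cA + C2 + N * (cL 2 + 4 * Real.log (2 * (8 : ℕ) + 3)), ?_⟩
  intro Ω _ P l t s n k j r W g h hr hg hK
  have hgL : GoodF P (lst l W k r) t := fun ω hω => ⟨Str.stl_ok _ _ _ _, (h.g ω hω).2⟩
  have g1 := vW_le_XF hl h hr rfl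
  have g2 := hc1 Ω _ P (lst l W k r) t s (s + (j - (k + r)) + 2) (fun ω => (frm l W k r).lab ω)
    hgL (by omega) hK
  have g3 := hC2 Ω P l t s n k j r W g h hr hg _ rfl
  have g4 := mul_le_mul_of_nonneg_left (DF_lst h hr rfl hg) hN
  have e : Phi N lam P l t s n k j W = vW lam P l t s n k j W (fun _ => ()) -
    excR lam P n l (fun _ => ()) k (s + j) - N * DF P s n l t (fun _ => ()) := rfl
  rw [e]
  linarith

/-- the values of `Phi` -/
def PhiSet (N lam : ℝ) (s n k j : ℕ) : Set ℝ :=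
  {v | ∃ (Ω : Type) (_ : Fintype Ω) (P : Law Ω) (l : Ω → Ln) (t : Ω → ℝ) (W : Bx Ω),
    OkS P l t s n k j W ∧ v = Phi N lam P l t s n k j W}

/-- the recursion -/
theorem phi_all {N lam β : ℝ} (h0 : 0 < lam) (h1 : lam ≤ 1) (hN : 0 ≤ N) (hβ : 0 ≤ β)
    (hCS : CStr lam) {M0 : ℕ}
    (hM : ∀ (Ω : Type) [Fintype Ω] (P : Law Ω) (l : Ω → Ln) (t : Ω → ℝ) (s n k j : ℕ)
      (W : Bx Ω), OkS P l t s n k j W →
      excR lam P n l (fun _ => ()) k (s + j) ≤ vW lam P l t s n k j W (fun _ => ()) →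
      ∃ (r : ℕ) (g : (Fin 2 → ℤ) × (Fin 2 → ℤ) → ℤ), r ≤ j - k ∧ (j - k) ≤ r + M0 * (s + 1) ∧
        1 / 346 ≤ prE P (fun ω => fl1 r (W.θ ω) = g (tb n (l ω))))
    (hJ : JFK N lam (2 * M0 + 3) β) {ε : ℝ} (hε : 0 < ε) :
    ∃ c : ℝ, ∀ (Ω : Type) [Fintype Ω] (P : Law Ω) (l : Ω → Ln) (t : Ω → ℝ) (s n k j : ℕ)
      (W : Bx Ω), OkS P l t s n k j W →
      Phi N lam P l t s n k j W ≤ (β + ε) * s * Real.log 2 + c := by
  classical
  have hl : 0 ≤ lam ∧ lam ≤ 1 := ⟨h0.le, h1⟩
  have hlog : 0 < Real.log 2 := Real.log_pos (by norm_num)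
  obtain ⟨c1, hc1⟩ := aligned hl hN hCS hJ hε
  set C' := (1 + N) * Real.log 2 + 1 with hC'
  have hC'0 : 0 ≤ C' := by positivity
  refine ⟨|c1| + cE + N * Real.log 2 + 346 * C', ?_⟩
  intro Ω₀ _ P₀ l₀ t₀ s n k j W₀ hok₀
  have hR0 : 0 ≤ (β + ε) * s * Real.log 2 := by positivity
  have hcE := cE_nonneg
  have hc10 := abs_nonneg c1
  have hc11 := le_abs_self c1
  have hNl : 0 ≤ N * Real.log 2 := by positivity
  rcases Nat.eq_zero_or_pos s with hs | hs
  · have := Phi_le hN hl hok₀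
    rw [hs] at this ⊢
    rw [Nat.cast_zero] at this ⊢
    linarith
  have hbdd : BddAbove (PhiSet N lam s n k j) := by
    refine ⟨2 * s * Real.log 2 + (cE + N * Real.log 2), ?_⟩
    rintro v ⟨Ω, _, P, l, t, W, hok, rfl⟩
    exact Phi_le hN hl hok
  have hmem : Phi N lam P₀ l₀ t₀ s n k j W₀ ∈ PhiSet N lam s n k j :=
    ⟨Ω₀, inferInstance, P₀, l₀, t₀, W₀, hok₀, rfl⟩
  set f0 := sSup (PhiSet N lam s n k j) with hf0
  set R' := (β + ε) * s * Real.log 2 + c1 with hR'
  refine (le_csSup hbdd hmem).trans ?_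
  show f0 ≤ _
  by_cases hcase : f0 ≤ R'
  · rw [hR'] at hcase
    linarith
  push Not at hcase
  have key : ∀ v ∈ PhiSet N lam s n k j, v ≤ max (N * Real.log 2) (f0 - (f0 - R') / 346 + C') := by
    rintro v ⟨Ω, _, P, l, t, W, hok, rfl⟩
    by_cases hv : excR lam P n l (fun _ => ()) k (s + j) ≤ vW lam P l t s n k j W (fun _ => ())
    swap
    · refine le_max_of_le_left ?_
      push Not at hv
      have g1 := mul_le_mul_of_nonneg_left (DF_ge hok.g s n (fun _ => ())) hN
      have e : Phi N lam P l t s n k j W = vW lam P l t s n k j W (fun _ => ()) -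
        excR lam P n l (fun _ => ()) k (s + j) - N * DF P s n l t (fun _ => ()) := rfl
      rw [e]
      linarith
    refine le_max_of_le_right ?_
    obtain ⟨r, g, hr1, hr2, hr3⟩ := hM Ω P l t s n k j W hok hv
    have hkj := hok.kj
    set E : Ω → Prop := fun ω => fl1 r (W.θ ω) = g (tb n (l ω)) with hE
    set Z : Ω → Prop := fun ω => E ω with hZ
    have hpE : P.pr Z True = prE P E := prE_eq_aux P E
    have hp : 1 / 346 ≤ P.pr Z True := by rw [hpE]; exact hr3
    have hp0 : 0 < P.pr Z True := lt_of_lt_of_le (by norm_num) hp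
    have hT : True ∈ img Z := by
      by_contra hcon
      have : P.pr Z True = 0 := by
        unfold Law.pr
        refine Finset.sum_eq_zero fun ω hω => ?_
        have e : Z ω = True := by simpa using hω
        exact absurd (mem_img.2 ⟨ω, e⟩) hcon
      rw [this] at hp0
      exact lt_irrefl 0 hp0
    have hsplit := Phi_split hN hl hok Z
    have hH : P.H Z ≤ Real.log 2 := by
      have := P.H_le_log_card Z
      rwa [Fintype.card_prop] at this
    have hPT : Phi N lam (P.cond Z True) l t s n k j W ≤ R' := by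
      refine hc1 Ω (P.cond Z True) l t s n k j r W g (hok.cond Z True) (by omega) ?_ ?_
      · intro ω hω
        have := cond_supp' P Z True hp0 hω
        have e : Z ω = True := this
        exact of_eq_true e
      · have q1 : j - (k + r) ≤ M0 * (s + 1) := by omega
        have q2 : s + (j - (k + r)) + 2 ≤ (2 * M0 + 3) * s := by
          have : M0 * (s + 1) ≤ 2 * M0 * s := by nlinarith
          nlinarith
        exact_mod_cast q2
    have hall : ∀ z, Phi N lam (P.cond Z z) l t s n k j W ≤ f0 := fun z =>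
      le_csSup hbdd ⟨Ω, inferInstance, P.cond Z z, l, t, W, hok.cond Z z, rfl⟩
    have hsum : ∑ z ∈ img Z, P.pr Z z * Phi N lam (P.cond Z z) l t s n k j W ≤
        f0 - (f0 - R') / 346 := by
      have e1 : ∑ z ∈ img Z, P.pr Z z * Phi N lam (P.cond Z z) l t s n k j W =
          f0 - ∑ z ∈ img Z, P.pr Z z * (f0 - Phi N lam (P.cond Z z) l t s n k j W) := by
        simp only [mul_sub, Finset.sum_sub_distrib]
        rw [← Finset.sum_mul, P.sum_pr_image Z, one_mul]
        ring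
      rw [e1]
      have e2 : P.pr Z True * (f0 - Phi N lam (P.cond Z True) l t s n k j W) ≤
          ∑ z ∈ img Z, P.pr Z z * (f0 - Phi N lam (P.cond Z z) l t s n k j W) :=
        Finset.single_le_sum (f := fun z => P.pr Z z *
          (f0 - Phi N lam (P.cond Z z) l t s n k j W))
          (fun z _ => mul_nonneg (P.pr_nonneg Z z) (by linarith [hall z])) hT
      have e3 : (f0 - R') / 346 ≤ P.pr Z True * (f0 - Phi N lam (P.cond Z True) l t s n k j W) := by
        have a1 : 0 ≤ f0 - R' := by linarith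
        have a2 : f0 - R' ≤ f0 - Phi N lam (P.cond Z True) l t s n k j W := by linarith
        calc (f0 - R') / 346 = 1 / 346 * (f0 - R') := by ring
          _ ≤ P.pr Z True * (f0 - R') := mul_le_mul_of_nonneg_right hp a1
          _ ≤ _ := mul_le_mul_of_nonneg_left a2 hp0.le
      linarith
    have hHN : (1 + N) * P.H Z ≤ (1 + N) * Real.log 2 :=
      mul_le_mul_of_nonneg_left hH (by linarith)
    linarith
  have hfin := csSup_le ⟨_, hmem⟩ key
  rw [← hf0] at hfin
  rcases le_max_iff.1 hfin with hh | hh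
  · linarith
  · rw [hR'] at hh
    linarith

/-- **PFix** from the comparison of the excess -/
theorem pFix_of (hCS : ∀ lam : ℝ, 0 < lam → lam ≤ 1 → CStr lam) : PFix := by
  intro lam h0 h1
  obtain ⟨M0, hM⟩ := majority h0 h1
  have hl : 0 ≤ lam ∧ lam ≤ 1 := ⟨h0.le, h1⟩
  refine ⟨2 * M0 + 3, by
    have : (0 : ℝ) ≤ M0 := Nat.cast_nonneg _
    linarith, ?_⟩
  intro N β hN hβ hJ ε hε
  obtain ⟨c, hc⟩ := phi_all h0 h1 hN hβ (hCS lam h0 h1) hM hJ hε
  refine ⟨c + 1, ?_⟩
  intro Ω _ γ P l t s n k j W C hg hkj hsn hW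
  have hok : OkS P l t s n k j W := ⟨hg, hkj, hsn, hW⟩
  have hk1 : k ≤ s + j := by omega
  have hk2 : k ≤ n := hk1.trans hsn
  have e5 := P.sum_pr_image C
  have a1 : Stk.hc P (fun ω => tb n (l ω)) (fun ω => (W.lab ω, pq s (ptF l t ω), C ω)) =
      ∑ z ∈ img C, P.pr C z * Stk.hc (P.cond C z) (fun ω => tb n (l ω))
        (fun ω => (W.lab ω, (pq s (ptF l t ω), ()))) := by
    rw [← hc_cond_sum]
    refine Stk.hc_congr P (fun _ _ _ _ e => congrArg Prod.fst e)
      (fun _ _ _ _ e => congrArg Prod.fst e) ?_ ?_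
    · intro ω ω' _ _ e
      simp only [Prod.mk.injEq] at e ⊢
      exact ⟨e.1.1, e.1.2.1, e.2⟩
    · intro ω ω' _ _ e
      simp only [Prod.mk.injEq] at e ⊢
      exact ⟨⟨e.1, e.2.1, trivial⟩, e.2.2⟩
  have a2 := DF_cond_sum P s n l t C
  have a3 := excR_cond_sum hl P n l (fun _ => ()) C hk1 hk2
  have a4 := excR_mono hl (P := P) (l := l) (C := fun ω => ((), C ω)) (C' := C) hk1 hk2
    (fun _ _ e => congrArg Prod.snd e)
  have a5 : ∑ z ∈ img C, P.pr C z * (Stk.hc (P.cond C z) (fun ω => tb n (l ω))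
        (fun ω => (W.lab ω, (pq s (ptF l t ω), ()))) -
        Real.log 2 * (2 * ((n : ℝ) - s) - ((1 + lam) * k + (1 - lam) * j)) -
        excR lam (P.cond C z) n l (fun _ => ()) k (s + j) -
        N * DF (P.cond C z) s n l t (fun _ => ())) ≤
      ∑ z ∈ img C, P.pr C z * ((β + ε) * s * Real.log 2 + c) :=
    Finset.sum_le_sum fun z _ => mul_le_mul_of_nonneg_left
      (hc Ω (P.cond C z) l t s n k j W (hok.cond C z)) (P.pr_nonneg C z)
  rw [← Finset.sum_mul, e5, one_mul] at a5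
  have a6 : ∑ z ∈ img C, P.pr C z * (Stk.hc (P.cond C z) (fun ω => tb n (l ω))
        (fun ω => (W.lab ω, (pq s (ptF l t ω), ()))) -
        Real.log 2 * (2 * ((n : ℝ) - s) - ((1 + lam) * k + (1 - lam) * j)) -
        excR lam (P.cond C z) n l (fun _ => ()) k (s + j) -
        N * DF (P.cond C z) s n l t (fun _ => ())) =
      ∑ z ∈ img C, P.pr C z * Stk.hc (P.cond C z) (fun ω => tb n (l ω))
        (fun ω => (W.lab ω, (pq s (ptF l t ω), ()))) -
      Real.log 2 * (2 * ((n : ℝ) - s) - ((1 + lam) * k + (1 - lam) * j)) -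
      ∑ z ∈ img C, P.pr C z * excR lam (P.cond C z) n l (fun _ => ()) k (s + j) -
      N * ∑ z ∈ img C, P.pr C z * DF (P.cond C z) s n l t (fun _ => ()) := by
    rw [Finset.mul_sum]
    have q : Real.log 2 * (2 * ((n : ℝ) - s) - ((1 + lam) * k + (1 - lam) * j)) =
        ∑ z ∈ img C, P.pr C z *
          (Real.log 2 * (2 * ((n : ℝ) - s) - ((1 + lam) * k + (1 - lam) * j))) := by
      rw [← Finset.sum_mul, e5, one_mul]
    nth_rewrite 2 [q]
    rw [← Finset.sum_sub_distrib, ← Finset.sum_sub_distrib, ← Finset.sum_sub_distrib]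
    exact Finset.sum_congr rfl fun z _ => by ring
  rw [a6, ← a1, ← a2] at a5
  linarith

end Vale.Agent.P127.U.Red
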