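import Vale.Agent.P127.U.Lam.RedH
import Vale.Agent.P127.U.Lam.RedI
import Vale.Agent.P127.U.Lam.RedTop

/-!
# P127 / U / Lam : `PFix` and `PRed` (helper420, from helper624's `pFix_of`, helper864's
`pRed_of_fix` and `coarse_str`)
-/

set_option autoImplicit false

namespace Vale.Agent.P127.U.Red

theorem cStr {lam : ℝ} (h0 : 0 < lam) (h1 : lam ≤ 1) : CStr lam := by
  obtain ⟨C, hC⟩ := coarse_str (lam := lam) ⟨h0.le, h1⟩
  refine ⟨C, ?_⟩
  intro Ω _ P l t s n k j r W g hOk hr hg n' hn'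
  subst hn'
  exact hC Ω P l t s n k j r W g hOk hr hg

theorem pFix : PFix := pFix_of fun _ h0 h1 => cStr h0 h1

theorem pRed : PRed := Win.pRed_of_fix pFix

end Vale.Agent.P127.U.Red
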