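import Vale.Agent.P127.U.Lam.YWord
import Vale.Agent.P127.U.Lam.Sel

/-!
# P127 / U / Lam : choice of the word (helper336)

`d1` : joint word `(path word, Y word)` : one value with the near-extremality and many base levels with
a small collision probability.
-/

set_option autoImplicit false

namespace Vale.Agent.P127.U.TopD

open Finset Vale.Agent.P127 Vale.Agent.P127.Stk Vale.Agent.P127.U.YWord

/-- **selection** with a lower bound of the probability (proved in `Lam/SelB`, not used here) -/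
def PSel : Prop :=
  ∀ N lam β : ℝ, 0 ≤ N → 0 < lam → lam ≤ 1 → JFG N lam β → ∀ ε : ℝ, 0 < ε → ∃ c : ℝ, 0 ≤ c ∧
    ∀ (Ω : Type) [Fintype Ω] (P : Law Ω) (l : Ω → Ln) (t : Ω → ℝ) (W : Bx Ω) (L q n : ℕ) (d : ℝ),
      NEx N lam β d P l t W L q n →
      ∀ (S : Type) (Pt : Ω → S) (k : ℕ) (A : S → Prop) (g : ℝ), (img Pt).card ≤ 2 ^ k → 0 < g →
        g ≤ prE P (fun ω => A (Pt ω)) → ∀ d' : ℝ,
        3 / g * ((d + ε) * L * Real.log 2 + c * (1 + Real.log (n + 1)) + (N + 1) * (k + 1)) ≤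
          d' * L * Real.log 2 →
        ∃ e, A e ∧ g / (3 * 2 ^ k) ≤ P.pr Pt e ∧ NEx N lam β d' (P.cond Pt e) l t W L q n

theorem nex_mono {N lam β d d' : ℝ} {Ω : Type} [Fintype Ω] {P : Law Ω} {l : Ω → Ln} {t : Ω → ℝ}
    {W : Bx Ω} {L q n : ℕ} (h : NEx N lam β d P l t W L q n) (hd : d ≤ d') :
    NEx N lam β d' P l t W L q n := by
  refine ⟨h.nq, h.good, h.lab, h.rnd, le_trans ?_ h.ge⟩
  have h1 : (β - d') * (L * Real.log 2) ≤ (β - d) * (L * Real.log 2) :=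
    mul_le_mul_of_nonneg_right (by linarith)
      (mul_nonneg (Nat.cast_nonneg _) (Real.log_nonneg (by norm_num)))
  linarith

variable {Ω : Type} [Fintype Ω] {T S : Type}

open Classical in
/-- the word of the digit blocks of `y` -/
noncomputable def yw (P : Law Ω) (Z : Ω → T) (y : Ω → ℝ) (m : ℕ) (thr : ℝ) (B : ℕ) (ω : Ω) :
    Finset ℕ := (range B).filter fun k => bit P Z y m thr k ω

theorem yw_card (P : Law Ω) (Z : Ω → T) (y : Ω → ℝ) (m : ℕ) (thr : ℝ) (B : ℕ) (ω : Ω) :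
    (yw P Z y m thr B ω).card = cnt P Z y m thr B ω := rfl

theorem img_pair_card (pat : Ω → S) (P : Law Ω) (Z : Ω → T) (y : Ω → ℝ) (m : ℕ) (thr : ℝ)
    (B k1 : ℕ) (h : (img pat).card ≤ 2 ^ k1) :
    (img fun ω => (pat ω, yw P Z y m thr B ω)).card ≤ 2 ^ (k1 + B) := by
  classical
  have h1 : (img fun ω => (pat ω, yw P Z y m thr B ω)) ⊆ (img pat) ×ˢ (range B).powerset := by
    intro e he
    rw [mem_img] at he
    obtain ⟨ω, rfl⟩ := he
    rw [mem_product, mem_powerset]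
    exact ⟨mem_img.2 ⟨ω, rfl⟩, Finset.filter_subset _ _⟩
  refine (card_le_card h1).trans ?_
  rw [card_product, card_powerset, card_range, pow_add]
  exact Nat.mul_le_mul_right _ h

/-- **joint choice of the path word and of the Y word** -/
theorem d1 {N lam β : ℝ} (hN : 0 ≤ N) (hl : 0 < lam) (hl1 : lam ≤ 1)
    (hJ : JFG N lam β) {ε : ℝ} (hε : 0 < ε) : ∃ c : ℝ, 0 ≤ c ∧
    ∀ (Ω : Type) [Fintype Ω] (P : Law Ω) (l : Ω → Ln) (t : Ω → ℝ) (W : Bx Ω) (L q n : ℕ) (d : ℝ),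
      NEx N lam β d P l t W L q n → 0 ≤ d → 0 < L →
      ∀ (S T : Type) (pat : Ω → S) (Z : Ω → T) (m B k1 : ℕ) (cs eta ε₀ d' : ℝ),
        (img pat).card ≤ 2 ^ k1 → 0 < m → 0 < B → 0 < cs → cs ≤ lam / 16 → 1 ≤ lam / 16 * m →
        lam * (m * B) * Real.log 2 - eta ≤ hc P (fun ω => fl1 (m * B) ((l ω).2 0)) Z →
        eta + Real.log 7 ≤ lam / 16 * (m * B) * Real.log 2 →
        12 / lam * (d + ε + (c * (1 + Real.log (n + 1)) + (N + 1) * (k1 + B)) / L) ≤ d' →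
        0 < ε₀ → (1 / 2 : ℝ) ^ (cs * m) < ε₀ →
        12 / lam * (k1 + B) * Real.log 2 ≤
          lam / 4 * B * (ε₀ * Real.log (ε₀ / (1 / 2 : ℝ) ^ (cs * m)) - 1) →
        ∃ (E : S) (x : Finset ℕ) (G : Finset ℕ) (p : ℝ), 0 < p ∧
          p = P.pr (fun ω => (pat ω, yw P Z (fun ω => (l ω).2 0) m ((1 / 2 : ℝ) ^ (cs * m)) B ω)) (E, x) ∧
          Real.log (1 / p) ≤ 12 / lam * (k1 + B) * Real.log 2 ∧
          NEx N lam β d' (P.cond
            (fun ω => (pat ω, yw P Z (fun ω => (l ω).2 0) m ((1 / 2 : ℝ) ^ (cs * m)) B ω)) (E, x))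
            l t W L q n ∧
          G ⊆ range B ∧ lam / 4 * B ≤ G.card ∧
          ∀ k ∈ G, Mic.colp (P.cond
            (fun ω => (pat ω, yw P Z (fun ω => (l ω).2 0) m ((1 / 2 : ℝ) ^ (cs * m)) B ω)) (E, x))
            (blk (fun ω => (l ω).2 0) m k) (past Z (fun ω => (l ω).2 0) m k) ≤ 2 * ε₀ := by
  obtain ⟨c, hc0, hc⟩ := nex_sel_card hN hl hl1 hJ hε
  refine ⟨c, hc0, ?_⟩
  intro Ω _ P l t W L q n d hx hd0 hL0 S T pat Z m B k1 cs eta ε₀ d' hk1 hm hB hcs hcs1 hm1 hg heta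
    hd' hε₀ hthr hbad
  classical
  have hlog : 0 < Real.log 2 := Real.log_pos (by norm_num)
  have hBr : (0 : ℝ) < B := by exact_mod_cast hB
  set y : Ω → ℝ := fun ω => (l ω).2 0 with hy
  set thr : ℝ := (1 / 2 : ℝ) ^ (cs * m) with hthr_def
  have hthr0 : 0 < thr := Real.rpow_pos_of_pos (by norm_num) _
  set Pt := fun ω => (pat ω, yw P Z y m thr B ω) with hPt
  have hy1 : ∀ ω, 0 < P.w ω → |y ω| ≤ 1 := fun ω hω => (hx.good ω hω).1.2 0
  have k1' := word_prob hy1 hm hB hl hcs.le hg hcs1 hm1 heta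
  have k2 : lam / 4 ≤ prE P (fun ω => (fun e : S × Finset ℕ => lam / 2 * B ≤ (e.2.card : ℝ)) (Pt ω)) := k1'
  obtain ⟨ω₀, hω₀, hA, hlogp, hNE⟩ := hc Ω P l t W L q n d hx hd0 hL0 (S × Finset ℕ) Pt
    (fun e => lam / 2 * B ≤ (e.2.card : ℝ)) (k1 + B) (lam / 4) (by positivity) (by omega)
    (img_pair_card pat P Z y m thr B k1 hk1) k2
  set e := Pt ω₀ with he
  have hp0 : 0 < P.pr Pt e := P.pr_pos Pt hω₀
  set p := P.pr Pt e with hp_def
  have hsub : e.2 ⊆ range B := Finset.filter_subset _ _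
  have e1 : (3 : ℝ) / (lam / 4) = 12 / lam := by field_simp; norm_num
  have hlogp' : Real.log (1 / p) ≤ 12 / lam * (k1 + B) * Real.log 2 := by
    refine hlogp.trans (le_of_eq ?_)
    rw [← e1]
    push_cast
    ring
  have hNE' : NEx N lam β d' (P.cond Pt e) l t W L q n := by
    refine nex_mono hNE ?_
    rw [e1]
    push_cast
    exact hd'
  have hdom : ∀ ω, p * (P.cond Pt e).w ω ≤ P.w ω := by
    intro ω
    rw [P.cond_w Pt e hp0]
    split_ifs
    · rw [mul_div_cancel₀ _ hp0.ne']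
    · rw [mul_zero]
      exact P.nn ω
  obtain ⟨G, hG1, hG2, hG3⟩ := good_levels (P := P) (Q := P.cond Pt e) hp0 hdom Z y hthr0 hthr e.2
    hsub (by
      intro k hk ω hω
      obtain ⟨h2, -⟩ := Pin.cond_supp P Pt hp0 hω
      have h3 : yw P Z y m thr B ω = e.2 := congrArg Prod.snd h2
      rw [← h3] at hk
      exact (Finset.mem_filter.1 hk).2)
  refine ⟨e.1, e.2, G, p, hp0, rfl, hlogp', hNE', hG1.trans hsub, ?_, hG2⟩
  -- counting
  have hX : 0 < ε₀ * Real.log (ε₀ / thr) - 1 := by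
    by_contra hcon
    push Not at hcon
    have h1 : lam / 4 * B * (ε₀ * Real.log (ε₀ / thr) - 1) ≤ 0 :=
      mul_nonpos_of_nonneg_of_nonpos (by positivity) hcon
    have h3 : 0 < 12 / lam * ((k1 : ℝ) + B) * Real.log 2 := by positivity
    linarith
  have h4 : ((e.2.card : ℝ) - G.card) * (ε₀ * Real.log (ε₀ / thr) - 1) ≤
      lam / 4 * B * (ε₀ * Real.log (ε₀ / thr) - 1) := hG3.trans (hlogp'.trans hbad)
  have h5 := le_of_mul_le_mul_right h4 hX
  have hA' : lam / 2 * B ≤ (e.2.card : ℝ) := hA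
  linarith

end Vale.Agent.P127.U.TopD
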