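import Vale.Agent.P127.U.Lam.Sel
import Vale.Agent.P127.U.Lam.TopD1

/-!
# P127 / U / Lam : selection of a value of the pattern, few values (helper723)

* `selGen` : event `A` of probability `≥ g`, finitely many nonnegative functions with averages `≤ c j`.
* `phi_selC`, `nex_selC` : as `phi_sel`, `nex_sel`, for a variable with at most `M` values, with the lower
  bound `g / ((#s + 3) M)` for the probability of the value; no sign condition on `d`.
* `pSel : TopD.PSel`.
-/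

set_option autoImplicit false

namespace Vale.Agent.P127.U

open Filter Topology Vale.Agent.P127 Vale.Agent.P127.Stk Sys

namespace Lam

open JSB

section sel

variable {Ω : Type} [Fintype Ω] {S ι : Type*}

/-- **selection of a value of `Pt`**, event and averages -/
theorem selGen (P : Law Ω) (Pt : Ω → S) (A : S → Prop) (s : Finset ι) (F : ι → S → ℝ) (c : ι → ℝ)
    {g : ℝ} (hg : 0 < g)
    (hF0 : ∀ j ∈ s, ∀ ω, 0 < P.w ω → 0 ≤ F j (Pt ω)) (hc : ∀ j ∈ s, 0 < c j)
    (hF : ∀ j ∈ s, P.ex (fun ω => F j (Pt ω)) ≤ c j) (hA : g ≤ prE P (fun ω => A (Pt ω))) :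
    ∃ ω, 0 < P.w ω ∧ A (Pt ω) ∧ ∀ j ∈ s, F j (Pt ω) ≤ (s.card + 1) * c j / g := by
  classical
  by_contra hcon
  push Not at hcon
  set G : Ω → ℝ := fun ω => ∑ j ∈ s, F j (Pt ω) / c j with hG
  have hG2 : ∀ ω, 0 < P.w ω → ∀ j ∈ s, 0 ≤ F j (Pt ω) / c j := fun ω hω j hj =>
    div_nonneg (hF0 j hj ω hω) (hc j hj).le
  have hG0 : ∀ ω, 0 < P.w ω → 0 ≤ G ω := fun ω hω => Finset.sum_nonneg (hG2 ω hω)
  have e1 : P.ex G ≤ s.card := by
    rw [hG, ex_sum' P s (fun j ω => F j (Pt ω) / c j)]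
    have b1 : ∑ j ∈ s, P.ex (fun ω => F j (Pt ω) / c j) ≤ ∑ _j ∈ s, (1 : ℝ) := by
      refine Finset.sum_le_sum fun j hj => ?_
      have : P.ex (fun ω => F j (Pt ω) / c j) = P.ex (fun ω => F j (Pt ω)) / c j := by
        unfold Law.ex
        rw [Finset.sum_div]
        exact Finset.sum_congr rfl fun ω _ => by ring
      rw [this]
      exact (div_le_one (hc j hj)).2 (hF j hj)
    refine b1.trans (le_of_eq ?_)
    rw [Finset.sum_const, nsmul_eq_mul, mul_one]
  have e2 : ∀ ω, 0 < P.w ω → ((s.card : ℝ) + 1) / g * Law.ind (A (Pt ω)) ≤ G ω := by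
    intro ω hω
    by_cases hAω : A (Pt ω)
    · rw [Law.ind_of hAω, mul_one]
      obtain ⟨j, hj, hj2⟩ := hcon ω hω hAω
      have a1 : ((s.card : ℝ) + 1) / g ≤ F j (Pt ω) / c j := by
        rw [le_div_iff₀ (hc j hj)]
        refine le_trans (le_of_eq ?_) hj2.le
        ring
      exact a1.trans (Finset.single_le_sum (f := fun j => F j (Pt ω) / c j) (hG2 ω hω) hj)
    · rw [Law.ind_not hAω, mul_zero]
      exact hG0 ω hω
  have e3 := P.ex_mono e2
  have e4 : P.ex (fun ω => ((s.card : ℝ) + 1) / g * Law.ind (A (Pt ω))) =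
      ((s.card : ℝ) + 1) / g * prE P (fun ω => A (Pt ω)) := by
    rw [prE_eq_ex]
    unfold Law.ex
    rw [Finset.mul_sum]
    exact Finset.sum_congr rfl fun ω _ => by ring
  have e5 : (s.card : ℝ) + 1 ≤ ((s.card : ℝ) + 1) / g * prE P (fun ω => A (Pt ω)) := by
    have h1 : (0 : ℝ) ≤ s.card := Nat.cast_nonneg _
    calc (s.card : ℝ) + 1 = ((s.card : ℝ) + 1) / g * g := by field_simp
      _ ≤ _ := mul_le_mul_of_nonneg_left hA (by positivity)
  rw [e4] at e3
  linarith

/-- the mean of the inverse probability is the number of values -/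
theorem ex_inv_le (P : Law Ω) (Pt : Ω → S) {M : ℕ} (hM : (img Pt).card ≤ M) :
    P.ex (fun ω => 1 / P.pr Pt (Pt ω)) ≤ M := by
  rw [P.ex_comp Pt (fun e => 1 / P.pr Pt e)]
  have h1 : ∑ e ∈ img Pt, P.pr Pt e * (1 / P.pr Pt e) ≤ ∑ _e ∈ img Pt, (1 : ℝ) := by
    refine Finset.sum_le_sum fun e _ => ?_
    rcases (P.pr_nonneg Pt e).eq_or_lt with h0 | h0
    · rw [← h0, zero_mul]
      exact zero_le_one
    · rw [mul_one_div, div_self h0.ne']
  refine h1.trans ?_
  rw [Finset.sum_const, nsmul_eq_mul, mul_one]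
  exact_mod_cast hM

end sel

/-- **selection with the functional**, few values -/
theorem phi_selC {N lam β : ℝ} (hl : 0 ≤ lam ∧ lam ≤ 1) (hN : 0 ≤ N) (hG : JFG N lam β) {ε : ℝ}
    (hε : 0 < ε) :
    ∃ c : ℝ, 0 ≤ c ∧ ∀ (Ω : Type) [Fintype Ω] (P : Law Ω) (h n : ℕ) (l : Ω → Ln) (t : Ω → ℝ)
      (B : Type) (Bo : Ω → B) (V0 K : ℝ), GoodF P l t → h ≤ n → 0 ≤ K →
      (∀ Q : Law Ω, (∀ ω, 0 < Q.w ω → 0 < P.w ω) →
        Stk.hc Q (fun ω => tb n (l ω)) Bo - V0 ≤ XF lam Q h n l t (fun _ => ()) + K) →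
      ∀ (d : ℝ), (β - d) * h * Real.log 2 ≤ Phi N lam V0 P h n l t Bo →
      ∀ (S ι : Type) (Pt : Ω → S) (A : S → Prop) (s : Finset ι) (F : ι → S → ℝ) (cs : ι → ℝ)
        (g : ℝ) (M : ℕ), 0 < g → (img Pt).card ≤ M →
        (∀ j ∈ s, ∀ ω, 0 < P.w ω → 0 ≤ F j (Pt ω)) → (∀ j ∈ s, 0 < cs j) →
        (∀ j ∈ s, P.ex (fun ω => F j (Pt ω)) ≤ cs j) → g ≤ prE P (fun ω => A (Pt ω)) →
        ∃ ω, 0 < P.w ω ∧ A (Pt ω) ∧ g / ((s.card + 3) * M) ≤ P.pr Pt (Pt ω) ∧
          (∀ j ∈ s, F j (Pt ω) ≤ (s.card + 3) * cs j / g) ∧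
          β * h * Real.log 2 - (s.card + 3) * ((d + ε) * h * Real.log 2 +
            c * (1 + Real.log (n + 1)) + K + (N + 1) * Real.log M + 2) / g ≤
            Phi N lam V0 (P.cond Pt (Pt ω)) h n l t Bo := by
  classical
  obtain ⟨c, hc0, hc⟩ := Phi_le (N := N) hG hε
  refine ⟨c, hc0, ?_⟩
  intro Ω _ P h n l t B Bo V0 K hgood hn hK hV d hP S ι Pt A s F cs g M hg hM hF0 hcs hF hA
  have hlog : 0 < Real.log 2 := Real.log_pos (by norm_num)
  have hlogn : 0 ≤ Real.log ((n : ℝ) + 1) := Real.log_nonneg (by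
    have : (0 : ℝ) ≤ n := Nat.cast_nonneg _
    linarith)
  have hMpos : 0 < M := by
    have hne : (img Pt).Nonempty := by
      by_contra h0
      rw [Finset.not_nonempty_iff_eq_empty] at h0
      have := P.sum_pr_image Pt
      rw [h0, Finset.sum_empty] at this
      exact absurd this (by norm_num)
    exact (Finset.card_pos.2 hne).trans_le hM
  have hMr : (0 : ℝ) < M := by exact_mod_cast hMpos
  set F₁ : ℝ := (β + ε) * h * Real.log 2 + c * (1 + Real.log (n + 1)) + K with hF₁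
  set D : ℝ := (d + ε) * h * Real.log 2 + c * (1 + Real.log (n + 1)) + K +
    (N + 1) * Real.log M + 2 with hD
  have hh : (0 : ℝ) ≤ h := Nat.cast_nonneg _
  have q2 : 0 ≤ c * (1 + Real.log ((n : ℝ) + 1)) := mul_nonneg hc0 (by linarith)
  have hup : ∀ ω, 0 < P.w ω → Phi N lam V0 (P.cond Pt (Pt ω)) h n l t Bo ≤ F₁ := by
    intro ω _
    exact hc Ω (P.cond Pt (Pt ω)) h n l t B Bo V0 K (fun ω' hω' => hgood ω' (cond_supp P Pt _ hω')) hn
      (hV _ fun ω' hω' => cond_supp P Pt _ hω')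
  have hav : P.ex (fun ω => F₁ - Phi N lam V0 (P.cond Pt (Pt ω)) h n l t Bo) ≤ D - 1 := by
    rw [P.ex_sub, P.ex_const]
    have a1 := Phi_avg (V0 := V0) hl hN P (h := h) (n := n) hgood Bo Pt
    have a2 : (N + 1) * P.H Pt ≤ (N + 1) * Real.log M :=
      mul_le_mul_of_nonneg_left (H_le_card P Pt hM) (by linarith)
    have a3 : (β + ε) * h * Real.log 2 - (β - d) * h * Real.log 2 = (d + ε) * h * Real.log 2 := by
      ring
    rw [hF₁, hD]
    linarith
  have hav0 : 0 ≤ P.ex (fun ω => F₁ - Phi N lam V0 (P.cond Pt (Pt ω)) h n l t Bo) :=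
    ex_nonneg' P fun ω hω => sub_nonneg.2 (hup ω hω)
  have hD0 : 0 < D := by linarith
  obtain ⟨ω, w1, w2, w4⟩ := selGen P Pt A (Finset.insertNone (Finset.insertNone s))
    (fun o e => o.elim (F₁ - Phi N lam V0 (P.cond Pt e) h n l t Bo)
      (fun o' => o'.elim (1 / P.pr Pt e) (fun j => F j e)))
    (fun o => o.elim D (fun o' => o'.elim (M : ℝ) cs)) hg (by
      intro o ho ω hω
      cases o with
      | none => exact sub_nonneg.2 (hup ω hω)
      | some o' =>
        cases o' with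
        | none => exact div_nonneg zero_le_one (P.pr_nonneg _ _)
        | some j =>
          exact hF0 j (Finset.some_mem_insertNone.1 (Finset.some_mem_insertNone.1 ho)) ω hω) (by
      intro o ho
      cases o with
      | none => exact hD0
      | some o' =>
        cases o' with
        | none => exact hMr
        | some j =>
          exact hcs j (Finset.some_mem_insertNone.1 (Finset.some_mem_insertNone.1 ho))) (by
      intro o ho
      cases o with
      | none =>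
        show P.ex (fun ω => F₁ - Phi N lam V0 (P.cond Pt (Pt ω)) h n l t Bo) ≤ D
        linarith
      | some o' =>
        cases o' with
        | none => exact ex_inv_le P Pt hM
        | some j =>
          exact hF j (Finset.some_mem_insertNone.1 (Finset.some_mem_insertNone.1 ho))) hA
  have hcard : (((Finset.insertNone (Finset.insertNone s)).card : ℕ) : ℝ) + 1 = s.card + 3 := by
    rw [Finset.card_insertNone, Finset.card_insertNone]
    push_cast
    ring
  rw [hcard] at w4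
  have hs0 : (0 : ℝ) ≤ s.card := Nat.cast_nonneg _
  refine ⟨ω, w1, w2, ?_, fun j hj => w4 (some (some j))
    (Finset.some_mem_insertNone.2 (Finset.some_mem_insertNone.2 hj)), ?_⟩
  · have w5 := w4 (some none) (Finset.some_mem_insertNone.2 Finset.none_mem_insertNone)
    have w6 : 1 / P.pr Pt (Pt ω) ≤ (s.card + 3) * M / g := w5
    have hp := P.pr_pos Pt w1
    rw [div_le_iff₀ (by positivity)]
    rw [div_le_div_iff₀ hp hg] at w6
    linarith
  · have w5 := w4 none Finset.none_mem_insertNone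
    have w6 : F₁ - Phi N lam V0 (P.cond Pt (Pt ω)) h n l t Bo ≤ (s.card + 3) * D / g := w5
    have w7 : β * h * Real.log 2 ≤ F₁ := by
      have : 0 ≤ ε * h * Real.log 2 := by positivity
      rw [hF₁]
      linarith [show (β + ε) * h * Real.log 2 = β * h * Real.log 2 + ε * h * Real.log 2 by ring]
    linarith

end Lam

open Lam in
/-- **selection for near-extremal laws**, few values: event `A` of probability `≥ g` on the values of
`Pt`, finitely many nonnegative functions `F j` of the values with averages `≤ cs j` -/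
theorem nex_selC {N lam β : ℝ} (hN : 0 ≤ N) (h0 : 0 < lam) (h1 : lam ≤ 1) (hG : JFG N lam β) {ε : ℝ}
    (hε : 0 < ε) :
    ∃ c : ℝ, 0 ≤ c ∧ ∀ (Ω : Type) [Fintype Ω] (P : Law Ω) (l : Ω → Ln) (t : Ω → ℝ) (W : Bx Ω)
      (L q n : ℕ) (d : ℝ), NEx N lam β d P l t W L q n →
      ∀ (S ι : Type) (Pt : Ω → S) (A : S → Prop) (s : Finset ι) (F : ι → S → ℝ) (cs : ι → ℝ)
        (g : ℝ) (M : ℕ), 0 < g → (img Pt).card ≤ M →
        (∀ j ∈ s, ∀ ω, 0 < P.w ω → 0 ≤ F j (Pt ω)) → (∀ j ∈ s, 0 < cs j) →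
        (∀ j ∈ s, P.ex (fun ω => F j (Pt ω)) ≤ cs j) → g ≤ prE P (fun ω => A (Pt ω)) →
        ∀ d' : ℝ, (s.card + 3) / g * ((d + ε) * L * Real.log 2 + c * (1 + Real.log (n + 1)) +
          (N + 1) * (Real.log M + 1)) ≤ d' * L * Real.log 2 →
        ∃ ω, 0 < P.w ω ∧ A (Pt ω) ∧ g / ((s.card + 3) * M) ≤ P.pr Pt (Pt ω) ∧
          (∀ j ∈ s, F j (Pt ω) ≤ (s.card + 3) * cs j / g) ∧
          NEx N lam β d' (P.cond Pt (Pt ω)) l t W L q n := by
  have hl : 0 ≤ lam ∧ lam ≤ 1 := ⟨h0.le, h1⟩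
  obtain ⟨c, hc0, hc⟩ := phi_selC hl hN hG hε
  set K : ℝ := Real.log (((2 * 4 + 1) ^ 4 : ℕ) : ℝ) + 2 * Real.log 9 with hK
  have hK0 : 0 ≤ K := by
    have a1 : 0 ≤ Real.log (((2 * 4 + 1) ^ 4 : ℕ) : ℝ) := Real.log_nonneg (by norm_num)
    have a2 : 0 ≤ Real.log (9 : ℝ) := Real.log_nonneg (by norm_num)
    linarith
  refine ⟨c + K + 1, by positivity, ?_⟩
  intro Ω _ P l t W L q n d hP S ι Pt A s F cs g M hg hM hF0 hcs hF hA d' hd'
  have hlogn : 0 ≤ Real.log ((n : ℝ) + 1) := Real.log_nonneg (by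
    have : (0 : ℝ) ≤ n := Nat.cast_nonneg _
    linarith)
  have hge := hP.ge
  obtain ⟨ω, w1, w2, w3, w4, w5⟩ := hc Ω P L n l t _ (fun ω => (W.lab ω, pq L (ptF l t ω)))
    ((2 * ((n : ℝ) - L) - (1 - lam) * q) * Real.log 2) K hP.good (by have := hP.nq; omega) hK0
    (fun Q hQ => nex_val hl Q hP.nq (fun ω hω => hP.good ω (hQ ω hω))
      (fun ω hω => hP.lab ω (hQ ω hω))) d (by
      unfold Phi
      linarith) S ι Pt A s F cs g M hg hM hF0 hcs hF hA
  refine ⟨ω, w1, w2, w3, w4, hP.of_ac (fun ω' hω' => JSB.cond_supp P Pt _ hω') ?_⟩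
  unfold Phi at w5
  have hs0 : (0 : ℝ) ≤ s.card := Nat.cast_nonneg _
  set X : ℝ := (d + ε) * L * Real.log 2 + c * (1 + Real.log (n + 1)) + K +
    (N + 1) * Real.log M + 2 with hX
  have e1 : X ≤ (d + ε) * L * Real.log 2 + (c + K + 1) * (1 + Real.log (n + 1)) +
      (N + 1) * (Real.log M + 1) := by
    rw [hX]
    nlinarith
  have e3 : (s.card + 3) * X / g ≤ d' * L * Real.log 2 := by
    refine le_trans ?_ hd'
    have e4 := mul_le_mul_of_nonneg_left e1 (show 0 ≤ ((s.card : ℝ) + 3) / g by positivity)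
    refine le_trans (le_of_eq ?_) e4
    ring
  have e5 : (β - d') * L * Real.log 2 = β * L * Real.log 2 - d' * L * Real.log 2 := by ring
  rw [e5]
  linarith

/-- **the selection in the form of `TopD1`** -/
theorem TopD.pSel : TopD.PSel := by
  intro N lam β hN h0 h1 hG ε hε
  obtain ⟨c, hc0, hc⟩ := nex_selC hN h0 h1 hG hε
  refine ⟨c, hc0, ?_⟩
  intro Ω _ P l t W L q n d hP S Pt k A g hM hg hA d' hd'
  have hlog : 0 < Real.log 2 := Real.log_pos (by norm_num)
  have hlog1 : Real.log 2 ≤ 1 := by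
    have := Real.log_two_lt_d9
    linarith
  have hk : (0 : ℝ) ≤ k := Nat.cast_nonneg _
  obtain ⟨ω, w1, w2, w3, -, w5⟩ := hc Ω P l t W L q n d hP S Unit Pt A ∅ (fun _ _ => 0)
    (fun _ => 1) g (2 ^ k) hg hM (by simp) (by simp) (by simp) hA d' (by
      refine le_trans (le_of_le_of_eq ?_ rfl) hd'
      rw [Finset.card_empty, Nat.cast_zero, zero_add, Nat.cast_pow, Nat.cast_ofNat, Real.log_pow]
      refine mul_le_mul_of_nonneg_left ?_ (by positivity)
      have : (N + 1) * (k * Real.log 2 + 1) ≤ (N + 1) * (k + 1) := by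
        refine mul_le_mul_of_nonneg_left ?_ (by linarith)
        nlinarith
      linarith)
  refine ⟨Pt ω, w2, ?_, w5⟩
  rw [Finset.card_empty, Nat.cast_zero, zero_add, Nat.cast_pow, Nat.cast_ofNat] at w3
  exact w3

end Vale.Agent.P127.U
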