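import Vale.Agent.P127.U.Lam.FinDefs
import Vale.Agent.P127.U.Lam.ExcB
import Vale.Agent.P127.U.Lam.Win
import Vale.Agent.P127.U.StrF

/-!
# P127 / U / Lam : the functional `E(s, r)` of the slabs (helper499)

* `slF s r θ l t` the slab (shape `(0, r)`, direction `θ`) in the ball of level `s` around the point of
  time `t` of the line; `lsF s r θ l t` the line in the stretched coordinates of the slab;
  `tfrF s t` the time in the ball.
* `EF` (finite), `El` (systems) : `E(s, r)` = penalised excess of the stretched line (precision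
  `n - s - r`) given the slab and the ball, plus `H(line | stretched line)`, minus `(1 + lam) r`.
* `El_le_Xl` : `E(s, r) ≤ X(s)`; `vall_le_El` : the slab itself as a label.
-/

set_option autoImplicit false

namespace Vale.Agent.P127.U

open Filter Topology Vale.Agent.P127 Vale.Agent.P127.Stk Sys

section finite

variable {Ω : Type} {γ : Type*}

/-- the slab of direction `θ` and thickness `2^-r` in the ball of level `s` -/
noncomputable def slF (s r : ℕ) (θ : Ω → ℝ) (l : Ω → Ln) (t : Ω → ℝ) : Bx Ω :=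
  ⟨blF s l t, θ, fun _ => 0, fun _ => r⟩

/-- the line in the stretched coordinates of the slab -/
noncomputable def lsF (s r : ℕ) (θ : Ω → ℝ) (l : Ω → Ln) (t : Ω → ℝ) : Ω → Ln :=
  fun ω => Str.fl' (slF s r θ l t) ω

variable [Fintype Ω]

/-- `E(s, r)`, finite form -/
noncomputable def EF (lam : ℝ) (P : Law Ω) (s n r : ℕ) (θ : Ω → ℝ) (l : Ω → Ln) (t : Ω → ℝ) (C : Ω → γ) : ℝ :=
  excFl lam P (tbx (n - s - r) (lsF s r θ l t))
      (fun ω => ((slF s r θ l t).lab ω, (pq s (ptF l t ω), C ω))) +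
    Stk.hc P (fun ω => tb n (l ω))
      (fun ω => (tb (n - s - r) (lsF s r θ l t ω), ((slF s r θ l t).lab ω, (pq s (ptF l t ω), C ω)))) -
    (1 + lam) * r * Real.log 2

end finite

namespace Sys

variable {S : Sys} {γ : Type}

/-- the slab in the ball of level `s` -/
noncomputable def sl (s r : ℕ → ℕ) (θ : S.RV ℝ) (l : S.RV Ln) (t : S.RV ℝ) : S.BX :=
  fun i => slF (s i) (r i) (θ i) (l i) (t i)

/-- the line in the stretched coordinates of the slab -/
noncomputable def ls (s r : ℕ → ℕ) (θ : S.RV ℝ) (l : S.RV Ln) (t : S.RV ℝ) : S.RV Ln :=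
  fun i => lsF (s i) (r i) (θ i) (l i) (t i)

/-- the side information of the slab -/
noncomputable def slC (s r : ℕ → ℕ) (θ : S.RV ℝ) (l : S.RV Ln) (t : S.RV ℝ) (C : S.RV γ) :
    S.RV (Lab × ((ℤ × (Fin 2 → ℤ)) × γ)) :=
  Sys.pr (BX.lab (sl s r θ l t)) (Sys.pr (pqs s (pt l t)) C)

/-- `E(s, r)` -/
noncomputable def El (lam : ℝ) (s n r : ℕ → ℕ) (θ : S.RV ℝ) (l : S.RV Ln) (t : S.RV ℝ) (C : S.RV γ) : ℝ :=
  S.excl lam (tubes (fun i => n i - s i - r i) (ls s r θ l t)) (slC s r θ l t C) +
    S.hc (tbs n l) (Sys.pr (tbs (fun i => n i - s i - r i) (ls s r θ l t)) (slC s r θ l t C)) -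
    (1 + lam) * S.nu r

end Sys

end Vale.Agent.P127.U
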