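import Vale.Agent.P127.U.Lam.ExcB
import Vale.Agent.P127.U.SubF
import Vale.Agent.P127.U.Coarse

/-!
# P127 / U / Lam : strict submodularity with the penalised excess (helper723)

`A`, `A'` two boxes around `B`, same shape `(k, j)`, angle level `s = lv A A'`; meet
`mt A A' = (θ, j - s, j)`, join `jn A A' = (θ, k, k + s)` (helper404, `SubF`).  The penalised sizes
of meet and join add up to those of `A`, `A'` plus `2 lam (pl - s)`, `pl = j - k` :

* `szl_jn_mt` pointwise identity;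
* `sub_jn`, `sub_mt` both contain `B`;
* `exVl_sub` finite form;
* `vall_sub` form for systems;
* `vall_sub_le` the same, the two new boxes bounded by the excess;
* `copies_sub`, `exists_copies_sub` two copies of a soft label given `D` and the shape:
  `val W + lam av (pl - s) ≤ excl`.
-/

set_option autoImplicit false

namespace Vale.Agent.P127.U.Lam

open Filter Topology Vale.Agent.P127 Vale.Agent.P127.Stk Sys SubF

variable {lam : ℝ}

/-- aspect of a box -/
def pl {Ω : Type} (A : Bx Ω) (ω : Ω) : ℕ := A.j ω - A.k ω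

theorem szl_jn_mt {Ω : Type} (A A' : Bx Ω) (ω : Ω) (h : A.k ω ≤ A.j ω) :
    (jn A A').szl lam ω + (SubF.mt A A').szl lam ω =
      2 * A.szl lam ω + 2 * lam * ((pl A ω : ℝ) - lv A A' ω) := by
  have h1 := lv_le A A' ω
  have h2 : lv A A' ω ≤ A.j ω := h1.trans (Nat.sub_le _ _)
  unfold Bx.szl jn SubF.mt pl
  simp only
  push_cast [Nat.cast_sub h2, Nat.cast_sub h]
  ring

theorem sub_jn {Ω : Type} {c : ℝ} (hc : 0 ≤ c) {B A : Bx Ω} (A' : Bx Ω) {ω : Ω}
    (h : Sub c B A ω) : Sub c B (jn A A') ω := by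
  obtain ⟨h1, h2, h3, h4, h5, h6⟩ := h
  have g1 := lv_le A A' ω
  have g2 : A.k ω + lv A A' ω ≤ A.j ω := by omega
  refine ⟨h1, h2, Nat.le_add_right _ _, h4, g2.trans h5, h6.trans ?_⟩
  exact mul_le_mul_of_nonneg_left (pow_le_pow_of_le_one (by norm_num) (by norm_num) g2) hc

theorem sub_mt {Ω : Type} {c : ℝ} {B A : Bx Ω} (A' : Bx Ω) {ω : Ω}
    (h : Sub c B A ω) (hk : A.j ω ≤ B.k ω + lv A A' ω) : Sub c B (SubF.mt A A') ω := by
  obtain ⟨h1, h2, h3, h4, h5, h6⟩ := h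
  refine ⟨h1, h2, Nat.sub_le _ _, ?_, h5, h6⟩
  show A.j ω - lv A A' ω ≤ B.k ω
  omega

section finite

variable {Ω : Type} [Fintype Ω] {γ : Type*}

/-- **strict submodularity, finite form** -/
theorem exVl_sub (P : Law Ω) (n : ℕ) (B A A' : Bx Ω) (C : Ω → γ)
    (hok : ∀ ω, 0 < P.w ω → Nr ((1 / 2 : ℝ) ^ A.j ω) (A'.l ω) (A.l ω) ∧ A'.k ω = A.k ω ∧ A'.j ω = A.j ω ∧
      A.k ω ≤ A.j ω ∧ A.j ω - A.k ω ≤ n ∧ |A.θ ω| ≤ 4 ∧ |A'.θ ω| ≤ 4) :
    exVl lam P B A C + exVl lam P B A' C +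
        2 * lam * Real.log 2 * P.ex (fun ω => (pl A ω : ℝ) - lv A A' ω) ≤
      exVl lam P B (SubF.mt A A') C + exVl lam P B (jn A A') C +
      Stk.mi P A.lab A'.lab (fun ω => (B.lab ω, C ω)) + 100 + 3 * Real.log (n + 1) := by
  have h1 := sub_fin P n A A' B.lab C hok
  have h2 : P.ex (fun ω => B.szl lam ω - (SubF.mt A A').szl lam ω) +
      P.ex (fun ω => B.szl lam ω - (jn A A').szl lam ω) =
      P.ex (fun ω => B.szl lam ω - A.szl lam ω) + P.ex (fun ω => B.szl lam ω - A'.szl lam ω) -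
        2 * lam * P.ex (fun ω => (pl A ω : ℝ) - lv A A' ω) := by
    rw [← P.ex_add, ← P.ex_add, ← P.ex_const_mul, ← P.ex_sub]
    refine P.ex_congr fun ω hω => ?_
    obtain ⟨-, a2, a3, a4, -, -, -⟩ := hok ω hω
    have e1 := szl_jn_mt (lam := lam) A A' ω a4
    have e2 : A'.szl lam ω = A.szl lam ω := by
      unfold Bx.szl
      rw [a2, a3]
    rw [e2]
    linarith
  have h3 : Real.log 2 * P.ex (fun ω => B.szl lam ω - (SubF.mt A A').szl lam ω) +
      Real.log 2 * P.ex (fun ω => B.szl lam ω - (jn A A').szl lam ω) =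
      Real.log 2 * P.ex (fun ω => B.szl lam ω - A.szl lam ω) +
        Real.log 2 * P.ex (fun ω => B.szl lam ω - A'.szl lam ω) -
        2 * lam * Real.log 2 * P.ex (fun ω => (pl A ω : ℝ) - lv A A' ω) := by
    linear_combination Real.log 2 * h2
  unfold exVl
  linarith

end finite

/-! ### systems -/

theorem log_nm (S : Sys) {K : ℕ} (hK : 1 ≤ K) :
    Tendsto (fun i => Real.log (((K * S.L i : ℕ) : ℝ) + 1) / S.nm i) (uf : Filter ℕ) (𝓝 0) := by
  have hK' : (1:ℝ) ≤ K := by exact_mod_cast hK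
  have h1 : Tendsto (fun i => (((K * S.L i : ℕ) : ℝ) + 1)) (uf : Filter ℕ) atTop := by
    have h2 : Tendsto (fun i => (S.L i : ℝ)) (uf : Filter ℕ) atTop :=
      tendsto_natCast_atTop_atTop.comp S.Ltop
    refine tendsto_atTop_mono (fun i => ?_) h2
    push_cast
    have : (0:ℝ) ≤ S.L i := Nat.cast_nonneg _
    nlinarith
  have h3 := Real.isLittleO_log_id_atTop.comp_tendsto h1
  have h4 : (fun i => (((K * S.L i : ℕ) : ℝ) + 1)) =O[(uf : Filter ℕ)] S.nm := by
    refine Asymptotics.IsBigO.of_bound ((K + 1) / Real.log 2) ?_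
    filter_upwards [S.L_pos] with i hi
    have hl : 0 < Real.log 2 := Real.log_pos (by norm_num)
    have hi' : (1:ℝ) ≤ S.L i := by exact_mod_cast hi
    have e1 : S.nm i = S.L i * Real.log 2 := rfl
    rw [Real.norm_of_nonneg (by positivity), Real.norm_of_nonneg (by rw [e1]; positivity), e1]
    have e2 : ((K:ℝ) + 1) / Real.log 2 * (S.L i * Real.log 2) = (K + 1) * S.L i := by
      field_simp
    rw [e2]
    push_cast
    nlinarith
  exact (h3.trans_isBigO h4).tendsto_div_nhds_zero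

variable {S : Sys} {γ : Type}

/-- the join of two boxes -/
noncomputable def jnB (A A' : S.BX) : S.BX := fun i => jn (A i) (A' i)

/-- the meet of two boxes -/
noncomputable def mtB (A A' : S.BX) : S.BX := fun i => SubF.mt (A i) (A' i)

/-- angle level -/
noncomputable def lvB (A A' : S.BX) : S.RV ℕ := fun i ω => lv (A i) (A' i) ω

/-- aspect -/
noncomputable def plB (A : S.BX) : S.RV ℕ := fun i ω => pl (A i) ω

theorem bxA_jn {A A' : S.BX} (hA : BxA A) : BxA (jnB A A') := by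
  obtain ⟨h1, c, hc⟩ := hA
  refine ⟨?_, c, ?_⟩
  · filter_upwards [h1] with i hi ω hω
    obtain ⟨a1, a2, a3⟩ := hi ω hω
    exact ⟨a1, a2, Nat.le_add_right _ _⟩
  · filter_upwards [h1, hc] with i hi hc ω hω
    obtain ⟨a1, a2, a3⟩ := hi ω hω
    have h2 := lv_le (A i) (A' i) ω
    have h3 : (A i).k ω + lv (A i) (A' i) ω ≤ (A i).j ω := by omega
    have h4 : (((A i).k ω + lv (A i) (A' i) ω : ℕ) : ℝ) ≤ (A i).j ω := by exact_mod_cast h3
    exact h4.trans (hc ω hω)

theorem bxA_mt {A A' : S.BX} (hA : BxA A) : BxA (mtB A A') := by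
  obtain ⟨h1, c, hc⟩ := hA
  refine ⟨?_, c, ?_⟩
  · filter_upwards [h1] with i hi ω hω
    obtain ⟨a1, a2, a3⟩ := hi ω hω
    exact ⟨a1, a2, Nat.sub_le _ _⟩
  · filter_upwards [hc] with i hc ω hω
    exact hc ω hω

theorem ol_of_le {A : S.BX} (hA : BxA A) {f : S.RV ℝ}
    (hf : S.Ae fun i ω => |f i ω| ≤ (A i).j ω) : OL f := by
  obtain ⟨h1, c, hc⟩ := hA
  refine ⟨c, ?_⟩
  filter_upwards [hc, hf] with i hc hf ω hω
  exact (hf ω hω).trans (hc ω hω)

theorem ol_gap {A A' : S.BX} (hA : BxA A) :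
    OL (S := S) (fun i ω => (plB A i ω : ℝ) - lvB A A' i ω) := by
  refine ol_of_le hA ?_
  filter_upwards [hA.1] with i hi ω hω
  have h2 := lv_le (A i) (A' i) ω
  have h3 : (lv (A i) (A' i) ω : ℝ) ≤ (pl (A i) ω : ℝ) := by exact_mod_cast h2
  have h4 : (pl (A i) ω : ℝ) ≤ (A i).j ω := by exact_mod_cast Nat.sub_le _ _
  have h5 : (0:ℝ) ≤ lv (A i) (A' i) ω := Nat.cast_nonneg _
  show |(pl (A i) ω : ℝ) - lv (A i) (A' i) ω| ≤ _
  rw [abs_of_nonneg (by linarith)]
  linarith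

/-- **strict submodularity, pair form** -/
theorem vall_sub (hl : 0 ≤ lam ∧ lam ≤ 1) {B A A' : S.BX} (hB : BxA B) (hA : BxA A) (hA' : BxA A')
    (C : S.RV γ)
    (hs : S.Ae fun i ω => Nr ((1 / 2 : ℝ) ^ (A i).j ω) ((A' i).l ω) ((A i).l ω) ∧
      (A' i).k ω = (A i).k ω ∧ (A' i).j ω = (A i).j ω) :
    S.vall lam B A C + S.vall lam B A' C +
        2 * lam * S.av (fun i ω => (plB A i ω : ℝ) - lvB A A' i ω) ≤
      S.vall lam B (mtB A A') C + S.vall lam B (jnB A A') C +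
        S.mi A.lab A'.lab (Sys.pr B.lab C) := by
  have hM := bxA_mt (A' := A') hA
  have hJ := bxA_jn (A' := A') hA
  obtain ⟨hok, c, hc⟩ := hA
  obtain ⟨K, hK1, hK⟩ : ∃ K : ℕ, 1 ≤ K ∧ c ≤ K := by
    obtain ⟨K, hK⟩ := exists_nat_ge c
    exact ⟨K + 1, by omega, by push_cast; linarith⟩
  have hA : BxA A := ⟨hok, c, hc⟩
  have hg := ol_gap (A' := A') hA
  -- the mutual information as a limit
  have uA1 := UB.hc hA.tame (Sys.pr B.lab C)
  have uA2 := UB.hc hA.tame (Sys.pr A'.lab (Sys.pr B.lab C))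
  have emi : S.mi A.lab A'.lab (Sys.pr B.lab C) =
      ulim fun i => Stk.mi (S.P i) (A.lab i) (A'.lab i) (Sys.pr B.lab C i) / S.nm i := by
    unfold Sys.mi Sys.hc
    rw [← ulim_sub uA1 uA2]
    refine ulim_congr (Eventually.of_forall fun i => ?_)
    rw [← sub_div]
    rfl
  have umi : UB fun i => Stk.mi (S.P i) (A.lab i) (A'.lab i) (Sys.pr B.lab C i) / S.nm i := by
    obtain ⟨c, hc⟩ := uA1.sub uA2
    refine ⟨c, ?_⟩
    filter_upwards [hc] with i hi
    refine le_trans (le_of_eq ?_) hi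
    rw [← sub_div]
    rfl
  have eav : 2 * lam * S.av (fun i ω => (plB A i ω : ℝ) - lvB A A' i ω) =
      ulim fun i => 2 * lam * ((S.P i).ex (fun ω => (plB A i ω : ℝ) - lvB A A' i ω) / S.L i) := by
    unfold Sys.av
    rw [ulim_const_mul _ (UB.av hg)]
  have u1 := ub_exV hl hB hA C
  have u2 := ub_exV hl hB hA' C
  have u3 := ub_exV hl hB hM C
  have u4 := ub_exV hl hB hJ C
  have u5 := (UB.av hg).const_mul (2 * lam)
  rw [vall_eq hl hB hA C, vall_eq hl hB hA' C, vall_eq hl hB hM C, vall_eq hl hB hJ C, emi, eav,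
    ← ulim_add u1 u2, ← ulim_add (u1.add u2) u5, ← ulim_add u3 u4, ← ulim_add (u3.add u4) umi]
  have hc0 : Tendsto (fun i => 100 / S.nm i +
      3 * (Real.log (((K * S.L i : ℕ) : ℝ) + 1) / S.nm i)) (uf : Filter ℕ) (𝓝 0) := by
    have h1 := (S.const_div_nm 100).add ((log_nm S hK1).const_mul 3)
    simpa using h1
  refine ulim_le_of_sub ((u1.add u2).add u5) ((u3.add u4).add umi) hc0 ?_
  filter_upwards [S.L_pos, hok, hc, hs, hA'.1] with i hi g1 g2 g3 g4
  have hn : 0 < S.nm i := by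
    have : (0:ℝ) < S.L i := by exact_mod_cast hi
    have hl : 0 < Real.log 2 := Real.log_pos (by norm_num)
    exact mul_pos this hl
  have key := exVl_sub (lam := lam) (S.P i) (K * S.L i) (B i) (A i) (A' i) (C i) (by
    intro ω hω
    obtain ⟨a1, a2, a3⟩ := g1 ω hω
    obtain ⟨b1, b2, b3⟩ := g3 ω hω
    refine ⟨b1, b2, b3, a3, ?_, a2, (g4 ω hω).2.1⟩
    have h1 := g2 ω hω
    have h2 : ((A i).j ω : ℝ) ≤ ((K * S.L i : ℕ) : ℝ) := by
      push_cast
      exact h1.trans (mul_le_mul_of_nonneg_right hK (Nat.cast_nonneg _))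
    have h3 : (A i).j ω ≤ K * S.L i := by exact_mod_cast h2
    exact (Nat.sub_le _ _).trans h3)
  have e1 : 2 * lam * ((S.P i).ex (fun ω => (plB A i ω : ℝ) - lvB A A' i ω) / S.L i) =
      2 * lam * Real.log 2 * (S.P i).ex (fun ω => (pl (A i) ω : ℝ) - lv (A i) (A' i) ω) / S.nm i := by
    have hL : (0:ℝ) < S.L i := by exact_mod_cast hi
    have hl : 0 < Real.log 2 := Real.log_pos (by norm_num)
    have e0 : S.nm i = S.L i * Real.log 2 := rfl
    rw [e0]
    show 2 * lam * ((S.P i).ex (fun ω => (pl (A i) ω : ℝ) - lv (A i) (A' i) ω) / S.L i) = _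
    field_simp
  rw [e1, ← add_div, ← add_div, ← mul_div_assoc, ← add_div, ← add_div, ← add_div, ← add_div]
  refine div_le_div_of_nonneg_right ?_ hn.le
  have key' := key
  show exVl lam (S.P i) (B i) (A i) (C i) + exVl lam (S.P i) (B i) (A' i) (C i) +
      2 * lam * Real.log 2 * (S.P i).ex (fun ω => (pl (A i) ω : ℝ) - lv (A i) (A' i) ω) ≤
    exVl lam (S.P i) (B i) (SubF.mt (A i) (A' i)) (C i) +
      exVl lam (S.P i) (B i) (jn (A i) (A' i)) (C i) +
      Stk.mi (S.P i) (A i).lab (A' i).lab (fun ω => ((B i).lab ω, C i ω)) +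
      (100 + 3 * Real.log (((K * S.L i : ℕ) : ℝ) + 1))
  linarith

theorem subA_jn {B A : S.BX} (A' : S.BX) (h : SubA B A) : SubA B (jnB A A') := by
  obtain ⟨c, hc⟩ := h
  refine ⟨max c 0, ?_⟩
  filter_upwards [hc] with i hi ω hω
  exact sub_jn (le_max_right _ _) _ (ExcB.sub_mono (le_max_left _ _) (hi ω hω))

theorem subA_mt {B A : S.BX} (A' : S.BX) (h : SubA B A)
    (hk : S.Ae fun i ω => (A i).j ω ≤ (B i).k ω + lvB A A' i ω) : SubA B (mtB A A') := by
  obtain ⟨c, hc⟩ := h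
  refine ⟨c, ?_⟩
  filter_upwards [hc, hk] with i hi hk ω hω
  exact sub_mt _ (hi ω hω) (hk ω hω)

/-- pair form, both new boxes bounded by the excess -/
theorem vall_sub_le (hl : 0 ≤ lam ∧ lam ≤ 1) {B A A' : S.BX} (hB : BxA B) (hA' : BxA A')
    (hBA : SubA B A) (C : S.RV γ)
    (hs : S.Ae fun i ω => Nr ((1 / 2 : ℝ) ^ (A i).j ω) ((A' i).l ω) ((A i).l ω) ∧
      (A' i).k ω = (A i).k ω ∧ (A' i).j ω = (A i).j ω)
    (hk : S.Ae fun i ω => (A i).j ω ≤ (B i).k ω + lvB A A' i ω) :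
    S.vall lam B A C + S.vall lam B A' C +
        2 * lam * S.av (fun i ω => (plB A i ω : ℝ) - lvB A A' i ω) ≤
      2 * S.excl lam B C + S.mi A.lab A'.lab (Sys.pr B.lab C) := by
  have hA := bxA_of_sub hB hBA
  have h1 := vall_sub hl hB hA hA' C hs
  have h2 : S.vall lam B (mtB A A') C ≤ S.excl lam B C :=
    excl_ge hl (Ext.refl S) C hB (bxA_mt hA) (subA_mt A' hBA hk)
  have h3 : S.vall lam B (jnB A A') C ≤ S.excl lam B C :=
    excl_ge hl (Ext.refl S) C hB (bxA_jn hA) (subA_jn A' hBA)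
  linarith

/-! ### two copies of a soft label -/

/-- the shape of a box -/
def shp (W : S.BX) : S.RV (ℕ × ℕ) := fun i ω => ((W i).k ω, (W i).j ω)

theorem fn_shp (W : S.BX) : Fn (shp W) W.lab :=
  Eventually.of_forall fun i ω ω' _ _ e => by
    have h := lab_shape (B := W i) (B' := W i) (ω := ω) (ω' := ω') e
    exact Prod.ext h.1 h.2

theorem tame_shp {W : S.BX} (hW : BxA W) : Tame (shp W) := hW.tame.mono (fn_shp W)

/-- the shape has zero entropy -/
theorem hc_shp {δ : Type} {W : S.BX} (hW : BxA W) (Y : S.RV δ) : S.hc (shp W) Y = 0 := by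
  obtain ⟨hok, c, hc⟩ := hW
  obtain ⟨K, hK1, hK⟩ : ∃ K : ℕ, 1 ≤ K ∧ c ≤ K := by
    obtain ⟨K, hK⟩ := exists_nat_ge c
    exact ⟨K + 1, by omega, by push_cast; linarith⟩
  have h0 : Tendsto (fun i => 2 * (Real.log (((K * S.L i : ℕ) : ℝ) + 1) / S.nm i))
      (uf : Filter ℕ) (𝓝 0) := by
    have h1 := (log_nm S hK1).const_mul 2
    simpa using h1
  refine ulim_eq (squeeze_zero' ?_ ?_ h0)
  · filter_upwards [S.nm_pos] with i hi
    exact div_nonneg (Stk.hc_nonneg _ _ _) hi.le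
  · filter_upwards [S.nm_pos, hok, hc] with i hi g1 g2
    rw [← mul_div_assoc]
    refine div_le_div_of_nonneg_right ?_ hi.le
    have h1 : Stk.hc (S.P i) (shp W i) (Y i) ≤
        Real.log (((K * S.L i + 1) * (K * S.L i + 1) : ℕ) : ℝ) := by
      refine Stk.hc_le_log (S.P i) _ _ _ fun ω _ => ?_
      refine ⟨Finset.range (K * S.L i + 1) ×ˢ Finset.range (K * S.L i + 1), by
        rw [Finset.card_product, Finset.card_range], fun ω' hω' _ => ?_⟩
      have h2 : ((W i).j ω' : ℝ) ≤ ((K * S.L i : ℕ) : ℝ) := by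
        push_cast
        exact (g2 ω' hω').trans (mul_le_mul_of_nonneg_right hK (Nat.cast_nonneg _))
      have h3 : (W i).j ω' ≤ K * S.L i := by exact_mod_cast h2
      have h4 := (g1 ω' hω').2.2
      simp only [shp, Finset.mem_product, Finset.mem_range]
      omega
    refine h1.trans (le_of_eq ?_)
    push_cast
    have hpos : (0:ℝ) < (K:ℝ) * S.L i + 1 := by positivity
    rw [Real.log_mul hpos.ne' hpos.ne']
    ring

theorem vall_pull {S' : Sys} (e : Ext S' S) (B W : S.BX) (C : S.RV γ) :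
    S'.vall lam (e.pullB B) (e.pullB W) (e.pull C) = S.vall lam B W C := by
  unfold Sys.vall
  congr 1
  · exact e.hc B.lab (Sys.pr W.lab C)
  · exact e.av (fun i ω => B.szl lam i ω - W.szl lam i ω)

/-- **strict submodularity for two copies** : `W` a label of the tubes of precision `n`, soft given
`D`; `e₀`, `e₁` two copies of `S` given `D` and the shape of `W`. -/
theorem copies_sub (hl : 0 ≤ lam ∧ lam ≤ 1) {n : ℕ → ℕ} (hn : S.Bd n) {l : S.RV Ln} (hln : LnA l)
    {W : S.BX} (hW : SubA (tubes n l) W) {C : S.RV γ} {δ : Type} {D : S.RV δ}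
    (hD : Fn (Sys.pr (tubes n l).lab C) D)
    (hsoft : S.hc W.lab D = S.hc W.lab (Sys.pr (tubes n l).lab C))
    {S' : Sys} (e₀ e₁ : Ext S' S)
    (hV : ∀ i ω, 0 < (S'.P i).w ω → D i (e₁.π i ω) = D i (e₀.π i ω) ∧
      shp W i (e₁.π i ω) = shp W i (e₀.π i ω))
    (hind : S'.hc (e₁.pull W.lab) (Sys.pr (e₀.pull W.lab) (e₁.pull (Sys.pr D (shp W)))) =
      S.hc W.lab (Sys.pr D (shp W))) :
    S.vall lam (tubes n l) W C +
        lam * S'.av (fun i ω => (plB (e₀.pullB W) i ω : ℝ) -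
          lvB (e₀.pullB W) (e₁.pullB W) i ω) ≤
      S.excl lam (tubes n l) C := by
  have hB : BxA (tubes n l) := tubes_ok hn hln
  have hWok : BxA W := bxA_of_sub hB hW
  have hB0 := e₀.bxA hB
  have hW0 := e₀.bxA hWok
  have hW1 := e₁.bxA hWok
  have hs0 : SubA (e₀.pullB (tubes n l)) (e₀.pullB W) := ExcB.subA_pull e₀ hW
  have tW := hWok.tame
  -- the labels of the tubes and `C` agree on the two copies
  have hBC : S'.Ae fun i ω => (tubes n l).lab i (e₁.π i ω) = (tubes n l).lab i (e₀.π i ω) ∧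
      C i (e₁.π i ω) = C i (e₀.π i ω) := by
    filter_upwards [hD] with i hi ω hω
    have := hi _ _ (e₁.w_pos i hω) (e₀.w_pos i hω) (hV i ω hω).1
    exact Prod.mk.injEq _ _ _ _ ▸ this
  have h3' : S'.Ae fun i ω => tb (n i) (l i (e₁.π i ω)) = tb (n i) (l i (e₀.π i ω)) := by
    filter_upwards [hBC, Coa.fn_lab' n l] with i h2 h5 ω hω
    exact h5 _ _ (e₁.w_pos i hω) (e₀.w_pos i hω) (h2 ω hω).1
  -- lines are close
  obtain ⟨c, hc⟩ := hW
  have hW : SubA (tubes n l) W := ⟨c, hc⟩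
  have hj : S.Ae fun i ω => (W i).j ω ≤ n i ∧ (W i).l ω = l i ω := by
    filter_upwards [hc] with i hi ω hω
    exact ⟨(hi ω hω).2.2.2.2.1, (hi ω hω).1⟩
  have hs : S'.Ae fun i ω =>
      Nr ((1 / 2 : ℝ) ^ ((e₀.pullB W) i).j ω) (((e₁.pullB W) i).l ω) (((e₀.pullB W) i).l ω) ∧
      ((e₁.pullB W) i).k ω = ((e₀.pullB W) i).k ω ∧ ((e₁.pullB W) i).j ω = ((e₀.pullB W) i).j ω := by
    filter_upwards [e₀.ae hj, e₁.ae hj, h3'] with i h0 h1 h2 ω hω
    have h3 := (hV i ω hω).2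
    have h4 := Prod.mk.injEq _ _ _ _ ▸ h3
    refine ⟨?_, h4.1, h4.2⟩
    show Nr ((1 / 2 : ℝ) ^ (W i).j (e₀.π i ω)) ((W i).l (e₁.π i ω)) ((W i).l (e₀.π i ω))
    rw [(h0 ω hω).2, (h1 ω hω).2]
    exact nr_of_tb (h0 ω hω).1 (h2 ω hω)
  have hshape : S'.Ae fun i ω => ((e₁.pullB W) i).k ω = ((e₀.pullB W) i).k ω ∧
      ((e₁.pullB W) i).j ω = ((e₀.pullB W) i).j ω := by
    filter_upwards [hs] with i hi ω hω
    exact (hi ω hω).2
  have hk : S'.Ae fun i ω => ((e₀.pullB W) i).j ω ≤ ((e₀.pullB (tubes n l)) i).k ω +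
      lvB (e₀.pullB W) (e₁.pullB W) i ω := by
    filter_upwards [e₀.ae hj] with i h0 ω hω
    exact (h0 ω hω).1.trans (Nat.le_add_right _ _)
  have key := vall_sub_le hl hB0 hW1 hs0 (e₀.pull C) hs hk
  -- values
  have v0 : S'.vall lam (e₀.pullB (tubes n l)) (e₀.pullB W) (e₀.pull C) =
      S.vall lam (tubes n l) W C := vall_pull e₀ _ _ _
  have v1 : S'.vall lam (e₀.pullB (tubes n l)) (e₁.pullB W) (e₀.pull C) =
      S.vall lam (tubes n l) W C := by
    rw [← vall_pull e₁]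
    unfold Sys.vall
    congr 1
    refine hc_congr ?_ ?_ ?_ ?_
    · filter_upwards [hBC] with i h2 ω ω' hω hω' e
      have e1 : (tubes n l).lab i (e₁.π i ω) = (tubes n l).lab i (e₁.π i ω') := congrArg Prod.fst e
      show (tubes n l).lab i (e₀.π i ω) = (tubes n l).lab i (e₀.π i ω')
      rw [← (h2 ω hω).1, ← (h2 ω' hω').1]
      exact e1
    · filter_upwards [hBC] with i h2 ω ω' hω hω' e
      have e1 : (tubes n l).lab i (e₀.π i ω) = (tubes n l).lab i (e₀.π i ω') := congrArg Prod.fst e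
      show (tubes n l).lab i (e₁.π i ω) = (tubes n l).lab i (e₁.π i ω')
      rw [(h2 ω hω).1, (h2 ω' hω').1]
      exact e1
    · filter_upwards [hBC] with i h2 ω ω' hω hω' e
      have e1 : W.lab i (e₁.π i ω) = W.lab i (e₁.π i ω') := congrArg Prod.fst e
      have e2 : C i (e₁.π i ω) = C i (e₁.π i ω') := congrArg Prod.snd e
      refine Prod.ext e1 ?_
      show C i (e₀.π i ω) = C i (e₀.π i ω')
      rw [← (h2 ω hω).2, ← (h2 ω' hω').2]
      exact e2
    · filter_upwards [hBC] with i h2 ω ω' hω hω' e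
      have e1 : W.lab i (e₁.π i ω) = W.lab i (e₁.π i ω') := congrArg Prod.fst e
      have e2 : C i (e₀.π i ω) = C i (e₀.π i ω') := congrArg Prod.snd e
      refine Prod.ext e1 ?_
      show C i (e₁.π i ω) = C i (e₁.π i ω')
      rw [(h2 ω hω).2, (h2 ω' hω').2]
      exact e2
  have v2 := excl_ext (lam := lam) e₀ C (tubes n l)
  -- the information vanishes
  have v3 : S'.mi (e₀.pullB W).lab (e₁.pullB W).lab
      (Sys.pr (e₀.pullB (tubes n l)).lab (e₀.pull C)) = 0 := by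
    have t0 : Tame (e₀.pull W.lab) := e₀.tame tW
    have t1 : Tame (e₁.pull W.lab) := e₁.tame tW
    refine le_antisymm ?_ (mi_nonneg t0 _ _)
    have m1 : S'.mi (e₀.pull W.lab) (e₁.pull W.lab)
        (Sys.pr (e₀.pullB (tubes n l)).lab (e₀.pull C)) =
        S'.mi (e₁.pull W.lab) (e₀.pull W.lab)
        (Sys.pr (e₀.pullB (tubes n l)).lab (e₀.pull C)) := mi_comm t0 t1 _
    have m2 : S'.hc (e₁.pull W.lab) (Sys.pr (e₀.pullB (tubes n l)).lab (e₀.pull C)) =
        S.hc W.lab (Sys.pr (tubes n l).lab C) := by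
      rw [← e₁.hc W.lab (Sys.pr (tubes n l).lab C)]
      refine hc_congr (Eventually.of_forall fun _ _ _ _ _ e => congrArg Prod.fst e)
        (Eventually.of_forall fun _ _ _ _ _ e => congrArg Prod.fst e) ?_ ?_
      · filter_upwards [hBC] with i h2 ω ω' hω hω' e
        have e1 : (tubes n l).lab i (e₁.π i ω) = (tubes n l).lab i (e₁.π i ω') :=
          congrArg Prod.fst e
        have e2 : C i (e₁.π i ω) = C i (e₁.π i ω') := congrArg Prod.snd e
        refine Prod.ext ?_ ?_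
        · show (tubes n l).lab i (e₀.π i ω) = (tubes n l).lab i (e₀.π i ω')
          rw [← (h2 ω hω).1, ← (h2 ω' hω').1]
          exact e1
        · show C i (e₀.π i ω) = C i (e₀.π i ω')
          rw [← (h2 ω hω).2, ← (h2 ω' hω').2]
          exact e2
      · filter_upwards [hBC] with i h2 ω ω' hω hω' e
        have e1 : (tubes n l).lab i (e₀.π i ω) = (tubes n l).lab i (e₀.π i ω') :=
          congrArg Prod.fst e
        have e2 : C i (e₀.π i ω) = C i (e₀.π i ω') := congrArg Prod.snd e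
        refine Prod.ext ?_ ?_
        · show (tubes n l).lab i (e₁.π i ω) = (tubes n l).lab i (e₁.π i ω')
          rw [(h2 ω hω).1, (h2 ω' hω').1]
          exact e1
        · show C i (e₁.π i ω) = C i (e₁.π i ω')
          rw [(h2 ω hω).2, (h2 ω' hω').2]
          exact e2
    have m3 : S'.hc (e₁.pull W.lab) (Sys.pr (e₀.pull W.lab) (e₁.pull (Sys.pr D (shp W)))) ≤
        S'.hc (e₁.pull W.lab) (Sys.pr (e₀.pull W.lab)
          (Sys.pr (e₀.pullB (tubes n l)).lab (e₀.pull C))) := by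
      refine hc_mono_right t1 ?_
      filter_upwards [hBC, hD] with i h2 h3 ω ω' hω hω' e
      have e1 : W.lab i (e₀.π i ω) = W.lab i (e₀.π i ω') := congrArg Prod.fst e
      have e2 : D i (e₁.π i ω) = D i (e₁.π i ω') := congrArg (fun z => z.2.1) e
      have e3 := h3 _ _ (e₁.w_pos i hω) (e₁.w_pos i hω') e2
      have e4 : (tubes n l).lab i (e₁.π i ω) = (tubes n l).lab i (e₁.π i ω') :=
        congrArg Prod.fst e3
      have e5 : C i (e₁.π i ω) = C i (e₁.π i ω') := congrArg Prod.snd e3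
      refine Prod.ext e1 (Prod.ext ?_ ?_)
      · show (tubes n l).lab i (e₀.π i ω) = (tubes n l).lab i (e₀.π i ω')
        rw [← (h2 ω hω).1, ← (h2 ω' hω').1]
        exact e4
      · show C i (e₀.π i ω) = C i (e₀.π i ω')
        rw [← (h2 ω hω).2, ← (h2 ω' hω').2]
        exact e5
    have m4 : S.hc W.lab (Sys.pr D (shp W)) = S.hc W.lab D := by
      rw [← hc_cond_zero tW (tame_shp hWok) (hc_shp hWok D)]
      refine hc_congr (Eventually.of_forall fun _ _ _ _ _ e => congrArg Prod.fst e)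
        (Eventually.of_forall fun _ _ _ _ _ e => congrArg Prod.fst e)
        (Eventually.of_forall fun _ _ _ _ _ e => by
          simp only [Sys.pr_apply, Prod.mk.injEq] at e ⊢
          exact ⟨e.2, e.1⟩)
        (Eventually.of_forall fun _ _ _ _ _ e => by
          simp only [Sys.pr_apply, Prod.mk.injEq] at e ⊢
          exact ⟨e.2, e.1⟩)
    show S'.mi (e₀.pull W.lab) (e₁.pull W.lab)
        (Sys.pr (e₀.pullB (tubes n l)).lab (e₀.pull C)) ≤ 0
    rw [m1]
    unfold Sys.mi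
    linarith
  rw [v0, v1, v3, v2] at key
  linarith

/-- existence form : two copies given `D` and the shape of `W`, with the inequality; each copy is
independent of the other one given `(D, shape)` -/
theorem exists_copies_sub (hl : 0 ≤ lam ∧ lam ≤ 1) {n : ℕ → ℕ} (hn : S.Bd n) {l : S.RV Ln}
    (hln : LnA l) {W : S.BX} (hW : SubA (tubes n l) W) {C : S.RV γ} {δ : Type} {D : S.RV δ}
    (hD : Fn (Sys.pr (tubes n l).lab C) D)
    (hsoft : S.hc W.lab D = S.hc W.lab (Sys.pr (tubes n l).lab C)) :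
    ∃ (S' : Sys) (e₀ e₁ : Ext S' S),
      (∀ i ω, 0 < (S'.P i).w ω → D i (e₁.π i ω) = D i (e₀.π i ω) ∧
        shp W i (e₁.π i ω) = shp W i (e₀.π i ω)) ∧
      (∀ {β β' : Type} (X : S.RV β) (Y : S.RV β'),
        S'.hc (e₁.pull X) (Sys.pr (e₀.pull Y) (e₁.pull (Sys.pr D (shp W)))) =
          S.hc X (Sys.pr D (shp W)) ∧
        S'.hc (e₀.pull X) (Sys.pr (e₁.pull Y) (e₀.pull (Sys.pr D (shp W)))) =
          S.hc X (Sys.pr D (shp W))) ∧
      S.vall lam (tubes n l) W C +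
          lam * S'.av (fun i ω => (plB (e₀.pullB W) i ω : ℝ) -
            lvB (e₀.pullB W) (e₁.pullB W) i ω) ≤
        S.excl lam (tubes n l) C := by
  obtain ⟨S', e, h1, h2⟩ := exists_copies S (Sys.pr D (shp W)) 1
  have hV : ∀ i ω, 0 < (S'.P i).w ω → D i ((e 1).π i ω) = D i ((e 0).π i ω) ∧
      shp W i ((e 1).π i ω) = shp W i ((e 0).π i ω) := by
    intro i ω hω
    have := h1 1 i ω hω
    exact Prod.mk.injEq _ _ _ _ ▸ this
  have hI : ∀ {β β' : Type} (X : S.RV β) (Y : S.RV β'),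
      S'.hc ((e 1).pull X) (Sys.pr ((e 0).pull Y) ((e 1).pull (Sys.pr D (shp W)))) =
        S.hc X (Sys.pr D (shp W)) ∧
      S'.hc ((e 0).pull X) (Sys.pr ((e 1).pull Y) ((e 0).pull (Sys.pr D (shp W)))) =
        S.hc X (Sys.pr D (shp W)) := by
    intro β β' X Y
    refine ⟨h2 1 X ((e 0).pull Y) ?_, h2 0 X ((e 1).pull Y) ?_⟩
    · intro i ω ω' h
      show Y i ((e 0).π i ω) = Y i ((e 0).π i ω')
      rw [h 0 (by decide)]
    · intro i ω ω' h
      show Y i ((e 1).π i ω) = Y i ((e 1).π i ω')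
      rw [h 1 (by decide)]
  exact ⟨S', e 0, e 1, hV, hI, copies_sub hl hn hln hW hD hsoft (e 0) (e 1) hV (hI _ _).1⟩

end Vale.Agent.P127.U.Lam
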