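import Vale.Agent.P127.U.Lam.TopA
import Vale.Agent.P127.U.End.Step

/-!
# P127 / U / Lam : no extremal system, from the saturation of the end label (helper336)

* `XtrV` : extremal system with an end label `W` of deterministic shape `(0, q)` in the coordinates of
  the ball of radius `2^-L` : the value of `W` minus `X(0) + N D` is at least `β`.  This form is
  inherited by conditioning on variables of zero normalised entropy.
* `XtrW` : the same with `W` a maximiser which is independent of the line given the tubelet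
  (`XtrW.xtrV`).
* `PNorm` : an extremal system gives one with an end label (shape conditioning, `T | l_p`, rounding).
* `PSat` : (SAT) after conditioning (rate `β - ε`), the information of `(W, p_L)` on the line given the box of the root
  of shape `(0, r)` in the frame of `W` is at least `2 + (q - r) - ε`, for some `r ≤ q`.
* `noXtr_of` : `PNorm` and `PSat` imply `PNoXtr` (BASIC inequality at the level `0`).
-/

set_option autoImplicit false

namespace Vale.Agent.P127.U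

open Filter Topology Vale.Agent.P127 Vale.Agent.P127.Stk Sys

/-- extremal system with an end label `W` of shape `(0, q)`, in the form which is inherited by
conditioning: the value of `W` is at least `β + X(0) + N D` -/
structure XtrV (N lam β : ℝ) (S : Sys) (n : ℕ → ℕ) (l : S.RV Ln) (t : S.RV ℝ) (W : S.BX)
    (q : ℕ → ℕ) : Prop where
  bd : S.Bd n
  qn : ∀ i, n i = S.L i + q i
  ln : LnA l
  t01 : T01 t
  rnd : Sys.Fn l (tbs n l)
  ok : BxA W
  sh : Shape W (fun _ => 0) q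
  ang : S.Ae fun i ω => |(W i).θ ω| ≤ Real.pi / 4
  sub : SubA (tubes (fun i => n i - S.L i) (bl S.L l t)) W
  ge : β + S.excl lam (tubes n l) (one (S := S)) + N * Dl S.L n l t (one (S := S)) ≤
    S.hc (tbs n l) (Sys.pr W.lab (pqs S.L (pt l t))) - 2 * (S.nu n - 1) + (1 - lam) * S.nu q

/-- extremal system with a maximiser `W` of shape `(0, q)` as end label -/
structure XtrW (N lam β : ℝ) (S : Sys) (n : ℕ → ℕ) (l : S.RV Ln) (t : S.RV ℝ) (W : S.BX)
    (q : ℕ → ℕ) : Prop where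
  xtr : XtrL N lam β S n l t
  qn : ∀ i, n i = S.L i + q i
  ok : BxA W
  sh : Shape W (fun _ => 0) q
  sub : SubA (tubes (fun i => n i - S.L i) (bl S.L l t)) W
  opt : S.vall lam (tubes (fun i => n i - S.L i) (bl S.L l t)) W
      (Sys.pr (pqs S.L (pt l t)) (one (S := S))) =
    S.excl lam (tubes (fun i => n i - S.L i) (bl S.L l t))
      (Sys.pr (pqs S.L (pt l t)) (one (S := S)))
  ci : S.hc (tbs n l) (Sys.pr W.lab (tl S.L n l t)) = S.hc (tbs n l) (tl S.L n l t)

/-- an extremal system gives one with an end label of shape `(0, q)` -/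
def PNorm : Prop :=
  ∀ N lam β : ℝ, 2 ≤ N → 0 < lam → lam ≤ 1 → lam < β → β ≤ 2 → JFG N lam β → JL N lam β →
    ∀ (S : Sys) (n : ℕ → ℕ) (l : S.RV Ln) (t : S.RV ℝ), XtrL N lam β S n l t →
    ∃ (S' : Sys) (n' : ℕ → ℕ) (l' : S'.RV Ln) (t' : S'.RV ℝ) (W : S'.BX) (q : ℕ → ℕ),
      XtrV N lam β S' n' l' t' W q

/-- the box of the root of shape `(0, r)` in the frame of `W` -/
noncomputable def rootB {S : Sys} (W : S.BX) (r : ℕ → ℕ) (l : S.RV Ln) : S.BX :=
  slab r (fun i => (W i).θ) l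

/-- **(SAT)** saturation of the end label -/
def PSat : Prop :=
  ∀ N lam β : ℝ, 2 ≤ N → 0 < lam → lam < 1 → lam < β → β ≤ 2 → JFG N lam β → JL N lam β →
    ∀ (S : Sys) (n : ℕ → ℕ) (l : S.RV Ln) (t : S.RV ℝ) (W : S.BX) (q : ℕ → ℕ),
      XtrV N lam β S n l t W q → ∀ ε : ℝ, 0 < ε →
      ∃ (S' : Sys) (n' : ℕ → ℕ) (l' : S'.RV Ln) (t' : S'.RV ℝ) (W' : S'.BX) (q' r : ℕ → ℕ),
        XtrV N lam (β - ε) S' n' l' t' W' q' ∧ (∀ i, r i ≤ q' i) ∧
        2 + (S'.nu q' - S'.nu r) - ε ≤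
          S'.hc (tbs n' l') (rootB W' r l').lab -
            S'.hc (tbs n' l') (Sys.pr W'.lab (pqs S'.L (pt l' t')))

namespace Lam

variable {S : Sys} {γ : Type}

theorem bd_le {n m : ℕ → ℕ} (hn : S.Bd n) (h : ∀ i, m i ≤ n i) : S.Bd m := Apx.bd_mono hn h

/-- the point of precision `s` is known from the tubelet of length `2^-s` -/
theorem pqs_tl {n s m : ℕ → ℕ} (h : Fi.Par S n s m) {l : S.RV Ln} {t : S.RV ℝ} (hl : LnA l)
    (ht : T01 t) : S.hc (pqs s (pt l t)) (tl s n l t) = 0 := by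
  refine Fi.hc_zero_pair (X := dg s t) (Fi.t01_tame ht h.bds) (Fi.tame_posv h.bds hl (Fi.t01_abs ht)) ?_ ?_
  · exact hc_fn (Eventually.of_forall fun _ _ _ _ _ e => congrArg Prod.fst e)
  · refine Fi.hc_zero_fl s 3 (fun i ω => pos (l i ω) (t i ω)) _ ?_
    filter_upwards [hl] with i h1 ω ω' hω hω' e j
    have e1 : fl (n i) (pos (l i ω') (qa (s i) (t i ω'))) = fl (n i) (pos (l i ω) (qa (s i) (t i ω))) :=
      congrArg (fun q => q.2.1) e
    have a1 : |pos (l i ω') (qa (s i) (t i ω')) j - pos (l i ω) (qa (s i) (t i ω)) j| ≤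
        (1 / 2 : ℝ) ^ n i := Fi.fl_close1 e1 j
    have a0 := Fi.hp_anti (h.sn i)
    have a2 : ∀ ω, 0 < (S.P i).w ω → |pos (l i ω) (t i ω) j - pos (l i ω) (qa (s i) (t i ω)) j| ≤
        (1 / 2 : ℝ) ^ s i := by
      intro ω hω
      have e1 : pos (l i ω) (t i ω) j - pos (l i ω) (qa (s i) (t i ω)) j =
          (t i ω - qa (s i) (t i ω)) * (l i ω).2 j := by
        unfold pos
        ring
      rw [e1, abs_mul]
      have b1 := Apx.abs_sub_qa (s i) (t i ω)
      have b2 := (h1 ω hω).2 j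
      have := mul_le_mul b1 b2 (abs_nonneg _) (by positivity)
      rw [mul_one] at this
      exact this
    have a3 := a2 ω hω
    have a4 := a2 ω' hω'
    push_cast
    rw [abs_le] at a1 a3 a4 ⊢
    constructor <;> linarith [a1.1, a1.2, a3.1, a3.2, a4.1, a4.2]

/-- the tube in the ball is known from the tubelet -/
theorem tbs_tl {n s m : ℕ → ℕ} (h : Fi.Par S n s m) (l : S.RV Ln) (t : S.RV ℝ) :
    Fn (tbs m (bl s l t)) (tl s n l t) :=
  Eventually.of_forall fun i ω ω' _ _ e => by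
    have hm : n i - s i = m i := by have := h.add i; omega
    have e1 : fl (n i) (Fi.ps s l t i ω) = fl (n i) (Fi.ps s l t i ω') := congrArg (fun q => q.2.1) e
    have e2 : fl (n i - s i) (l i ω).2 = fl (n i - s i) (l i ω').2 := congrArg (fun q => q.2.2) e
    rw [hm] at e2
    have e3 : fl (s i) (Fi.ps s l t i ω) = fl (s i) (Fi.ps s l t i ω') := fl_of_fl (h.sn i) _ _ e1
    have e4 : fl (m i) (bl s l t i ω).1 = fl (m i) (bl s l t i ω').1 := by
      funext j
      have f1 := fl_fract (s i) (m i) (Fi.ps s l t i ω) j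
      have f2 := fl_fract (s i) (m i) (Fi.ps s l t i ω') j
      have g1 : fl (s i + m i) (Fi.ps s l t i ω) j = fl (s i + m i) (Fi.ps s l t i ω') j := by
        rw [h.add i]
        exact congrFun e1 j
      have g2 := congrFun e3 j
      show fl (m i) (fun j => Int.fract ((2:ℝ) ^ s i * Fi.ps s l t i ω j)) j =
        fl (m i) (fun j => Int.fract ((2:ℝ) ^ s i * Fi.ps s l t i ω' j)) j
      rw [f1, f2, g1, g2]
    exact Prod.ext e4 e2

/-- value of a box of the root of shape `(0, r)` -/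
theorem root_val {lam : ℝ} (hlam : 0 ≤ lam ∧ lam ≤ 1) {n r : ℕ → ℕ} (hn : S.Bd n)
    (hr : ∀ i, r i ≤ n i) {l : S.RV Ln} (hl : LnA l) {θ : S.RV ℝ}
    (hθ : S.Ae fun i ω => |θ i ω| ≤ 4) (C : S.RV γ) :
    S.hc (tbs n l) (Sys.pr (slab r θ l).lab C) - (2 * S.nu n - (1 - lam) * S.nu r) ≤
      S.excl lam (tubes n l) C := by
  have hrb : S.Bd r := bd_le hn hr
  have hB : BxA (tubes n l) := Sys.tubes_ok hn hl
  have hW : BxA (slab r θ l) := by
    obtain ⟨c, hc⟩ := hrb
    refine ⟨?_, c, ?_⟩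
    · filter_upwards [hl, hθ] with i h1 h2 ω hω
      exact ⟨h1 ω hω, h2 ω hω, Nat.zero_le _⟩
    · filter_upwards [hc] with i hi ω _
      exact hi
  have hs : SubA (tubes n l) (slab r θ l) := by
    refine ⟨1, ?_⟩
    filter_upwards [hθ] with i hi ω hω
    refine ⟨rfl, hi ω hω, Nat.zero_le _, Nat.zero_le _, hr i, ?_⟩
    have h1 : (1 / 2 : ℝ) ^ n i ≤ (1 / 2) ^ r i := Fi.hp_anti (hr i)
    have h2 : |Real.sin ((tubes n l i).θ ω - (slab r θ l i).θ ω)| ≤ 1 := Real.abs_sin_le_one _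
    exact mul_le_mul h2 h1 (by positivity) zero_le_one
  have h1 := End.excl_ge' hlam hB hW hs C
  have h2 : S.hc (tbs n l) (Sys.pr (slab r θ l).lab C) ≤
      S.hc (tubes n l).lab (Sys.pr (slab r θ l).lab C) :=
    Sys.hc_mono_left hB.tame (Fi.tame_tbs hn hl) (End.fn_pr_left (Coa.fn_lab' n l))
  have h3 : S.av (fun i ω => (tubes n l).szl lam i ω - (slab r θ l).szl lam i ω) =
      2 * S.nu n - (1 - lam) * S.nu r := by
    unfold Sys.av Sys.nu
    rw [← ulim_const_mul 2 hn.ub, ← ulim_const_mul (1 - lam) hrb.ub,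
      ← ulim_sub (hn.ub.const_mul 2) (hrb.ub.const_mul (1 - lam))]
    refine ulim_congr (Eventually.of_forall fun i => ?_)
    have h0 : (fun ω => (tubes n l).szl lam i ω - (slab r θ l).szl lam i ω) =
        fun _ => (2 * (n i : ℝ) - (1 - lam) * r i) := by
      funext ω
      show ((1 + lam) * (n i : ℝ) + (1 - lam) * (n i : ℝ)) -
        ((1 + lam) * ((0 : ℕ) : ℝ) + (1 - lam) * (r i : ℝ)) = _
      push_cast
      ring
    show (S.P i).ex (fun ω => (tubes n l).szl lam i ω - (slab r θ l).szl lam i ω) / (S.L i : ℝ) = _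
    rw [h0, (S.P i).ex_const]
    ring
  unfold Sys.vall at h1
  rw [h3] at h1
  linarith

/-- `X(h) ≤ h(l | W, p) - 2 (n - h) + (1 - lam) q` for an end label `W` of shape `(0, q)` -/
theorem end_val {N lam β : ℝ} {n q : ℕ → ℕ} {l : S.RV Ln} {t : S.RV ℝ}
    {W : S.BX} (h : XtrW N lam β S n l t W q) :
    Xl lam S.L n l t (one (S := S)) ≤
      S.hc (tbs n l) (Sys.pr W.lab (pqs S.L (pt l t))) - 2 * (S.nu n - 1) +
        (1 - lam) * S.nu q := by
  have hn := h.xtr.bd
  have hl := h.xtr.ln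
  have ht := h.xtr.t01
  have hle := h.xtr.le
  set m : ℕ → ℕ := fun i => n i - S.L i with hm
  have hmb : S.Bd m := bd_le hn fun i => Nat.sub_le _ _
  have hq : ∀ i, q i ≤ n i := fun i => by have := h.qn i; omega
  have hqb : S.Bd q := bd_le hn hq
  have hPar : Fi.Par S n S.L m := ⟨fun i => by have := hle i; show S.L i + (n i - S.L i) = n i; omega, hn⟩
  have hl' : LnA (bl S.L l t) := Fi.bl_ok hl
  have hB : BxA (tubes m (bl S.L l t)) := Sys.tubes_ok hmb hl'
  set X := tbs n l with hX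
  set Y := tbs m (bl S.L l t) with hY
  set Z := pqs S.L (pt l t) with hZ
  set T := tl S.L n l t with hT
  have tX : Tame X := Fi.tame_tbs hn hl
  have tY : Tame Y := Fi.tame_tbs hmb hl'
  have tZ : Tame Z := Fi.tame_pqs Bd_L hl ht
  have tT : Tame T := by
    refine Tame.mono ?_ (End.tl_fn hPar)
    exact (Fi.tame_ps hPar.bds hl ht).pr (tY.pr tZ)
  have tW : Tame W.lab := h.ok.tame
  -- the penalised size
  have h3 : S.av (fun i ω => (tubes m (bl S.L l t)).szl lam i ω - W.szl lam i ω) =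
      2 * (S.nu n - 1) - (1 - lam) * S.nu q := by
    have e1 : S.nu m = S.nu n - 1 := by
      have := Apx.nu_sub (S := S) hn hle
      rw [Plane.nu_L] at this
      exact this
    rw [← e1]
    unfold Sys.av Sys.nu
    rw [← ulim_const_mul 2 hmb.ub, ← ulim_const_mul (1 - lam) hqb.ub,
      ← ulim_sub (hmb.ub.const_mul 2) (hqb.ub.const_mul (1 - lam))]
    refine ulim_congr ?_
    filter_upwards [h.sh] with i hi
    have h0 : (S.P i).ex (fun ω => (tubes m (bl S.L l t)).szl lam i ω - W.szl lam i ω) =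
        (S.P i).ex fun _ => (2 * (m i : ℝ) - (1 - lam) * q i) := by
      refine (S.P i).ex_congr fun ω hω => ?_
      obtain ⟨g1, g2⟩ := hi ω hω
      show ((1 + lam) * (m i : ℝ) + (1 - lam) * (m i : ℝ)) -
        ((1 + lam) * (((W i).k ω : ℕ) : ℝ) + (1 - lam) * (((W i).j ω : ℕ) : ℝ)) = _
      rw [g1, g2]
      push_cast
      ring
    show (S.P i).ex (fun ω => (tubes m (bl S.L l t)).szl lam i ω - W.szl lam i ω) / (S.L i : ℝ) = _
    rw [h0, (S.P i).ex_const]
    ring
  -- the entropies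
  have k1 : S.hc (tubes m (bl S.L l t)).lab (Sys.pr W.lab (Sys.pr Z (one (S := S)))) ≤
      S.hc Y (Sys.pr W.lab Z) := by
    refine (Sys.hc_mono_left tY hB.tame (End.fn_pr_left (Coa.fn_lab m (bl S.L l t)))).trans ?_
    refine hc_mono_right tY (Eventually.of_forall fun _ _ _ _ _ e => ?_)
    simp only [pr_apply, Prod.mk.injEq] at e ⊢
    exact ⟨e.1, e.2.1⟩
  have k2 : S.hc X (Sys.pr T (one (S := S))) ≤ S.hc X (Sys.pr Y (Sys.pr W.lab Z)) := by
    have a1 : S.hc X (Sys.pr T (one (S := S))) = S.hc X (Sys.pr W.lab T) := by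
      rw [Sys.hc_one_right, ← h.ci]
    have a2 : S.hc (Sys.pr Y Z) (Sys.pr W.lab T) = 0 := by
      refine Fi.hc_zero_mono (tY.pr tZ) (Fi.hc_zero_pair tY tZ (hc_fn (tbs_tl hPar l t))
        (pqs_tl hPar hl ht)) ?_
      exact Eventually.of_forall fun _ _ _ _ _ e => congrArg Prod.snd e
    rw [a1, ← hc_cond_zero tX (tY.pr tZ) a2]
    refine hc_mono_right tX (Eventually.of_forall fun _ _ _ _ _ e => ?_)
    simp only [pr_apply, Prod.mk.injEq] at e ⊢
    exact ⟨e.1.1, e.2.1, e.1.2⟩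
  have k3 := mi_comm tX tY (Sys.pr W.lab Z)
  unfold Sys.mi at k3
  have k4 : S.hc Y (Sys.pr X (Sys.pr W.lab Z)) = 0 := by
    have b1 : S.hc Y (Sys.pr (dg S.L t) X) = 0 :=
      Fi.hc_zero_trans tY hB.tame (hc_fn (Coa.fn_lab' m (bl S.L l t))) (Fi.zero_tubelet_tb hPar hl ht)
    refine Fi.hc_zero_mono tY b1 (Eventually.of_forall fun _ _ _ _ _ e => ?_)
    simp only [pr_apply, Prod.mk.injEq] at e ⊢
    exact ⟨congrArg Prod.fst e.2.2, e.1⟩
  have k5 := h.opt
  unfold Sys.vall at k5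
  unfold Xl
  rw [h3] at k5
  have k6 : S.excl lam (tubes (fun i => n i - S.L i) (bl S.L l t)) (Sys.pr (pqs S.L (pt l t)) (one (S := S))) =
    S.excl lam (tubes m (bl S.L l t)) (Sys.pr Z (one (S := S))) := rfl
  rw [k6]
  linarith

theorem dg_le_nu {s : ℕ → ℕ} (hs : S.Bd s) {t : S.RV ℝ} (ht : T01 t) (C : S.RV γ) :
    S.hc (dg s t) C ≤ S.nu s := by
  have hl : 0 < Real.log 2 := Real.log_pos (by norm_num)
  refine ulim_le_of_sub (UB.hc (tame_dg_t hs ht) _) (Apx.UB.nu hs) (S.const_div_nm (Real.log 5)) ?_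
  filter_upwards [S.L_pos, ht] with i hi hti
  have hL : (0:ℝ) < S.L i := by exact_mod_cast hi
  have hk := Apx.hc_fl1_apx (S.P i) (s i) (2 ^ s i) (t i) (C i) (by
      intro ω ω' hω hω' _
      obtain ⟨a1, a2⟩ := hti ω hω
      obtain ⟨b1, b2⟩ := hti ω' hω'
      push_cast
      rw [← mul_pow]
      norm_num
      rw [abs_le]
      constructor <;> linarith)
  have hk2 : Real.log (2 * ((2 ^ s i : ℕ) : ℝ) + 3) ≤ s i * Real.log 2 + Real.log 5 := by
    rw [← Real.log_pow, ← Real.log_mul (by positivity) (by norm_num)]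
    apply Real.log_le_log (by positivity)
    push_cast
    have : (1:ℝ) ≤ 2 ^ s i := one_le_pow₀ (by norm_num)
    nlinarith
  have hnm : 0 < S.nm i := mul_pos hL hl
  have hk3 : Stk.hc (S.P i) (dg s t i) (C i) ≤ s i * Real.log 2 + Real.log 5 := hk.trans hk2
  calc Stk.hc (S.P i) (dg s t i) (C i) / S.nm i
      ≤ (s i * Real.log 2 + Real.log 5) / S.nm i := div_le_div_of_nonneg_right hk3 hnm.le
    _ = (s i : ℝ) / S.L i + Real.log 5 / S.nm i := by
        rw [add_div]
        congr 1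
        unfold Sys.nm
        field_simp

theorem Dl_nonneg {s : ℕ → ℕ} (hs : S.Bd s) {t : S.RV ℝ} (ht : T01 t) (n : ℕ → ℕ) (l : S.RV Ln)
    (C : S.RV γ) : 0 ≤ Dl s n l t C := by
  have h1 := dg_le_nu hs ht (Sys.pr (tbs n l) C)
  unfold Dl
  linarith

end Lam

/-- a maximiser gives an extremal system with an end label -/
theorem XtrW.xtrV {N lam β : ℝ} {S : Sys} {n q : ℕ → ℕ} {l : S.RV Ln} {t : S.RV ℝ}
    {W : S.BX} (h : XtrW N lam β S n l t W q) (hr : Sys.Fn l (tbs n l))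
    (ha : S.Ae fun i ω => |(W i).θ ω| ≤ Real.pi / 4) : XtrV N lam β S n l t W q :=
  ⟨h.xtr.bd, h.qn, h.xtr.ln, h.xtr.t01, hr, h.ok, h.sh, ha, h.sub, h.xtr.eq ▸ Lam.end_val h⟩

/-- **no extremal system** from the end label and its saturation -/
theorem noXtr_of (hn : PNorm) (hs : PSat) : PNoXtr := by
  intro N lam β hN h0 h1 h2 h3 hG hJ S n l t hx
  obtain ⟨S₁, n₁, l₁, t₁, W₁, q₁, hw₁⟩ := hn N lam β hN h0 h1.le h2 h3 hG hJ S n l t hx
  have hβ : 0 < β := h0.trans h2
  obtain ⟨S', n', l', t', W, q, r, hw, hr, hI⟩ :=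
    hs N lam β hN h0 h1 h2 h3 hG hJ S₁ n₁ l₁ t₁ W₁ q₁ hw₁ (β / 4) (by linarith)
  have hlam : 0 ≤ lam ∧ lam ≤ 1 := ⟨h0.le, h1.le⟩
  have hq : ∀ i, q i ≤ n' i := fun i => by have := hw.qn i; omega
  have hqb : S'.Bd q := Lam.bd_le hw.bd hq
  have hθ : S'.Ae fun i ω => |(W i).θ ω| ≤ 4 := by
    filter_upwards [hw.ok.1] with i hi ω hω
    exact (hi ω hω).2.1
  have k2 := Lam.root_val hlam hw.bd (fun i => (hr i).trans (hq i)) hw.ln hθ (one (S := S'))
  rw [Sys.hc_one_right] at k2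
  have k3 := hw.ge
  have k4 : 0 ≤ Dl S'.L n' l' t' (one (S := S')) := Lam.Dl_nonneg Bd_L hw.t01 n' l' _
  have k5 : 0 ≤ N * Dl S'.L n' l' t' (one (S := S')) := mul_nonneg (by linarith) k4
  have k6 : S'.nu r ≤ S'.nu q := by
    refine ulim_le (Lam.bd_le hqb hr).ub hqb.ub (Eventually.of_forall fun i => ?_)
    exact div_le_div_of_nonneg_right (by exact_mod_cast hr i) (Nat.cast_nonneg _)
  have k7 : 0 ≤ lam * (S'.nu q - S'.nu r) := mul_nonneg h0.le (by linarith)
  unfold rootB at hI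
  nlinarith

end Vale.Agent.P127.U
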