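import Vale.Agent.P127.U.Lam.TopD1
import Vale.Agent.P127.U.Lam.LinkE
import Vale.Agent.P127.U.PathU

/-!
# P127 / U / Lam : the conditioned law (helper336)

`d1b` : from a near-extremal law `P` and an exploration `e` : a law `Q` (conditioned on a word of the path
and on a word of the digit blocks of `y1`) which is near-extremal, satisfies `PathS.Cnd`, with many base
levels at which the blocks of `y1` do not collide.  Everything in the form of the inputs of `TopD2`.
-/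

set_option autoImplicit false

namespace Vale.Agent.P127.U.TopD

open Finset Vale.Agent.P127 Vale.Agent.P127.Stk Vale.Agent.P127.U.YWord Vale.Agent.P127.U.Inc
  Vale.Agent.P127.U.Mic

/-- number of words of the path -/
theorem img_pat_card {Ω : Type} [Fintype Ω] {α β' γ : Type*} (e : PathS.Expl Ω α β' γ) (P : Law Ω) :
    (img (e.pat P (e.A + e.R))).card ≤ 2 ^ (2 * (e.A + e.R)) := by
  classical
  set n := e.A + e.R with hn
  have h1 : (img (e.pat P n)).image (fun w => w.map PathS.cd) ⊆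
      (univ : Finset (List.Vector (Fin 4) n)).image (fun v => v.toList) := by
    intro w hw
    obtain ⟨u, hu, rfl⟩ := mem_image.1 hw
    rw [mem_img] at hu
    obtain ⟨ω, rfl⟩ := hu
    exact mem_image.2 ⟨⟨(e.pat P n ω).map PathS.cd, by
      rw [List.length_map, PathS.Expl.pat_length]⟩, mem_univ _, rfl⟩
  have h2 := card_le_card h1
  rw [card_image_of_injective _ (List.map_injective_iff.2 PathS.cd_inj)] at h2
  refine h2.trans (card_image_le.trans ?_)
  rw [card_univ, card_vector, Fintype.card_fin, pow_mul]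
  exact le_of_eq (by norm_num)

/-- **the conditioned law** -/
theorem d1b {N lam β : ℝ} (hN : 0 ≤ N) (hl : 0 < lam) (hl1 : lam ≤ 1)
    (hJ : JFG N lam β) {ε : ℝ} (hε : 0 < ε) : ∃ c : ℝ, 0 ≤ c ∧
    ∀ (Ω : Type) [Fintype Ω] (P : Law Ω) (l : Ω → Ln) (t : Ω → ℝ) (W : Bx Ω) (h q n : ℕ) (d : ℝ),
      NEx N lam β d P l t W h q n → 0 ≤ d → 0 < h →
      ∀ (α β' γ : Type) (e : PathS.Expl Ω α β' γ) (m Bn b1 : ℕ) (cs ε₁ d' K : ℝ),
        0 < m → 0 < Bn → m * Bn ≤ q → 0 < cs → cs ≤ lam / 16 → 1 ≤ lam / 16 * m →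
        (n : ℝ) ≤ K * h →
        (d + ε) * h * Real.log 2 + c * (1 + Real.log (n + 1)) + Real.log 7 ≤
          lam / 16 * (m * Bn) * Real.log 2 →
        12 / lam * (d + ε + (c * (1 + Real.log (n + 1)) + (N + 1) * (2 * (e.A + e.R) + Bn)) / h) ≤ d' →
        0 < ε₁ → (1 / 2 : ℝ) ^ (cs * m) < ε₁ / 2 →
        12 / lam * (2 * (e.A + e.R) + Bn) * Real.log 2 ≤
          lam / 4 * Bn * (ε₁ / 2 * Real.log (ε₁ / 2 / (1 / 2 : ℝ) ^ (cs * m)) - 1) →
        (b1 : ℝ) + m ≤ lam / 8 * (m * Bn) →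
        ∃ (Q : Law Ω) (E : List PathS.Lt) (p : ℝ) (B : Finset ℕ),
          PathS.Cnd e P Q E p ∧ (∀ ω, 0 < Q.w ω → 0 < P.w ω) ∧
          Real.log (1 / p) ≤ 12 / lam * (2 * (e.A + e.R) + Bn) * Real.log 2 ∧
          NEx N lam β d' Q l t W h q n ∧ Nd K Q l t (fun ω => Real.tan (W.θ ω)) n h q ∧
          (∀ k ∈ B, b1 ≤ m * k ∧ m * k ≤ m * Bn) ∧
          lam / 8 * ((m * Bn : ℕ) : ℝ) ≤ m * B.card ∧
          ∀ k ∈ B, colp Q (fun ω => fl1 (m * k + m) ((l ω).2 0))
            (fun ω => (cel l t (fun ω => Real.tan (W.θ ω)) h q ω, fl1 (m * k) ((l ω).2 0))) ≤ ε₁ := by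
  obtain ⟨c₁, hc₁, hd⟩ := d1 hN hl hl1 hJ hε
  obtain ⟨c₂, hc₂, hg⟩ := LinkC.grow_nex ⟨hl.le, hl1⟩ hJ hε
  refine ⟨max c₁ c₂, hc₁.trans (le_max_left _ _), ?_⟩
  intro Ω _ P l t W h q n d hx hd0 hh α β' γ e m Bn b1 cs ε₁ d' K hm hB hBq hcs hcs1 hm1 hK heta hd' hε₁
    hthr hbad hb1
  classical
  have hlogn : 0 ≤ Real.log ((n : ℝ) + 1) := Real.log_nonneg (by
    have : (0 : ℝ) ≤ n := Nat.cast_nonneg _
    linarith)
  have hc1' : c₁ * (1 + Real.log ((n : ℝ) + 1)) ≤ max c₁ c₂ * (1 + Real.log (n + 1)) :=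
    mul_le_mul_of_nonneg_right (le_max_left _ _) (by linarith)
  have hc2' : c₂ * (1 + Real.log ((n : ℝ) + 1)) ≤ max c₁ c₂ * (1 + Real.log (n + 1)) :=
    mul_le_mul_of_nonneg_right (le_max_right _ _) (by linarith)
  have hh' : (0 : ℝ) < h := by exact_mod_cast hh
  have g1 := hg Ω P l t W h q n (m * Bn) d hx hBq
  obtain ⟨E, x, G, p, hp0, hp, hlp, hNE, hGs, hGc, hGy⟩ :=
    hd Ω P l t W h q n d hx hd0 hh (List PathS.Lt) _ (e.pat P (e.A + e.R))
      (cel l t (fun ω => Real.tan (W.θ ω)) h q) m Bn (2 * (e.A + e.R)) cs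
      ((d + ε) * h * Real.log 2 + max c₁ c₂ * (1 + Real.log (n + 1))) (ε₁ / 2) d'
      (img_pat_card e P) hm hB hcs hcs1 hm1 (by
        push_cast at g1
        linarith) heta (by
        refine le_trans ?_ hd'
        refine mul_le_mul_of_nonneg_left ?_ (by positivity)
        refine add_le_add le_rfl (div_le_div_of_nonneg_right ?_ hh'.le)
        push_cast
        linarith) (by positivity) hthr (by
        push_cast
        linarith)
  set Q := P.cond (fun ω => (e.pat P (e.A + e.R) ω,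
    yw P (cel l t (fun ω => Real.tan (W.θ ω)) h q) (fun ω => (l ω).2 0) m ((1 / 2 : ℝ) ^ (cs * m)) Bn ω))
    (E, x) with hQ
  have hcnd : PathS.Cnd e P Q E p := by
    rw [hp] at hp0 ⊢
    exact PathS.cnd_of e P _ E x hp0
  have hac : ∀ ω, 0 < Q.w ω → 0 < P.w ω := by
    intro ω hω
    have h1 := hcnd.hw ω
    by_contra hcon
    have h2 : P.w ω = 0 := le_antisymm (not_lt.1 hcon) (P.nn ω)
    rw [h2, zero_div] at h1
    linarith
  refine ⟨Q, E, p, G.filter (fun k => b1 ≤ m * k), hcnd, hac, ?_, hNE, LinkC.nex_nd hNE hK, ?_, ?_, ?_⟩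
  · push_cast at hlp
    exact hlp
  · intro k hk
    obtain ⟨h1, h2⟩ := mem_filter.1 hk
    have h3 := mem_range.1 (hGs h1)
    exact ⟨h2, Nat.mul_le_mul_left m h3.le⟩
  · -- counting
    have h1 : (G.filter (fun k => ¬ b1 ≤ m * k)) ⊆ range (b1 / m + 1) := by
      intro k hk
      obtain ⟨-, h2⟩ := mem_filter.1 hk
      rw [not_le] at h2
      rw [mem_range, Nat.lt_succ_iff, Nat.le_div_iff_mul_le hm]
      rw [mul_comm]
      exact h2.le
    have h2 := card_le_card h1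
    rw [card_range] at h2
    have h3 := Finset.card_filter_add_card_filter_not (s := G) (fun k => b1 ≤ m * k)
    have h4 : (m : ℝ) * (b1 / m + 1 : ℕ) ≤ b1 + m := by
      have : m * (b1 / m) ≤ b1 := Nat.mul_div_le b1 m
      have h5 : ((m * (b1 / m) : ℕ) : ℝ) ≤ b1 := by exact_mod_cast this
      push_cast at h5 ⊢
      linarith
    have h5 : (G.card : ℝ) ≤ (G.filter (fun k => b1 ≤ m * k)).card + (b1 / m + 1 : ℕ) := by
      have : G.card ≤ (G.filter (fun k => b1 ≤ m * k)).card + (b1 / m + 1) := by omega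
      exact_mod_cast this
    have hm0 : (0 : ℝ) < m := by exact_mod_cast hm
    have h6 := mul_le_mul_of_nonneg_left h5 hm0.le
    have h7 := mul_le_mul_of_nonneg_left hGc hm0.le
    push_cast at h4 h6 ⊢
    nlinarith
  · intro k hk
    obtain ⟨h1, -⟩ := mem_filter.1 hk
    have h2 := hGy k h1
    rw [mul_div_cancel₀ _ (two_ne_zero' ℝ)] at h2
    exact h2

end Vale.Agent.P127.U.TopD
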