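import Vale.Agent.P127.U.H824.YPat
import Vale.Agent.P127.U.ApxS
import Vale.Agent.P127.U.Mic.Colp

/-!
# P127 / U / Lam : the word of the digit blocks of `y1` (helper336)

`P` law, `Z` the end label, `y` a number with `|y| ≤ 1`.  Block `k` : the digits `m k .. m k + m` of `y`,
past `(Z, fl1 (m k) y)`.

* `bit P Z y m thr k ω` : the conditional probability of the own block is at most `thr`.
* `sum_hc` : `∑ hc (block k) (past k) ≥ hc (fl1 (m B) y) Z - C`.
* `word_prob` : many bits with probability at least `lam / 4`.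
* `good_levels` : for a law `Q ≤ P / p` on which the bits of `K` are true, most blocks of `K` have a
  small collision probability.
-/

set_option autoImplicit false

namespace Vale.Agent.P127.U.YWord

open Finset Vale.Agent.P127 Vale.Agent.P127.Stk Vale.Agent.P127.U.Nonat Vale.Agent.P127.U.YPat

variable {Ω : Type} [Fintype Ω] {T : Type*}

/-- the past of the block `k` -/
noncomputable def past (Z : Ω → T) (y : Ω → ℝ) (m k : ℕ) (ω : Ω) : T × ℤ := (Z ω, fl1 (m * k) (y ω))

/-- the block `k` with its past -/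
noncomputable def blk (y : Ω → ℝ) (m k : ℕ) (ω : Ω) : ℤ := fl1 (m * k + m) (y ω)

/-- the digits of the block `k` -/
noncomputable def dgt (y : Ω → ℝ) (m k : ℕ) (ω : Ω) : ℤ :=
  fl1 (m * k + m) (y ω) - 2 ^ m * fl1 (m * k) (y ω)

/-- the own block has a small conditional probability -/
def bit (P : Law Ω) (Z : Ω → T) (y : Ω → ℝ) (m : ℕ) (thr : ℝ) (k : ℕ) (ω : Ω) : Prop :=
  cp P (blk y m k) (past Z y m k) ω ≤ thr

omit [Fintype Ω] in
theorem past_succ (Z : Ω → T) (y : Ω → ℝ) (m k : ℕ) {ω ω' : Ω}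
    (h : past Z y m (k + 1) ω = past Z y m (k + 1) ω') :
    past Z y m k ω = past Z y m k ω' ∧ blk y m k ω = blk y m k ω' := by
  unfold past blk at *
  simp only [Prod.mk.injEq] at *
  have h1 : m * (k + 1) = m * k + m := by ring
  rw [h1] at h
  exact ⟨⟨h.1, Apx.fl1_of_fl1 (Nat.le_add_right _ _) h.2⟩, h.2⟩

theorem cp_dgt (P : Law Ω) (Z : Ω → T) (y : Ω → ℝ) (m k : ℕ) (ω : Ω) :
    cp P (dgt y m k) (past Z y m k) ω = cp P (blk y m k) (past Z y m k) ω := by
  classical
  unfold cp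
  congr 1
  unfold Law.pr
  refine Finset.sum_congr ?_ fun _ _ => rfl
  ext ω'
  simp only [mem_filter, mem_univ, true_and, Prod.mk.injEq, past, dgt, blk]
  constructor
  · rintro ⟨h1, h2, h3⟩
    rw [h3] at h1
    exact ⟨by linarith, h2, h3⟩
  · rintro ⟨h1, h2, h3⟩
    exact ⟨by rw [h1, h3], h2, h3⟩

theorem hc_dgt (P : Law Ω) (Z : Ω → T) (y : Ω → ℝ) (m k : ℕ) :
    hc P (dgt y m k) (past Z y m k) = hc P (blk y m k) (past Z y m k) := by
  refine Stk.hc_congr P ?_ ?_ (fun _ _ _ _ e => e) (fun _ _ _ _ e => e)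
  · intro ω ω' _ _ e
    simp only [Prod.mk.injEq, past, dgt, blk] at e ⊢
    rw [e.1, e.2.2]
  · intro ω ω' _ _ e
    simp only [Prod.mk.injEq, past, dgt, blk] at e ⊢
    have h1 := e.1
    rw [e.2.2] at h1
    linarith

omit [Fintype Ω] in
theorem dgt_mem (y : Ω → ℝ) (m k : ℕ) (ω : Ω) : dgt y m k ω ∈ Finset.Ico (0 : ℤ) (2 ^ m) := by
  have h1 := fl_fract (m * k) m (fun _ : Unit => y ω) ()
  have h2 : fl m (fun _ : Unit => Int.fract ((2 : ℝ) ^ (m * k) * y ω)) () = dgt y m k ω := h1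
  have h3 : fl m (fun _ : Unit => Int.fract ((2 : ℝ) ^ (m * k) * y ω)) () =
    ⌊(2 : ℝ) ^ m * Int.fract ((2 : ℝ) ^ (m * k) * y ω)⌋ := rfl
  rw [← h2, h3, Finset.mem_Ico]
  have a := Int.fract_nonneg ((2 : ℝ) ^ (m * k) * y ω)
  have b := Int.fract_lt_one ((2 : ℝ) ^ (m * k) * y ω)
  refine ⟨Int.floor_nonneg.2 (by positivity), ?_⟩
  rw [Int.floor_lt]
  push_cast
  nlinarith [show (0 : ℝ) < 2 ^ m by positivity]

/-- the blocks together -/
theorem sum_hc (P : Law Ω) (Z : Ω → T) {y : Ω → ℝ} (hy : ∀ ω, 0 < P.w ω → |y ω| ≤ 1) (m B : ℕ) :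
    hc P (fun ω => fl1 (m * B) (y ω)) Z - Real.log 7 ≤
      ∑ k ∈ range B, hc P (blk y m k) (past Z y m k) := by
  have key : ∀ B, hc P (fun ω => fl1 (m * B) (y ω)) Z ≤
      hc P (fun ω => fl1 0 (y ω)) Z + ∑ k ∈ range B, hc P (blk y m k) (past Z y m k) := by
    intro B
    induction B with
    | zero => simp
    | succ B ih =>
      rw [Finset.sum_range_succ]
      have h1 := Stk.hc_le_add' P (fun ω => fl1 (m * (B + 1)) (y ω)) (fun ω => fl1 (m * B) (y ω)) Z
      have h2 : hc P (fun ω => fl1 (m * (B + 1)) (y ω)) (fun ω => (fl1 (m * B) (y ω), Z ω)) =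
          hc P (blk y m B) (past Z y m B) := by
        refine Stk.hc_congr P ?_ ?_ ?_ ?_
        · intro ω ω' _ _ e
          exact congrArg Prod.fst e
        · intro ω ω' _ _ e
          exact congrArg Prod.fst e
        · intro ω ω' _ _ e
          simp only [Prod.mk.injEq, past] at e ⊢
          exact ⟨e.2, e.1⟩
        · intro ω ω' _ _ e
          simp only [Prod.mk.injEq, past] at e ⊢
          exact ⟨e.2, e.1⟩
      linarith
  have h1 := key B
  have h2 := Apx.hc_fl1_apx P 0 2 y Z (fun ω ω' hω hω' _ => by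
    have a := abs_le.1 (hy ω hω)
    have b := abs_le.1 (hy ω' hω')
    rw [pow_zero, mul_one, abs_le]
    push_cast
    constructor <;> linarith [a.1, a.2, b.1, b.2])
  norm_num at h2
  linarith

open Classical in
/-- number of bits -/
noncomputable def cnt (P : Law Ω) (Z : Ω → T) (y : Ω → ℝ) (m : ℕ) (thr : ℝ) (B : ℕ) (ω : Ω) : ℕ :=
  ((range B).filter fun k => bit P Z y m thr k ω).card

/-- **many bits with probability `≥ lam / 4`** -/
theorem word_prob {P : Law Ω} {Z : Ω → T} {y : Ω → ℝ} (hy : ∀ ω, 0 < P.w ω → |y ω| ≤ 1) {m B : ℕ}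
    (hm : 0 < m) (hB : 0 < B) {lam c eta : ℝ} (hl : 0 < lam) (hc0 : 0 ≤ c)
    (hg : lam * (m * B) * Real.log 2 - eta ≤ hc P (fun ω => fl1 (m * B) (y ω)) Z)
    (h1 : c ≤ lam / 16) (h2 : 1 ≤ lam / 16 * m)
    (h3 : eta + Real.log 7 ≤ lam / 16 * (m * B) * Real.log 2) :
    lam / 4 ≤ prE P (fun ω => lam / 2 * B ≤ (cnt P Z y m ((1 / 2 : ℝ) ^ (c * m)) B ω : ℝ)) := by
  classical
  have hlog : 0 < Real.log 2 := Real.log_pos (by norm_num)
  have hmr : (0 : ℝ) < m := by exact_mod_cast hm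
  have hBr : (0 : ℝ) < B := by exact_mod_cast hB
  set a : ℝ := (1 / 2 : ℝ) ^ (c * m) with ha
  have ha0 : 0 < a := Real.rpow_pos_of_pos (by norm_num) _
  have hloga : Real.log (1 / a) = c * m * Real.log 2 := by
    rw [ha, one_div, Real.log_inv, Real.log_rpow (by norm_num), one_div, Real.log_inv]
    ring
  have ha1 : a ≤ 1 := by
    rw [ha]
    exact Real.rpow_le_one (by norm_num) (by norm_num) (by positivity)
  have k1 := count_ge P B (2 ^ m) (dgt y m) (past Z y m) ha0 ha1 (fun b _ =>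
    ⟨Finset.Ico (0 : ℤ) (2 ^ m), by simp [Int.card_Ico], fun ω _ => dgt_mem y m b ω⟩)
  have k2 := sum_hc P Z hy m B
  have k3 : ∑ b ∈ range B, hc P (dgt y m b) (past Z y m b) =
      ∑ b ∈ range B, hc P (blk y m b) (past Z y m b) :=
    Finset.sum_congr rfl fun b _ => hc_dgt P Z y m b
  have k4 : (fun ω => ∑ b ∈ range B, Law.ind (cp P (dgt y m b) (past Z y m b) ω ≤ a)) =
      fun ω => (cnt P Z y m a B ω : ℝ) := by
    funext ω
    unfold cnt
    rw [Finset.card_filter]
    push_cast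
    refine Finset.sum_congr rfl fun b _ => ?_
    rw [cp_dgt]
    unfold Law.ind bit
    rfl
  rw [k3, k4, hloga] at k1
  have k5 : Real.log ((2 ^ m : ℕ) : ℝ) = m * Real.log 2 := by
    push_cast
    rw [Real.log_pow]
  rw [k5] at k1
  set E := P.ex fun ω => (cnt P Z y m a B ω : ℝ) with hE
  have k6 : lam / 2 * B + lam / 4 * B ≤ E := by
    have e1 : (lam / 2 * B + lam / 4 * B) * (m * Real.log 2) ≤ E * (m * Real.log 2) := by
      have e2 : B * (Real.log 2 + c * m * Real.log 2) ≤
          lam / 16 * (m * B) * Real.log 2 + lam / 16 * (m * B) * Real.log 2 := by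
        have f1 : B * Real.log 2 ≤ lam / 16 * (m * B) * Real.log 2 := by
          have : B * 1 * Real.log 2 ≤ B * (lam / 16 * m) * Real.log 2 :=
            mul_le_mul_of_nonneg_right (mul_le_mul_of_nonneg_left h2 hBr.le) hlog.le
          linarith
        have f2 : B * (c * m * Real.log 2) ≤ lam / 16 * (m * B) * Real.log 2 := by
          have : c * (m * B * Real.log 2) ≤ lam / 16 * (m * B * Real.log 2) :=
            mul_le_mul_of_nonneg_right h1 (by positivity)
          linarith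
        linarith
      have e3 : 0 ≤ lam / 16 * (m * B) * Real.log 2 := by positivity
      nlinarith
    exact le_of_mul_le_mul_right e1 (by positivity)
  have k7 := prE_ge_of_ex P (fun ω => (cnt P Z y m a B ω : ℝ)) (M := B) (x := lam / 2 * B) hBr
    (by positivity) (fun ω _ => by
      unfold cnt
      have := Finset.card_filter_le (range B) fun k => bit P Z y m a k ω
      rw [Finset.card_range] at this
      exact_mod_cast this)
  refine le_trans ?_ k7
  rw [le_div_iff₀ hBr]
  linarith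

/-- **most of the levels with bit `true` have a small collision probability** -/
theorem good_levels {P Q : Law Ω} {p : ℝ} (hp : 0 < p) (hd : ∀ ω, p * Q.w ω ≤ P.w ω) (Z : Ω → T)
    (y : Ω → ℝ) {m B : ℕ} {thr ε : ℝ} (ht : 0 < thr) (hε : thr < ε) (K : Finset ℕ)
    (hK : K ⊆ range B) (h : ∀ k ∈ K, ∀ ω, 0 < Q.w ω → bit P Z y m thr k ω) :
    ∃ G : Finset ℕ, G ⊆ K ∧ (∀ k ∈ G, Mic.colp Q (blk y m k) (past Z y m k) ≤ 2 * ε) ∧
      ((K.card : ℝ) - G.card) * (ε * Real.log (ε / thr) - 1) ≤ Real.log (1 / p) := by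
  classical
  refine ⟨K.filter fun k => Mic.colp Q (blk y m k) (past Z y m k) ≤ 2 * ε,
    Finset.filter_subset _ _, fun k hk => (Finset.mem_filter.1 hk).2, ?_⟩
  set G := K.filter fun k => Mic.colp Q (blk y m k) (past Z y m k) ≤ 2 * ε with hG
  set N := K.filter fun k => ¬ Mic.colp Q (blk y m k) (past Z y m k) ≤ 2 * ε with hN
  have h1 : G.card + N.card = K.card := Finset.card_filter_add_card_filter_not _
  have h2 := few_bad (P := P) (Q := Q) hp hd (blk y m) (past Z y m) B
    (fun k _ ω ω' _ _ e => past_succ Z y m k e) ht hε N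
    ((Finset.filter_subset _ _).trans hK)
    (fun k hk ω hω => h k (Finset.mem_filter.1 hk).1 ω hω)
    (fun k hk => not_le.1 (Finset.mem_filter.1 hk).2)
  have h3 : (N.card : ℝ) = (K.card : ℝ) - G.card := by
    have : ((G.card + N.card : ℕ) : ℝ) = K.card := by exact_mod_cast h1
    push_cast at this
    linarith
  rw [h3] at h2
  linarith

end Vale.Agent.P127.U.YWord
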